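import Vale.Agent.P297Z.Hb.LaSurf
import Vale.Agent.P297Z.Surf.Bl4a
import Vale.Agent.P297Z.Surf.Chart

/-! P297: basic tools for the subsheaves of rank one. -/

set_option linter.all false

open IsLocalRing Module

namespace Vale.Agent.P297Z.Hb

variable {V W : Type} [AddCommGroup V] [Module ℂ V] [AddCommGroup W] [Module ℂ W]
  {A B : Submodule ℂ V} {A' B' : Submodule ℂ W}

/-- an injective induced map between spaces of the same dimension is surjective -/
theorem surj_of_rdim_le (f : V →ₗ[ℂ] W) (h1 : B.map f ≤ B') (hA : A' ≤ B')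
    (h : ∀ v ∈ B, f v ∈ A' → v ∈ A) (hf : RFin A' B') (hd : rdim A' B' ≤ rdim A B) :
    B' ≤ B.map f ⊔ A' := by
  have l1 : B.map f ⊔ A' ≤ B' := sup_le h1 hA
  have h2 := (rdim_le_of_inj (A' := A') (B' := B.map f ⊔ A') f (le_sup_of_le_left le_sup_left) h
    (hf.mono le_rfl l1)).2
  have h3 := rdim_add (le_sup_right : A' ≤ B.map f ⊔ A') l1 hf
  exact (rdim_eq_zero_iff (hf.mono le_sup_right le_rfl)).1 (by omega)

theorem rdim_eq_one {v : V} (hv : v ∈ B) (hv' : v ∉ A) (h : B ≤ Submodule.span ℂ {v} ⊔ A) :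
    RFin A B ∧ rdim A B = 1 := by
  have h1 := rdim_le_card (A := A) (B := B) (s := {v}) (by simpa using h)
  have h2 := (rdim_pos_iff h1.1).2 fun hl => hv' (hl hv)
  rw [Finset.card_singleton] at h1
  exact ⟨h1.1, by omega⟩

theorem eq_or_eq_of_rdim_one {C : Submodule ℂ V} (hAB : A ≤ B) (hBC : B ≤ C) (hf : RFin A C)
    (h : rdim A C ≤ 1) : B ≤ A ∨ C ≤ B := by
  have h1 := rdim_add hAB hBC hf
  rw [← rdim_eq_zero_iff (hf.mono le_rfl hBC), ← rdim_eq_zero_iff (hf.mono hAB le_rfl)]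
  omega

variable {K : Type} [Field K] [Algebra ℂ K] {O : Subalgebra ℂ K} [IsLocalRing O]

theorem RL.max_mul_le (h : RL O) {J J' : Ideal O} (hJ : FinCol J') (hl : J' ≤ J)
    (hc : col J' = col J + 1) : maximalIdeal O * J ≤ J' := by
  haveI := h.noeth
  have h1 := col_add hJ hl
  rcases eq_or_eq_of_rdim_one (A := J'.restrictScalars ℂ)
    (B := (J' ⊔ maximalIdeal O * J).restrictScalars ℂ) (C := J.restrictScalars ℂ)
    (show J' ≤ J' ⊔ maximalIdeal O * J from le_sup_left)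
    (show J' ⊔ maximalIdeal O * J ≤ J from sup_le hl Ideal.mul_le_right) (hJ.rfin _) (by omega)
    with h2 | h2
  · exact le_sup_right.trans (show J' ⊔ maximalIdeal O * J ≤ J' from h2)
  · have h3 : J ≤ J' := Submodule.le_of_le_smul_of_le_jacobson_bot (IsNoetherian.noetherian _)
      max_le_jac h2
    rw [le_antisymm hl h3] at hc
    omega

theorem RL.finCol_max_mul (h : RL O) {J : Ideal O} (hJ : FinCol J) :
    FinCol (maximalIdeal O * J) := by
  obtain ⟨n, hn⟩ := (h.pow J).1 hJ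
  exact (h.pow _).2 ⟨n + 1, by rw [pow_succ']; exact Ideal.mul_mono_right hn⟩

/-- adding an element of the socle -/
theorem RL.col_sup (h : RL O) {J : Ideal O} (hJ : FinCol J) {g : O} (hg : g ∈ socI J)
    (hg' : g ∉ J) : col J = col (J ⊔ Ideal.span {g}) + 1 := by
  rw [col_add hJ (le_sup_left : J ≤ J ⊔ Ideal.span {g}), (rdim_eq_one (v := g)
    (Submodule.mem_sup_right (Ideal.mem_span_singleton_self g) : g ∈ J ⊔ Ideal.span {g}) hg' ?_).2]
  intro a ha
  obtain ⟨b, hb, _, hc, rfl⟩ := Submodule.mem_sup.1 (show a ∈ J ⊔ Ideal.span {g} from ha)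
  obtain ⟨r, rfl⟩ := Ideal.mem_span_singleton'.1 hc
  obtain ⟨c, hc⟩ := h.val r
  refine Submodule.mem_sup.2 ⟨c • g, Submodule.smul_mem _ c (Submodule.mem_span_singleton_self g),
    b + (r - algebraMap ℂ O c) * g, add_mem hb (hg _ hc), ?_⟩
  rw [Algebra.smul_def]; ring

theorem const_mem_max {c : ℂ} (h : algebraMap ℂ O c ∈ maximalIdeal O) : c = 0 := by
  by_contra hc
  exact h ((IsUnit.mk0 c hc).map (algebraMap ℂ O))

theorem mem_inK_top {f : K} : f ∈ inK (⊤ : Ideal O) ↔ f ∈ O :=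
  ⟨fun ⟨a, _, e⟩ => e ▸ a.2, fun h => ⟨⟨f, h⟩, trivial, rfl⟩⟩

theorem inK_mono {I J : Ideal O} (h : I ≤ J) : inK I ≤ inK J :=
  Submodule.map_mono h

end Vale.Agent.P297Z.Hb

namespace Vale.Agent.P297Z.Sf.Fb

open Vale.Agent.P297Z.Hb Bl4

variable {K : Type} [Field K] [Algebra ℂ K]

section NoSurf

variable {W : Submodule ℂ K}

theorem Zs.len_eq_sum (Z : Zs W) (P : Finset (Pt W)) (h : ∀ x, Z.J x ≠ ⊤ → x ∈ P) :
    Z.len = ∑ x ∈ P, col (Z.J x) :=
  finsum_eq_sum_of_support_subset _ fun x hx => h x fun e => hx (by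
    show col (Z.J x) = 0
    rw [e]; exact col_top)

theorem Zs.len_add (Z Z' : Zs W) (x : Pt W) (h : ∀ y, y ≠ x → Z'.J y = Z.J y) :
    Z'.len + col (Z.J x) = Z.len + col (Z'.J x) := by
  classical
  have h1 : x ∈ insert x Z.fin.toFinset := Finset.mem_insert_self _ _
  rw [Z.len_eq_sum (insert x Z.fin.toFinset) (fun y hy => by simp [hy]),
    Z'.len_eq_sum (insert x Z.fin.toFinset) (fun y hy => by
      by_cases e : y = x
      · simp [e]
      · rw [h y e] at hy; simp [hy]),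
    ← Finset.add_sum_erase _ _ h1, ← Finset.add_sum_erase _ _ h1,
    Finset.sum_congr rfl fun y hy => congrArg col (h y (Finset.ne_of_mem_erase hy))]
  omega

open Classical in
/-- change of the ideal at one point -/
noncomputable def Zs.upd (Z : Zs W) (x : Pt W) (I : Ideal x.ring) (hI : FinCol I) : Zs W where
  J := Function.update Z.J x I
  fin := (Z.fin.insert x).subset fun y hy => by
    by_cases e : y = x
    · exact Or.inl e
    · exact Or.inr (by rwa [Set.mem_setOf_eq, Function.update_of_ne e] at hy)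
  fc y := by
    by_cases e : y = x
    · subst e; rw [Function.update_self]; exact hI
    · rw [Function.update_of_ne e]; exact Z.fc y

theorem Zs.upd_self (Z : Zs W) (x : Pt W) (I : Ideal x.ring) (hI : FinCol I) :
    (Z.upd x I hI).J x = I := by
  unfold Zs.upd
  simp

theorem Zs.upd_ne (Z : Zs W) {x y : Pt W} (I : Ideal x.ring) (hI : FinCol I) (h : y ≠ x) :
    (Z.upd x I hI).J y = Z.J y := by
  unfold Zs.upd
  simp [h]

theorem Zs.Step.col {Z Z' : Zs W} {x : Pt W} (h : Z.Step Z' x) :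
    col (Z'.J x) = col (Z.J x) + 1 := by
  have h1 := Z.len_add Z' x h.eq
  have h2 := h.len
  omega

theorem Zs.step_of {Z Z' : Zs W} {x : Pt W} (h1 : Z'.J x ≤ Z.J x)
    (h2 : ∀ y, y ≠ x → Z'.J y = Z.J y) (h3 : col (Z'.J x) = col (Z.J x) + 1) : Z.Step Z' x := by
  refine ⟨?_, fun y => ?_, h2⟩
  · have := Z.len_add Z' x h2
    omega
  · by_cases e : y = x
    · subst e; exact h1
    · exact (h2 y e).le

theorem mem_EM {Z : Zs W} {A : Div W} {j : ℤ} {f : K} :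
    f ∈ EM Z A j ↔ ∀ x, f ∈ Z.st (A + j • hyp W) x := Submodule.mem_iInf _

theorem st_mono {Z Z' : Zs W} {x : Pt W} (h : Z'.J x ≤ Z.J x) (A : Div W) :
    Z'.st A x ≤ Z.st A x := fun f hf s hs => by
  obtain ⟨a, ha, e⟩ := hf s hs
  exact ⟨a, h ha, e⟩

theorem st_congr {Z Z' : Zs W} {x : Pt W} (h : Z'.J x = Z.J x) (A : Div W) :
    Z'.st A x = Z.st A x := le_antisymm (st_mono h.le A) (st_mono h.ge A)

theorem EM_mono {Z Z' : Zs W} (h : ∀ x, Z'.J x ≤ Z.J x) (A : Div W) (j : ℤ) :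
    EM Z' A j ≤ EM Z A j := iInf_mono fun x => st_mono (h x) _

theorem mul_gen_mem_stalk {x : Pt W} {A : Div W} {s a : K} (hs : GenAt x A s) (ha : a ∈ x.ring) :
    a * s ∈ stalk x A := by
  by_cases h0 : a = 0
  · exact Or.inl (by simp [h0])
  refine Or.inr fun C hC => ?_
  have a1 := Pl.ord_nonneg_of_mem _ (hC a ha)
  have a2 := hs.2 C hC
  unfold Crv.ord at *
  rw [Pl.ord_mul _ h0 hs.1]
  omega

theorem gen_inv {x : Pt W} {A : Div W} {s : K} (hs : GenAt x A s) : GenAt x (-A) s⁻¹ := by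
  refine ⟨inv_ne_zero hs.1, fun C hC => ?_⟩
  have a2 := hs.2 C hC
  unfold Crv.ord at *
  rw [Pl.ord_inv, Finsupp.neg_apply]
  omega

theorem M_le_stalk (x : Pt W) (A : Div W) (j : ℤ) : M A j ≤ stalk x (A + j • hyp W) :=
  H0_le_stalk x _

end NoSurf

variable (S : Surf K) (hL : S.Loc)
include hL

theorem mem_stalk_iff {x : Pt S.W} {A : Div S.W} {s f : K} (hs : GenAt x A s) :
    f ∈ stalk x A ↔ f / s ∈ x.ring := by
  refine ⟨div_gen_mem S hL hs, fun h => ?_⟩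
  have := mul_gen_mem_stalk hs h
  rwa [div_mul_cancel₀ _ hs.1] at this

theorem mem_st {Z : Zs S.W} {x : Pt S.W} {A : Div S.W} {s f : K} (hs : GenAt x A s) :
    f ∈ Z.st A x ↔ f / s ∈ inK (Z.J x) := by
  constructor
  · intro hf
    obtain ⟨a, ha, rfl⟩ := hf s hs
    exact ⟨a, ha, (mul_div_cancel_right₀ _ hs.1).symm⟩
  · rintro ⟨a, ha, e⟩ s' hs'
    refine ⟨⟨_, div_gen_mem S hL hs' (gen_mem_stalk hs)⟩ * a, Ideal.mul_mem_left _ _ ha, ?_⟩
    have e' : (a : K) = f / s := e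
    have h1 := hs.1
    have h2 := hs'.1
    push_cast
    rw [e']
    field_simp

theorem st_le_stalk (Z : Zs S.W) (A : Div S.W) (x : Pt S.W) : Z.st A x ≤ stalk x A := by
  obtain ⟨s, hs⟩ := hL.gen x A
  intro f hf
  obtain ⟨a, -, rfl⟩ := hf s hs
  exact mul_gen_mem_stalk hs a.2

theorem st_top {Z : Zs S.W} {x : Pt S.W} (h : Z.J x = ⊤) (A : Div S.W) :
    Z.st A x = stalk x A := by
  obtain ⟨s, hs⟩ := hL.gen x A
  ext f
  rw [mem_st S hL hs, mem_stalk_iff S hL hs, h, mem_inK_top]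

theorem rdim_st (Z : Zs S.W) (A : Div S.W) (x : Pt S.W) :
    RFin (Z.st A x) (stalk x A) ∧ rdim (Z.st A x) (stalk x A) = col (Z.J x) := by
  obtain ⟨s, hs⟩ := hL.gen x A
  have h1 := rdim_congr (A := Z.st A x) (B := stalk x A) (A' := inK (Z.J x))
    (B' := inK (⊤ : Ideal x.ring)) (LinearMap.mulRight ℂ s⁻¹)
    (by
      rintro _ ⟨f, hf, rfl⟩
      exact Submodule.mem_sup_left (mem_inK_top.2 (by
        simpa [div_eq_mul_inv] using div_gen_mem S hL hs hf)))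
    (fun a ha => Submodule.mem_sup_left ⟨a * s, mul_gen_mem_stalk hs (mem_inK_top.1 ha), by
      simp [hs.1]⟩)
    fun f _ => by rw [mem_st S hL hs, div_eq_mul_inv]; rfl
  have h2 := rdim_inK (Z.J x) ⊤
  rw [Submodule.restrictScalars_top] at h2
  exact ⟨h1.1.2 (h2.1.2 ((Z.fc x).rfin _)), h1.2.trans (h2.2.trans (col_eq _).2)⟩

theorem mul_mem_st {Z : Zs S.W} {x : Pt S.W} {A B : Div S.W} {a f : K} (ha : a ∈ stalk x B)
    (hf : f ∈ Z.st A x) : a * f ∈ Z.st (B + A) x := by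
  obtain ⟨s, hs⟩ := hL.gen x A
  obtain ⟨t, ht⟩ := hL.gen x B
  rw [mem_st S hL (gen_mul ht hs), mul_div_mul_comm]
  exact mul_mem_inK ⟨_, div_gen_mem S hL ht ha⟩ ((mem_st S hL hs).1 hf)

theorem exists_on (C : Crv S.W) : ∃ x : Pt S.W, x.On C := by
  obtain ⟨w, hw, hC⟩ := C.exists_in
  obtain ⟨x, hx, -⟩ := (hL.inf_pt C w hw hC).nonempty
  exact ⟨x, hx⟩

theorem mem_H0_of_stalk {A : Div S.W} {f : K} (h : ∀ x, f ∈ stalk x A) : f ∈ H0 A := by
  by_cases h0 : f = 0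
  · exact Or.inl h0
  refine Or.inr fun C _ => ?_
  obtain ⟨x, hx⟩ := exists_on S hL C
  exact (h x).resolve_left h0 C hx

theorem EM_le_M (Z : Zs S.W) (A : Div S.W) (j : ℤ) : EM Z A j ≤ M A j := fun _ hf =>
  mem_H0_of_stalk S hL fun x => st_le_stalk S hL Z _ x (mem_EM.1 hf x)

theorem mem_EM_of {Z : Zs S.W} {A : Div S.W} {j : ℤ} {f : K} (hf : f ∈ M A j)
    (h : ∀ x, Z.J x ≠ ⊤ → f ∈ Z.st (A + j • S.H) x) : f ∈ EM Z A j := by
  refine mem_EM.2 fun x => ?_
  by_cases e : Z.J x = ⊤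
  · rw [st_top S hL e]; exact M_le_stalk x A j hf
  · exact h x e

/-- the generator of a twist -/
theorem gen_twist {x : Pt S.W} {A : Div S.W} {s w : K} {j : ℤ} (hs : GenAt x (A + j • S.H) s)
    (hw : w ∈ S.W) (hx : x.In w) (k : ℤ) : GenAt x (A + (j + k) • S.H) (s * w ^ k) := by
  rw [add_smul, ← add_assoc]
  exact gen_mul hs (gen_zpow (gen_hyp S hL hw hx) k)

theorem gen_twist_nat {x : Pt S.W} {A : Div S.W} {s w : K} {j : ℤ}
    (hs : GenAt x (A + j • S.H) s) (hw : w ∈ S.W) (hx : x.In w) (k : ℕ) :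
    GenAt x (A + (j + k) • S.H) (s * w ^ k) := by
  have := gen_twist S hL hs hw hx k
  rwa [zpow_natCast] at this

theorem M_mul_st {Z : Zs S.W} {x : Pt S.W} {A : Div S.W} {j k : ℤ} {a f : K}
    (ha : a ∈ M (0 : Div S.W) k) (hf : f ∈ Z.st (A + j • S.H) x) :
    a * f ∈ Z.st (A + (j + k) • S.H) x := by
  have := mul_mem_st S hL (M_le_stalk x _ _ ha) hf
  rwa [show (0 : Div S.W) + k • hyp S.W + (A + j • S.H) = A + (j + k) • S.H by
    rw [add_smul]; abel] at this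

theorem M_mul_EM {Z : Zs S.W} {A : Div S.W} {j k : ℤ} {a f : K}
    (ha : a ∈ M (0 : Div S.W) k) (hf : f ∈ EM Z A j) : a * f ∈ EM Z A (j + k) :=
  mem_EM.2 fun x => M_mul_st S hL ha (mem_EM.1 hf x)

theorem W_mul_EM (Z : Zs S.W) (A : Div S.W) (j : ℤ) : S.W * EM Z A j ≤ EM Z A (j + 1) :=
  Submodule.mul_le.2 fun _ ha _ hf => M_mul_EM S hL (mem_M_one S hL ha) hf

theorem pow_mul_EM (Z : Zs S.W) (A : Div S.W) (j : ℤ) (n : ℕ) :
    S.W ^ n * EM Z A j ≤ EM Z A (j + n) :=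
  Submodule.mul_le.2 fun _ ha _ hf => M_mul_EM S hL (pow_le_M S hL n ha) hf

theorem div_mem_st {Z : Zs S.W} {x : Pt S.W} {A : Div S.W} {j k : ℤ} {w f : K} (hw : w ∈ S.W)
    (hx : x.In w) : f * w ^ k ∈ Z.st (A + (j + k) • S.H) x ↔ f ∈ Z.st (A + j • S.H) x := by
  obtain ⟨s, hs⟩ := hL.gen x (A + j • S.H)
  rw [mem_st S hL (gen_twist S hL hs hw hx k), mem_st S hL hs,
    mul_div_mul_right _ _ (zpow_ne_zero k hx.1)]

/-- the jets along `Z` -/
theorem rdim_jets (Z : Zs S.W) (A : Div S.W) :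
    RFin (Submodule.pi Set.univ fun x : Z.fin.toFinset => Z.st A x)
      (Submodule.pi Set.univ fun x : Z.fin.toFinset => stalk x.1 A) ∧
    rdim (Submodule.pi Set.univ fun x : Z.fin.toFinset => Z.st A x)
      (Submodule.pi Set.univ fun x : Z.fin.toFinset => stalk x.1 A) = Z.len := by
  have h1 := rdim_pi (fun x : Z.fin.toFinset => Z.st A x) (fun x => stalk x.1 A)
    fun x => (rdim_st S hL Z A x).1
  refine ⟨h1.1, h1.2.trans ?_⟩
  rw [Z.len_eq_sum Z.fin.toFinset (fun y hy => by simp [hy]),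
    ← Finset.sum_coe_sort Z.fin.toFinset]
  exact Finset.sum_congr rfl fun x _ => (rdim_st S hL Z A x).2

theorem rdim_EM_le (Z : Zs S.W) (A : Div S.W) (j : ℤ) :
    RFin (EM Z A j) (M A j) ∧ rdim (EM Z A j) (M A j) ≤ Z.len := by
  have h1 := rdim_jets S hL Z (A + j • S.H)
  rw [← h1.2]
  refine rdim_le_of_inj (LinearMap.pi fun _ => LinearMap.id) ?_ (fun f hf h => ?_) h1.1
  · rintro _ ⟨f, hf, rfl⟩
    exact Submodule.mem_sup_left fun x _ => M_le_stalk _ _ _ hf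
  · exact mem_EM_of S hL hf fun x hx => h ⟨x, by simpa using hx⟩ trivial

/-- the sections have arbitrary jets along `Z` -/
def Jets (S : Surf K) (Z : Zs S.W) (A : Div S.W) (j : ℤ) : Prop :=
  ∀ β : Pt S.W → K, (∀ x, β x ∈ stalk x (A + j • S.H)) →
    ∃ f ∈ M A j, ∀ x, Z.J x ≠ ⊤ → f - β x ∈ Z.st (A + j • S.H) x

theorem jets_iff (Z : Zs S.W) (A : Div S.W) (j : ℤ) :
    Jets S Z A j ↔ rdim (EM Z A j) (M A j) = Z.len := by
  classical
  have h1 := rdim_jets S hL Z (A + j • S.H)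
  let Δ : K →ₗ[ℂ] (Z.fin.toFinset → K) := LinearMap.pi fun _ => LinearMap.id
  have l1 : (M A j).map Δ ≤
      Submodule.pi Set.univ fun x : Z.fin.toFinset => stalk x.1 (A + j • S.H) := by
    rintro _ ⟨f, hf, rfl⟩
    exact fun x _ => M_le_stalk _ _ _ hf
  have l2 : ∀ f ∈ M A j,
      Δ f ∈ (Submodule.pi Set.univ fun x : Z.fin.toFinset => Z.st (A + j • S.H) x) ↔
        f ∈ EM Z A j := fun f hf =>
    ⟨fun h => mem_EM_of S hL hf fun x hx => h ⟨x, by simpa using hx⟩ trivial,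
      fun h x _ => mem_EM.1 h x⟩
  constructor
  · intro h
    rw [← h1.2]
    refine (rdim_congr Δ (l1.trans le_sup_left) (fun b hb => ?_) l2).2
    obtain ⟨f, hf, hfb⟩ := h (fun x => if hx : x ∈ Z.fin.toFinset then b ⟨x, hx⟩ else 0)
      fun x => by
        split_ifs with hx
        · exact hb ⟨x, hx⟩ trivial
        · exact zero_mem _
    refine Submodule.mem_sup.2 ⟨Δ f, ⟨f, hf, rfl⟩, b - Δ f, fun x _ => ?_, by abel⟩
    have := neg_mem (hfb x (Z.fin.mem_toFinset.1 x.2))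
    rw [dif_pos x.2, neg_sub] at this
    exact this
  · intro h β hβ
    have h2 := surj_of_rdim_le (A := EM Z A j)
      (A' := Submodule.pi Set.univ fun x : Z.fin.toFinset => Z.st (A + j • S.H) x) Δ l1
      (fun b hb x _ => st_le_stalk S hL Z _ _ (hb x trivial))
      (fun f hf hf' => (l2 f hf).1 hf') h1.1 (by rw [h, h1.2])
    obtain ⟨_, ⟨f, hf, rfl⟩, b, hb, e⟩ := Submodule.mem_sup.1
      (h2 (show (fun x : Z.fin.toFinset => β x) ∈ _ from fun x _ => hβ x))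
    refine ⟨f, hf, fun x hx => ?_⟩
    have h3 := hb ⟨x, by simpa using hx⟩ trivial
    have h4 : f + b ⟨x, by simpa using hx⟩ = β x := congrFun e ⟨x, by simpa using hx⟩
    rw [← h4]
    simpa using h3

omit hL in
theorem Jets.mono {Z Z' : Zs S.W} {A : Div S.W} {j : ℤ} (h : Jets S Z' A j)
    (hl : ∀ y, Z'.J y ≤ Z.J y) : Jets S Z A j := fun β hβ => by
  obtain ⟨f, hf, h1⟩ := h β hβ
  exact ⟨f, hf, fun x hx => st_mono (hl x) _ (h1 x fun e => hx (top_le_iff.1 (e ▸ hl x)))⟩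

/-- clearing the denominators at a point -/
theorem exists_forms {ι : Type} [Fintype ι] {x : Pt S.W} {w : K} (hw : w ∈ S.W) (hx : x.In w)
    (c : ι → x.ring) : ∃ (q : x.ring) (n : ℕ), IsUnit q ∧ (q : K) * w ^ n ∈ S.W ^ n ∧
      ∀ a, (q : K) * c a * w ^ n ∈ S.W ^ n := by
  classical
  obtain ⟨m, hm, e, hv⟩ := hL.pt_chart x w hw hx
  have h1 : ∀ a, ∃ p b : chart S.W w, b ∉ m ∧ (c a : K) * b = p := fun a =>
    mem_loc.1 (e.le (c a).2)
  choose p b hb hp using h1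
  have h2 : ∏ a, b a ∉ m := fun h => by
    obtain ⟨a, -, ha⟩ := (Ideal.IsPrime.prod_mem_iff (hp := hm.isPrime)).1 h
    exact hb a ha
  have h3 : ∀ a, ((∏ a, b a : chart S.W w) : K) * c a ∈ chart S.W w := fun a => by
    rw [← Finset.mul_prod_erase _ _ (Finset.mem_univ a), MulMemClass.coe_mul, mul_right_comm,
      mul_comm (b a : K), hp]
    exact mul_mem (p a).2 (Subtype.prop _)
  choose n hn using fun a => exists_pow_of_mem_chart hw hx.1 (h3 a)
  obtain ⟨n₀, hn₀⟩ := exists_pow_of_mem_chart hw hx.1 (∏ a, b a).2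
  refine ⟨⟨_, hx.chart_le (∏ a, b a).2⟩, n₀ + ∑ a, n a, ?_, hn₀ _ (by omega), fun a => hn a _ ?_⟩
  · rw [← notMem_maximalIdeal, x.mem_max]
    exact fun h => h2 ((hv _).2 h)
  · exact le_add_left (Finset.single_le_sum (fun _ _ => Nat.zero_le _) (Finset.mem_univ a))

end Vale.Agent.P297Z.Sf.Fb
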