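import Vale.Agent.P297Z.Quot.Plk

/-!
# P297: Pluecker vectors of subspaces of consecutive dimensions
-/

set_option linter.all false

noncomputable section

namespace Vale.Agent.P297Z.Plk

open Submodule

variable {F : Type} [Field F] {r : ℕ} {B : Type} [Fintype B] [DecidableEq B]

/-- the contractions of a vector of degree `r + 1` -/
def con (p : (Fin (r + 1) → B) → F) (J : Fin r → B) : B → F := fun i => p (Fin.cons i J)

theorem con_plk (t : F) (f : B → F) (u : Fin r → B → F) (J : Fin r → B) :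
    con (fun J => t * plk (Fin.cons f u : Fin (r + 1) → B → F) J) J - (t * plk u J) • f ∈
      span F (Set.range u) := by
  refine (mem_span_range_iff_exists_fun F).2 ⟨fun a => t * ((-1) ^ (a.succ : ℕ) *
    plk (fun c => (Fin.cons f u : Fin (r + 1) → B → F) (a.succ.succAbove c)) J), funext fun i => ?_⟩
  have e : plk (Fin.cons f u : Fin (r + 1) → B → F) (Fin.cons i J) = f i * plk u J +
      ∑ a : Fin r, (-1) ^ (a.succ : ℕ) * u a i *
        plk (fun c => (Fin.cons f u : Fin (r + 1) → B → F) (a.succ.succAbove c)) J := by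
    rw [plk, Matrix.det_succ_column_zero, Fin.sum_univ_succ, Fin.val_zero, pow_zero, one_mul]
    rfl
  rw [Finset.sum_apply, Pi.sub_apply, con, e, mul_add, Finset.mul_sum]
  simp only [Pi.smul_apply, smul_eq_mul]
  rw [mul_comm (f i), ← mul_assoc, add_sub_cancel_left]
  exact Finset.sum_congr rfl fun a _ => by ring

theorem con_mem {p : (Fin (r + 1) → B) → F} (h0 : p ≠ 0) (J : Fin r → B) : con p J ∈ sub p := by
  obtain ⟨J₀, -⟩ := Function.ne_iff.1 h0
  exact subset_span ⟨Fin.cons (J₀ 0) J, 0, funext fun i =>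
    congrArg p (Fin.update_cons_zero _ _ _).symm⟩

theorem Rel.lam_con {p : (Fin (r + 1) → B) → F} (h : Rel p) (h0 : p ≠ 0) (lam : (B → F) →ₗ[F] F)
    {x : B → F} (hx : x ∈ sub p) (h1 : lam x ≠ 0) : ∃ (t : F) (u : Fin r → B → F), t ≠ 0 ∧
      LinearIndependent F u ∧ span F (Set.range u) = sub p ⊓ LinearMap.ker lam ∧
      ∀ J, lam (con p J) = t * plk u J := by
  obtain ⟨J₀, hJ₀⟩ := Function.ne_iff.1 h0
  obtain ⟨k, u, hu, e⟩ : ∃ (k : ℕ) (u : Fin k → B → F), LinearIndependent F u ∧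
      span F (Set.range u) = sub p ⊓ LinearMap.ker lam := by
    let b := Module.finBasis F (sub p ⊓ LinearMap.ker lam : Submodule F (B → F))
    refine ⟨_, fun i => b i, b.linearIndependent.map' (Submodule.subtype _) (ker_subtype _), ?_⟩
    rw [show (fun i => (b i : B → F)) = Submodule.subtype _ ∘ b from rfl, Set.range_comp,
      ← map_span, b.span_eq, map_subtype_top]
  have h2 : x ∉ span F (Set.range u) := fun hx => h1 (e ▸ hx).2
  have h3 : LinearIndependent F (Fin.cons x u : Fin (k + 1) → B → F) := hu.fin_cons h2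
  have h4 : span F (Set.range (Fin.cons x u : Fin (k + 1) → B → F)) = sub p := by
    rw [Fin.range_cons, span_insert, e]
    refine le_antisymm (sup_le ((span_singleton_le_iff_mem _ _).2 hx) inf_le_left) fun y hy => ?_
    rw [← add_sub_cancel ((lam y / lam x) • x) y]
    exact add_mem_sup (smul_mem _ _ (mem_span_singleton_self x))
      ⟨sub_mem hy (smul_mem _ _ hx), by simp [h1]⟩
  obtain rfl : k = r := by
    have := finrank_span_eq_card h3
    rw [h4, h.finrank_sub hJ₀, Fintype.card_fin] at this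
    omega
  obtain ⟨J₁, hJ₁⟩ := exists_plk_ne h3
  obtain ⟨t, ht, h5⟩ := (rel_plk 1 (Fin.cons x u : Fin (k + 1) → B → F)).eq_of_sub h (J := J₁)
    (by rwa [one_mul]) hJ₀ (by rw [sub_plk one_ne_zero h3, h4])
  obtain rfl : p = fun J => t * plk (Fin.cons x u : Fin (k + 1) → B → F) J :=
    funext fun J => by rw [h5, one_mul]
  refine ⟨t * lam x, u, mul_ne_zero ht h1, hu, e, fun J => ?_⟩
  have h6 : lam _ = 0 := (e ▸ con_plk t x u J).2
  rw [map_sub, map_smul, sub_eq_zero] at h6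
  rw [h6, smul_eq_mul, mul_right_comm]

theorem Rel.span_con {p : (Fin (r + 1) → B) → F} (h : Rel p) (h0 : p ≠ 0) :
    Submodule.span F (Set.range (con p)) = sub p := by
  refine le_antisymm (span_le.2 (Set.range_subset_iff.2 (con_mem h0))) fun x hx => ?_
  by_contra hn
  obtain ⟨lam, h1, h2⟩ := exists_le_ker_of_notMem hn
  obtain ⟨t, u, ht, hu, -, h3⟩ := h.lam_con h0 lam hx h1
  obtain ⟨J, hJ⟩ := exists_plk_ne hu
  exact mul_ne_zero ht hJ (h3 J ▸ h2 (subset_span ⟨J, rfl⟩))

theorem Rel.down {p : (Fin (r + 1) → B) → F} (h : Rel p) (h0 : p ≠ 0) {l : (Fin r → B) → F}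
    (hl : l ≠ 0)
    (hk : ∀ τ : (Fin r → B) → F, ∑ J, τ J • con p J = 0 → ∑ J, τ J * l J = 0) :
    Rel l ∧ sub l = (LinearMap.ker (Fintype.linearCombination F l)).map
      (Fintype.linearCombination F (con p)) := by
  obtain ⟨lam, h1⟩ : Fintype.linearCombination F l ∈
      LinearMap.range (Fintype.linearCombination F (con p)).dualMap := by
    rw [LinearMap.range_dualMap_eq_dualAnnihilator_ker, mem_dualAnnihilator]
    exact hk
  replace h1 : ∀ τ, lam (Fintype.linearCombination F (con p) τ) =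
      Fintype.linearCombination F l τ := LinearMap.congr_fun h1
  have h2 : ∀ J, lam (con p J) = l J := fun J => by simpa using h1 (Pi.single J 1)
  obtain ⟨J, hJ⟩ := Function.ne_iff.1 hl
  obtain ⟨t, u, ht, hu, e, h3⟩ := h.lam_con h0 lam (con_mem h0 J) (h2 J ▸ hJ)
  have h4 : l = fun J => t * plk u J := funext fun J => (h2 J).symm.trans (h3 J)
  refine ⟨h4 ▸ rel_plk t u, ((congrArg sub h4).trans ((sub_plk ht hu).trans e)).trans ?_⟩
  rw [← h.span_con h0, ← Fintype.range_linearCombination]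
  ext y
  exact ⟨fun ⟨⟨τ, e⟩, hy⟩ => ⟨τ, (h1 τ).symm.trans (e ▸ hy), e⟩,
    fun ⟨τ, hτ, e⟩ => ⟨⟨τ, e⟩, e ▸ (h1 τ).trans hτ⟩⟩

theorem Rel.up {q : (Fin r → B) → F} (h : Rel q) (h0 : q ≠ 0) :
    ∃ Λ : (B → F) →ₗ[F] ((Fin (r + 1) → B) → F), LinearMap.ker Λ = sub q ∧ ∀ f ∉ sub q,
      Rel (Λ f) ∧ sub (Λ f) = sub q ⊔ Submodule.span F {f} ∧
      ∀ τ : (Fin r → B) → F, ∑ J, τ J • con (Λ f) J ∈ sub q → ∑ J, τ J * q J = 0 := by
  obtain ⟨J₀, hJ₀⟩ := Function.ne_iff.1 h0
  obtain ⟨u, hu, -, h1⟩ := h.exists_plk hJ₀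
  generalize q J₀ = t at hJ₀ h1
  obtain rfl : q = fun J => t * plk u J := funext h1
  have e : ∀ (f : B → F) J, plk (Fin.cons f u : Fin (r + 1) → B → F) J =
      ∑ j : Fin (r + 1), (-1) ^ (j : ℕ) * f (J j) * plk u fun c => J (j.succAbove c) :=
    fun f J => Matrix.det_succ_row_zero _
  rw [sub_plk hJ₀ hu]
  refine ⟨⟨⟨fun f J => t * plk (Fin.cons f u : Fin (r + 1) → B → F) J, fun f g => funext fun J => ?_⟩,
    fun c f => funext fun J => ?_⟩, Submodule.ext fun f => ⟨fun hf => ?_, fun hf => ?_⟩,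
    fun f hf => ⟨rel_plk _ _, ?_, fun τ hτ => ?_⟩⟩
  · simp only [e, Pi.add_apply, mul_add, add_mul, Finset.sum_add_distrib]
  · simp only [e, Pi.smul_apply, smul_eq_mul, RingHom.id_apply, Finset.mul_sum]
    exact Finset.sum_congr rfl fun j _ => by ring
  · by_contra hn
    obtain ⟨J, hJ⟩ := exists_plk_ne (hu.fin_cons hn)
    exact mul_ne_zero hJ₀ hJ (congrFun hf J)
  · refine funext fun J => mul_eq_zero_of_right t (not_not.1 fun hn => ?_)
    exact (linearIndependent_fin_cons.1 (linInd_of_plk hn)).2 hf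
  · exact (sub_plk hJ₀ (hu.fin_cons hf)).trans (by rw [Fin.range_cons, span_insert, sup_comm])
  · have h2 := sub_mem hτ (sum_mem fun J (_ : J ∈ Finset.univ) =>
      smul_mem _ (τ J) (con_plk t f u J))
    by_contra hn
    refine hf ((smul_mem_iff _ hn).1 ?_)
    simpa only [smul_sub, Finset.sum_sub_distrib, LinearMap.coe_mk, AddHom.coe_mk, sub_sub_cancel,
      smul_smul, ← Finset.sum_smul] using h2

end Vale.Agent.P297Z.Plk
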