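import Vale.Agent.P297Z.Hb.GeoPt
import Vale.Agent.P297Z.Hb.GeoPlk
import Vale.Agent.P297Z.Hb.Fib0
import Vale.Agent.P297Z.Surf.SspA2

/-! P297: the points of the nested spaces and the fibres of the second projection. -/

set_option linter.all false

noncomputable section

namespace Vale.Agent.P297Z

theorem Hb.Ge.orb_adj {X : Spc} {ι : Type} [Fintype ι] [Nonempty ι]
    {w w' : (X.adj ι fun _ => 0).Pt} {t : ℂ}
    (h1 : X.Orb ((Mor.adjPr X ι _).onPt w) ((Mor.adjPr X ι _).onPt w'))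
    (h2 : w'.co = fun i => t * w.co i) : (X.adj ι fun _ => 0).Orb w w' := by
  have ht : t ≠ 0 := fun e => Hb.Ge.co_ne w' (by rw [h2, e]; exact funext fun _ => zero_mul _)
  obtain ⟨g, hg⟩ := h1
  let g' : Option X.J → ℂˣ := fun j => j.elim (Units.mk0 t ht) g
  refine Hb.Ge.adj_ext (z := Spc.mv w g') (z' := w') (Subtype.ext (hg ▸ AlgHom.ext fun r =>
    congrArg w.1 (Spc.adj_act_C X ι _ g' r))) (h2 ▸ funext fun i => ?_) ▸ Spc.orb_mv w _
  rw [Spc.co_orb (z := w) (g := g') rfl i]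
  simp [g', chr]

theorem Hb.Ge.fst_lift {W X Y : Spc} (f : Mor W X) (g : Mor W Y) (w : W.Pt) :
    (Mor.fst X Y).onPt ((f.lift g).onPt w) = f.onPt w := by
  rw [← Mor.onPt_comp, Mor.fst_lift]

theorem Hb.Ge.snd_lift {W X Y : Spc} (f : Mor W X) (g : Mor W Y) (w : W.Pt) :
    (Mor.snd X Y).onPt ((f.lift g).onPt w) = g.onPt w := by
  rw [← Mor.onPt_comp, Mor.snd_lift]

namespace Sf.Ctx

open Fb Hb Hb.Ge Dim

variable {K : Type} [Field K] [Algebra ℂ K] {S : Surf K} (c : Ctx S)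

/-- the element with given coordinates -/
def lc : (c.B → ℂ) →ₗ[ℂ] K := Fintype.linearCombination ℂ c.e

theorem lc_inj : Function.Injective c.lc := c.e_ind.fintypeLinearCombination_injective

theorem range_lc : LinearMap.range c.lc = M c.L c.m :=
  (Fintype.range_linearCombination ℂ c.e).trans c.e_span

theorem fpt_mem (w : (PP c.v).Pt) : c.fpt w ∈ H0 c.D :=
  c.φ_span ▸ Submodule.sum_mem _ fun i _ => Submodule.smul_mem _ _ (Submodule.subset_span ⟨i, rfl⟩)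

theorem fpt_ne (w : (PP c.v).Pt) : c.fpt w ≠ 0 := fun e =>
  co_ne (X := pt0) w (funext (Fintype.linearIndependent_iff.1 c.φ_ind _ e))

theorem M_le (h : S.All) (w : (PP c.v).Pt) (j : ℤ) : M (c.A (c.fpt w)) j ≤ M c.L j :=
  secOn_mono fun C _ => ⟨trivial, by
    have h1 := (c.fpt_mem w).resolve_left (c.fpt_ne w) C trivial
    have h2 : div S.W (c.fpt w) C = C.ord (c.fpt w) := toDiv_apply (h.fin_div _) C
    simp only [A, Finsupp.add_apply, Finsupp.sub_apply, h2]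
    omega⟩

theorem A_orb {w w' : (PP c.v).Pt} (h : (PP c.v).Orb w w') : c.A (c.fpt w') = c.A (c.fpt w) := by
  obtain ⟨t, ht, e⟩ := c.fpt_orb h
  rw [e, A, div_smul ht, A]

variable {c} {r r₀ : ℕ}

theorem ug_eq (p : (Fin (r + 1) → c.B) → ℂ) (J : Fin r → c.B) : c.ug p J = c.lc (Plk.con p J) :=
  rfl

theorem span_ug {p : (Fin (r + 1) → c.B) → ℂ} (h : Plk.Rel p) (h0 : p ≠ 0) :
    Submodule.span ℂ (Set.range (c.ug p)) = c.Usp p := by
  rw [Usp, ← h.span_con h0, Submodule.map_span, ← Set.range_comp]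
  rfl

theorem lc_sum (p : (Fin (r + 1) → c.B) → ℂ) (τ : (Fin r → c.B) → ℂ) :
    c.lc (∑ J, τ J • Plk.con p J) = ∑ J, τ J • c.ug p J := by
  simp only [map_sum, map_smul, ug_eq]

theorem Usp_inj {k : ℕ} {p : (Fin r → c.B) → ℂ} {q : (Fin k → c.B) → ℂ} (h : c.Usp p ≤ c.Usp q) :
    Plk.sub p ≤ Plk.sub q := (Submodule.map_le_map_iff_of_injective c.lc_inj _ _).1 h

theorem finrank_Usp {p : (Fin r → c.B) → ℂ} (h : Plk.Rel p) (h0 : p ≠ 0) :
    Module.finrank ℂ (c.Usp p) = r := by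
  obtain ⟨J, hJ⟩ := Function.ne_iff.1 h0
  exact (Submodule.equivMapOfInjective _ c.lc_inj _).finrank_eq.symm.trans (h.finrank_sub hJ)

variable {w w' : ((PP c.v).prod (c.Gr r)).Pt} {Z Z' : Zs S.W}

theorem IsPt.reg (hR : c.RegAll r₀) (hr : r₀ ≤ r) (h : c.IsPt w Z) :
    Reg S c.m (c.A (c.fpt ((Mor.fst _ _).onPt w))) Z :=
  hR _ (c.fpt_mem _) (c.fpt_ne _) Z (h.2.1 ▸ Nat.add_le_add_left hr _)

theorem IsPt.uniq (hB : FibB S) (hR : c.RegAll r₀) (hr : r₀ ≤ r) (h : c.IsPt w Z)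
    (h' : c.IsPt w Z') : Z = Z' :=
  (hB.uniq _ _ _ _ _ (h.reg hR hr) (h'.reg hR hr) (h.2.2.symm.trans h'.2.2)).2

variable {h : S.All}

theorem pr_pt (a : (c.Xr r).Pt) : (c.pr r).onPt a = (Mor.fst _ _).onPt ((c.inc r).onPt a) := rfl

theorem gr_pt (a : (c.Xr r).Pt) : (c.gr r).onPt a = (Mor.snd _ _).onPt ((c.inc r).onPt a) := rfl

theorem fst_ρ0 (n : (c.Pr h r).Pt) : (Mor.fst _ _).onPt ((c.ρ0 h r).onPt n) =
    (Mor.fst _ _).onPt ((c.inc (r + 1)).onPt ((c.base h r).onPt n)) := by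
  rw [ρ0, fst_lift, Mor.onPt_comp, pr_pt]

theorem co_ρ0 (n : (c.Pr h r).Pt) : ((Mor.snd _ _).onPt ((c.ρ0 h r).onPt n)).co = n.co := by
  rw [ρ0, snd_lift]
  exact co_coM (d := 0) n

variable (c h r) in
/-- the bigger subspace -/
def κ0 : Mor (c.Pr h r) (c.Gr (r + 1)) := (c.gr (r + 1)).comp (c.base h r)

theorem P_ext {n n' : (c.Pr h r).Pt} (h1 : (c.ρ0 h r).onPt n = (c.ρ0 h r).onPt n')
    (h2 : (c.spt h r).onPt n = (c.spt h r).onPt n') (h3 : (κ0 c r h).onPt n = (κ0 c r h).onPt n') :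
    n = n' :=
  adj_ext (prod_pt_ext (incl_inj (c.XS_stab _) (prod_pt_ext
    ((fst_ρ0 n).symm.trans (h1 ▸ fst_ρ0 n')) h3)) h2) ((co_ρ0 n).symm.trans (h1 ▸ co_ρ0 n'))

/-- the data of a point of the nested space -/
structure Dat (n : (c.Pr h r).Pt) (Z Z' : Zs S.W) (x : Pt S.W) : Prop where
  pt : c.IsPt ((c.inc (r + 1)).onPt ((c.base h r).onPt n)) Z
  ov : S.Over h ((c.spt h r).onPt n) x
  kill : n.co ∈ Kill (c.ug ((κ0 c r h).onPt n).co) x
  step : Z.Step Z' x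
  pt' : c.IsPt ((c.ρ0 h r).onPt n) Z'

theorem exists_dat (hB : FibB S) (hR : c.RegAll r₀) (hr : r₀ ≤ r + 1) {n : (c.Pr h r).Pt}
    (hn : n ∈ c.NS h r) : ∃ Z Z' x, Dat n Z Z' x := by
  obtain ⟨⟨Z, h1⟩, x, h2, h3⟩ := hn
  obtain ⟨Z', h4, h5⟩ := hB.down _ _ Z (h1.reg hR hr) _ _
    ((span_ug h1.1 (co_ne _)).trans h1.2.2) x _ h3 (co_ne n)
  obtain ⟨h6, h7⟩ := h1.1.down (co_ne _) (co_ne n) fun τ hτ => by
    obtain ⟨u, k1, k2⟩ := x.exists_in
    have k3 := h3 0 (fun J => algebraMap ℂ K (τ J)) ⟨fun J => by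
      rw [pow_zero]
      exact Submodule.algebraMap_mem _, by
      simp only [← Algebra.smul_def]
      exact (lc_sum _ τ).symm.trans ((congrArg _ hτ).trans (map_zero _))⟩ u k1 k2
    refine Pt.van_const (x := x) ?_
    convert k3 using 1
    simp [Algebra.smul_def, mul_comm]
  refine ⟨Z, Z', x, h1, h2, h3, h4, co_ρ0 n ▸ h6, ?_, ?_⟩
  · have := h1.2.1
    rw [h4.len]
    omega
  · rw [co_ρ0, fst_ρ0, h5, Usp, h7, ← Submodule.map_comp, kerF]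
    congr 1
    exact LinearMap.ext fun τ => lc_sum _ τ

theorem maps (hB : FibB S) (hR : c.RegAll r₀) (hr : r₀ ≤ r + 1) : c.Maps h r := fun _ hn =>
  let ⟨_, Z', _, hd⟩ := exists_dat hB hR hr hn
  ⟨Z', hd.pt'⟩

/-- the fibres of the second projection -/
theorem fibre (hB : FibB S) (hR : c.RegAll r₀) (hr : r₀ ≤ r) (hw : c.IsPt w Z')
    (x : Pt S.W) : ∃ T : Submodule ℂ ((Fin (r + 1) → c.B) → ℂ),
      Module.finrank ℂ T = soc (Z'.J x) ∧
      (∀ p : (c.Gr (r + 1)).Pt, p.co ∈ T → ∀ z, S.Over h z x → ∃ n ∈ c.NS h r,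
        (c.ρ0 h r).onPt n = w ∧ (c.spt h r).onPt n = z ∧ (κ0 c r h).onPt n = p) ∧
      ∀ (n : (c.Pr h r).Pt) (Z : Zs S.W), Dat n Z Z' x → (c.ρ0 h r).onPt n = w →
        ((κ0 c r h).onPt n).co ∈ T := by
  obtain ⟨P, h1, h2, h3, h4, h5⟩ := hB.soc _ _ Z' x (hw.reg hR hr)
  obtain ⟨Λ, h6, h7⟩ := hw.1.up (co_ne _)
  have h8 : P ≤ LinearMap.range c.lc := c.range_lc ▸ h2.trans (c.M_le h _ _)
  have h9 : LinearMap.ker Λ ≤ P.comap c.lc := fun f hf =>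
    h1 (hw.2.2 ▸ Submodule.mem_map_of_mem (h6 ▸ hf))
  refine ⟨(P.comap c.lc).map Λ, ?_, ?_, ?_⟩
  · have e1 : Module.finrank ℂ (P.comap c.lc) = Module.finrank ℂ P := by
      rw [(Submodule.equivMapOfInjective _ c.lc_inj _).finrank_eq, Submodule.map_comap_eq_self h8]
    have e2 := (Λ.domRestrict (P.comap c.lc)).finrank_range_add_finrank_ker
    rw [LinearMap.range_domRestrict, LinearMap.ker_domRestrict,
      (Submodule.comapSubtypeEquivOfLe h9).finrank_eq, e1, h3, h6, ← hw.2.2,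
      (Submodule.equivMapOfInjective _ c.lc_inj _).finrank_eq] at e2
    exact Nat.add_right_cancel (e2.trans (add_comm _ _))
  · rintro p ⟨f, k1, k2⟩ z hz
    have k3 : f ∉ Plk.sub ((Mor.snd _ _).onPt w).co := fun o =>
      co_ne p (k2 ▸ LinearMap.mem_ker.1 (h6 ▸ o))
    obtain ⟨k4, k5, k6⟩ := h7 f k3
    rw [k2] at k4 k5 k6
    obtain ⟨Z, k7, k8⟩ := h4 _ k1 fun o => k3 (by
      rw [← hw.2.2] at o
      obtain ⟨f', o1, o2⟩ := o
      exact c.lc_inj o2 ▸ o1)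
    have k9 : c.Usp p.co = EM Z (c.A (c.fpt ((Mor.fst _ _).onPt w))) c.m := by
      rw [k8, ← hw.2.2, Usp, k5, Submodule.map_sup, Submodule.map_span, Set.image_singleton]
      rfl
    have l1 : c.IsPt (pair ((Mor.fst _ _).onPt w) p) Z := by
      refine ⟨?_, ?_, ?_⟩
      · rwa [snd_pair]
      · have := hw.2.1
        rw [k7.len] at this
        omega
      · rwa [snd_pair, fst_pair]
    obtain ⟨a, l0⟩ : ∃ a, (c.inc (r + 1)).onPt a = pair ((Mor.fst _ _).onPt w) p :=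
      exists_incl (c.XS_stab _) ⟨Z, l1⟩
    obtain ⟨n, l5, l6⟩ : ∃ n : (c.Pr h r).Pt, (Mor.adjPr _ _ _).onPt n = pair a z ∧
        n.co = ((Mor.snd _ _).onPt w).co := ⟨_, pr_adjPt _ (co_ne _), co_adjPt _ _⟩
    have l2 : (c.base h r).onPt n = a := by rw [base, Mor.onPt_comp, l5, fst_pair]
    have l3 : (c.spt h r).onPt n = z := by rw [spt, Mor.onPt_comp, l5, snd_pair]
    have l4 : (κ0 c r h).onPt n = p := by rw [κ0, Mor.onPt_comp, l2, gr_pt, l0, snd_pair]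
    refine ⟨n, ⟨⟨Z, by rwa [l2, l0]⟩, x, l3 ▸ hz, ?_⟩, prod_pt_ext ((fst_ρ0 n).trans ?_)
      (PI_ext ((co_ρ0 n).trans l6)), l3, l4⟩
    · change n.co ∈ Kill (c.ug ((κ0 c r h).onPt n).co) x
      rw [l4, l6]
      refine hB.kill _ _ Z Z' x k7 (hw.reg hR hr) _ _ ((span_ug k4 (co_ne p)).trans k9) _
        fun t ht => k6 t ?_
      rw [← hw.2.2, ← lc_sum] at ht
      obtain ⟨f', o1, o2⟩ := ht
      exact c.lc_inj o2 ▸ o1
    · rw [l2, l0, fst_pair]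
  · rintro n Z hd rfl
    have k1 := hd.pt.2.2
    rw [← fst_ρ0] at k1
    obtain ⟨J, hJ⟩ := Function.ne_iff.1 (co_ne ((κ0 c r h).onPt n))
    obtain ⟨J', hJ'⟩ := Function.ne_iff.1 (co_ne ((Mor.snd _ _).onPt ((c.ρ0 h r).onPt n)))
    have k2 := Usp_inj (hw.2.2.le.trans ((EM_mono hd.step.le _ _).trans k1.ge))
    obtain ⟨f, k3, k4⟩ := SetLike.exists_of_lt (lt_of_le_of_ne k2 fun e => by
      have := hd.pt.1.finrank_sub hJ
      rw [← e, hw.1.finrank_sub hJ'] at this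
      omega)
    obtain ⟨k5, k6, -⟩ := h7 f k4
    obtain ⟨J₁, hJ₁⟩ := Function.ne_iff.1 fun e : Λ f = 0 => k4 (h6 ▸ LinearMap.mem_ker.2 e)
    obtain ⟨t, k7, k8⟩ := hd.pt.1.eq_of_sub k5 hJ hJ₁
      (k6.le.trans (sup_le k2 ((Submodule.span_singleton_le_iff_mem _ _).2 k3)))
    refine ⟨t⁻¹ • f, Submodule.smul_mem _ _ (h5 Z hd.step (k1 ▸ Submodule.mem_map_of_mem k3)), ?_⟩
    rw [map_smul]
    funext J₂
    rw [Pi.smul_apply, k8, smul_eq_mul, inv_mul_cancel_left₀ k7]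
    rfl

end Sf.Ctx

end Vale.Agent.P297Z
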