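import Vale.Agent.P297Z.K.KG

/-! P297: surjective and injective maps of spaces, the degree lemma: statements. -/

set_option linter.all false

namespace Vale.Agent.P297Z

variable {X Y : Spc}

/-- onto on orbits -/
def Mor.SurjO (f : Mor X Y) : Prop := ∀ y : Y.Pt, ∃ x : X.Pt, Y.Orb (f.onPt x) y

/-- one to one on orbits -/
def Mor.InjO (f : Mor X Y) : Prop := ∀ x x' : X.Pt, Y.Orb (f.onPt x) (f.onPt x') → X.Orb x x'

/-- the saturated image of a set of points -/
def Mor.img (f : Mor X Y) (Z : Set X.Pt) : Set Y.Pt := {y | ∃ x ∈ Z, Y.Orb (f.onPt x) y}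

/-- irreducible and not empty -/
def Spc.Irr (X : Spc) : Prop := IsDomain X.R ∧ Nonempty X.Pt

/-- the quotient by the torus has dimension `d` -/
def Spc.HasDim (X : Spc) (d : ℕ) : Prop :=
  ringKrullDim X.R = ((d + Fintype.card X.J : ℕ) : WithBot ℕ∞)

namespace Hb

/-- the degree lemma -/
def DEG : Prop := ∀ (X Y : Spc) (f : Mor X Y) (d : ℕ), X.IsProj → Y.IsProj → Y.Irr →
  X.HasDim d → Y.HasDim d → f.SurjO →
  ∃ c : ℕ, 0 < c ∧ fstar f (oG X) - c • oG Y ∈ Fd Y d ∧ (f.InjO → c = 1)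

/-- images of closed sets are closed -/
def CLIM : Prop := ∀ (X Y : Spc) (f : Mor X Y) (Z : Set X.Pt), X.IsProj → Y.IsProj →
  X.Stab Z → X.Clo Z → Y.Clo (f.img Z)

end Hb

end Vale.Agent.P297Z
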