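import Mathlib

/-! P297: two dimensional regular local rings inside their fraction field: definitions. -/

set_option linter.all false

open IsLocalRing

namespace Vale.Agent.P297Z.Hb

variable {K : Type} [Field K] [Algebra ℂ K]

/-- the dimension of `B / A` -/
noncomputable def rdim {V : Type} [AddCommGroup V] [Module ℂ V] (A B : Submodule ℂ V) : ℕ :=
  Module.finrank ℂ (B ⧸ A.submoduleOf B)

/-- `B / A` is finite dimensional -/
def RFin {V : Type} [AddCommGroup V] [Module ℂ V] (A B : Submodule ℂ V) : Prop :=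
  Module.Finite ℂ (B ⧸ A.submoduleOf B)

/-- a regular local ring of dimension two with residue field `ℂ` and fraction field `K` -/
structure RL (O : Subalgebra ℂ K) [IsLocalRing O] : Prop where
  noeth : IsNoetherianRing O
  ufd : UniqueFactorizationMonoid O
  frac : IsFractionRing O K
  dim : ringKrullDim O = 2
  val : ∀ f : O, ∃ c : ℂ, f - algebraMap ℂ O c ∈ maximalIdeal O
  gens : ∃ u v : O, maximalIdeal O = Ideal.span {u, v}

variable {O : Subalgebra ℂ K}

/-- the colength -/
noncomputable def col (J : Ideal O) : ℕ := Module.finrank ℂ (O ⧸ J)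

/-- finite colength -/
def FinCol (J : Ideal O) : Prop := Module.Finite ℂ (O ⧸ J)

/-- the number of generators -/
noncomputable def mu [IsLocalRing O] (J : Ideal O) : ℕ :=
  rdim ((maximalIdeal O * J).restrictScalars ℂ) (J.restrictScalars ℂ)

/-- the elements that the maximal ideal multiplies into `J` -/
def socI [IsLocalRing O] (J : Ideal O) : Ideal O where
  carrier := {a | ∀ t ∈ maximalIdeal O, t * a ∈ J}
  zero_mem' := fun t _ => by simp
  add_mem' := fun {a b} ha hb t ht => by rw [mul_add]; exact J.add_mem (ha t ht) (hb t ht)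
  smul_mem' := fun c a ha t ht => by
    rw [smul_eq_mul, mul_left_comm]; exact J.mul_mem_left c (ha t ht)

/-- the dimension of the socle -/
noncomputable def soc [IsLocalRing O] (J : Ideal O) : ℕ :=
  rdim (J.restrictScalars ℂ) ((socI J).restrictScalars ℂ)

/-- the ideal as a subspace of `K` -/
def inK (J : Ideal O) : Submodule ℂ K := (J.restrictScalars ℂ).map O.val.toLinearMap

/-- the maps from the relations of `j` to `I` -/
def Hm {ι : Type} [Fintype ι] (j : ι → O) (I : Ideal O) : Submodule ℂ (ι → K) where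
  carrier := {b | ∀ c : ι → O, ∑ a, c a * j a = 0 → ∑ a, (c a : K) * b a ∈ inK I}
  zero_mem' := fun c _ => by simp
  add_mem' := fun {b b'} hb hb' c hc => by
    simp only [Pi.add_apply, mul_add, Finset.sum_add_distrib]
    exact add_mem (hb c hc) (hb' c hc)
  smul_mem' := fun t b hb c hc => by
    simp only [Pi.smul_apply, mul_smul_comm, ← Finset.smul_sum]
    exact Submodule.smul_mem _ t (hb c hc)

/-- the maps that extend to the free module -/
def Tr {ι : Type} (j : ι → O) (I : Ideal O) : Submodule ℂ (ι → K) where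
  carrier := {b | ∃ t : K, ∀ a, b a - t * j a ∈ inK I}
  zero_mem' := ⟨0, fun a => by simp⟩
  add_mem' := by
    rintro b b' ⟨t, ht⟩ ⟨t', ht'⟩
    refine ⟨t + t', fun a => ?_⟩
    have := add_mem (ht a) (ht' a)
    convert this using 1
    simp only [Pi.add_apply]; ring
  smul_mem' := by
    rintro c b ⟨t, ht⟩
    refine ⟨c • t, fun a => ?_⟩
    have := Submodule.smul_mem _ c (ht a)
    convert this using 1
    simp only [Pi.smul_apply, smul_sub, smul_mul_assoc]

/-- the facts of local algebra -/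
structure LA (O : Subalgebra ℂ K) [IsLocalRing O] : Prop where
  gcd : ∀ I : Ideal O, I ≠ ⊥ → ∃ (f : O) (J : Ideal O), f ≠ 0 ∧ FinCol J ∧ I = Ideal.span {f} * J
  sat : ∀ J : Ideal O, FinCol J → ∀ t : K, (∀ a ∈ J, t * a ∈ O) → t ∈ O
  pow : ∀ J : Ideal O, FinCol J ↔ ∃ n : ℕ, maximalIdeal O ^ n ≤ J
  col_add : ∀ J J' : Ideal O, FinCol J' → J' ≤ J →
    FinCol J ∧ RFin (J'.restrictScalars ℂ) (J.restrictScalars ℂ) ∧
      col J' = col J + rdim (J'.restrictScalars ℂ) (J.restrictScalars ℂ)
  col_zero : ∀ J : Ideal O, FinCol J → (col J = 0 ↔ J = ⊤)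
  mu_fin : ∀ J : Ideal O, RFin ((maximalIdeal O * J).restrictScalars ℂ) (J.restrictScalars ℂ)
  soc_fin : ∀ J : Ideal O, FinCol J → RFin (J.restrictScalars ℂ) ((socI J).restrictScalars ℂ)
  mu_le : ∀ J : Ideal O, FinCol J → J ≠ ⊤ → mu J ≤ soc J + 1
  soc_pos : ∀ J : Ideal O, FinCol J → J ≠ ⊤ → 0 < soc J
  mu_top : mu (⊤ : Ideal O) = 1
  mu_one : ∀ J : Ideal O, FinCol J → mu J ≤ 1 → J = ⊤
  soc_max : soc (maximalIdeal O) = 1
  ext : ∀ (ι : Type) [Fintype ι] (j : ι → O) (J : Ideal O), FinCol J →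
    Ideal.span (Set.range j) = J → RFin (Tr j J) (Hm j J) ∧ rdim (Tr j J) (Hm j J) ≤ 2 * col J

/-- block `LA` -/
def LAB : Prop := ∀ (K : Type) [Field K] [Algebra ℂ K] (O : Subalgebra ℂ K) [IsLocalRing O],
  RL O → LA O

end Vale.Agent.P297Z.Hb
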