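import Vale.Agent.P297Z.Surf.Sk
import Vale.Agent.P297Z.Hb.LaDefs

/-! P297: subsheaves of rank one of a line bundle on a surface, inside the function field. -/

set_option linter.all false

open IsLocalRing

namespace Vale.Agent.P297Z.Sf.Fb

open Vale.Agent.P297Z.Hb

variable {K : Type} [Field K] [Algebra ℂ K] {W : Submodule ℂ K}

/-- a finite subscheme -/
@[ext] structure Zs (W : Submodule ℂ K) where
  J : ∀ x : Pt W, Ideal x.ring
  fin : {x | J x ≠ ⊤}.Finite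
  fc : ∀ x, FinCol (J x)

namespace Zs

/-- the length -/
noncomputable def len (Z : Zs W) : ℕ := ∑ᶠ x, col (Z.J x)

/-- the stalk of `I_Z(A)` at `x` -/
def st (Z : Zs W) (A : Div W) (x : Pt W) : Submodule ℂ K where
  carrier := {f | ∀ s, GenAt x A s → ∃ a ∈ Z.J x, f = (a : K) * s}
  zero_mem' := fun s _ => ⟨0, zero_mem _, by simp⟩
  add_mem' := fun {f g} hf hg s hs => by
    obtain ⟨a, ha, rfl⟩ := hf s hs
    obtain ⟨b, hb, rfl⟩ := hg s hs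
    exact ⟨a + b, add_mem ha hb, by push_cast; ring⟩
  smul_mem' := fun c f hf s hs => by
    obtain ⟨a, ha, rfl⟩ := hf s hs
    refine ⟨c • a, Submodule.smul_of_tower_mem _ c ha, ?_⟩
    rw [Subalgebra.coe_smul, smul_mul_assoc]

/-- `Z'` is obtained from `Z` by adding the point `x` -/
structure Step (Z Z' : Zs W) (x : Pt W) : Prop where
  len : Z'.len = Z.len + 1
  le : ∀ y, Z'.J y ≤ Z.J y
  eq : ∀ y, y ≠ x → Z'.J y = Z.J y

end Zs

/-- the twisted sections of `I_Z(A)` -/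
noncomputable def EM (Z : Zs W) (A : Div W) (j : ℤ) : Submodule ℂ K :=
  ⨅ x, Z.st (A + j • hyp W) x

/-- a saturated graded submodule of the module of `L` -/
structure Sat (S : Surf K) (L : Div S.W) (E : ℤ → Submodule ℂ K) : Prop where
  le : ∀ j, E j ≤ M L j
  mul : ∀ j, S.W * E j ≤ E (j + 1)
  sat : ∀ j, ∀ f ∈ M L j, (∀ i, ∃ N : ℕ, S.x i ^ N * f ∈ E (j + N)) → f ∈ E j

/-- regular at level `m` -/
structure Reg (S : Surf K) (m : ℤ) (A : Div S.W) (Z : Zs S.W) : Prop where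
  gen : ∀ j, m ≤ j → EM Z A (j + 1) ≤ S.X * EM Z A j
  dim : ∀ j, m ≤ j → (Module.finrank ℂ (EM Z A j) : ℤ) = chi (A + j • S.H) - Z.len
  h2 : ∀ j, m ≤ j → H0 (S.kap - (A + j • S.H)) = ⊥

section fam

variable {ι : Type} [Fintype ι]

/-- the relations of degree `j` -/
def Rel (W : Submodule ℂ K) (u : ι → K) (j : ℕ) : Set (ι → K) :=
  {c | (∀ a, c a ∈ W ^ j) ∧ ∑ a, c a * u a = 0}

/-- the functionals, given by the values on `u`, that kill the relations at the point `x` -/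
def Kill (u : ι → K) (x : Pt W) : Submodule ℂ (ι → ℂ) where
  carrier := {l | ∀ j, ∀ c ∈ Rel W u j, ∀ w ∈ W, x.In w → x.Van ((∑ a, l a • c a) / w ^ j)}
  zero_mem' := fun j c _ w _ _ => by simpa using x.van_zero
  add_mem' := fun {l l'} h h' j c hc w hw hx => by
    have := (h j c hc w hw hx).add (h' j c hc w hw hx)
    simpa only [Pi.add_apply, add_smul, Finset.sum_add_distrib, add_div] using this
  smul_mem' := fun t l h j c hc w hw hx => by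
    have := (h j c hc w hw hx).smul t
    simpa only [Pi.smul_apply, smul_eq_mul, mul_smul, ← Finset.smul_sum, smul_div_assoc] using this

/-- the kernel of the functional -/
def kerF (u : ι → K) (l : ι → ℂ) : Submodule ℂ K :=
  (LinearMap.ker (Fintype.linearCombination ℂ l)).map (Fintype.linearCombination ℂ u)

/-- the line spanned by `u` -/
def Ln (u : ι → K) : Submodule ℂ (ι → K) := (Submodule.span K {u}).restrictScalars ℂ

/-- the maps of degree `k` from the relations to `E` -/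
def Nk (W : Submodule ℂ K) (u : ι → K) (E : ℤ → Submodule ℂ K) (m k : ℤ) :
    Submodule ℂ (ι → K) where
  carrier := {b | ∀ j, ∀ c ∈ Rel W u j, ∑ a, c a * b a ∈ E (m + j + k)}
  zero_mem' := fun j c _ => by simp
  add_mem' := fun {b b'} hb hb' j c hc => by
    simp only [Pi.add_apply, mul_add, Finset.sum_add_distrib]
    exact add_mem (hb j c hc) (hb' j c hc)
  smul_mem' := fun t b hb j c hc => by
    simp only [Pi.smul_apply, mul_smul_comm, ← Finset.smul_sum]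
    exact Submodule.smul_mem _ t (hb j c hc)

/-- the lifts of the tangent vectors -/
noncomputable def Tt (u : ι → K) (E : ℤ → Submodule ℂ K) (L : Div W) (m : ℤ) :
    Submodule ℂ (ι → K) :=
  Nk W u E m 0 ⊓ Submodule.pi Set.univ fun _ => M L m

end fam

/-- exactness of the Koszul complex of `y` on the family `N` modulo `B`, at level `k` -/
structure Kos {V : Type} [AddCommGroup V] [Module ℂ V] [Module K V] (y : Fin 3 → K)
    (B : Submodule ℂ V) (N₀ N₁ N₂ N₃ : Submodule ℂ V) : Prop where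
  e₁ : ∀ b : Fin 3 → V, (∀ i, b i ∈ N₁) → (∀ i j, y i • b j - y j • b i ∈ B) →
    ∃ a ∈ N₀, ∀ i, b i - y i • a ∈ B
  e₂ : ∀ c : Fin 3 → V, (∀ i, c i ∈ N₂) → ∑ i, y i • c i ∈ B →
    ∃ b : Fin 3 → V, (∀ i, b i ∈ N₁) ∧
      ∀ i, c i - (y (i + 1) • b (i + 2) - y (i + 2) • b (i + 1)) ∈ B
  e₃ : ∀ e ∈ N₃, ∃ c : Fin 3 → V, (∀ i, c i ∈ N₂) ∧ e - ∑ i, y i • c i ∈ B

/-- first group: the structure of the saturated submodules -/
structure FibA (S : Surf K) : Prop where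
  le : ∀ (Z : Zs S.W) (A : Div S.W) (j : ℤ), EM Z A j ≤ M A j
  zero : ∀ (Z : Zs S.W) (A : Div S.W) (j : ℤ), Z.len = 0 → EM Z A j = M A j
  sat : ∀ (Z : Zs S.W) (L D : Div S.W), 0 ≤ D → Sat S L (EM Z (L - D))
  ty : ∀ (L : Div S.W) (E : ℤ → Submodule ℂ K), Sat S L E → (∃ j, E j ≠ ⊥) →
    ∃ (D : Div S.W) (Z : Zs S.W), 0 ≤ D ∧ E = EM Z (L - D)
  large : ∀ (Z : Zs S.W) (A : Div S.W), ∃ m₀, ∀ m, m₀ ≤ m → Reg S m A Z
  ge : ∀ (Z : Zs S.W) (A : Div S.W) (j : ℤ), H0 (S.kap - (A + j • S.H)) = ⊥ →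
    chi (A + j • S.H) - Z.len ≤ Module.finrank ℂ (EM Z A j)
  mulf : ∀ (Z : Zs S.W) (A : Div S.W) (j : ℤ) (f g : K), f ≠ 0 →
    (f * g ∈ EM Z (A - div S.W f) j ↔ g ∈ EM Z A j)
  free : ∀ Z : Zs S.W, ∃ x, Z.J x = ⊤
  add : ∀ (Z : Zs S.W) (x : Pt S.W), ∃ Z', Z.Step Z' x
  empty : ∃ Z : Zs S.W, Z.len = 0
  len_zero : ∀ Z : Zs S.W, Z.len = 0 ↔ ∀ x, Z.J x = ⊤

/-- second group: regularity, stalks, adding a point -/
structure FibB (S : Surf K) : Prop where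
  up : ∀ (m : ℤ) (A : Div S.W) (Z Z' : Zs S.W), Reg S m A Z' → (∀ y, Z'.J y ≤ Z.J y) → Reg S m A Z
  jet : ∀ (m : ℤ) (A : Div S.W) (Z : Zs S.W), Reg S m A Z → ∀ j, m ≤ j → ∀ β : Pt S.W → K,
    (∀ x, β x ∈ stalk x (A + j • S.H)) → ∃ f ∈ M A j, ∀ x, Z.J x ≠ ⊤ → f - β x ∈ Z.st (A + j • S.H) x
  stalk : ∀ (m : ℤ) (A : Div S.W) (Z : Zs S.W), Reg S m A Z → ∀ x s, GenAt x (A + m • S.H) s →
    Z.J x = Ideal.span {a : x.ring | (a : K) * s ∈ EM Z A m}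
  uniq : ∀ (m : ℤ) (A A' : Div S.W) (Z Z' : Zs S.W), Reg S m A Z → Reg S m A' Z' →
    EM Z A m = EM Z' A' m → A = A' ∧ Z = Z'
  hom : ∀ (m k : ℤ) (A B : Div S.W) (Z : Zs S.W), Reg S m A Z → ∀ t : K,
    (∀ u ∈ EM Z A m, t * u ∈ M B (m + k)) → t ∈ M (B - A) k
  down : ∀ (m : ℤ) (A : Div S.W) (Z : Zs S.W), Reg S m A Z → ∀ (ι : Type) [Fintype ι] (u : ι → K),
    Submodule.span ℂ (Set.range u) = EM Z A m → ∀ x, ∀ l ∈ Kill u x, l ≠ 0 →
    ∃ Z', Z.Step Z' x ∧ EM Z' A m = kerF u l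
  mu : ∀ (m : ℤ) (A : Div S.W) (Z : Zs S.W), Reg S m A Z → ∀ (ι : Type) [Fintype ι] (u : ι → K),
    Submodule.span ℂ (Set.range u) = EM Z A m → ∀ x, Module.finrank ℂ (Kill u x) = mu (Z.J x)
  kill : ∀ (m : ℤ) (A : Div S.W) (Z Z' : Zs S.W) (x : Pt S.W), Z.Step Z' x → Reg S m A Z' →
    ∀ (ι : Type) [Fintype ι] (u : ι → K), Submodule.span ℂ (Set.range u) = EM Z A m →
    ∀ l : ι → ℂ, (∀ t : ι → ℂ, ∑ a, t a • u a ∈ EM Z' A m → ∑ a, t a * l a = 0) → l ∈ Kill u x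
  soc : ∀ (m : ℤ) (A : Div S.W) (Z' : Zs S.W) (x : Pt S.W), Reg S m A Z' →
    ∃ P : Submodule ℂ K, EM Z' A m ≤ P ∧ P ≤ M A m ∧
      Module.finrank ℂ P = Module.finrank ℂ (EM Z' A m) + soc (Z'.J x) ∧
      (∀ f ∈ P, f ∉ EM Z' A m → ∃ Z, Z.Step Z' x ∧ EM Z A m = EM Z' A m ⊔ Submodule.span ℂ {f}) ∧
      ∀ Z, Z.Step Z' x → EM Z A m ≤ P
  step_pt : ∀ (Z Z' : Zs S.W) (x : Pt S.W), Z.Step Z' x → Z'.J x ≠ ⊤ ∧
    (Z.J x = ⊤ → Z'.J x = maximalIdeal x.ring)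
  surj : ∀ (m : ℤ) (A : Div S.W) (Z Z' : Zs S.W) (x : Pt S.W), Z.Step Z' x → Reg S m A Z' →
    ∀ (ι : Type) [Fintype ι] (u : ι → K), Submodule.span ℂ (Set.range u) = EM Z A m →
    ∀ l : ι → ℂ, l ≠ 0 → EM Z' A m = kerF u l → l ∈ Kill u x →
    ∀ (j : ℕ) (e : K), e ∈ S.W ^ j → (∀ w ∈ S.W, x.In w → x.Van (e / w ^ j)) →
    ∃ c ∈ Rel S.W u j, ∑ a, l a • c a = e

/-- third group: tangent vectors -/
structure FibC (S : Surf K) : Prop where
  step : ∃ d : ℕ, 0 < d ∧ ∀ k : ℕ, S.Cech1 (((k * d : ℕ) : ℤ) • S.H)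
  line : ∀ (m : ℤ) (A : Div S.W) (Z : Zs S.W), Reg S m A Z → ∀ (ι : Type) [Fintype ι] (u : ι → K),
    Submodule.span ℂ (Set.range u) = EM Z A m → ∀ b : ι → K,
    (∀ j, ∀ c ∈ Rel S.W u j, ∑ a, c a * b a = 0) → b ∈ Ln u
  tan : ∀ (m : ℤ) (L D : Div S.W) (Z : Zs S.W), 0 ≤ D → Reg S m (L - D) Z →
    ∀ (ι : Type) [Fintype ι] (u : ι → K),
    Submodule.span ℂ (Set.range u) = EM Z (L - D) m →
    (Module.finrank ℂ (Tt u (EM Z (L - D)) L m) : ℤ) + 1 ≤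
      h0 D + Fintype.card ι * Module.finrank ℂ (EM Z (L - D) m) + 2 * Z.len
  kos : ∀ (m : ℤ) (L D : Div S.W) (Z : Zs S.W), 0 ≤ D → Reg S m (L - D) Z →
    ∀ (ι : Type) [Fintype ι] (u : ι → K),
    Submodule.span ℂ (Set.range u) = EM Z (L - D) m →
    h0 D + Fintype.card ι * Module.finrank ℂ (EM Z (L - D) m) + 2 * Z.len ≤
      (Module.finrank ℂ (Tt u (EM Z (L - D)) L m) : ℤ) + 1 →
    Nk S.W u (EM Z (L - D)) m 0 ≤ Tt u (EM Z (L - D)) L m ⊔ Ln u ∧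
    ∀ d : ℕ, 0 < d → (∀ k : ℕ, S.Cech1 (((k * d : ℕ) : ℤ) • S.H)) → ∀ k : ℕ,
      RFin (Ln u) (Nk S.W u (EM Z (L - D)) m (k * d : ℕ)) ∧
      (rdim (Ln u) (Nk S.W u (EM Z (L - D)) m (k * d : ℕ)) : ℤ) =
        Fintype.card ι * (chi (L - D + (m + (k * d : ℕ)) • S.H) - Z.len) -
          chi (((k * d : ℕ) : ℤ) • S.H) + 2 * Z.len ∧
      Kos (fun i => S.x i ^ d) (Ln u) (Nk S.W u (EM Z (L - D)) m (k * d : ℕ))
        (Nk S.W u (EM Z (L - D)) m ((k + 1) * d : ℕ)) (Nk S.W u (EM Z (L - D)) m ((k + 2) * d : ℕ))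
        (Nk S.W u (EM Z (L - D)) m ((k + 3) * d : ℕ))

/-- the local rings of the surface -/
def LAS (S : Surf K) : Prop := ∀ x : Pt S.W, LA x.ring

def FIBA : Prop := ForAll fun S => S.All → LAS S → FibA S
def FIBB : Prop := ForAll fun S => S.All → LAS S → FibA S → FibB S
def FIBC : Prop := ForAll fun S => S.All → S.Good → S.Cech1 0 → LAS S → FibA S → FibB S → FibC S

end Vale.Agent.P297Z.Sf.Fb
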