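import Vale.Agent.P297Z.Hb.PwDefs
import Vale.Agent.P297Z.Hb.FibDefs
import Vale.Agent.P297Z.Diag.Defs

/-! P297: families of subsheaves given by generators: definitions. -/

set_option linter.all false

noncomputable section

namespace Vale.Agent.P297Z

/-- the restriction of a function on `X × Y` to the fibre over a point of `X` -/
def evp {X : Spc} (Y : Spc) (z : X.Pt) : (X.prod Y).R →ₐ[ℂ] Y.R :=
  Algebra.TensorProduct.productMap ((Algebra.ofId ℂ Y.R).comp z.1) (AlgHom.id ℂ Y.R)

theorem evp_fst {X : Spc} (Y : Spc) (z : X.Pt) (a : X.R) :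
    evp Y z ((Mor.fst X Y).φ a) = algebraMap ℂ Y.R (z.1 a) :=
  (Algebra.TensorProduct.productMap_apply_tmul _ _ a 1).trans (mul_one _)

theorem evp_snd {X : Spc} (Y : Spc) (z : X.Pt) (b : Y.R) : evp Y z ((Mor.snd X Y).φ b) = b :=
  (Algebra.TensorProduct.productMap_apply_tmul _ _ 1 b).trans (by rw [map_one, one_mul]; rfl)

theorem evp_fst_mul {X : Spc} (Y : Spc) (z : X.Pt) (a : X.R) (r : (X.prod Y).R) :
    evp Y z ((Mor.fst X Y).φ a * r) = z.1 a • evp Y z r := by
  rw [map_mul, evp_fst, Algebra.smul_def]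

theorem evp_act {X : Spc} (Y : Spc) (z : X.Pt) (g : (X.prod Y).J → ℂˣ) (r : (X.prod Y).R) :
    evp Y z ((X.prod Y).act g r) =
      Y.act (fun i => g (.inr i)) (evp Y (Spc.mv z fun i => g (.inl i)) r) := by
  have : (evp Y z).comp ((X.prod Y).act g) =
      (Y.act fun i => g (.inr i)).comp (evp Y (Spc.mv z fun i => g (.inl i))) :=
    Algebra.TensorProduct.ext' fun a b => by
      change algebraMap ℂ Y.R (z.1 (X.act _ a)) * Y.act _ b =
        Y.act _ (algebraMap ℂ Y.R (z.1 (X.act _ a)) * b)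
      rw [map_mul, AlgHom.commutes]
  exact DFunLike.congr_fun this r

namespace Sf

open Pw

variable {K : Type} [Field K] [Algebra ℂ K] {S : Surf K} {W X : Spc}

/-- the restriction of a function on `X × S` to the fibre over a point of `X` -/
def evz (h : S.All) (z : X.Pt) : (X.prod (S.spc h)).R →ₐ[ℂ] S.ring := evp (S.spc h) z

/-- the part of degree `j` of the restriction -/
def cf (h : S.All) (z : X.Pt) (j : ℤ) : (X.prod (S.spc h)).R →ₗ[ℂ] K where
  toFun := fun r => (evz h z r).1.coeff j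
  map_add' := fun a b => by rw [map_add]; rfl
  map_smul' := fun c a => by rw [map_smul]; rfl

theorem cf_mul_fst (h : S.All) (z : X.Pt) (j : ℤ) (a : X.R) (r : (X.prod (S.spc h)).R) :
    cf h z j ((Mor.fst X (S.spc h)).φ a * r) = z.1 a • cf h z j r :=
  congrArg (fun t : S.ring => t.1.coeff j) (evp_fst_mul (S.spc h) z a r)

theorem cf_act (h : S.All) (z : X.Pt) (j : ℤ) (g : (X.prod (S.spc h)).J → ℂˣ)
    (r : (X.prod (S.spc h)).R) : cf h z j ((X.prod (S.spc h)).act g r) =
      ((g (.inr ()) ^ j : ℂˣ) : ℂ) • cf h (Spc.mv z fun i => g (.inl i)) j r :=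
  (congrArg (fun t : S.ring => t.1.coeff j) (evp_act (S.spc h) z g r)).trans (scale_apply _ _ _)

section V

variable {V : Type} [AddCommGroup V] [Module K V] [Module ℂ V] [IsScalarTower ℂ K V]
  {ι : Type} [Fintype ι]

/-- the part of degree `j` of the module generated by `u` -/
def Gn (W : Submodule ℂ K) (u : ι → V) (j : ℕ) : Submodule ℂ V where
  carrier := {v | ∃ c : ι → K, (∀ a, c a ∈ W ^ j) ∧ ∑ a, c a • u a = v}
  zero_mem' := ⟨0, fun _ => zero_mem _, by simp⟩
  add_mem' := by
    rintro _ _ ⟨c, hc, rfl⟩ ⟨c', hc', rfl⟩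
    exact ⟨c + c', fun a => add_mem (hc a) (hc' a), by simp [add_smul, Finset.sum_add_distrib]⟩
  smul_mem' := by
    rintro t _ ⟨c, hc, rfl⟩
    exact ⟨t • c, fun a => Submodule.smul_mem _ t (hc a), by simp [Finset.smul_sum]⟩

/-- the relations of degree `j` -/
def RelV (W : Submodule ℂ K) (u : ι → V) (j : ℕ) : Submodule ℂ (ι → K) where
  carrier := {c | (∀ a, c a ∈ W ^ j) ∧ ∑ a, c a • u a = 0}
  zero_mem' := ⟨fun _ => zero_mem _, by simp⟩
  add_mem' := fun {c c'} hc hc' => ⟨fun a => add_mem (hc.1 a) (hc'.1 a), by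
    simp [add_smul, Finset.sum_add_distrib, hc.2, hc'.2]⟩
  smul_mem' := fun t c hc => ⟨fun a => Submodule.smul_mem _ t (hc.1 a), by
    simp [← Finset.smul_sum, hc.2]⟩

theorem fin_pow (S : Surf K) (j : ℕ) : FiniteDimensional ℂ (S.W ^ j : Submodule ℂ K) :=
  (Submodule.fg_iff_finiteDimensional _).1
    (((Submodule.fg_iff_finiteDimensional _).2 S.model.fin).pow j)

theorem Gn_eq (W : Submodule ℂ K) (u : ι → V) (j : ℕ) : Gn W u j =
    ⨆ a, (W ^ j).map ((LinearMap.toSpanSingleton K V (u a)).restrictScalars ℂ) := by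
  classical
  refine le_antisymm ?_ (iSup_le fun a => ?_)
  · rintro _ ⟨c, hc, rfl⟩
    exact Submodule.sum_mem _ fun a _ => Submodule.mem_iSup_of_mem a ⟨c a, hc a, rfl⟩
  · rintro _ ⟨t, ht, rfl⟩
    refine ⟨Pi.single a t, fun b => ?_, ?_⟩
    · by_cases e : b = a
      · subst e; simpa using ht
      · simp [Pi.single_eq_of_ne e]
    · rw [Finset.sum_eq_single a (fun b _ e => by simp [Pi.single_eq_of_ne e]) (by simp)]
      simp

instance fin_Gn (S : Surf K) (u : ι → V) (j : ℕ) : FiniteDimensional ℂ (Gn S.W u j) := by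
  rw [Gn_eq]
  haveI := fin_pow S j
  infer_instance

end V

/-- a family of submodules of `V`, generated in degree `m` -/
structure Fam (K : Type) [Field K] [Algebra ℂ K] (X : Spc) (V : Type) [AddCommGroup V]
    [Module K V] [Module ℂ V] where
  D : (X.J → ℂˣ) → V →ₗ[K] V
  m : ℕ
  B : Type
  [fB : Fintype B]
  e : B → V
  τ : B → X.J → ℤ
  e_wt : ∀ b g, D g (e b) = chr (τ b) g • e b
  ι : Type
  [fι : Fintype ι]
  γ : ι → X.J → ℤ
  g : ι → B → X.R
  g_wt : ∀ a b, g a b ∈ X.wt (γ a - τ b)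

attribute [instance] Fam.fB Fam.fι

namespace Fam

variable {V V' : Type} [AddCommGroup V] [Module K V] [Module ℂ V] [IsScalarTower ℂ K V]
  [AddCommGroup V'] [Module K V'] [Module ℂ V'] [IsScalarTower ℂ K V'] (F : Fam K X V)

/-- the generators at a point -/
def u (z : X.Pt) (a : F.ι) : V := ∑ b, z.1 (F.g a b) • F.e b

theorem D_u (z : X.Pt) (g : X.J → ℂˣ) (a : F.ι) :
    F.D g (F.u (Spc.mv z g) a) = chr (F.γ a) g • F.u z a := by
  unfold u
  rw [map_sum, Finset.smul_sum]
  refine Finset.sum_congr rfl fun b _ => ?_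
  have e : (Spc.mv z g).1 (F.g a b) = chr (F.γ a - F.τ b) g * z.1 (F.g a b) :=
    (congrArg z.1 (Spc.mem_wt.1 (F.g_wt a b) g)).trans (map_smul z.1 _ _)
  rw [LinearMap.map_smul_of_tower, F.e_wt, e, smul_smul, smul_smul, mul_right_comm, ← chr_add,
    sub_add_cancel]

/-- the Hilbert function and the rank do not depend on the point -/
structure Flat (S : Surf K) (ρ : ℕ) : Prop where
  dim : ∀ j, ∃ n, ∀ z, Module.finrank ℂ (Gn S.W (F.u z) j) = n
  rank : ∀ z, Module.finrank K (Submodule.span K (Set.range (F.u z))) = ρ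

variable (h : S.All)

/-- the degrees of the generators -/
def deg (a : F.ι) : (X.prod (S.spc h)).J → ℤ := Sum.elim (F.γ a) fun _ => (F.m : ℤ)

/-- the relations -/
def Kt : Submodule (X.prod (S.spc h)).R (F.ι → (X.prod (S.spc h)).R) where
  carrier := {c | ∀ (z : X.Pt) (j : ℤ), ∑ a, cf h z j (c a) • F.u z a = 0}
  zero_mem' := fun z j => by simp
  add_mem' := fun {c c'} hc hc' z j => by
    simp only [Pi.add_apply, map_add, add_smul, Finset.sum_add_distrib, hc z j, hc' z j, add_zero]
  smul_mem' := fun r c hc z => by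
    have key : ∀ (t : S.ring) (j : ℤ),
        ∑ a, (t * evz h z (c a)).1.coeff j • F.u z a = 0 := by
      intro t
      refine S.ring_induction (P := fun t => ∀ j : ℤ,
        ∑ a, (t * evz h z (c a)).1.coeff j • F.u z a = 0) ?_ ?_ ?_ t
      · intro j; simp
      · intro n b hb j
        have e : ∀ a, (S.form n b hb * evz h z (c a)).1.coeff j = b * cf h z (j - n) (c a) := by
          intro a
          change (mon b n * (evz h z (c a)).1).coeff j = b * (evz h z (c a)).1.coeff (j - n)
          rw [mon, ← LaurentPolynomial.single_eq_C_mul_T, AddMonoidAlgebra.coeff_single_mul_apply,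
            neg_add_eq_sub]
        simp only [e, mul_smul, ← Finset.smul_sum, hc z, smul_zero]
      · intro t t' h1 h2 j
        have := congrArg₂ (· + ·) (h1 j) (h2 j)
        simp only [add_zero, ← Finset.sum_add_distrib, ← add_smul] at this
        rw [← this]
        exact Finset.sum_congr rfl fun a _ => by rw [add_mul]; rfl
    intro j
    rw [← key (evz h z r) j]
    exact Finset.sum_congr rfl fun a _ => by
      rw [← map_mul]
      rfl

theorem Kt_stab : (Dg.Fr (X.prod (S.spc h)) (F.deg h)).Stab (F.Kt h) := by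
  intro g c hc
  suffices H : Dg.fact (F.deg h) g c ∈ F.Kt h from (Dg.Fr_act (F.deg h) g c).symm ▸ H
  change F.ι → (X.prod (S.spc h)).R at c
  intro z j
  have := congrArg (F.D fun i => g (.inl i)) (hc (Spc.mv z fun i => g (.inl i)) j)
  rw [map_sum, map_zero] at this
  simp only [map_smul, D_u] at this
  have e : ∀ a, chr (F.deg h a) g = chr (F.γ a) (fun i => g (.inl i)) *
      chr (fun _ : Unit => (F.m : ℤ)) (fun i => g (.inr i)) := fun a => chr_sum_type _ _
  calc _ = (chr (fun _ : Unit => (F.m : ℤ)) (fun i => g (.inr i)) * ((g (.inr ()) ^ j : ℂˣ) : ℂ)) •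
        ∑ a, cf h (Spc.mv z fun i => g (.inl i)) j (c a) •
          chr (F.γ a) (fun i => g (.inl i)) • F.u z a := by
        rw [Finset.smul_sum]
        refine Finset.sum_congr rfl fun a _ => ?_
        unfold Dg.fact
        rw [map_smul, cf_act, e, smul_comm (cf _ _ _ _), smul_smul, smul_smul, smul_assoc]
        congr 1
        ring
    _ = 0 := by rw [this, smul_zero]

/-- the module of relations -/
def KM : GMod (X.prod (S.spc h)) := (Dg.Fr _ (F.deg h)).sub (F.Kt h) (F.Kt_stab h)

/-- the class of the module of relations -/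
def Kcl (ρ : ℕ) : K0 (X.prod (S.spc h)) := kc (F.KM h) (Fintype.card F.ι - ρ)

/-- the class of the family -/
def Ecl (ρ : ℕ) : K0 (X.prod (S.spc h)) := ∑ a, line _ (-F.deg h a) - F.Kcl h ρ

/-- the pull-back -/
def pull (f : Mor W X) : Fam K W V where
  D := fun g => F.D (tor f.ρ g)
  m := F.m
  B := F.B
  e := F.e
  τ := fun b => f.ρ (F.τ b)
  e_wt := fun b g => by rw [F.e_wt, chr_tor]
  ι := F.ι
  γ := fun a => f.ρ (F.γ a)
  g := fun a b => f.φ (F.g a b)
  g_wt := fun a b => by rw [← map_sub]; exact f.wt_map _ _ (F.g_wt a b)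

/-- the twist of the action on the values -/
def shift (η : X.J → ℤ) : Fam K X V where
  D := fun g => algebraMap ℂ K (chr η g) • F.D g
  m := F.m
  B := F.B
  e := F.e
  τ := fun b => η + F.τ b
  e_wt := fun b g => by
    rw [LinearMap.smul_apply, F.e_wt, algebraMap_smul, smul_smul, chr_add]
  ι := F.ι
  γ := fun a => η + F.γ a
  g := F.g
  g_wt := fun a b => by rw [add_sub_add_left_eq_sub]; exact F.g_wt a b

/-- the direct sum -/
def sum (F' : Fam K X V') : Fam K X (V × V') where
  D := fun g => (F.D g).prodMap (F'.D g)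
  m := F.m
  B := F.B ⊕ F'.B
  e := Sum.elim (fun b => (F.e b, 0)) fun b => (0, F'.e b)
  τ := Sum.elim F.τ F'.τ
  e_wt := by
    rintro (b | b) g
    · simp [F.e_wt]
    · simp [F'.e_wt]
  ι := F.ι ⊕ F'.ι
  γ := Sum.elim F.γ F'.γ
  g := Sum.elim (fun a => Sum.elim (F.g a) 0) fun a => Sum.elim 0 (F'.g a)
  g_wt := by
    rintro (a | a) (b | b)
    exacts [F.g_wt a b, zero_mem _, zero_mem _, F'.g_wt a b]

/-- the union of two families of generators -/
def app (F' : Fam K X V) (hD : F'.D = F.D) : Fam K X V where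
  D := F.D
  m := F.m
  B := F.B ⊕ F'.B
  e := Sum.elim F.e F'.e
  τ := Sum.elim F.τ F'.τ
  e_wt := by
    rintro (b | b) g
    exacts [F.e_wt b g, hD ▸ F'.e_wt b g]
  ι := F.ι ⊕ F'.ι
  γ := Sum.elim F.γ F'.γ
  g := Sum.elim (fun a => Sum.elim (F.g a) 0) fun a => Sum.elim 0 (F'.g a)
  g_wt := by
    rintro (a | a) (b | b)
    exacts [F.g_wt a b, zero_mem _, zero_mem _, F'.g_wt a b]

open Classical in
/-- the constant family generated by all the vectors `e b` -/
def top : Fam K X V :=
  { F with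
    ι := F.B
    fι := F.fB
    γ := F.τ
    g := fun a b => if a = b then 1 else 0
    g_wt := fun a b => by
      split_ifs with e
      · rw [e, sub_self]; exact X.one_mem
      · exact zero_mem _ }

theorem Gn_gen (S : Surf K) (j : ℕ) (η : X.J → ℤ) : Gn S.W F.e j ≤ Submodule.span ℂ
    {v | v ∈ Gn S.W F.e j ∧ ∃ γ, v ∈ wt (fun g => (F.D g).restrictScalars ℂ) γ} := by
  rw [Gn_eq]
  refine iSup_le fun b => ?_
  rintro _ ⟨t, ht, rfl⟩
  refine Submodule.subset_span ⟨Submodule.mem_iSup_of_mem b ⟨t, ht, rfl⟩, F.τ b, fun g => ?_⟩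
  change F.D g (t • F.e b) = chr (F.τ b) g • t • F.e b
  rw [map_smul, F.e_wt, smul_comm]

/-- the space of values in degree `m + j` -/
abbrev rp (S : Surf K) (j : ℕ) : Rp X :=
  Rp.mk V (fun g => (F.D g).restrictScalars ℂ) (Gn S.W F.e j) inferInstance (F.Gn_gen S j 0)

/-- the lifts of the tangent vectors -/
def Tq (S : Surf K) (z : X.Pt) : Submodule ℂ (F.ι → V) where
  carrier := {b | (∀ a, b a ∈ Gn S.W F.e 0) ∧
    ∀ j, ∀ c ∈ RelV S.W (F.u z) j, ∑ a, c a • b a ∈ Gn S.W (F.u z) j}
  zero_mem' := ⟨fun _ => zero_mem _, fun j c _ => by simp⟩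
  add_mem' := fun {b b'} hb hb' => ⟨fun a => add_mem (hb.1 a) (hb'.1 a), fun j c hc => by
    simp only [Pi.add_apply, smul_add, Finset.sum_add_distrib]
    exact add_mem (hb.2 j c hc) (hb'.2 j c hc)⟩
  smul_mem' := fun t b hb => ⟨fun a => Submodule.smul_mem _ t (hb.1 a), fun j c hc => by
    simp only [Pi.smul_apply, smul_comm _ t, ← Finset.smul_sum]
    exact Submodule.smul_mem _ t (hb.2 j c hc)⟩

/-- the space of the values on the generators -/
abbrev tR (S : Surf K) : Rp X := Rp.pi fun a => (F.rp S 0).shift (-F.γ a)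

/-- a homogeneous system of generators of the relations -/
structure Gens where
  P : Type
  [fP : Fintype P]
  κ : P → F.ι → (X.prod (S.spc h)).R
  η : P → X.J → ℤ
  j : P → ℕ
  wt : ∀ p a, κ p a ∈ (X.prod (S.spc h)).wt (Sum.elim (η p - F.γ a) fun _ => (j p : ℤ))
  span : Submodule.span (X.prod (S.spc h)).R (Set.range κ) = F.Kt h

attribute [instance] Gens.fP

namespace Gens

variable {F h} (G : F.Gens h)

/-- the generators of the relations at a point -/
def kv (z : X.Pt) (p : G.P) (a : F.ι) : K := cf h z (G.j p) (G.κ p a)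

/-- the values on the generators of the relations -/
def Ψ (V' : Type) [AddCommGroup V'] [Module K V'] (z : X.Pt) : (F.ι → V') →ₗ[K] (G.P → V') where
  toFun := fun b p => ∑ a, G.kv z p a • b a
  map_add' := fun b b' => funext fun p => by simp [Finset.sum_add_distrib]
  map_smul' := fun t b => funext fun p => by
    simp only [Pi.smul_apply, RingHom.id_apply, Finset.smul_sum, smul_comm t]

variable (F' : Fam K X V')

/-- the action on the values on the generators of the relations -/
def hD (g : X.J → ℂˣ) : (G.P → V') →ₗ[K] (G.P → V') :=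
  LinearMap.pi fun p => algebraMap ℂ K (chr (-G.η p) g) • (F'.D g).comp (LinearMap.proj p)

/-- the values of degree `k` -/
def hU (k : ℕ) : Submodule ℂ (G.P → V') :=
  Submodule.pi Set.univ fun p => Gn S.W F'.e (G.j p + k)

theorem hU_fin (k : ℕ) : FiniteDimensional ℂ (G.hU F' k) :=
  (Rp.pi fun p => F'.rp S (G.j p + k)).fin

theorem hU_gen (k : ℕ) : G.hU F' k ≤ Submodule.span ℂ
    {v | v ∈ G.hU F' k ∧ ∃ γ, v ∈ P297Z.wt (fun g => (G.hD F' g).restrictScalars ℂ) γ} := by
  have := (Rp.pi fun p => (F'.rp S (G.j p + k)).shift (-G.η p)).gen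
  refine this.trans (Submodule.span_mono fun v ⟨h1, γ, h2⟩ => ⟨h1, γ, fun g => ?_⟩)
  exact (funext fun p => algebraMap_smul K _ _).trans (h2 g)

/-- the space of the values of degree `k` -/
abbrev hR (k : ℕ) : Rp X :=
  Rp.mk (G.P → V') (fun g => (G.hD F' g).restrictScalars ℂ) (G.hU F' k) (G.hU_fin F' k)
    (G.hU_gen F' k)

/-- the values in the family `F'` -/
def Val (k : ℕ) (z : X.Pt) : Submodule ℂ (G.P → V') :=
  Submodule.pi Set.univ fun p => Gn S.W (F'.u z) (G.j p + k)

/-- the maps of degree `k` from the relations to the family `F'` -/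
def Hm (k : ℕ) (z : X.Pt) : Submodule ℂ (G.P → V') :=
  G.Val F' k z ⊓ (LinearMap.range (G.Ψ V' z)).restrictScalars ℂ

end Gens

end Fam

end Sf

end Vale.Agent.P297Z
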