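import Vale.Agent.P297Z.Hb.GeoDefs
import Vale.Agent.P297Z.Hb.FamDefs
import Vale.Agent.P297Z.Hb.DegDefs

/-! P297: the universal families on the spaces of subsheaves of rank one. -/

set_option linter.all false

noncomputable section

namespace Vale.Agent.P297Z.Sf.Ctx

open Fb Vale.Agent.P297Z.Hb Pw

variable {K : Type} [Field K] [Algebra ℂ K] {S : Surf K} (c : Ctx S)

theorem pl_wt (r : ℕ) (J : Fin r → c.B) : c.pl r J ∈ (c.Xr r).wt (c.dp r) := by
  have := (c.gr r).wt_map _ _ (Spc.X_mem pt0 (Fin r → c.B) (fun _ => 0) J)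
  have e : (fun j : Option pt0.J => j.elim (1 : ℤ) 0) = fun _ => 1 := funext fun j => by
    rcases j with _ | j
    exacts [rfl, j.elim]
  exact (congrArg (fun γ => c.pl r J ∈ (c.Xr r).wt ((c.gr r).ρ γ)) e).mp this

/-- the family with the generators `ug` -/
def fam (r : ℕ) : Fam K (c.Xr (r + 1)) K where
  D := fun _ => LinearMap.id
  m := c.m
  B := c.B
  e := c.e
  τ := 0
  e_wt := fun b g => by rw [Pi.zero_apply, chr_zero, one_smul]; rfl
  ι := Fin r → c.B
  γ := fun _ => c.dp (r + 1)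
  g := fun J i => c.pl (r + 1) (Fin.cons i J)
  g_wt := fun J i => by rw [Pi.zero_apply, sub_zero]; exact c.pl_wt _ _

/-- the family with all the tautological vectors as generators -/
def famV (r : ℕ) : Fam K (c.Xr r) K where
  D := fun _ => LinearMap.id
  m := c.m
  B := c.B
  e := c.e
  τ := 0
  e_wt := fun b g => by rw [Pi.zero_apply, chr_zero, one_smul]; rfl
  ι := (Fin r → c.B) × Fin r
  γ := fun _ => c.dp r
  g := fun s i => c.pl r (Function.update s.1 s.2 i)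
  g_wt := fun J i => by rw [Pi.zero_apply, sub_zero]; exact c.pl_wt _ _

/-- the point of the ambient space -/
abbrev am {r : ℕ} (z : (c.Xr r).Pt) : ((PP c.v).prod (c.Gr r)).Pt := (c.inc r).onPt z

/-- the section of `D` at a point -/
def fz {r : ℕ} (z : (c.Xr r).Pt) : K := c.fpt ((c.pr r).onPt z)

/-- the Pluecker coordinates of a point -/
def pz {r : ℕ} (z : (c.Xr r).Pt) (J : Fin r → c.B) : ℂ := z.1 (c.pl r J)

/-- the hypotheses -/
structure Ok (r₀ : ℕ) : Prop where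
  pos : 0 < r₀
  le : r₀ ≤ c.s
  good : S.Good
  cech : S.Cech1 0
  reg : c.RegAll r₀
  regL : ∀ Z : Zs S.W, Z.len = 0 → Reg S c.m c.L Z

variable (h : S.All)

/-- the universal class -/
def Ecl (r : ℕ) : K0 ((c.Xr r).prod (S.spc h)) := (c.famV r).Ecl h 1

/-- the geometry of the spaces -/
structure Geom (r₀ : ℕ) : Prop where
  clo : ∀ r, r₀ ≤ r → r ≤ c.s → Spc.Clo _ (c.XS r)
  var : ∀ r, r₀ ≤ r → r ≤ c.s → (c.Xr r).IsVar (c.v + 2 * (c.s - r))
  cloN : ∀ r, r₀ ≤ r → r < c.s → Spc.Clo _ (c.NS h r)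
  varN : ∀ r, r₀ ≤ r → r < c.s → (c.Nr h r).IsVar (c.v + 2 * (c.s - r))
  maps : ∀ r, r₀ ≤ r → r < c.s → c.Maps h r
  surj : ∀ r, r₀ ≤ r → r < c.s → ∀ H, (c.ρN h r H).SurjO
  inj0 : ∀ r, r₀ ≤ r → r + 1 = c.s → ∀ H, (c.ρN h r H).InjO
  psurj : (c.pr c.s).SurjO
  pinj : (c.pr c.s).InjO

/-- the space of the Pluecker coordinates -/
abbrev cR (r : ℕ) : Rp (c.Xr r) := Rp.sc _ (⊤ : Submodule ℂ ((Fin r → c.B) → ℂ)) (-c.dp r)

/-- the values of a functional on the Pluecker coordinates -/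
def dpl (r : ℕ) : ((c.Xr r).R →ₗ[ℂ] ℂ) →ₗ[ℂ] ((Fin r → c.B) → ℂ) :=
  LinearMap.pi fun J => LinearMap.applyₗ (c.pl r J)

/-- the tangent space of the cone in the Pluecker coordinates -/
def TT (r : ℕ) (z : (c.Xr r).Pt) : Submodule ℂ ((Fin r → c.B) → ℂ) := (Tan z.1).map (c.dpl r)

/-- the vectors attached to a family of coordinates -/
def β (r : ℕ) : ((Fin r → c.B) → ℂ) →ₗ[ℂ] ((Fin r → c.B) × Fin r → K) :=
  LinearMap.pi fun s => ∑ i, (LinearMap.toSpanSingleton ℂ K (c.e i)).comp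
    (LinearMap.proj (Function.update s.1 s.2 i))

/-- the alternating families of coordinates -/
def Alt (r : ℕ) : Submodule ℂ ((Fin r → c.B) → ℂ) where
  carrier := {v | ∀ (J : Fin r → c.B) (σ : Equiv.Perm (Fin r)),
    v (J ∘ σ) = ((Equiv.Perm.sign σ : ℤ) : ℂ) * v J}
  zero_mem' := fun J σ => by simp
  add_mem' := fun {a b} ha hb J σ => by rw [Pi.add_apply, Pi.add_apply, ha, hb, mul_add]
  smul_mem' := fun t a ha J σ => by
    rw [Pi.smul_apply, Pi.smul_apply, ha, smul_eq_mul, smul_eq_mul, mul_left_comm]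

/-- the dual of the obstruction class -/
def obv (r : ℕ) : K0 (c.Xr r) := (c.v + 1 : ℕ) • pullK (c.pr r) (OP c.v (-1)) -
  dualK _ (pK (c.Xr r) (S.spc h) (pullK (Mor.snd _ _) (S.lK h c.L) * dualK _ (c.Ecl h r)))

end Vale.Agent.P297Z.Sf.Ctx
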