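import Vale.Agent.P297Z.Hb.La
import Vale.Agent.P297Z.Hb.FibDefs

/-! P297: the local rings of a surface satisfy the facts of local algebra. -/

set_option linter.all false

open IsLocalRing

namespace Vale.Agent.P297Z.Sf.Fb

open Vale.Agent.P297Z.Hb

variable {K : Type} [Field K] [Algebra ℂ K]

theorem rl_of (S : Surf K) (hL : S.Loc) (hR : S.Reg2) (x : Pt S.W) : RL x.ring where
  noeth := (hL.reg x).toIsNoetherian
  ufd := hL.ufd x
  frac := hL.frac x
  dim := hL.dim x
  val f := by
    obtain ⟨c, hc⟩ := hL.val x f f.2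
    exact ⟨c, (x.mem_max _).2 hc⟩
  gens := by
    obtain ⟨w, hw, hx⟩ := x.exists_in
    obtain ⟨_, -, _, -, s, t, -, -, h⟩ := hR.gens x w hw hx
    exact ⟨s, t, h⟩

theorem rl (S : Surf K) (hA : S.All) (x : Pt S.W) : RL x.ring := rl_of S hA.toLoc hA.toReg2 x

theorem las (S : Surf K) (hA : S.All) : LAS S := fun x => (rl S hA x).la

end Vale.Agent.P297Z.Sf.Fb
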