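import Vale.Agent.P297Z.Hb.TowDefs
import Vale.Agent.P297Z.Quot.SurS
import Vale.Agent.P297Z.Quot.Defs2
import Vale.Agent.P297Z.Surf.SspB1

/-! P297: Quot spaces of sums of line bundles on the surface and families given by generators. -/

set_option linter.all false

noncomputable section

namespace Vale.Agent.P297Z.Sf

variable {K : Type} [Field K] [Algebra ℂ K]

/-- a sum of line bundles with vectors in degree `m` -/
structure LD (S : Surf K) where
  ι : Type
  [fι : Fintype ι]
  [dι : DecidableEq ι]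
  A : ι → Div S.W
  w : ι → ℤ
  l : ℕ
  c : ℤ
  m : ℕ
  β : Type
  [fβ : Fintype β]
  [dβ : DecidableEq β]
  [nβ : Nonempty β]
  a : β → ι
  e : β → K
  e_mem : ∀ i, e i ∈ M (A (a i)) m
  r : ℕ

attribute [instance] LD.fι LD.dι LD.fβ LD.dβ LD.nβ

namespace LD

variable {S : Surf K} (D : LD S) (h : S.All)

/-- the data of the Quot space -/
def dat : Qt.Dat (S.spc h) where
  ι := D.ι
  L := fun a => ⟨S.lb h (D.A a), 1, Sl.lb_isBun S h (D.A a)⟩
  w := D.w
  l := D.l
  c := D.c
  m := D.m
  β := D.β
  a := D.a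
  e := fun i => S.sec D.m (D.e i) (D.e_mem i)
  e_wt := fun i => Sl.sec_mem_wt S h _ _ _
  r := D.r

/-- the basis vectors -/
def ev (i : D.β) : D.ι → K := Pi.single (D.a i) (D.e i)

/-- the part of degree `k` of an element of the ambient module -/
def vl (k : ℤ) : (D.dat h).V.M →ₗ[ℂ] (D.ι → K) where
  toFun := fun v a => (show S.lbS (D.A a) from v a).1.coeff k
  map_add' := fun _ _ => rfl
  map_smul' := fun _ _ => rfl

/-- the tautological vectors of a family of coordinates -/
def tv : ((Fin D.r → D.β) → ℂ) →ₗ[ℂ] ((Fin D.r → D.β) × Fin D.r → D.ι → K) :=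
  LinearMap.pi fun s => ∑ i, (LinearMap.toSpanSingleton ℂ _ (D.ev i)).comp
    (LinearMap.proj (Function.update s.1 s.2 i))

variable {h} {W : Spc}

/-- the family generated by the tautological vectors -/
def fam (c : (D.dat h).Crd W) : Fam K W (D.ι → K) where
  D := fun g => LinearMap.pi fun a => algebraMap ℂ K (chr (-c.τ a) g) • LinearMap.proj a
  m := D.m
  B := D.β
  e := D.ev
  τ := fun i => -c.τ (D.a i)
  e_wt := fun i g => funext fun a => by
    change algebraMap ℂ K (chr (-c.τ a) g) • D.ev i a = chr (-c.τ (D.a i)) g • D.ev i a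
    by_cases e : a = D.a i
    · rw [e, algebraMap_smul]
    · rw [ev, Pi.single_eq_of_ne e, smul_zero, smul_zero]
  ι := (Fin D.r → D.β) × Fin D.r
  γ := fun s => c.e + ∑ b ∈ Finset.univ.erase s.2, c.τ (D.a (s.1 b))
  g := fun s i => c.y (Function.update s.1 s.2 i)
  g_wt := fun s i => Qt.wt_eq (c.y_wt _) (by
    change c.e + ∑ b, c.τ (D.a (Function.update s.1 s.2 i b)) = _
    rw [← Finset.add_sum_erase _ _ (Finset.mem_univ s.2), Function.update_self,
      Finset.sum_congr rfl fun b hb => by rw [Function.update_of_ne (Finset.ne_of_mem_erase hb)]]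
    abel)

end LD

namespace Ctx

variable {S : Surf K} (c : Ctx S) (h : S.All)

theorem e_mem (i : c.B) : c.e i ∈ M c.L c.m := c.e_span ▸ Submodule.subset_span ⟨i, rfl⟩

/-- the data of the Quot space of rank one -/
def ld (r : ℕ) : LD S where
  ι := Unit
  A := fun _ => c.L
  w := 0
  l := (inter c.D S.H).toNat
  c := chi c.L - chi (c.L - c.D) + (c.s - r : ℕ)
  m := c.m
  β := c.B
  a := fun _ => ()
  e := c.e
  e_mem := c.e_mem
  r := r

/-- the data of the Quot space of rank one -/
abbrev dat (r : ℕ) : Qt.Dat (S.spc h) := (c.ld r).dat h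

/-- the coordinates on the space of subsheaves -/
def crd (r : ℕ) : (c.dat h r).Crd (c.Xr r) where
  y := c.pl r
  e := c.dp r
  τ := 0
  y_wt := fun J => Qt.wt_eq (c.pl_wt r J) (by funext j; simp)

/-- the level is large for all the Quot spaces of the tower -/
def Big (r₀ : ℕ) : Prop := ∀ r, r₀ ≤ r → r ≤ c.s →
  (sur S h).Big (c.dat h r).V (c.dat h r).l (c.dat h r).c c.m

end Ctx

end Vale.Agent.P297Z.Sf
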