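import Vale.Agent.P297Z.Hb.Deg0
import Vale.Agent.P297Z.K.Fstar0

/-! P297: the degree lemma. -/

namespace Vale.Agent.P297Z.Hb

theorem deg : DEG := deg_of fun _ _ f hX hY P => fstar_oG hX hY P ▸ push_spec P (GMod.one f.gr)

end Vale.Agent.P297Z.Hb
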