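import Vale.Agent.P297Z.Hb.DegPrj
import Vale.Agent.P297Z.Hb.DegDefs
import Vale.Agent.P297Z.K.Prj
import Vale.Agent.P297Z.K.Proj

/-! P297: closed images, and the degree lemma from the description of the push-forward. -/

set_option linter.all false

open scoped TensorProduct

noncomputable section

namespace Vale.Agent.P297Z.Hb

namespace Dg

theorem td_gr {A L ι : Type} [CommRing A] [CommRing L] [IsDomain L] [Algebra ℂ A] [Algebra ℂ L]
    [Algebra.FiniteType ℂ A] [Algebra.FiniteType ℂ L] [Fintype ι] {m : ℕ}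
    (hm : ringKrullDim A = m) (α : A →ₐ[ℂ] L) (t : ι → L) (T : Set L)
    (hT : ∀ b ∈ T, ∃ a a' i, α a ≠ 0 ∧ α a * b = α a' * t i)
    (h : ∀ S : Subalgebra ℂ L, (∀ a, α a ∈ S) → T ⊆ S → ∀ r : L, IsIntegral S r) :
    Dim.td ℂ L ≤ m + Fintype.card ι := by
  let ψ : MvPolynomial ι A →ₐ[ℂ] L := MvPolynomial.aevalTower α t
  have h0 : Algebra.FiniteType ℂ (MvPolynomial ι A) := Algebra.FiniteType.trans (S := A) ‹_›
    inferInstance
  have h1 : Algebra.FiniteType ℂ ψ.range := .of_surjective _ ψ.rangeRestrict_surjective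
  have h2 : ∀ a, IsAlgebraic ψ.range (α a) := fun a =>
    isAlgebraic_algebraMap (⟨_, MvPolynomial.C a, MvPolynomial.aevalTower_C _ _ _⟩ : ψ.range)
  have h3 : ∀ i, IsAlgebraic ψ.range (t i) := fun i =>
    isAlgebraic_algebraMap (⟨_, MvPolynomial.X i, MvPolynomial.aevalTower_X _ _ _⟩ : ψ.range)
  have h4 : Algebra.IsAlgebraic ψ.range L := ⟨fun r => by
    have h5 : IsIntegral (Subalgebra.algebraicClosure ψ.range L) r :=
      h ((Subalgebra.algebraicClosure ψ.range L).restrictScalars ℂ) h2 (fun b hb => by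
        obtain ⟨a, a', i, h5, h6⟩ := hT b hb
        exact IsAlgebraic.of_mul (mem_nonZeroDivisors_of_ne_zero h5) (h2 a)
          (h6 ▸ (h2 a').mul (h3 i))) r
    exact h5.trans_isAlgebraic _⟩
  have h5 : (RingHom.ker ψ.rangeRestrict).IsPrime := RingHom.ker_isPrime _
  rw [← (Dim.td_eq_iff (k := ℂ)).2 h4,
    ← Dim.td_eq_of_equiv (Ideal.quotientKerAlgEquivOfSurjective ψ.rangeRestrict_surjective)]
  refine (Dim.td_quot_poly_le _).trans (Nat.add_le_add_right ?_ _)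
  exact_mod_cast (Dim.td_le_dim (k := ℂ) _).trans hm.le

variable {X Y : Spc}

/-- the point of the product -/
def pair (x : X.Pt) (y : Y.Pt) : (X.prod Y).Pt :=
  ⟨Algebra.TensorProduct.productMap x.1 y.1, (Spc.prod_pt X Y _).2 (by
    simpa using And.intro x.2 y.2)⟩

theorem fst_pair (x : X.Pt) (y : Y.Pt) : (Mor.fst X Y).onPt (pair x y) = x :=
  Subtype.ext (Algebra.TensorProduct.productMap_left x.1 y.1)

theorem snd_pair (x : X.Pt) (y : Y.Pt) : (Mor.snd X Y).onPt (pair x y) = y :=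
  Subtype.ext (Algebra.TensorProduct.productMap_right x.1 y.1)

theorem pair_mem {f : Mor X Y} {x : X.Pt} {y : Y.Pt} (h : Y.Orb (f.onPt x) y) :
    pair x y ∈ f.grS := by
  change Y.Orb (f.onPt ((Mor.fst X Y).onPt _)) ((Mor.snd X Y).onPt _)
  rwa [fst_pair, snd_pair]

theorem td_graph (f : Mor X Y) (hY : Y.IsProj) {m : ℕ} (hm : ringKrullDim X.R = m)
    {p : Ideal f.gr.R} (hp : p ∈ minimalPrimes f.gr.R) :
    Dim.td ℂ (f.gr.R ⧸ p) ≤ m + Fintype.card Y.J := by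
  have := hp.1.1
  obtain ⟨z, hz⟩ := pt_of_min f.gr hp
  have hh := f.gr_homot hY
  obtain ⟨s, h1, h2, h3⟩ := hY
  choose t h4 h5 using (h3 _).1 ((f.comp f.gr1).onPt z).2
  let μ := Ideal.Quotient.mkₐ ℂ p
  refine td_gr hm (μ.comp f.gr1.φ) (fun j => μ (f.gr2.φ (t j)))
    ((μ.comp f.gr2.φ) '' ⋃ j, (s j : Set Y.R)) ?_ fun S k1 k2 r => ?_
  · rintro _ ⟨b, hb, rfl⟩
    obtain ⟨j, hj⟩ := Set.mem_iUnion.1 hb
    refine ⟨f.φ (t j), f.φ b, j, fun o => h5 j (hz _ (Ideal.Quotient.eq_zero_iff_mem.1 o)), ?_⟩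
    exact (map_mul μ _ _).symm.trans ((congrArg μ (hh.rel (h1 j _ (h4 j)) (h1 j b hj))).trans
      (map_mul μ _ _))
  · obtain ⟨r, rfl⟩ := Ideal.Quotient.mk_surjective r
    obtain ⟨r, rfl⟩ := Ideal.Quotient.mk_surjective r
    let ν : X.R ⊗[ℂ] Y.R →ₐ[ℂ] f.gr.R ⧸ p := μ.comp (Mor.incl _ f.grS f.grS_stab).φ
    change IsIntegral S (ν r)
    induction r using TensorProduct.induction_on with
    | zero => exact map_zero ν ▸ isIntegral_zero
    | add a b ha hb => exact map_add ν a b ▸ ha.add hb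
    | tmul a b =>
      have e : ν (a ⊗ₜ b) = ν (a ⊗ₜ 1) * ν (1 ⊗ₜ b) := by
        rw [← map_mul, Algebra.TensorProduct.tmul_mul_tmul, mul_one, one_mul]
      exact e ▸ (int_of_mem (k1 a)).mul
        (int_of_fin h2 (μ.comp f.gr2.φ) (fun x hx => k2 ⟨x, hx, rfl⟩) b)

end Dg

open Dg

theorem clim : CLIM := by
  intro X Y f Z hX hY h1 h2 y hy
  let W : Set (X.prod Y).Pt := {w | (Mor.fst X Y).onPt w ∈ Z ∧ w ∈ f.grS}
  have hW : (X.prod Y).Stab W := fun w hw w' o =>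
    ⟨h1 _ hw.1 _ ((Mor.fst X Y).orb o), f.grS_stab _ hw.2 _ o⟩
  have hc : (X.prod Y).Clo W := fun w hw =>
    ⟨h2 _ fun r hr => hw ((Mor.fst X Y).φ r) fun w' h => hr _ h.1,
      f.grS_clo hY w fun r hr => hw r fun w' h => hr _ h.2⟩
  obtain ⟨z, rfl⟩ := pcl ((Prj.snd hX Y).sub W hW) y fun b hb => hy b (by
    rintro y' ⟨x, h3, h4⟩
    have h5 := Ideal.Quotient.eq_zero_iff_mem.1 hb (pair x y')
      ⟨(fst_pair x y').symm ▸ h3, pair_mem h4⟩
    rw [← snd_pair x y']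
    exact h5)
  exact ⟨_, (Mor.incl_mem hW hc z).1, (Mor.incl_mem hW hc z).2⟩

theorem deg_of
    (H : ∀ (X Y : Spc) (f : Mor X Y), X.IsProj → Y.IsProj → ∀ P : Prj f.gr2,
      Extr (fun γ => kact Y (line Y γ)) (fun k => cls (P.part k (GMod.one f.gr)))
        (fstar f (oG X))) : DEG := by
  rintro X Y f d hX hY ⟨h1, ⟨y⟩⟩ h2 h3 h4
  let P : Prj f.gr2 := (Prj.snd hX Y).sub f.grS f.grS_stab
  obtain ⟨c, h5, h6, h7⟩ := pdeg P hY y h3
    ((injective_iff_map_eq_zero _).2 fun b hb => Y.sep b fun y' hy' => by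
      obtain ⟨x, hx⟩ := h4 ⟨y', hy'⟩
      have h5 := Ideal.Quotient.eq_zero_iff_mem.1 hb _ (pair_mem hx)
      exact (congrArg (fun w : Y.Pt => w.1 b) (snd_pair x ⟨y', hy'⟩)).symm.trans h5)
    (fun p hp => (td_graph f hY h2 hp).trans (Nat.add_right_comm _ _ _).le) (H X Y f hX hY P)
  refine ⟨c, h5, h6, fun hi => h7 fun z z' e => ?_⟩
  refine (Spc.orb_sub _ f.grS_stab _ _).2 ((Spc.orb_prod _ _).2 ⟨hi _ _ ?_, ?_⟩)
  · exact (f.gr_homot hY z).trans (e ▸ (f.gr_homot hY z').symm)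
  · change Y.Orb (f.gr2.onPt z) (f.gr2.onPt z')
    exact e ▸ Spc.Orb.refl _

end Vale.Agent.P297Z.Hb
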