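import Vale.Agent.P297Z.Hb.GeoCnt
import Vale.Agent.P297Z.Hb.GeoFib
import Vale.Agent.P297Z.Hb.Deg0
import Vale.Agent.P297Z.Top.Var

/-! P297: one step in the tower of the spaces of subsheaves. -/

set_option linter.all false

noncomputable section

namespace Vale.Agent.P297Z.Sf.Ctx

open Fb Hb Hb.Ge Dim

variable {K : Type} [Field K] [Algebra ℂ K] {S : Surf K} (c : Ctx S) (h : S.All) (r : ℕ)

/-- the fibres of the first projection -/
def kT (y : (c.Yr h r).Pt) : Submodule ℂ ((Fin r → c.B) → ℂ) :=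
  Kill (c.ug ((c.gr (r + 1)).onPt ((Mor.fst _ _).onPt y)).co)
    (SA.exists_over ((Mor.snd _ _).onPt y)).choose

/-- the nested space is locally cut out by the expected number of equations -/
def LocEq : Prop := Spc.Clo _ (c.XS (r + 1)) → Eqs (c.Yr h r) (c.kT h r)

/-- the strata of the socle -/
def Vs (k : ℕ) : Set ((c.Xr r).prod (S.spc h)).Pt :=
  {y | ∃ Z x, c.IsPt ((c.inc r).onPt ((Mor.fst _ _).onPt y)) Z ∧
    S.Over h ((Mor.snd _ _).onPt y) x ∧ k ≤ soc (Z.J x)}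

/-- the invariant of the induction -/
structure Inv : Prop where
  clo : Spc.Clo _ (c.XS r)
  var : (c.Xr r).IsVar (c.v + 2 * (c.s - r))
  str : ∀ k e, 1 ≤ k → k + e = c.v + 2 * (c.s - r) + 5 → Spc.cdim _ (c.Vs h r k) < e

theorem card_X : Fintype.card (c.Xr r).J = 2 := rfl

theorem card_Y : Fintype.card (c.Yr h r).J = 3 := rfl

theorem card_P : Fintype.card (c.Pr h r).J = 4 := rfl

theorem isProj_am : ((PP c.v).prod (c.Gr r)).IsProj :=
  (isVar_PP c.v).proj.prod (Spc.isProj_pt.adj _)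

variable {c h r} {r₀ : ℕ}

theorem kT_eq {y : (c.Yr h r).Pt} {x : Pt S.W} (hx : S.Over h ((Mor.snd _ _).onPt y) x) :
    c.kT h r y = Kill (c.ug ((c.gr (r + 1)).onPt ((Mor.fst _ _).onPt y)).co) x := by
  rw [SA.over_unique hx (SA.exists_over _).choose_spec]
  rfl

theorem exists_isPt (hc : Spc.Clo _ (c.XS r)) (a : (c.Xr r).Pt) :
    ∃ Z, c.IsPt ((c.inc r).onPt a) Z := Mor.incl_mem _ hc a

theorem NS_eq (hc : Spc.Clo _ (c.XS (r + 1))) : c.NS h r = tot (fun _ => 0) (c.kT h r) :=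
  Set.ext fun n => ⟨fun ⟨_, x, h2, h3⟩ => (kT_eq h2).ge h3,
    fun hn => ⟨exists_isPt hc _, _, (SA.exists_over _).choose_spec, hn⟩⟩

theorem finrank_kT (hB : FibB S) (hR : c.RegAll r₀) (hr : r₀ ≤ r + 1) {y : (c.Yr h r).Pt}
    {Z : Zs S.W} {x : Pt S.W} (hZ : c.IsPt ((c.inc (r + 1)).onPt ((Mor.fst _ _).onPt y)) Z)
    (hx : S.Over h ((Mor.snd _ _).onPt y) x) : Module.finrank ℂ (c.kT h r y) = mu (Z.J x) := by
  rw [kT_eq hx]
  exact hB.mu _ _ Z (hZ.reg hR hr) _ _ ((span_ug hZ.1 (co_ne _)).trans hZ.2.2) x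

theorem soc_top {x : Pt S.W} {Z : Zs S.W} (hx : Z.J x = ⊤) : soc (Z.J x) = 0 :=
  rdim_of_le (hx ▸ fun _ _ => trivial)

/-- the nested space is a variety -/
theorem nested (hB : FibB S) (hR : c.RegAll r₀) (hr : r₀ ≤ r + 1) (hs : r < c.s)
    (hI : c.Inv h (r + 1)) (hL : c.LocEq h r) :
    Spc.Clo _ (c.NS h r) ∧ (c.Nr h r).IsVar (c.v + 2 * (c.s - r)) ∧
      ∃ a ∉ (c.Nr h r).van Set.univ, ∀ n : (c.Nr h r).Pt, n.1 a ≠ 0 →
        Module.finrank ℂ (c.kT h r ((c.πN h r).onPt n)) ≤ 1 := by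
  have hE := hL hI.clo
  have hY := hI.var.prod (SA.isVar h)
  have h1 : ∀ k e, 2 ≤ k → k + e = c.v + 2 * (c.s - (r + 1)) + 5 + 1 →
      (c.Yr h r).cdim {y | k ≤ Module.finrank ℂ (c.kT h r y)} < e := fun k e hk he =>
    (cdim_mono fun y hy => by
      obtain ⟨Z, hZ⟩ := exists_isPt hI.clo ((Mor.fst _ _).onPt y)
      obtain ⟨x, hx⟩ := SA.exists_over ((Mor.snd _ _).onPt y)
      have h2 := (rl S h x).mu_le' _ (Z.fc x)
      have h3 : k ≤ _ := hy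
      rw [finrank_kT hB hR hr hZ hx] at h3
      exact ⟨Z, x, hZ, hx, by omega⟩).trans_lt (hI.str (k - 1) e (by omega) (by omega))
  obtain ⟨h2, h3⟩ := hE.irr (d := fun _ => 0) ⟨hY.dom, hY.ne⟩ hY.dim (by omega) h1
  have h4 := hE.jump (d := fun _ => 0) (by omega) h1
  rw [← NS_eq hI.clo] at h2 h3 h4
  have h5 : (c.Nr h r).IsVar (c.v + 2 * (c.s - r)) := (isVar_sub (hY.proj.adj _) _).2
    ⟨h2, h3.trans (congrArg _ (by rw [card_Y, card_P]; omega))⟩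
  refine ⟨NS_eq (h := h) hI.clo ▸ hE.clo, h5, ?_⟩
  by_contra o
  push Not at o
  rw [← cdim_preimage_incl (c.NS_stab h r) Set.inter_subset_left] at h4
  refine ((var_cdim h5).ge.trans (cdim_le_of_van fun a ha => ?_)).not_gt
    (h4.trans_eq (congrArg _ (show _ = _ + 4 by omega)))
  by_contra o'
  obtain ⟨n, h6, h7⟩ := o a o'
  exact h6 (ha n ⟨Mor.incl_mem _ (NS_eq (h := h) hI.clo ▸ hE.clo) n, h7⟩)

theorem exists_soc (Z : Zs S.W) (hA : FibA S) (h : S.All) (h0 : Z.len ≠ 0) :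
    ∃ x, 1 ≤ soc (Z.J x) := by
  obtain ⟨x, hx⟩ := not_forall.1 (mt (hA.len_zero Z).2 h0)
  exact ⟨x, (las S h x).soc_pos _ (Z.fc x) hx⟩

theorem exists_co {ι : Type} [Fintype ι] [Nonempty ι] {T : Submodule ℂ (ι → ℂ)}
    (hT : 1 ≤ Module.finrank ℂ T) : ∃ p : (PI ι).Pt, p.co ∈ T := by
  obtain ⟨l, h1, h2⟩ := T.ne_bot_iff.1 (Submodule.one_le_finrank_iff.1 hT)
  exact ⟨adjPt _ o l h2, (co_adjPt _ h2).symm ▸ h1⟩

theorem XS_eq (hA : FibA S) (hB : FibB S) (hR : c.RegAll r₀) (hr : r₀ ≤ r) (hs : r < c.s) :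
    c.XS r = (c.ρ0 h r).img (c.NS h r) := by
  refine Set.ext fun w => ⟨fun ⟨Z, hZ⟩ => ?_, fun ⟨n, h1, h2⟩ =>
    c.XS_stab r _ (maps hB hR (by omega) n h1) _ h2⟩
  obtain ⟨x, hx⟩ := exists_soc Z hA h (by have := hZ.2.1; omega)
  obtain ⟨T, h1, h2, -⟩ := fibre (h := h) hB hR hr hZ x
  obtain ⟨p, hp⟩ := exists_co (h1 ▸ hx)
  obtain ⟨z, hz⟩ := SA.exists_pt h x
  obtain ⟨n, h3, h4, -⟩ := h2 p hp z hz
  exact ⟨n, h3, h4 ▸ Spc.Orb.refl _⟩

theorem inc_ρN (H : c.Maps h r) (n : (c.Nr h r).Pt) :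
    (c.inc r).onPt ((c.ρN h r H).onPt n) = (c.ρ0 h r).onPt ((c.incN h r).onPt n) :=
  Subtype.ext (AlgHom.ext fun _ => rfl)

theorem incN_mem (hN : Spc.Clo _ (c.NS h r)) (n : (c.Nr h r).Pt) :
    (c.incN h r).onPt n ∈ c.NS h r := Mor.incl_mem _ hN n

theorem exists_incN {w : (c.Pr h r).Pt} (hw : w ∈ c.NS h r) : ∃ n, (c.incN h r).onPt n = w :=
  exists_incl _ hw

theorem cdim_over (x : Pt S.W) : (S.spc h).cdim {z | S.Over h z x} = (1 : ℕ) := by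
  obtain ⟨z, hz⟩ := SA.exists_pt h x
  rw [show {z | S.Over h z x} = {z' | (S.spc h).Orb z z'} from
    Set.ext fun _ => ⟨SA.orb_of_over hz, SA.over_of_orb hz⟩]
  exact cdim_orb (SA.free h) z

theorem lf (hA : FibA S) (hB : FibB S) (hR : c.RegAll r₀) (hr : r₀ ≤ r) (hs : r < c.s)
    (hc : Spc.Clo _ (c.XS r)) (hN : Spc.Clo _ (c.NS h r)) (H : c.Maps h r)
    {s : ((c.Xr r).prod (S.spc h)).Pt → ℕ} (e : ∀ y Z x,
      c.IsPt ((c.inc r).onPt ((Mor.fst _ _).onPt y)) Z → S.Over h ((Mor.snd _ _).onPt y) x →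
      soc (Z.J x) = s y) :
    Lf (c.ρN h r H) ((c.spt h r).comp (c.incN h r)) ((κ0 c r h).comp (c.incN h r)) s where
  inj n n' h1 h2 h3 := incl_inj (c.NS_stab h r) (P_ext
    ((inc_ρN H n).symm.trans (h1 ▸ inc_ρN H n')) h2 h3)
  fib y := by
    obtain ⟨Z', hZ⟩ := exists_isPt hc ((Mor.fst _ _).onPt y)
    obtain ⟨x, hx⟩ := SA.exists_over ((Mor.snd _ _).onPt y)
    obtain ⟨T, h1, h2, h3⟩ := fibre (h := h) hB hR hr hZ x
    refine ⟨T, h1.trans (e y Z' x hZ hx), Set.ext fun p => ⟨?_, fun hp => ?_⟩⟩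
    · rintro ⟨n, hn, rfl⟩
      obtain ⟨Z, Z₁, x₁, hd⟩ := exists_dat hB hR (by omega) (incN_mem hN n)
      have h4 : (c.ρ0 h r).onPt ((c.incN h r).onPt n) = (c.inc r).onPt ((Mor.fst _ _).onPt y) := by
        rw [← inc_ρN H, Eq.symm hn, fst_lift]
      rw [Eq.symm hn, snd_lift] at hx
      obtain rfl := SA.over_unique hx hd.ov
      obtain rfl := hZ.uniq hB hR hr (h4 ▸ hd.pt')
      exact h3 _ Z hd h4
    · obtain ⟨n, h4, h5, h6, h7⟩ := h2 p hp _ hx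
      obtain ⟨n, rfl⟩ := exists_incN h4
      refine ⟨n, prod_pt_ext ?_ ((snd_lift _ _ _).trans h6), h7⟩
      rw [fst_lift]
      exact incl_inj (c.XS_stab r) ((inc_ρN H n).trans h5)
  one a := by
    obtain ⟨Z, hZ⟩ := exists_isPt hc a
    have e' : ∀ z x, S.Over h z x → soc (Z.J x) = s (pair a z) := fun z x hx =>
      e _ Z x (by rwa [fst_pair]) (by rwa [snd_pair])
    refine le_antisymm (le_iff_lt_succ.2 ((cdim_mono fun z hz => ?_).trans_lt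
      (cdim_iUnion_lt (ι := Z.fin.toFinset) (Z := fun x => {z | S.Over h z x.1}) fun x =>
        le_iff_lt_succ.1 (cdim_over x.1).le))) ?_
    · obtain ⟨x, hx⟩ := SA.exists_over z
      refine Set.mem_iUnion.2 ⟨⟨x, Z.fin.mem_toFinset.2 fun o => ?_⟩, hx⟩
      have h1 : 1 ≤ _ := hz
      rw [← e' z x hx, soc_top o] at h1
      omega
    · obtain ⟨x, hx⟩ := exists_soc Z hA h (by have := hZ.2.1; omega)
      exact (cdim_over x).ge.trans (cdim_mono fun z hz => hx.trans_eq (e' z x hz))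

/-- the step of the induction -/
theorem step (hA : FibA S) (hB : FibB S) (hR : c.RegAll r₀) (hr : r₀ ≤ r) (hs : r < c.s)
    (hI : c.Inv h (r + 1)) (hL : c.LocEq h r) : c.Inv h r ∧ Spc.Clo _ (c.NS h r) ∧
      (c.Nr h r).IsVar (c.v + 2 * (c.s - r)) ∧
      ∀ H : c.Maps h r, Function.Surjective (c.ρN h r H).onPt := by
  obtain ⟨hN, hV, a, ha, h1⟩ := nested hB hR (by omega) hs hI hL
  have hc : Spc.Clo _ (c.XS r) := XS_eq (h := h) hA hB hR hr hs ▸ clim _ _ _ _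
    ((hI.var.prod (SA.isVar h)).proj.adj _) (c.isProj_am r) (c.NS_stab h r) hN
  have H := maps (h := h) hB hR (show r₀ ≤ r + 1 by omega)
  have h2 : ∀ y : ((c.Xr r).prod (S.spc h)).Pt, ∃ k, ∀ Z x,
      c.IsPt ((c.inc r).onPt ((Mor.fst _ _).onPt y)) Z → S.Over h ((Mor.snd _ _).onPt y) x →
      soc (Z.J x) = k := fun y => by
    obtain ⟨Z, hZ⟩ := exists_isPt hc ((Mor.fst _ _).onPt y)
    obtain ⟨x, hx⟩ := SA.exists_over ((Mor.snd _ _).onPt y)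
    refine ⟨soc (Z.J x), fun Z' x' hZ' hx' => ?_⟩
    rw [hZ'.uniq hB hR hr hZ, SA.over_unique hx' hx]
  choose s e using h2
  have hF := lf hA hB hR hr hs hc hN H e
  have hp := var_prime hV
  have hD : (c.Nr h r).cdim Set.univ = (c.v + 2 * (c.s - r) + 2 + 2 : ℕ) := var_cdim hV
  have h3 := hF.lower hD.ge ha fun n hn => by
    obtain ⟨Z, Z', x, hd⟩ := exists_dat hB hR (by omega) (incN_mem hN n)
    have h3 := h1 n hn
    rw [finrank_kT (y := (c.πN h r).onPt n) hB hR (by omega) hd.pt hd.ov] at h3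
    rw [← e _ Z' x (by rw [fst_lift, inc_ρN]; exact hd.pt') (by rw [snd_lift]; exact hd.ov),
      (hB.step_pt _ _ _ hd.step).2 ((las S h x).mu_one _ (Z.fc x) h3), (las S h x).soc_max]
  have h4 : (c.Xr r).Irr := irr_of_surj (f := c.ρN h r H)
    (fun y => let ⟨n, e⟩ := hF.surj y; ⟨n, e ▸ Spc.Orb.refl _⟩) ⟨hV.dom, hV.ne⟩
  exact ⟨⟨hc, ⟨(c.isProj_am r).sub _ _, h4.1, h4.2,
    cdim_univ.symm.trans (le_antisymm (hF.upper hD.le) h3)⟩, fun k e' hk he =>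
    (cdim_mono (Z := c.Vs h r k) fun y ⟨Z, x, h5, h6, h7⟩ =>
      h7.trans_eq (e y Z x h5 h6)).trans_lt (hF.strata hD.le hk he)⟩, hN, hV, fun _ => hF.surj⟩

/-- the first step is one to one -/
theorem injO (hA : FibA S) (hB : FibB S) (hR : c.RegAll r₀) (hr : r₀ ≤ r) (hs : r + 1 = c.s)
    (hN : Spc.Clo _ (c.NS h r)) (H : c.Maps h r) : (c.ρN h r H).InjO := fun n n' ho => by
  have h1 := (c.inc r).orb ho
  rw [inc_ρN, inc_ρN] at h1
  obtain ⟨Z, Y, x, hd⟩ := exists_dat hB hR (by omega) (incN_mem hN n)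
  obtain ⟨Z', Y', x', hd'⟩ := exists_dat hB hR (by omega) (incN_mem hN n')
  obtain rfl := (hd.pt'.orb c h1).uniq hB hR hr hd'.pt'
  have h2 : Z.len = 0 := by have := hd.pt.2.1; omega
  have h3 : Z'.len = 0 := by have := hd'.pt.2.1; omega
  obtain rfl : x = x' := by
    by_contra o
    exact (hB.step_pt _ _ _ hd.step).1 ((hd'.step.eq x o).trans ((hA.len_zero Z').1 h3 x))
  have h4 := (Mor.fst _ _).orb h1
  rw [fst_ρ0, fst_ρ0] at h4
  have h5 := hd.pt.2.2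
  have h6 := hd'.pt.2.2
  rw [hA.zero _ _ _ h2] at h5
  rw [hA.zero _ _ _ h3, c.A_orb h4, ← h5] at h6
  obtain ⟨J, hJ⟩ := Function.ne_iff.1 (co_ne ((κ0 c r h).onPt ((c.incN h r).onPt n')))
  obtain ⟨J', hJ'⟩ := Function.ne_iff.1 (co_ne ((κ0 c r h).onPt ((c.incN h r).onPt n)))
  obtain ⟨t, -, h7⟩ := hd'.pt.1.eq_of_sub hd.pt.1 hJ hJ' (Usp_inj h6.ge)
  obtain ⟨t', -, h8⟩ := co_orb ((Mor.snd _ _).orb h1)
  rw [co_ρ0, co_ρ0] at h8
  exact (Spc.orb_sub _ _ _ _).2 (orb_adj ((Spc.orb_prod _ _).2 ⟨(Spc.orb_sub _ _ _ _).2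
    ((Spc.orb_prod _ _).2 ⟨h4, (PI_orb (funext h7)).symm⟩), SA.orb_of_over hd.ov hd'.ov⟩) h8)

end Vale.Agent.P297Z.Sf.Ctx
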