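import Vale.Agent.P297Z.Hb.Fam1
import Vale.Agent.P297Z.Surf.SspB1

/-! P297: families of subsheaves given by generators: the classes. -/

set_option linter.all false

noncomputable section

namespace Vale.Agent.P297Z.Sf

open Pw GMod AK

variable {K : Type} [Field K] [Algebra ℂ K] {S : Surf K} {W X Y : Spc}

namespace F2

variable {ι : Type} [Fintype ι]

theorem Fr_bun (d : ι → X.J → ℤ) : (Dg.Fr X d).IsBun (Fintype.card ι) := by
  have := isBun_pi (M := fun i => (one X).shift (-d i)) (r := fun _ => 1)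
    fun i => (isBun_one X).shift _
  rwa [Finset.sum_const, Finset.card_univ, smul_eq_mul, mul_one] at this

theorem kc_Fr (d : ι → X.J → ℤ) : kc (Dg.Fr X d) (Fintype.card ι) = ∑ i, line X (-d i) := by
  have := kc_pi (M := fun i => (one X).shift (-d i)) (r := fun _ => 1)
    fun i => (isBun_one X).shift _
  rwa [Finset.sum_const, Finset.card_univ, smul_eq_mul, mul_one] at this

/-- the coordinates of an element of a submodule of a free module -/
def vl {d : ι → X.J → ℤ} {N : Submodule X.R (ι → X.R)} {hN : (Dg.Fr X d).Stab N}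
    (k : ((Dg.Fr X d).sub N hN).M) : ι → X.R := k.1

theorem vl_act {d : ι → X.J → ℤ} {N : Submodule X.R (ι → X.R)} {hN : (Dg.Fr X d).Stab N}
    (g : X.J → ℂˣ) (k : ((Dg.Fr X d).sub N hN).M) (i : ι) :
    vl (((Dg.Fr X d).sub N hN).act g k) i = chr (d i) g • X.act g (vl k i) :=
  congrFun (Dg.Fr_act d g k.1) i

theorem map_ρ (f : Mor W X) (γ : X.J → ℤ) (δ : Y.J → ℤ) :
    (f.map (Mor.id Y)).ρ (Sum.elim γ δ) = Sum.elim (f.ρ γ) δ := by
  funext j
  rcases j with j | j
  · exact add_zero _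
  · exact zero_add _

theorem pt_zero (h : S.All) (w : (X.prod (S.spc h)).Pt) {r r' : (X.prod (S.spc h)).R}
    (e : evz h ((Mor.fst X (S.spc h)).onPt w) r = evz h ((Mor.fst X (S.spc h)).onPt w) r') :
    w.1 (r - r') = 0 := by
  rw [map_sub, evp_pt w r, evp_pt w r', sub_eq_zero]
  exact congrArg _ e

theorem spc_ne (h : S.All) : Nonempty (S.spc h).Pt := by
  haveI := S.ring_ft
  obtain ⟨z, hz⟩ := exists_hom_ne (S.lin_ne_zero (w := ⟨S.x 0, S.x_mem 0⟩) (S.x_ne 0))
  exact ⟨⟨z, _, Ideal.subset_span ⟨_, rfl⟩, hz⟩⟩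

/-- the coefficients of the elements of the ring -/
def cq (S : Surf K) (j : ℤ) : S.ring →ₗ[ℂ] K where
  toFun := fun r => r.1.coeff j
  map_add' := fun _ _ => rfl
  map_smul' := fun _ _ => rfl

theorem cq_smul {A : Div S.W} (r : S.ring) {m : ℤ} {a : K} (ha : a ∈ M A m) (j : ℤ) :
    (r • S.sec m a ha : S.lbS A).1.coeff (m + j) = cq S j r • a := by
  rw [Sl.coe_smul, Sl.coe_sec, mul_comm, mon, ← LaurentPolynomial.single_eq_C_mul_T,
    AddMonoidAlgebra.coeff_single_mul_apply, neg_add_cancel_left, smul_eq_mul, mul_comm]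
  rfl

theorem lc_eq_zero {A : Div S.W} {m : ℤ} {u : ι → K} (hu : ∀ a, u a ∈ M A m) (c : ι → S.ring) :
    Fintype.linearCombination S.ring (fun a => S.sec m (u a) (hu a)) c = 0 ↔
      ∀ j, ∑ a, cq S j (c a) • u a = 0 := by
  have e : ∀ j, (Fintype.linearCombination S.ring (fun a => S.sec m (u a) (hu a)) c).1.coeff
      (m + j) = ∑ a, cq S j (c a) • u a := fun j => by
    rw [Fintype.linearCombination_apply, Submodule.coe_sum, AddMonoidAlgebra.coeff_sum,
      Finsupp.finset_sum_apply]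
    exact Finset.sum_congr rfl fun a _ => cq_smul _ _ j
  refine ⟨fun H j => by rw [← e, H]; rfl, fun H =>
    Subtype.ext (AddMonoidAlgebra.ext (Finsupp.ext fun j => ?_))⟩
  rw [← add_sub_cancel m j, e, H]
  rfl

theorem lc_surj (h : S.All) {A : Div S.W} {m : ℕ} {u : ι → K} (hu : ∀ a, u a ∈ M A m)
    (hA : ∀ j : ℕ, Gn S.W u j = M A (m + j)) (z : (S.spc h).Pt) (b : S.lbS A) :
    ∃ (r : S.ring) (c : ι → S.ring), z.1 r ≠ 0 ∧
      Fintype.linearCombination S.ring (fun a => S.sec m (u a) (hu a)) c = r • b := by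
  obtain ⟨w, hw⟩ : ∃ w, z.1 (S.lin w) ≠ 0 := (exists_span_ne (B := (S.spc h).R) S.lin z.1).1 z.2
  induction b using S.lbS_induction with
  | h0 => exact ⟨1, 0, ev_one, by rw [map_zero, smul_zero]⟩
  | hm n a ha =>
    obtain ⟨i, j, e⟩ : ∃ i j : ℕ, (i : ℤ) + n = m + j :=
      ⟨(m - n).toNat, (n - m).toNat, by omega⟩
    have H := S.Wp_mul_M A i n _ (S.Wp_nat i ▸ SA.pow_mem w i) a ha
    rw [e, ← hA] at H
    obtain ⟨c, hc, H⟩ := H
    refine ⟨S.lin w ^ i, fun a => S.form j (c a) (hc a), ev_pow hw i, Subtype.ext ?_⟩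
    rw [Fintype.linearCombination_apply, Submodule.coe_sum, SA.lin_pow, Sl.coe_smul, Sl.coe_sec]
    refine Eq.trans ?_ (mon_mul _ _ _ _).symm
    rw [← H, e, add_comm]
    refine Eq.trans ?_ (map_sum (monL ((j : ℤ) + m)) _ _).symm
    exact Finset.sum_congr rfl fun a _ => mon_mul _ _ _ _
  | ha f g hf hg =>
    obtain ⟨r, c, hr, e⟩ := hf
    obtain ⟨r', c', hr', e'⟩ := hg
    exact ⟨r * r', r' • c + r • c', ev_mul hr hr', by
      rw [map_add, map_smul, map_smul, e, e', smul_add, smul_smul, smul_smul, mul_comm r' r]⟩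

end F2

open F2

section V

variable {V V' : Type} [AddCommGroup V] [Module K V] [Module ℂ V] [IsScalarTower ℂ K V]
  [AddCommGroup V'] [Module K V'] [Module ℂ V'] [IsScalarTower ℂ K V']

namespace Fam

variable {F : Fam K X V} {F' : Fam K X V'} {h : S.All} {ρ ρ' : ℕ}

/-- the coordinates of a relation -/
def kl (k : (F.KM h).M) : F.ι → (X.prod (S.spc h)).R := k.1

/-- a relation as an element of the module -/
def mkK (v : F.ι → (X.prod (S.spc h)).R) (hv : v ∈ F.Kt h) : (F.KM h).M := ⟨v, hv⟩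

theorem kl_mem (k : (F.KM h).M) : kl k ∈ F.Kt h := k.2

theorem kl_ext {k k' : (F.KM h).M} (e : ∀ a, kl k a = kl k' a) : k = k' := Subtype.ext (funext e)

theorem kl_act (g : (X.prod (S.spc h)).J → ℂˣ) (k : (F.KM h).M) (a : F.ι) :
    kl ((F.KM h).act g k) a = chr (F.deg h a) g • (X.prod (S.spc h)).act g (kl k a) :=
  vl_act (hN := F.Kt_stab h) g k a

/-- every relation at a point extends -/
theorem Flat.lift_all (hF : F.Flat S ρ) (h : S.All) (z : X.Pt) (c : F.ι → S.ring)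
    (hc : ∀ j : ℤ, ∑ a, cq S j (c a) • F.u z a = 0) :
    ∃ k ∈ F.Kt h, ∀ a, evz h z (k a) = c a := by
  classical
  have H : ∀ j : ℕ, (fun a => (c a).1.coeff j) ∈ RelV S.W (F.u z) j := fun j =>
    ⟨fun a => S.Wp_nat j ▸ S.mem_ring.1 (c a).2 j, hc j⟩
  choose k hk h1 h2 using fun j => hF.lift h z (H j)
  let T : Finset ℕ := (Finset.univ.biUnion fun a => (c a).1.coeff.support).image Int.toNat
  refine ⟨∑ j ∈ T, k j, Submodule.sum_mem _ fun j _ => hk j, fun a =>
    Subtype.ext (AddMonoidAlgebra.ext (Finsupp.ext fun i => ?_))⟩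
  change cf h z i ((∑ j ∈ T, k j) a) = _
  rw [Finset.sum_apply, map_sum]
  rcases lt_or_ge i 0 with hi | hi
  · have := S.mem_ring.1 (c a).2 i
    rw [S.Wp_neg hi, Submodule.mem_bot] at this
    rw [this]
    exact Finset.sum_eq_zero fun j _ => h2 j a z i (by omega)
  · lift i to ℕ using hi
    rw [Finset.sum_eq_single i (fun j _ e => h2 j a z i (by omega)) fun hi => ?_, h1]
    rw [h1]
    by_contra h0
    exact hi (Finset.mem_image.2 ⟨i, Finset.mem_biUnion.2 ⟨a, Finset.mem_univ _,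
      Finsupp.mem_support_iff.2 h0⟩, rfl⟩)

/-- surjectivity on the module of relations is seen on the fibres -/
theorem Flat.surj_KM (hF : F.Flat S ρ) {A : Type} [AddCommGroup A]
    [Module (X.prod (S.spc h)).R A] (L : A →ₗ[(X.prod (S.spc h)).R] (F.KM h).M)
    (hL : ∀ z, ∀ k ∈ F.Kt h, ∃ x, ∀ a, evz h z (kl (L x) a) = evz h z (k a))
    (w : (X.prod (S.spc h)).Pt) : SurjAt w.1 L := by
  refine surjAt_iff_fib.2 fun y => ?_
  obtain ⟨k, rfl⟩ := fib_surj y
  obtain ⟨x, hx⟩ := hL ((Mor.fst X (S.spc h)).onPt w) (kl k) (kl_mem k)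
  refine ⟨Submodule.Quotient.mk x, ?_⟩
  rw [fibMap_mk, ← sub_eq_zero, ← Submodule.Quotient.mk_sub]
  obtain ⟨r, hr, H⟩ := hF.tor ((Mor.fst X (S.spc h)).onPt w) (kl_mem (L x - k)) fun a j => by
    change cq S j (evz h _ (kl (L x) a - kl k a)) = 0
    rw [map_sub, hx, sub_self, map_zero]
  refine fib_eq_zero (r := (Mor.fst X (S.spc h)).φ r) hr ?_
  rw [← Submodule.Quotient.mk_smul, Submodule.Quotient.mk_eq_zero]
  refine (Submodule.mem_smul_top_iff (RingHom.ker w.1) (F.Kt h) _).2 ?_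
  exact Submodule.smul_mono_left (Ideal.map_le_iff_le_comap.2 fun t ht => ht) H

/-- the module of relations as a pull-back -/
theorem Flat.Kcl_eq (hF : F.Flat S ρ) (φ : Mor (X.prod (S.spc h)) Y) (d : F.ι → Y.J → ℤ)
    (hd : ∀ a, F.deg h a = φ.ρ (d a)) (N : Submodule Y.R (F.ι → Y.R)) (hN : (Dg.Fr Y d).Stab N)
    (hB : ((Dg.Fr Y d).sub N hN).IsBun (Fintype.card F.ι - ρ))
    (h1 : ∀ n ∈ N, (fun a => φ.φ (n a)) ∈ F.Kt h)
    (h2 : ∀ z, ∀ k ∈ F.Kt h, ∃ n ∈ N, ∀ a, evz h z (φ.φ (n a)) = evz h z (k a)) :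
    F.Kcl h ρ = pullK φ (kc ((Dg.Fr Y d).sub N hN) (Fintype.card F.ι - ρ)) := by
  obtain ⟨L, hL⟩ := exists_plift φ ((Dg.Fr Y d).sub N hN) (V := (F.KM h).M)
    { toFun := fun n => mkK (fun a => φ.φ (vl n a)) (h1 n.1 n.2)
      map_zero' := kl_ext fun a => map_zero φ.φ
      map_add' := fun n n' => kl_ext fun a => map_add φ.φ (vl n a) (vl n' a) }
    fun s n => kl_ext fun a => map_mul φ.φ s (vl n a)
  have hL' : ∀ n a, kl (L (pu φ _ n)) a = φ.φ (vl n a) := fun n a => by rw [hL]; rfl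
  rw [pullK_kc φ hB]
  refine (kc_qis (f := L) ⟨isHom_pu fun t n => kl_ext fun a => ?_, fun w =>
    isoAt_of_surjAt (hB.pull φ w) (hF.isBun h w) (hF.surj_KM L (fun z k hk => ?_) w)⟩ _).symm
  · rw [kl_act, hL', hL', vl_act, map_smul, φ.act_map, chr_tor, hd]
  · obtain ⟨n, hn, e⟩ := h2 z k hk
    exact ⟨pu φ _ ⟨n, hn⟩, fun a => (congrArg (evz h z) (hL' ⟨n, hn⟩ a)).trans (e a)⟩

theorem Flat.rk_Ecl [Nonempty X.Pt] (hF : F.Flat S ρ) (h : S.All) : rk _ (F.Ecl h ρ) = ρ := by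
  have := hF.le
  rw [Ecl, map_sub, map_sum, Kcl, rk_kc (hF.isBun h)]
  simp only [rk_line, Finset.sum_const, Finset.card_univ, smul_eq_mul, nsmul_eq_mul, mul_one]
  omega

theorem Flat.Kcl_pull (hF : F.Flat S ρ) (h : S.All) (f : Mor W X) :
    (F.pull f).Kcl h ρ = pullK (f.map (Mor.id _)) (F.Kcl h ρ) := by
  refine (hF.pull f).Kcl_eq (f.map (Mor.id _)) (F.deg h) (fun a => (map_ρ f _ _).symm) (F.Kt h)
    (F.Kt_stab h) (hF.isBun h) (fun n hn w j => ?_) fun w k hk => ?_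
  · simp only [cf_map, u_pull]
    exact hn _ j
  · obtain ⟨n, hn, e⟩ := hF.lift_all h (f.onPt w) (fun a => evz h w (k a)) fun j => by
      rw [← u_pull]
      exact hk w j
    exact ⟨n, hn, fun a => (evp_map f w _).trans (e a)⟩

theorem Flat.Ecl_pull (hF : F.Flat S ρ) (h : S.All) (f : Mor W X) :
    (F.pull f).Ecl h ρ = pullK (f.map (Mor.id _)) (F.Ecl h ρ) := by
  rw [Ecl, Ecl, map_sub, map_sum, hF.Kcl_pull]
  congr 1
  refine Finset.sum_congr rfl fun a _ => ?_
  rw [pullK_line, map_neg]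
  exact congrArg (fun t => line _ (-t)) (map_ρ f _ _).symm

theorem Flat.app (hF : F.Flat S ρ) (F₂ : Fam K X V) (hD : F₂.D = F.D)
    (e : ∀ z a, F₂.u z a ∈ Submodule.span ℂ (Set.range (F.u z))) : (F.app F₂ hD).Flat S ρ :=
  hF.of_span fun z => by
    rw [u_app]
    refine (congrArg _ (Set.Sum.elim_range _ _)).trans ?_
    rw [Submodule.span_union, sup_eq_left, Submodule.span_le]
    rintro _ ⟨a, rfl⟩
    exact e z a

theorem mem_app {F₂ : Fam K X V} {hD : F₂.D = F.D} {k : F.ι ⊕ F₂.ι → (X.prod (S.spc h)).R} :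
    k ∈ (F.app F₂ hD).Kt h ↔ ∀ z j, ∑ a, cf h z j (k (.inl a)) • F.u z a +
      ∑ a, cf h z j (k (.inr a)) • F₂.u z a = 0 :=
  forall₂_congr fun z j => by
    rw [u_app]
    exact Eq.congr_left (Fintype.sum_sum_type _)

theorem deg_app {F₂ : Fam K X V} {hD : F₂.D = F.D} (hm : F₂.m = F.m) (b : F₂.ι) :
    (F.app F₂ hD).deg h (.inr b) = F₂.deg h b := by
  unfold deg
  rw [hm]
  rfl

theorem Flat.Kcl_app [Nonempty X.Pt] (hF : F.Flat S ρ) (h : S.All) (F₂ : Fam K X V)
    (hD : F₂.D = F.D) (hm : F₂.m = F.m)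
    (e : ∀ z a, F₂.u z a ∈ Submodule.span ℂ (Set.range (F.u z))) :
    (F.app F₂ hD).Kcl h ρ = F.Kcl h ρ + ∑ a, line _ (-F₂.deg h a) := by
  have hG := hF.app F₂ hD e
  let i : (F.KM h).M →ₗ[(X.prod (S.spc h)).R] ((F.app F₂ hD).KM h).M :=
    { toFun := fun k => mkK (Sum.elim (kl k) 0) (mem_app.2 fun z j => by
        simpa using kl_mem k z j)
      map_add' := fun k k' => kl_ext fun a => by
        rcases a with a | a
        exacts [rfl, (add_zero _).symm]
      map_smul' := fun r k => kl_ext fun a => by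
        rcases a with a | a
        exacts [rfl, (mul_zero r).symm] }
  let p : ((F.app F₂ hD).KM h).M →ₗ[(X.prod (S.spc h)).R] (F₂.ι → (X.prod (S.spc h)).R) :=
    { toFun := fun k b => kl k (.inr b)
      map_add' := fun _ _ => rfl
      map_smul' := fun _ _ => rfl }
  have hp : ∀ w : (X.prod (S.spc h)).Pt, SurjAt w.1 p := fun w => by
    refine surjAt_iff_fib.2 fun y => ?_
    obtain ⟨v, rfl⟩ := fib_surj y
    let z := (Mor.fst X (S.spc h)).onPt w
    choose t ht using fun b => (Submodule.mem_span_range_iff_exists_fun ℂ).1 (e z b)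
    obtain ⟨k, hk, e'⟩ := hG.lift_all h z
      (Sum.elim (fun a => -∑ b, t b a • evz h z (v b)) fun b => evz h z (v b)) fun j => by
        rw [u_app]
        refine (Fintype.sum_sum_type _).trans ?_
        simp only [Sum.elim_inl, Sum.elim_inr, map_neg, map_sum, map_smul, ← ht, neg_smul,
          Finset.sum_neg_distrib, Finset.sum_smul, Finset.smul_sum, smul_assoc]
        rw [Finset.sum_comm, neg_add_eq_zero]
        exact Finset.sum_congr rfl fun b _ => Finset.sum_congr rfl fun a _ => smul_comm _ _ _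
    refine ⟨Submodule.Quotient.mk (mkK k hk), ?_⟩
    rw [fibMap_mk, ← sub_eq_zero, ← Submodule.Quotient.mk_sub]
    exact mk_pi_eq_zero.2 fun b => pt_zero h w (e' (.inr b))
  have H : SES (F.KM h) ((F.app F₂ hD).KM h) (Dg.Fr _ (F₂.deg h)) i p := by
    refine ⟨fun g k => kl_ext fun a => Eq.trans ?_ (kl_act g _ a).symm,
      Dg.isHom_Fr.2 fun g k => funext fun b => ?_, fun _ => rfl, fun w =>
      ⟨InjAt.of_inj fun k k' e => kl_ext fun a => congrFun (congrArg kl e) (.inl a),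
        ExAt.of_ker fun k hk => ?_, hp w⟩⟩
    · rcases a with a | a
      · exact kl_act g k a
      · exact ((congrArg (chr _ g • ·) (map_zero _)).trans (smul_zero _)).symm
    · exact (kl_act g k (.inr b)).trans (by rw [deg_app hm]; rfl)
    · have h0 : ∀ b, kl k (.inr b) = 0 := congrFun hk
      refine ⟨mkK (fun a => kl k (.inl a)) fun z j => ?_, kl_ext fun a => ?_⟩
      · simpa [h0] using mem_app.1 (kl_mem k) z j
      · rcases a with a | a
        exacts [rfl, (h0 a).symm]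
  have := kc_ses H (hF.isBun h) (Fr_bun _)
  rw [kc_Fr] at this
  refine Eq.trans (congrArg (kc _) ?_) this
  have := hF.le
  rw [show Fintype.card (F.app F₂ hD).ι = _ from Fintype.card_sum]
  omega

theorem Flat.Ecl_app [Nonempty X.Pt] (hF : F.Flat S ρ) (h : S.All) (F₂ : Fam K X V)
    (hD : F₂.D = F.D) (hm : F₂.m = F.m)
    (e : ∀ z a, F₂.u z a ∈ Submodule.span ℂ (Set.range (F.u z))) :
    (F.app F₂ hD).Ecl h ρ = F.Ecl h ρ := by
  rw [Ecl, hF.Kcl_app h F₂ hD hm e, Ecl]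
  have : ∑ a, line _ (-(F.app F₂ hD).deg h a) =
      ∑ a, line _ (-F.deg h a) + ∑ a, line _ (-F₂.deg h a) :=
    (Fintype.sum_sum_type _).trans (congrArg₂ (· + ·) rfl
      (Finset.sum_congr rfl fun b _ => by rw [deg_app hm]))
  rw [this, add_sub_add_right_eq_sub]

/-- the same relations, the degrees are shifted -/
theorem Flat.Ecl_regr (hF : F.Flat S ρ) (h : S.All) (σ : F.ι ≃ F'.ι) (η : X.J → ℤ)
    (hm : F'.m = F.m) (hγ : ∀ a, F'.γ (σ a) = η + F.γ a)
    (e : ∀ z (c : F.ι → K), ∑ a, c a • F'.u z (σ a) = 0 ↔ ∑ a, c a • F.u z a = 0) :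
    F'.Ecl h ρ = pullK (Mor.fst _ _) (line X (-η)) * F.Ecl h ρ := by
  have hd : ∀ a, F'.deg h (σ a) = (Mor.fst X (S.spc h)).ρ η + F.deg h a := fun a => by
    unfold deg
    rw [hm, hγ]
    funext j
    rcases j with j | j
    exacts [rfl, (zero_add _).symm]
  let i : (F.KM h).M →ₗ[(X.prod (S.spc h)).R] (F'.KM h).M :=
    { toFun := fun k => mkK (fun a => kl k (σ.symm a)) fun z j => by
        rw [← σ.sum_comp]
        simp only [σ.symm_apply_apply]
        exact (e z _).2 (kl_mem k z j)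
      map_add' := fun _ _ => rfl
      map_smul' := fun _ _ => rfl }
  let i' : (F'.KM h).M →ₗ[(X.prod (S.spc h)).R] (F.KM h).M :=
    { toFun := fun k => mkK (fun a => kl k (σ a)) fun z j => (e z _).1
        ((σ.sum_comp fun a => cf h z j (kl k a) • F'.u z a).trans (kl_mem k z j))
      map_add' := fun _ _ => rfl
      map_smul' := fun _ _ => rfl }
  have H : Qis ((F.KM h).shift (-(Mor.fst X (S.spc h)).ρ η)) (F'.KM h) i := by
    refine qis_of_inv (fun g k => kl_ext fun a => Eq.trans ?_ (kl_act g _ a).symm) i'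
      (fun k => kl_ext fun a => congrArg (kl k) (σ.symm_apply_apply a))
      fun k => kl_ext fun a => congrArg (kl k) (σ.apply_symm_apply a)
    obtain ⟨a, rfl⟩ := σ.surjective a
    change (F.KM h).M at k
    rw [hd, chr_add, mul_smul]
    change chr (- -(Mor.fst X (S.spc h)).ρ η) g • kl ((F.KM h).act g k) (σ.symm (σ a)) =
      _ • _ • (X.prod (S.spc h)).act g (kl k (σ.symm (σ a)))
    rw [neg_neg, kl_act, σ.symm_apply_apply]
  rw [Ecl, Ecl, Kcl, Kcl, ← kc_qis H, ← Fintype.card_congr σ, kc_shift (hF.isBun h), pullK_line,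
    map_neg, mul_sub, Finset.mul_sum, ← σ.sum_comp]
  congr 1
  exact Finset.sum_congr rfl fun a _ => by rw [hd, neg_add, line_add]

theorem Flat.Ecl_indep [Nonempty X.Pt] (hF : F.Flat S ρ) (h : S.All) (F₂ : Fam K X V)
    (hD : F₂.D = F.D) (hm : F₂.m = F.m) (e : ∀ z,
      Submodule.span ℂ (Set.range (F₂.u z)) = Submodule.span ℂ (Set.range (F.u z))) :
    F₂.Ecl h ρ = F.Ecl h ρ := by
  have e1 : ∀ z a, F₂.u z a ∈ Submodule.span ℂ (Set.range (F.u z)) := fun z a =>
    e z ▸ Submodule.subset_span ⟨a, rfl⟩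
  have e2 : ∀ z a, F.u z a ∈ Submodule.span ℂ (Set.range (F₂.u z)) := fun z a =>
    (e z).symm ▸ Submodule.subset_span ⟨a, rfl⟩
  rw [← hF.Ecl_app h F₂ hD hm e1, ← (hF.of_span e).Ecl_app h F hD.symm hm.symm e2,
    (hF.app F₂ hD e1).Ecl_regr (F' := F₂.app F hD.symm) h (Equiv.sumComm _ _) 0 hm
      (fun a => by rcases a with a | a <;> exact (zero_add _).symm) fun z c => ?_,
    neg_zero, line_zero, map_one, one_mul]
  rw [u_app, u_app]
  exact Eq.congr_left (Finset.sum_congr rfl fun a _ => by rcases a with a | a <;> rfl)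

theorem Flat.Ecl_shift (hF : F.Flat S ρ) (h : S.All) (η : X.J → ℤ) :
    (F.shift η).Ecl h ρ = pullK (Mor.fst _ _) (line X (-η)) * F.Ecl h ρ :=
  hF.Ecl_regr (F' := F.shift η) h (Equiv.refl _) η rfl (fun _ => rfl) fun z c => by
    rw [u_shift]
    rfl

theorem mem_sum {k : F.ι ⊕ F'.ι → (X.prod (S.spc h)).R} : k ∈ (F.sum F').Kt h ↔
    (fun a => k (.inl a)) ∈ F.Kt h ∧ (fun a => k (.inr a)) ∈ F'.Kt h := by
  have : ∀ z j, ∑ a, cf h z j (k a) • (F.sum F').u z a =
      (∑ a, cf h z j (k (.inl a)) • F.u z a, ∑ a, cf h z j (k (.inr a)) • F'.u z a) :=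
    fun z j => by
      rw [u_sum]
      refine (Fintype.sum_sum_type _).trans ?_
      simp [Prod.ext_iff, Prod.fst_sum, Prod.snd_sum]
  exact ⟨fun H => ⟨fun z j => congrArg Prod.fst ((this z j).symm.trans (H z j)),
    fun z j => congrArg Prod.snd ((this z j).symm.trans (H z j))⟩,
    fun H z j => (this z j).trans (Prod.ext (H.1 z j) (H.2 z j))⟩

theorem Flat.Ecl_sum [Nonempty X.Pt] (hF : F.Flat S ρ) (hF' : F'.Flat S ρ') (h : S.All)
    (hm : F'.m = F.m) : (F.sum F').Ecl h (ρ + ρ') = F.Ecl h ρ + F'.Ecl h ρ' := by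
  have hd : ∀ b, (F.sum F').deg h (.inr b) = F'.deg h b := fun b => by
    unfold deg
    rw [hm]
    rfl
  let i : ((F.sum F').KM h).M →ₗ[(X.prod (S.spc h)).R] (F.KM h).M × (F'.KM h).M :=
    { toFun := fun k => (mkK _ (mem_sum.1 (kl_mem k)).1, mkK _ (mem_sum.1 (kl_mem k)).2)
      map_add' := fun _ _ => rfl
      map_smul' := fun _ _ => rfl }
  have H : Qis ((F.sum F').KM h) ((F.KM h).prod (F'.KM h)) i := by
    refine qis_of_bij (fun g k => Prod.ext (kl_ext fun a => ?_) (kl_ext fun a => ?_)) fun w =>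
      ⟨InjAt.of_inj fun k k' e => kl_ext fun a => ?_, SurjAt.of_surj fun k =>
        ⟨mkK (Sum.elim (kl k.1) (kl k.2)) (mem_sum.2 ⟨kl_mem k.1, kl_mem k.2⟩), rfl⟩⟩
    · exact (kl_act g k (.inl a)).trans (kl_act g (i k).1 a).symm
    · refine (kl_act g k (.inr a)).trans (Eq.trans ?_ (kl_act g (i k).2 a).symm)
      rw [hd]
      rfl
    · rcases a with a | a
      exacts [congrFun (congrArg (fun t => kl t.1) e) a, congrFun (congrArg (fun t => kl t.2) e) a]
  have e1 : ∑ a, line _ (-(F.sum F').deg h a) =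
      ∑ a, line _ (-F.deg h a) + ∑ a, line _ (-F'.deg h a) :=
    (Fintype.sum_sum_type _).trans (congrArg₂ (· + ·) rfl
      (Finset.sum_congr rfl fun b _ => by rw [hd]))
  have e2 : Fintype.card (F.sum F').ι - (ρ + ρ') =
      (Fintype.card F.ι - ρ) + (Fintype.card F'.ι - ρ') := by
    have := hF.le
    have := hF'.le
    rw [show Fintype.card (F.sum F').ι = _ from Fintype.card_sum]
    omega
  rw [Ecl, Ecl, Ecl, Kcl, Kcl, Kcl, kc_qis H, e1, e2, kc_prod (hF.isBun h) (hF'.isBun h)]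
  ring

/-- the constant family of a line bundle -/
theorem Ecl_lb [Nonempty X.Pt] (h : S.All) (F : Fam K X K) (A : Div S.W) (u : F.ι → K)
    (hu : ∀ z, F.u z = u) (hγ : ∀ a, F.γ a = 0) (hA : ∀ j : ℕ, Gn S.W u j = M A (F.m + j)) :
    F.Flat S 1 ∧ F.Ecl h 1 = pullK (Mor.snd _ _) (S.lK h A) := by
  have hm : ∀ a, u a ∈ M A F.m := fun a => by
    have := hA 0
    rw [Gn_zero, Nat.cast_zero, add_zero] at this
    exact this ▸ Submodule.subset_span ⟨a, rfl⟩
  have hF : F.Flat S 1 := by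
    refine ⟨fun j => ⟨_, fun z => by rw [hu]⟩, fun z => ?_⟩
    obtain ⟨a, ha⟩ : ∃ a, u a ≠ 0 := by
      by_contra H
      push Not at H
      obtain ⟨m₀, h0⟩ := Sl.exists_gen S h A
      obtain ⟨b, hb, hb0, -⟩ := h0 (F.m + (m₀ - F.m).toNat) (by omega) (spc_ne h).some
      rw [← hA] at hb
      obtain ⟨c, -, rfl⟩ := hb
      exact hb0 (Finset.sum_eq_zero fun a _ => by rw [H, smul_zero])
    rw [hu, Ideal.eq_top_of_isUnit_mem (Submodule.span K (Set.range u))
      (Submodule.subset_span ⟨a, rfl⟩) (IsUnit.mk0 _ ha), finrank_top, Module.finrank_self]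
  refine ⟨hF, ?_⟩
  let d : F.ι → (S.spc h).J → ℤ := fun _ _ => F.m
  let s : F.ι → (S.lb h A).M := fun a => S.sec F.m (u a) (hm a)
  let π : (F.ι → (S.spc h).R) →ₗ[(S.spc h).R] (S.lb h A).M :=
    Fintype.linearCombination (S.spc h).R s
  have hπ : (Dg.Fr _ d).IsHom (S.lb h A) π := Dg.Fr_isHom.2 fun g v => by
    simp only [π, Fintype.linearCombination_apply, map_sum]
    refine Finset.sum_congr rfl fun a _ => ?_
    have e : (S.lb h A).act g (s a) = chr (d a) g • s a := Sl.sec_mem_wt S h _ _ (hm a) g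
    rw [(S.lb h A).act_smul, e, Dg.fact, smul_assoc, smul_comm]
  have H := hπ.ses_ker fun z => lc_surj h hm hA z
  have e : Fintype.card F.ι - 1 + 1 = Fintype.card F.ι := Nat.sub_add_cancel hF.le
  have hB := H.isBun_left (a := Fintype.card F.ι - 1) (e.symm ▸ Fr_bun d) (Sl.lb_isBun S h A)
  have hk := kc_ses H hB (Sl.lb_isBun S h A)
  have hd : ∀ a, F.deg h a = (Mor.snd X (S.spc h)).ρ (d a) := fun a => by
    unfold deg
    rw [hγ]
    rfl
  rw [e, kc_Fr] at hk
  rw [Ecl, hF.Kcl_eq (Mor.snd _ _) d hd (LinearMap.ker π) hπ.stab_ker hB (fun n hn z j => ?_)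
    fun z k hk => ⟨fun a => evz h z (k a), (lc_eq_zero hm _).2 fun j => hu z ▸ hk z j,
      fun a => evp_snd _ z _⟩, Surf.lK, eq_sub_of_add_eq' hk.symm, map_sub, map_sum]
  · congr 1
    exact Finset.sum_congr rfl fun a _ => by rw [pullK_line, map_neg, hd]
  · rw [hu, ← (lc_eq_zero hm n).1 hn j]
    exact Finset.sum_congr rfl fun a _ => congrArg (fun t => cq S j t • u a) (evp_snd _ z (n a))

end Fam

end V

end Vale.Agent.P297Z.Sf
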