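import Vale.Agent.P297Z.Hb.Fib0
import Vale.Agent.P297Z.Surf.FG

/-! P297: the structure of the saturated submodules of rank one. -/

set_option linter.all false

open IsLocalRing Module

namespace Vale.Agent.P297Z.Sf.Fb

open Vale.Agent.P297Z.Hb Bl4

variable {K : Type} [Field K] [Algebra ℂ K]

theorem exists_step_ideal {O : Subalgebra ℂ K} [IsLocalRing O] (h : RL O) {J : Ideal O}
    (hJ : FinCol J) : ∃ I : Ideal O, FinCol I ∧ I ≤ J ∧ col I = col J + 1 := by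
  haveI := h.noeth
  have h0 : ¬ J ≤ maximalIdeal O * J := fun hl => by
    have h1 : J = ⊥ := Submodule.eq_bot_of_le_smul_of_le_jacobson_bot _ J
      (IsNoetherian.noetherian _) hl max_le_jac
    obtain ⟨n, hn⟩ := (h.pow J).1 hJ
    obtain ⟨u, v, huv⟩ := h.gens
    have h2 : u ^ n ∈ J := hn (Ideal.pow_mem_pow (huv ▸ Ideal.subset_span (by simp)) n)
    rw [h1, Ideal.mem_bot] at h2
    exact h.ne_zero huv (pow_eq_zero_iff'.1 h2).1
  obtain ⟨I, ⟨h1, h2, h3⟩, hmax⟩ := set_has_maximal_iff_noetherian.2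
    (inferInstance : IsNoetherian O O)
    {I : Ideal O | maximalIdeal O * J ≤ I ∧ I ≤ J ∧ ¬ J ≤ I}
    ⟨_, le_rfl, Ideal.mul_le_right, h0⟩
  obtain ⟨g, hg, hg'⟩ := SetLike.not_le_iff_exists.1 h3
  have hI : FinCol I := (h.finCol_max_mul hJ).mono h1
  have h4 : I ⊔ Ideal.span {g} ≤ J := sup_le h2 ((Ideal.span_singleton_le_iff_mem _).2 hg)
  have h5 : J ≤ I ⊔ Ideal.span {g} := by
    by_contra hc
    refine hmax _ ⟨h1.trans le_sup_left, h4, hc⟩ (lt_of_le_of_ne le_sup_left fun e => hg' ?_)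
    rw [e]
    exact Submodule.mem_sup_right (Ideal.mem_span_singleton_self g)
  refine ⟨I, hI, h2, ?_⟩
  rw [h.col_sup hI (g := g) (fun t ht => h1 (Ideal.mul_mem_mul ht hg)) hg', le_antisymm h4 h5]

theorem Zs.len_zero {W : Submodule ℂ K} (Z : Zs W) : Z.len = 0 ↔ ∀ x, Z.J x = ⊤ := by
  rw [Z.len_eq_sum Z.fin.toFinset (fun y hy => by simp [hy]), Finset.sum_eq_zero_iff]
  refine ⟨fun h x => ?_, fun h x _ => by rw [h x]; exact col_top⟩
  by_contra hc
  exact hc ((col_zero (Z.fc x)).1 (h x (by simp [hc])))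

theorem M_sub_le {W : Submodule ℂ K} (L : Div W) {D : Div W} (hD : 0 ≤ D) (j : ℤ) :
    M (L - D) j ≤ M L j :=
  secOn_mono fun C _ => ⟨trivial, by
    have := hD C
    simp only [Finsupp.add_apply, Finsupp.sub_apply, Finsupp.coe_zero, Pi.zero_apply] at this ⊢
    omega⟩

theorem gen_of_isUnit {W : Submodule ℂ K} {x : Pt W} {q : x.ring} (hq : IsUnit q) :
    GenAt x (0 : Div W) q := by
  obtain ⟨h0, h1⟩ := (isUnit_iff_inv q).1 hq
  refine ⟨h0, fun C hC => ?_⟩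
  have := Pl.ord_unit C.pl (hC _ q.2) (hC _ h1)
  simpa using this

variable (S : Surf K)

/-- `g` is locally at `x` a section of the sheaf of `E` -/
def LcE (E : ℤ → Submodule ℂ K) (x : Pt S.W) (j : ℤ) (g : K) : Prop :=
  ∃ N : ℕ, ∃ b ∈ S.W ^ N, GenAt x ((N : ℤ) • S.H) b ∧ b * g ∈ E (j + N)

section LcE

variable {S} {E : ℤ → Submodule ℂ K} (hE : ∀ j, S.W * E j ≤ E (j + 1))
include hE

theorem pow_mul_mem (n : ℕ) : ∀ {j : ℤ} {b g : K}, b ∈ S.W ^ n → g ∈ E j → b * g ∈ E (j + n) := by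
  induction n with
  | zero =>
    intro j b g hb hg
    rw [pow_zero, Submodule.mem_one] at hb
    obtain ⟨c, rfl⟩ := hb
    rw [← Algebra.smul_def]
    simpa using (E j).smul_mem c hg
  | succ n ih =>
    intro j b g hb hg
    rw [pow_succ'] at hb
    refine Submodule.mul_induction_on hb (fun p hp q hq => ?_) (fun p q hp hq => ?_)
    · rw [mul_assoc, Nat.cast_succ, ← add_assoc]
      exact hE _ (Submodule.mul_mem_mul hp (ih hq hg))
    · rw [add_mul]
      exact add_mem hp hq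

omit hE in
theorem LcE.of_mem (x : Pt S.W) {j : ℤ} {g : K} (hg : g ∈ E j) : LcE S E x j g :=
  ⟨0, 1, by rw [pow_zero]; exact Submodule.one_le.1 le_rfl,
    ⟨one_ne_zero, fun C _ => by simp⟩, by simpa using hg⟩

theorem LcE.add {x : Pt S.W} {j : ℤ} {g g' : K} (h : LcE S E x j g) (h' : LcE S E x j g') :
    LcE S E x j (g + g') := by
  obtain ⟨N, b, hb, hg, h1⟩ := h
  obtain ⟨N', b', hb', hg', h2⟩ := h'
  refine ⟨N + N', b * b', by rw [pow_add]; exact Submodule.mul_mem_mul hb hb', ?_, ?_⟩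
  · rw [Nat.cast_add, add_smul]
    exact gen_mul hg hg'
  · have h3 := pow_mul_mem hE N' hb' h1
    have h4 := pow_mul_mem hE N hb h2
    rw [show j + N + N' = j + (N + N' : ℕ) by push_cast; ring] at h3
    rw [show j + N' + N = j + (N + N' : ℕ) by push_cast; ring] at h4
    convert add_mem h3 h4 using 1
    ring

theorem LcE.mul (hL : S.Loc) {x : Pt S.W} {j : ℤ} {g : K} (c : x.ring) (h : LcE S E x j g) :
    LcE S E x j (c * g) := by
  obtain ⟨N, b, hb, hg, h1⟩ := h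
  obtain ⟨w, hw, hx⟩ := x.exists_in
  obtain ⟨q, n, hq, h2, h3⟩ := exists_forms S hL hw hx (fun _ : Unit => c)
  refine ⟨N + n, b * (q * w ^ n), by rw [pow_add]; exact Submodule.mul_mem_mul hb h2, ?_, ?_⟩
  · have h4 := gen_mul hg (gen_mul (gen_of_isUnit hq) (gen_zpow (gen_hyp S hL hw hx) n))
    rwa [zero_add, zpow_natCast, ← add_smul, ← Nat.cast_add] at h4
  · have h4 := pow_mul_mem hE n (h3 ()) h1
    rw [show j + N + n = j + (N + n : ℕ) by push_cast; ring] at h4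
    convert h4 using 1
    ring

theorem LcE.shift (hL : S.Loc) {x : Pt S.W} {j : ℤ} {g w : K} (hw : w ∈ S.W) (hx : x.In w) (k : ℤ)
    (h : LcE S E x j g) : LcE S E x (j + k) (g * w ^ k) := by
  obtain ⟨N, b, hb, hg, h1⟩ := h
  obtain ⟨n, rfl | rfl⟩ := Int.eq_nat_or_neg k
  · refine ⟨N, b, hb, hg, ?_⟩
    have h4 := pow_mul_mem hE n (Submodule.pow_mem_pow _ hw n) h1
    rw [show j + N + n = j + n + N by ring] at h4
    convert h4 using 1
    rw [zpow_natCast]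
    ring
  · refine ⟨N + n, b * w ^ n,
      by rw [pow_add]; exact Submodule.mul_mem_mul hb (Submodule.pow_mem_pow _ hw n), ?_, ?_⟩
    · have h4 := gen_mul hg (gen_zpow (gen_hyp S hL hw hx) n)
      rwa [zpow_natCast, ← add_smul, ← Nat.cast_add] at h4
    · rw [show j + -(n : ℤ) + (N + n : ℕ) = j + N by push_cast; ring]
      convert h1 using 1
      have := pow_ne_zero n hx.1
      rw [zpow_neg, zpow_natCast]
      field_simp

theorem exists_pow_of_lcE (hL : S.Loc) {j : ℤ} {f w : K} (hw : w ∈ S.W) (h0 : w ≠ 0)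
    (h : ∀ x, LcE S E x j f) : ∃ N : ℕ, w ^ N * f ∈ E (j + N) := by
  have up : ∀ (r : K) (N n : ℕ), r * w ^ N * f ∈ E (j + N) →
      r * w ^ (N + n) * f ∈ E (j + (N + n : ℕ)) := fun r N n hr => by
    have h4 := pow_mul_mem hE n (Submodule.pow_mem_pow _ hw n) hr
    rw [show j + N + n = j + (N + n : ℕ) by push_cast; ring] at h4
    convert h4 using 1
    ring
  let I : Ideal (chart S.W w) :=
    { carrier := {r | ∃ N : ℕ, (r : K) * w ^ N * f ∈ E (j + N)}
      zero_mem' := ⟨0, by simp⟩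
      add_mem' := by
        rintro r r' ⟨N, h1⟩ ⟨N', h2⟩
        refine ⟨N + N', ?_⟩
        have h3 := up _ _ N h2
        rw [add_comm N' N] at h3
        convert add_mem (up _ _ N' h1) h3 using 1
        push_cast
        ring
      smul_mem' := by
        rintro c r ⟨N, h1⟩
        obtain ⟨n, hn⟩ := exists_pow_of_mem_chart hw h0 c.2
        refine ⟨N + n, ?_⟩
        have h4 := pow_mul_mem hE n (hn n le_rfl) h1
        rw [show j + N + n = j + (N + n : ℕ) by push_cast; ring] at h4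
        convert h4 using 1
        rw [smul_eq_mul]
        push_cast
        ring }
  by_cases hI : I = ⊤
  · obtain ⟨N, hN⟩ := (Ideal.eq_top_iff_one I).1 hI
    exact ⟨N, by simpa using hN⟩
  obtain ⟨m, hm, hl⟩ := Ideal.exists_le_maximal I hI
  let x : Pt S.W := ⟨loc _ m hm.isPrime, w, hw, h0, m, hm, rfl⟩
  have hx : x.In w := ⟨h0, fun a ha => le_loc _ m hm.isPrime (div_mem_chart ha)⟩
  obtain ⟨N, b, hb, hg, h1⟩ := h x
  have h2 : b / w ^ N ∈ chart S.W w := pow_div_mem (fun a ha => div_mem_chart ha) N b hb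
  have h3 : (⟨_, h2⟩ : chart S.W w) ∈ m :=
    hl ⟨N, by rwa [Subtype.coe_mk, div_mul_cancel₀ _ (pow_ne_zero N h0)]⟩
  refine absurd h3 ((inv_mem_loc_iff hm.isPrime (div_ne_zero hg.1 (pow_ne_zero N h0))).1 ?_)
  have h4 := div_gen_mem S hL hg (gen_mem_stalk (gen_zpow (gen_hyp S hL hw hx) N))
  rwa [zpow_natCast, ← inv_div] at h4

/-- the ideal of `E` at `x` for the generator `s` -/
def idE (hL : S.Loc) (x : Pt S.W) (s : K) : Ideal x.ring where
  carrier := {a | LcE S E x 0 (a * s)}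
  zero_mem' := by simpa using LcE.of_mem x (E 0).zero_mem
  add_mem' := fun {a b} ha hb => by
    have := LcE.add hE ha hb
    rwa [← add_mul] at this
  smul_mem' := fun c a ha => by
    have := LcE.mul hE hL c ha
    rwa [← mul_assoc] at this

theorem mem_idE (hL : S.Loc) {x : Pt S.W} {A : Div S.W} {s t f : K} {j : ℤ} (hs : GenAt x A s)
    (ht : GenAt x (A + j • S.H) t) :
    f / t ∈ inK (idE hE hL x s) ↔ f ∈ stalk x (A + j • S.H) ∧ LcE S E x j f := by
  obtain ⟨w, hw, hx⟩ := x.exists_in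
  have h1 : GenAt x (A + j • S.H) (s * w ^ j) := gen_mul hs (gen_zpow (gen_hyp S hL hw hx) j)
  have h2 := zpow_ne_zero j hx.1
  have h3 := hs.1
  have h4 := ht.1
  rw [mem_stalk_iff S hL ht]
  constructor
  · rintro ⟨a, ha, e⟩
    have e' : (a : K) = f / t := e
    refine ⟨e' ▸ a.2, ?_⟩
    have h5 := LcE.mul hE hL ⟨_, div_gen_mem S hL h1 (gen_mem_stalk ht)⟩
      (LcE.shift hE hL hw hx j ha)
    rw [zero_add, e'] at h5
    convert h5 using 1
    field_simp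
  · rintro ⟨h5, h6⟩
    refine ⟨⟨_, h5⟩, ?_, rfl⟩
    have h7 := LcE.shift hE hL hw hx (-j)
      (LcE.mul hE hL ⟨_, div_gen_mem S hL ht (gen_mem_stalk h1)⟩ h6)
    rw [add_neg_cancel, zpow_neg] at h7
    change LcE S E x 0 (f / t * s)
    convert h7 using 1
    field_simp

end LcE

/-- the largest divisor that the sections of `E` contain -/
theorem exists_div (hL : S.Loc) {L : Div S.W} {E : ℤ → Submodule ℂ K} (hE : ∀ j, E j ≤ M L j)
    (h0 : ∃ j, E j ≠ ⊥) : ∃ D : Div S.W, 0 ≤ D ∧ (∀ j, E j ≤ M (L - D) j) ∧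
      ∀ C, ∃ j, ∃ f ∈ E j, f ≠ 0 ∧ C.ord f + (L - D + j • S.H) C = 0 := by
  obtain ⟨j₀, h0⟩ := h0
  obtain ⟨f₀, hf₀, hf⟩ := Submodule.exists_mem_ne_zero_of_ne_bot h0
  have h1 : ∀ C : Crv S.W, ∃ d : ℤ, (∃ j, ∃ f ∈ E j, f ≠ 0 ∧ C.ord f + (L + j • S.H) C = d) ∧
      ∀ d', (∃ j, ∃ f ∈ E j, f ≠ 0 ∧ C.ord f + (L + j • S.H) C = d') → d ≤ d' := fun C =>
    Int.exists_least_of_bdd
      ⟨0, by rintro _ ⟨j, f, h1, h2, rfl⟩; exact (hE j h1).resolve_left h2 C trivial⟩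
      ⟨_, j₀, f₀, hf₀, hf, rfl⟩
  choose d hd hd' using h1
  have h2 : ∀ C, 0 ≤ d C := fun C => by
    obtain ⟨j, f, h1, h2, e⟩ := hd C
    exact e ▸ (hE j h1).resolve_left h2 C trivial
  have h3 : (Function.support d).Finite := by
    refine ((hL.fin_div f₀).union (L + j₀ • S.H).finite_support).subset fun C hC => ?_
    by_contra hc
    simp only [Set.mem_union, Function.mem_support, not_or, not_not] at hc
    have := hd' C _ ⟨j₀, f₀, hf₀, hf, rfl⟩
    rw [hc.1, hc.2] at this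
    exact hC (le_antisymm this (h2 C))
  refine ⟨toDiv d, fun C => ?_, fun j f h4 => ?_, fun C => ?_⟩
  · rw [toDiv_apply h3]
    exact h2 C
  · by_cases e : f = 0
    · exact Or.inl e
    refine Or.inr fun C _ => ?_
    have := hd' C _ ⟨j, f, h4, e, rfl⟩
    simp only [Finsupp.add_apply, Finsupp.sub_apply, toDiv_apply h3, Surf.H] at this ⊢
    omega
  · obtain ⟨j, f, h4, h5, e⟩ := hd C
    refine ⟨j, f, h4, h5, ?_⟩
    simp only [Finsupp.add_apply, Finsupp.sub_apply, toDiv_apply h3] at e ⊢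
    omega

theorem fin_bad (hL : S.Loc) (A : Div S.W) (f : K) :
    {C : Crv S.W | C.ord f + A C ≠ 0}.Finite := by
  refine ((hL.fin_div f).union A.finite_support).subset fun C hC => ?_
  by_contra hc
  simp only [Set.mem_union, Function.mem_support, not_or, not_not] at hc
  exact hC (by rw [hc.1, hc.2, add_zero])

theorem fin_of (hL : S.Loc) {A : Div S.W} {T : ℤ → K → Prop} {B : Set (Pt S.W)}
    (h2 : ∀ C : Crv S.W, ∃ j f, T j f ∧ C.ord f + (A + j • S.H) C = 0) {j₀ : ℤ} {f₀ : K}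
    (h0 : T j₀ f₀)
    (h4 : ∀ x ∈ B, ∀ j f, T j f → ∃ C, x.On C ∧ C.ord f + (A + j • S.H) C ≠ 0) : B.Finite := by
  choose j f a1 a3 using h2
  refine ((fin_bad S hL (A + j₀ • S.H) f₀).biUnion fun C _ =>
    (fin_bad S hL (A + j C • S.H) (f C)).biUnion fun C' hC' =>
      hL.fin_meet C C' fun e => hC' (by subst e; exact a3 C)).subset fun x hx => ?_
  obtain ⟨C, b1, b2⟩ := h4 x hx j₀ f₀ h0
  obtain ⟨C', b3, b4⟩ := h4 x hx (j C) (f C) (a1 C)
  simp only [Set.mem_iUnion]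
  exact ⟨C, b2, C', b4, b1, b3⟩

theorem finCol_of (hA : S.All) {x : Pt S.W} {I : Ideal x.ring} (h0 : I ≠ ⊥)
    (h : ∀ C, x.On C → ∃ a ∈ I, (a : K) ≠ 0 ∧ C.ord a = 0) : FinCol I := by
  obtain ⟨g, J, b1, b2, b3⟩ := (rl S hA x).gcd I h0
  by_cases hg : IsUnit g
  · rwa [b3, Ideal.span_singleton_eq_top.2 hg, Ideal.top_mul]
  haveI := hA.ufd x
  obtain ⟨p, hp, hpg⟩ := WfDvdMonoid.exists_irreducible_factor hg b1
  obtain ⟨C, c1, -, -, c2⟩ := hA.crv_of_irr x p hp.prime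
  obtain ⟨a, ha, a1, a2⟩ := h C c1
  rw [b3] at ha
  have c4 := ((c2 a).1 (hpg.trans (Ideal.mem_span_singleton.1
    (Ideal.mul_le_left ha)))).resolve_left a1
  omega

theorem sat_ty (hA : S.All) (L : Div S.W) (E : ℤ → Submodule ℂ K) (hE : Sat S L E)
    (h0 : ∃ j, E j ≠ ⊥) : ∃ (D : Div S.W) (Z : Zs S.W), 0 ≤ D ∧ E = EM Z (L - D) := by
  have hL := hA.toLoc
  obtain ⟨D, hD, h1, h2⟩ := exists_div S hL hE.le h0
  obtain ⟨j₀, h0⟩ := h0
  obtain ⟨f₀, hf₀, hf⟩ := Submodule.exists_mem_ne_zero_of_ne_bot h0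
  choose s hs using fun x => hL.gen x (L - D)
  have h3 : ∀ x j, ∀ f ∈ E j, ∀ t, GenAt x (L - D + j • S.H) t →
      f / t ∈ inK (idE hE.mul hL x (s x)) := fun x j f h t ht =>
    (mem_idE hE.mul hL (hs x) ht).2 ⟨M_le_stalk x _ j (h1 j h), LcE.of_mem x h⟩
  have h5 : {x | idE hE.mul hL x (s x) ≠ ⊤}.Finite := by
    refine fin_of S hL (A := L - D) (T := fun j f => f ∈ E j ∧ f ≠ 0)
      (fun C => ?_) ⟨hf₀, hf⟩ fun x hx j f h => ?_
    · obtain ⟨j, f, a1, a2, a3⟩ := h2 C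
      exact ⟨j, f, ⟨a1, a2⟩, a3⟩
    · by_contra hc
      push Not at hc
      have := h3 x j f h.1 f ⟨h.2, hc⟩
      rw [div_self h.2] at this
      exact hx ((Ideal.eq_top_iff_one _).2 (coe_mem_inK.1 this))
  have h6 : ∀ x, FinCol (idE hE.mul hL x (s x)) := fun x => by
    refine finCol_of S hA (fun e => ?_) fun C hC => ?_
    · obtain ⟨t, ht⟩ := hL.gen x (L - D + j₀ • S.H)
      obtain ⟨a, ha, e'⟩ := mem_inK.1 (h3 x j₀ f₀ hf₀ t ht)
      rw [e, Ideal.mem_bot] at ha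
      subst ha
      exact div_ne_zero hf ht.1 e'.symm
    · obtain ⟨j, f, a1, a2, a3⟩ := h2 C
      obtain ⟨t, ht⟩ := hL.gen x (L - D + j • S.H)
      obtain ⟨a, ha, e⟩ := mem_inK.1 (h3 x j f a1 t ht)
      have c5 := ht.2 C hC
      refine ⟨a, ha, e ▸ div_ne_zero a2 ht.1, ?_⟩
      unfold Crv.ord at *
      rw [e, Pl.ord_div _ a2 ht.1]
      omega
  refine ⟨D, ⟨fun x => idE hE.mul hL x (s x), h5, h6⟩, hD, funext fun j => le_antisymm
    (fun f h => mem_EM.2 fun x => ?_) fun f h => ?_⟩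
  · obtain ⟨t, ht⟩ := hL.gen x (L - D + j • S.H)
    exact (mem_st S hL ht).2 (h3 x j f h t ht)
  · refine hE.sat j f (M_sub_le L hD j (EM_le_M S hL _ _ j h)) fun i =>
      exists_pow_of_lcE hE.mul hL (S.x_mem i) (S.x_ne i) fun x => ?_
    obtain ⟨t, ht⟩ := hL.gen x (L - D + j • S.H)
    exact ((mem_idE hE.mul hL (hs x) ht).1 ((mem_st S hL ht).1 (mem_EM.1 h x))).2

/-- a form that vanishes on `Z` outside of `x` and does not vanish at `x` -/
theorem exists_sep (hA : S.All) (Z : Zs S.W) (x : Pt S.W) (P : Finset (Pt S.W)) :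
    ∃ k : ℕ, ∃ e ∈ S.W ^ k, GenAt x ((k : ℤ) • S.H) e ∧
      ∀ y ∈ P, y ≠ x → e ∈ Z.st ((k : ℤ) • S.H) y := by
  classical
  have hL := hA.toLoc
  induction P using Finset.induction_on with
  | empty =>
    exact ⟨0, 1, by rw [pow_zero]; exact Submodule.one_le.1 le_rfl,
      ⟨one_ne_zero, fun C _ => by simp⟩, by simp⟩
  | insert z P _ ih =>
    obtain ⟨k, e, h1, h2, h3⟩ := ih
    by_cases hz : z = x
    · exact ⟨k, e, h1, h2, fun y hy hx => h3 y ((Finset.mem_insert.1 hy).resolve_left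
        fun h => hx (h.trans hz)) hx⟩
    obtain ⟨l, hl, hx⟩ := hL.sep z x hz
    obtain ⟨n, hn⟩ := ((rl S hA z).pow _).1 (Z.fc z)
    have st : ∀ (y : Pt S.W) (n : ℕ), ∀ a ∈ S.W ^ n, a ∈ stalk y ((n : ℤ) • S.H) := fun y n a ha => by
      have := M_le_stalk y _ _ (pow_le_M S hL n ha)
      rwa [zero_add] at this
    have hp := Submodule.pow_mem_pow _ hl.1 n
    refine ⟨k + n, e * l ^ n, by rw [pow_add]; exact Submodule.mul_mem_mul h1 hp, ?_,
      fun y hy hyx => ?_⟩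
    · have h4 := gen_mul h2 (gen_zpow (gen_hyp S hL hl.1 hx) n)
      rwa [zpow_natCast, ← add_smul, ← Nat.cast_add] at h4
    rw [Nat.cast_add, add_smul]
    rcases Finset.mem_insert.1 hy with rfl | hy
    · refine mul_mem_st S hL (st y k e h1) ?_
      obtain ⟨w, hw, hy⟩ := y.exists_in
      obtain ⟨b1, b2⟩ := y.van_iff.1 (hl.2 w hw hy)
      rw [mem_st S hL (gen_zpow (gen_hyp S hL hw hy) n), zpow_natCast, ← div_pow]
      exact ⟨_, hn (Ideal.pow_mem_pow b2 n), rfl⟩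
    · rw [mul_comm, add_comm]
      exact mul_mem_st S hL (st y n _ hp) (h3 y hy hyx)

theorem jets_one (hA : S.All) (Z : Zs S.W) (A : Div S.W) (x : Pt S.W) :
    ∃ m₀ : ℤ, ∀ j, m₀ ≤ j → ∀ β ∈ stalk x (A + j • S.H), ∃ f ∈ M A j,
      f - β ∈ Z.st (A + j • S.H) x ∧ ∀ y, y ≠ x → f ∈ Z.st (A + j • S.H) y := by
  have hL := hA.toLoc
  obtain ⟨s, hs⟩ := hL.gen x A
  obtain ⟨w, hw, hx⟩ := x.exists_in
  obtain ⟨m₀, hm⟩ := jets S hL hA.toReg2 hs hw hx
  obtain ⟨n, hn⟩ := ((rl S hA x).pow _).1 (Z.fc x)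
  obtain ⟨k, e, h1, h2, h3⟩ := exists_sep S hA Z x Z.fin.toFinset
  refine ⟨m₀ + n + k, fun j hj β hβ => ?_⟩
  obtain ⟨i, rfl⟩ : ∃ i, j = i + k := ⟨j - k, by ring⟩
  have g1 : GenAt x (A + i • S.H) (s * w ^ i) := gen_mul hs (gen_zpow (gen_hyp S hL hw hx) i)
  have e1 : A + i • S.H + (k : ℤ) • S.H = A + (i + k) • S.H := by rw [add_smul, add_assoc]
  have g2 : GenAt x (A + (i + k) • S.H) (s * w ^ i * e) := e1 ▸ gen_mul g1 h2
  obtain ⟨f, hf, b, hb, hb'⟩ := hm i (by omega) n (by omega) ⟨_, div_gen_mem S hL g2 hβ⟩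
  have h4 : e * f ∈ M A (i + k) := by
    have := mul_mem_M (pow_le_M S hL k h1) (show f ∈ M A i from hf)
    rwa [zero_add, add_comm] at this
  refine ⟨e * f, h4, ?_, fun y hy => ?_⟩
  · rw [mem_st S hL g2]
    refine ⟨_, hn hb', ?_⟩
    change (b : K) - β / (s * w ^ i * e) = _
    have := g1.1
    have := h2.1
    rw [hb]
    generalize s * w ^ i = t at *
    field_simp
  · by_cases hz : Z.J y = ⊤
    · rw [st_top S hL hz]
      exact M_le_stalk y _ _ h4
    · rw [mul_comm, ← e1]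
      exact mul_mem_st S hL (H0_le_stalk y _ hf) (h3 y (by simp [hz]) hy)

theorem jets_large (hA : S.All) (Z : Zs S.W) (A : Div S.W) :
    ∃ m₀ : ℤ, ∀ j, m₀ ≤ j → Jets S Z A j := by
  classical
  choose m hm using jets_one S hA Z A
  obtain ⟨m₀, h0⟩ := (Z.fin.image m).bddAbove
  refine ⟨m₀, fun j hj β hβ => ?_⟩
  choose f h1 h2 h3 using fun x : Z.fin.toFinset =>
    hm x j ((h0 ⟨x, Z.fin.mem_toFinset.1 x.2, rfl⟩).trans hj) (β x) (hβ x)
  refine ⟨∑ x, f x, Submodule.sum_mem _ fun x _ => h1 x, fun x hx => ?_⟩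
  have hx' : x ∈ Z.fin.toFinset := Z.fin.mem_toFinset.2 hx
  rw [← Finset.add_sum_erase _ _ (Finset.mem_univ ⟨x, hx'⟩), add_sub_right_comm]
  exact add_mem (h2 ⟨x, hx'⟩) (Submodule.sum_mem _ fun y hy => h3 y x fun e =>
    Finset.ne_of_mem_erase hy (Subtype.ext e.symm))

theorem reg_large (hA : S.All) (Z : Zs S.W) (A : Div S.W) : ∃ m₀, ∀ m, m₀ ≤ m → Reg S m A Z := by
  have hL := hA.toLoc
  obtain ⟨d, E, hE, hb⟩ := S.exists_bound hL A
  obtain ⟨m₁, h1⟩ := noeth_int S.x E hE (EM Z A) d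
    (fun m => (mul_le_mul_left S.X_le_W _).trans (W_mul_EM S hL Z A m)) (fun m hm => by
      have := (EM_le_M S hL Z A m).trans (hb m)
      rwa [Surf.Xp, if_pos hm] at this)
  obtain ⟨m₂, h2⟩ := jets_large S hA Z A
  obtain ⟨m₃, h3⟩ := hA.large A
  obtain ⟨m₄, h4⟩ := (hA.fg (S.kap - A)).2.1
  refine ⟨max (max m₁ m₂) (max m₃ (1 - m₄)), fun m hm => ?_⟩
  simp only [max_le_iff] at hm
  refine ⟨fun j hj => h1 j (by omega), fun j hj => ?_, fun j hj => ?_⟩
  · haveI := (hA.fg A).1 j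
    have h5 := rdim_add_finrank (EM_le_M S hL Z A j)
    rw [(jets_iff S hL Z A j).1 (h2 j (by omega))] at h5
    rw [← h3 j (by omega)]
    change _ = (finrank ℂ (M A j) : ℤ) - _
    omega
  · have := h4 (-j) (by omega)
    rwa [M, neg_smul, ← sub_eq_add_neg, sub_sub] at this

theorem fibA : FIBA := by
  intro K _ _ S hA _
  have hL := hA.toLoc
  refine ⟨EM_le_M S hL, fun Z A j h => ?_, fun Z L D hD => ⟨fun j => ?_, W_mul_EM S hL Z _, ?_⟩,
    sat_ty S hA, reg_large S hA, fun Z A j h => ?_, fun Z A j f g hf => ?_, fun Z => ?_,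
    fun Z x => ?_, ?_, Zs.len_zero⟩
  · exact le_antisymm (EM_le_M S hL Z A j) fun f hf =>
      mem_EM_of S hL hf fun x hx => absurd (Z.len_zero.1 h x) hx
  · exact (EM_le_M S hL Z _ j).trans (M_sub_le L hD j)
  · intro j f _ h
    refine mem_EM.2 fun x => ?_
    obtain ⟨i, hi⟩ := hL.pt_cover x
    obtain ⟨N, hN⟩ := h i
    rw [← div_mem_st S hL (k := N) (S.x_mem i) hi, zpow_natCast, mul_comm]
    exact mem_EM.1 hN x
  · haveI := (hA.fg A).1 j
    have h1 := rdim_add_finrank (EM_le_M S hL Z A j)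
    have h2 := (rdim_EM_le S hL Z A j).2
    have h3 := hA.toSerre.le (A + j • S.H)
    rw [h0, h0, h, finrank_bot] at h3
    change _ ≤ (finrank ℂ (M A j) : ℤ) + _ at h3
    omega
  · rw [mem_EM, mem_EM]
    refine forall_congr' fun x => ?_
    obtain ⟨s, hs⟩ := hL.gen x (A + j • S.H)
    have h1 : GenAt x (A - div S.W f + j • S.H) (f * s) := by
      refine ⟨mul_ne_zero hf hs.1, fun C hC => ?_⟩
      have a1 := hs.2 C hC
      have a2 : div S.W f C = C.ord f := toDiv_apply (hL.fin_div f) C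
      simp only [Finsupp.add_apply, Finsupp.sub_apply, a2] at a1 ⊢
      unfold Crv.ord at *
      rw [Pl.ord_mul _ hf hs.1]
      omega
    rw [mem_st S hL h1, mem_st S hL hs, mul_div_mul_left _ _ hf]
  · obtain ⟨x⟩ := hL.pt_ne
    obtain ⟨u, v, huv⟩ := (rl S hA x).gens
    haveI := hL.ufd x
    obtain ⟨p, hp, -⟩ := WfDvdMonoid.exists_irreducible_factor
      (show u ∈ maximalIdeal x.ring from huv ▸ Ideal.subset_span (by simp))
      ((rl S hA x).ne_zero huv)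
    obtain ⟨C, -⟩ := hL.crv_of_irr x p hp.prime
    obtain ⟨w, hw, hC⟩ := C.exists_in
    obtain ⟨y, -, hy⟩ := (hL.inf_pt C w hw hC).exists_notMem_finite Z.fin
    exact ⟨y, not_not.1 hy⟩
  · obtain ⟨I, h1, h2, h3⟩ := exists_step_ideal (rl S hA x) (Z.fc x)
    exact ⟨Z.upd x I h1, Zs.step_of (by rwa [Zs.upd_self]) (fun y hy => Z.upd_ne I h1 hy)
      (by rwa [Zs.upd_self])⟩
  · exact ⟨⟨fun _ => ⊤, by simp, fun _ => finCol_top⟩, (Zs.len_zero _).2 fun _ => rfl⟩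

end Vale.Agent.P297Z.Sf.Fb
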