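import Vale.Agent.P297Z.Hb.FibB1

/-! P297: regular subsheaves of rank one: adding and removing a point. -/

set_option linter.all false

open IsLocalRing Module

namespace Vale.Agent.P297Z.Hb

variable {K : Type} [Field K] [Algebra ℂ K] {O : Subalgebra ℂ K} [IsLocalRing O]
  {ι : Type} [Fintype ι]

/-- the functional `l` kills the relations of `j` -/
def Kl (j : ι → O) (l : ι → ℂ) : Prop :=
  ∀ c : ι → O, ∑ a, c a * j a = 0 → ∑ a, l a • c a ∈ maximalIdeal O

theorem exists_coef {j : ι → O} {J I : Ideal O} (hj : Ideal.span (Set.range j) = J) {g : O}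
    (hg : g ∈ I * J) : ∃ c : ι → O, (∀ a, c a ∈ I) ∧ ∑ a, c a * j a = g := by
  refine Submodule.mul_induction_on hg (fun p hp q hq => ?_) ?_
  · obtain ⟨d, rfl⟩ := Ideal.mem_span_range_iff_exists_fun.1 (hj ▸ hq)
    exact ⟨fun a => p * d a, fun a => I.mul_mem_right _ hp, by
      simp only [mul_assoc, Finset.mul_sum]⟩
  · rintro _ _ ⟨c, hc, rfl⟩ ⟨d, hd, rfl⟩
    exact ⟨c + d, fun a => add_mem (hc a) (hd a), by
      simp only [Pi.add_apply, add_mul, Finset.sum_add_distrib]⟩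

theorem sum_smul_const (l t : ι → ℂ) :
    ∑ a, l a • algebraMap ℂ O (t a) = algebraMap ℂ O (∑ a, t a * l a) := by
  rw [map_sum]
  exact Finset.sum_congr rfl fun a _ => by rw [Algebra.smul_def, ← map_mul, mul_comm]

theorem Kl.zero {j : ι → O} {l : ι → ℂ} (h : Kl j l) {t : ι → ℂ} {c : ι → O}
    (hc : ∑ a, l a • c a ∈ maximalIdeal O) (e : ∑ a, c a * j a = ∑ a, t a • j a) :
    ∑ a, t a * l a = 0 := by
  have h1 := h (fun a => c a - algebraMap ℂ O (t a)) (by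
    simp only [sub_mul, Finset.sum_sub_distrib, ← Algebra.smul_def, e, sub_self])
  simp only [smul_sub, Finset.sum_sub_distrib, sum_smul_const] at h1
  have h2 := sub_mem hc h1
  rw [sub_sub_cancel] at h2
  exact const_mem_max h2

theorem RL.kl_iff (h : RL O) {j : ι → O} {J : Ideal O} (hj : Ideal.span (Set.range j) = J)
    (l : ι → ℂ) : Kl j l ↔
      ∀ t : ι → ℂ, ∑ a, t a • j a ∈ maximalIdeal O * J → ∑ a, t a * l a = 0 := by
  constructor
  · intro hl t ht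
    obtain ⟨c, hc, e⟩ := exists_coef hj ht
    exact hl.zero (Submodule.sum_mem _ fun a _ => Submodule.smul_of_tower_mem _ _ (hc a)) e
  · intro hl c hc
    choose t ht using fun a => h.val (c a)
    have h1 : ∑ a, (c a - algebraMap ℂ O (t a)) * j a ∈ maximalIdeal O * J :=
      Submodule.sum_mem _ fun a _ => Ideal.mul_mem_mul (ht a) (hj ▸ Ideal.subset_span ⟨a, rfl⟩)
    simp only [sub_mul, Finset.sum_sub_distrib, ← Algebra.smul_def, hc, zero_sub] at h1
    have h2 := hl t (neg_mem_iff.1 h1)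
    have h3 : ∑ a, l a • (c a - algebraMap ℂ O (t a)) ∈ maximalIdeal O :=
      Submodule.sum_mem _ fun a _ => Submodule.smul_of_tower_mem _ _ (ht a)
    simpa only [smul_sub, Finset.sum_sub_distrib, sum_smul_const, h2, map_zero, sub_zero] using h3

theorem RL.exists_comb (h : RL O) {j : ι → O} {J : Ideal O} (hj : Ideal.span (Set.range j) = J)
    {g : O} (hg : g ∈ J) : ∃ t : ι → ℂ, g - ∑ a, t a • j a ∈ maximalIdeal O * J := by
  obtain ⟨c, rfl⟩ := Ideal.mem_span_range_iff_exists_fun.1 (hj ▸ hg)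
  choose t ht using fun a => h.val (c a)
  refine ⟨t, ?_⟩
  simp only [Algebra.smul_def, ← Finset.sum_sub_distrib, ← sub_mul]
  exact Submodule.sum_mem _ fun a _ => Ideal.mul_mem_mul (ht a) (hj ▸ Ideal.subset_span ⟨a, rfl⟩)

theorem RL.finrank_kl (h : RL O) {j : ι → O} {J : Ideal O} (hj : Ideal.span (Set.range j) = J)
    (N : Submodule ℂ (ι → ℂ)) (hN : ∀ l, l ∈ N ↔ Kl j l) : finrank ℂ N = mu J := by
  classical
  let R₀ : Submodule ℂ (ι → ℂ) :=
    ((maximalIdeal O * J).restrictScalars ℂ).comap (Fintype.linearCombination ℂ j)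
  have h1 : N.map (dotProductEquiv ℂ ι).toLinearMap = R₀.dualAnnihilator := by
    ext φ
    obtain ⟨l, rfl⟩ := (dotProductEquiv ℂ ι).surjective φ
    rw [Submodule.mem_map_equiv, LinearEquiv.symm_apply_apply, hN,
      h.kl_iff hj, Submodule.mem_dualAnnihilator]
    refine forall_congr' fun t => imp_congr Iff.rfl ?_
    rw [show dotProductEquiv ℂ ι l t = ∑ a, t a * l a from dotProduct_comm l t]
  have h2 := Subspace.finrank_add_finrank_dualAnnihilator_eq R₀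
  rw [← h1, LinearEquiv.finrank_map_eq] at h2
  have h3 := rdim_add_finrank (le_top : R₀ ≤ ⊤)
  rw [finrank_top] at h3
  have h4 := (rdim_congr (A := R₀) (B := ⊤) (A' := (maximalIdeal O * J).restrictScalars ℂ)
    (B' := J.restrictScalars ℂ) (Fintype.linearCombination ℂ j) (by
      rintro _ ⟨t, -, rfl⟩
      exact Submodule.mem_sup_left (Submodule.sum_mem _ fun a _ => Submodule.smul_mem _ _
        (show j a ∈ J from hj ▸ Ideal.subset_span ⟨a, rfl⟩)))
    (fun g hg => by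
      obtain ⟨t, ht⟩ := h.exists_comb hj hg
      exact Submodule.mem_sup.2 ⟨_, ⟨t, trivial, rfl⟩, _, ht, add_sub_cancel _ _⟩)
    fun _ _ => Iff.rfl).2
  unfold mu
  omega

/-- the kernel of the functional, as an ideal -/
def kerI (j : ι → O) (l : ι → ℂ) : Ideal O where
  carrier := {g | ∃ c : ι → O, ∑ a, l a • c a ∈ maximalIdeal O ∧ ∑ a, c a * j a = g}
  zero_mem' := ⟨0, by simp, by simp⟩
  add_mem' := by
    rintro _ _ ⟨c, hc, rfl⟩ ⟨d, hd, rfl⟩
    refine ⟨c + d, ?_, by simp only [Pi.add_apply, add_mul, Finset.sum_add_distrib]⟩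
    simpa only [Pi.add_apply, smul_add, Finset.sum_add_distrib] using add_mem hc hd
  smul_mem' := by
    rintro r _ ⟨c, hc, rfl⟩
    refine ⟨fun a => r * c a, ?_, by simp only [smul_eq_mul, Finset.mul_sum, mul_assoc]⟩
    have := Ideal.mul_mem_left _ r hc
    simpa only [Finset.mul_sum, mul_smul_comm] using this

theorem Kl.comb_mem {j : ι → O} {l : ι → ℂ} (h : Kl j l) (t : ι → ℂ) :
    ∑ a, t a • j a ∈ kerI j l ↔ ∑ a, t a * l a = 0 := by
  refine ⟨fun ⟨c, hc, e⟩ => h.zero hc e, fun e => ⟨fun a => algebraMap ℂ O (t a), ?_, ?_⟩⟩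
  · rw [sum_smul_const, e, map_zero]; exact zero_mem _
  · simp only [Algebra.smul_def]

theorem exists_dual_one {l : ι → ℂ} (hl : l ≠ 0) : ∃ t : ι → ℂ, ∑ a, t a * l a = 1 := by
  classical
  obtain ⟨a, ha⟩ := Function.ne_iff.1 hl
  exact ⟨Pi.single a (l a)⁻¹, by
    rw [Finset.sum_eq_single a (fun b _ hb => by simp [hb]) (by simp)]
    simpa using inv_mul_cancel₀ ha⟩

theorem RL.kerI_spec (h : RL O) {j : ι → O} {J : Ideal O} (hJ : FinCol J)
    (hj : Ideal.span (Set.range j) = J) {l : ι → ℂ} (hl : Kl j l) (h0 : l ≠ 0) :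
    kerI j l ≤ J ∧ FinCol (kerI j l) ∧ col (kerI j l) = col J + 1 := by
  have hjJ : ∀ a, j a ∈ J := fun a => hj ▸ Ideal.subset_span ⟨a, rfl⟩
  have h1 : kerI j l ≤ J := by
    rintro _ ⟨c, -, rfl⟩
    exact Submodule.sum_mem _ fun a _ => J.mul_mem_left _ (hjJ a)
  have h2 : maximalIdeal O * J ≤ kerI j l := fun g hg => by
    obtain ⟨c, hc, e⟩ := exists_coef hj hg
    exact ⟨c, Submodule.sum_mem _ fun a _ => Submodule.smul_of_tower_mem _ _ (hc a), e⟩
  have h3 := (h.finCol_max_mul hJ).mono h2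
  refine ⟨h1, h3, ?_⟩
  obtain ⟨t₀, ht₀⟩ := exists_dual_one h0
  rw [col_add h3 h1, (rdim_eq_one (v := ∑ a, t₀ a • j a)
    (Submodule.sum_mem _ fun a _ => Submodule.smul_mem _ _ (show j a ∈ J from hjJ a))
    (fun e => by
      have := (hl.comb_mem t₀).1 e
      rw [ht₀] at this
      exact one_ne_zero this) fun g hg => ?_).2]
  obtain ⟨t, ht⟩ := h.exists_comb hj hg
  have h4 := (hl.comb_mem (t - (∑ a, t a * l a) • t₀)).2 (by
    simp only [Pi.sub_apply, Pi.smul_apply, smul_eq_mul, sub_mul, Finset.sum_sub_distrib,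
      mul_assoc, ← Finset.mul_sum, ht₀, mul_one, sub_self])
  refine Submodule.mem_sup.2 ⟨(∑ a, t a * l a) • ∑ a, t₀ a • j a,
    Submodule.smul_mem _ _ (Submodule.mem_span_singleton_self _), _, add_mem (h2 ht) h4, ?_⟩
  simp only [Pi.sub_apply, Pi.smul_apply, smul_eq_mul, sub_smul, Finset.sum_sub_distrib,
    mul_smul, ← Finset.smul_sum]
  abel

end Vale.Agent.P297Z.Hb

namespace Vale.Agent.P297Z.Sf.Fb

open Vale.Agent.P297Z.Hb Bl4

variable {K : Type} [Field K] [Algebra ℂ K] {S : Surf K} {ι : Type} [Fintype ι]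

theorem mem_kerF {u : ι → K} {l : ι → ℂ} {f : K} :
    f ∈ kerF u l ↔ ∃ t : ι → ℂ, ∑ a, t a * l a = 0 ∧ ∑ a, t a • u a = f := Iff.rfl

theorem kill_iff (hL : S.Loc) {x : Pt S.W} {u : ι → K} {s : K} (hs : s ≠ 0) {j : ι → x.ring}
    (hj : ∀ a, u a = j a * s) (l : ι → ℂ) : l ∈ Kill u x ↔ Kl j l := by
  constructor
  · intro hl c hc
    obtain ⟨w, hw, hx⟩ := x.exists_in
    obtain ⟨q, n, hq, -, hn⟩ := exists_forms S hL hw hx c
    have hc' : ∑ a, (c a : K) * j a = 0 := by simpa using congrArg Subtype.val hc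
    have h1 := hl n (fun a => q * c a * w ^ n) ⟨hn, by
      have : ∑ a, (q : K) * c a * w ^ n * u a = q * w ^ n * s * ∑ a, (c a : K) * j a := by
        rw [Finset.mul_sum]
        exact Finset.sum_congr rfl fun a _ => by rw [hj]; ring
      rw [this, hc', mul_zero]⟩ w hw hx
    have e : (∑ a, l a • ((q : K) * c a * w ^ n)) / w ^ n = ((q * ∑ a, l a • c a : x.ring) : K) := by
      rw [div_eq_iff (pow_ne_zero n hx.1)]
      push_cast
      rw [Finset.mul_sum, Finset.sum_mul]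
      exact Finset.sum_congr rfl fun a _ => by simp only [mul_smul_comm, smul_mul_assoc]
    rw [e, ← x.mem_max] at h1
    exact (Ideal.unit_mul_mem_iff_mem _ hq).1 h1
  · intro hl n c hc w hw hx
    have h1 := hl (fun a => ⟨_, pow_div_mem hx.2 n _ (hc.1 a)⟩) (Subtype.ext (by
      have : ∑ a, c a / w ^ n * j a = (∑ a, c a * u a) / (w ^ n * s) := by
        rw [Finset.sum_div]
        refine Finset.sum_congr rfl fun a _ => ?_
        have := hx.1
        rw [hj]; field_simp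
      push_cast
      rw [this, hc.2, zero_div]))
    rw [x.mem_max] at h1
    convert h1 using 1
    push_cast
    rw [Finset.sum_div]
    exact Finset.sum_congr rfl fun a _ => smul_div_assoc _ _ _

variable (hA : S.All) (hF : FibA S)
include hA hF

theorem Reg.exists_j {m : ℤ} {A : Div S.W} {Z : Zs S.W} (h : Reg S m A Z) {u : ι → K}
    (hu : Submodule.span ℂ (Set.range u) = EM Z A m) (x : Pt S.W) {s : K}
    (hs : GenAt x (A + m • S.H) s) :
    ∃ j : ι → x.ring, (∀ a, u a = j a * s) ∧ Ideal.span (Set.range j) = Z.J x := by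
  have h1 : ∀ a, u a ∈ EM Z A m := fun a => hu ▸ Submodule.subset_span ⟨a, rfl⟩
  choose j hj hj' using fun a => mem_EM.1 (h1 a) x s hs
  refine ⟨j, hj', le_antisymm (Ideal.span_le.2 (by rintro _ ⟨a, rfl⟩; exact hj a)) ?_⟩
  rw [h.stalk hA hF x hs, Ideal.span_le]
  intro g hg
  obtain ⟨t, ht⟩ := (Submodule.mem_span_range_iff_exists_fun ℂ).1
    (show (g : K) * s ∈ Submodule.span ℂ (Set.range u) from hu ▸ hg)
  have e : g = ∑ a, t a • j a := by
    refine Subtype.ext (mul_right_cancel₀ hs.1 ?_)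
    rw [← ht]
    push_cast
    rw [Finset.sum_mul]
    exact Finset.sum_congr rfl fun a _ => by rw [hj', smul_mul_assoc]
  rw [e]
  exact Submodule.sum_mem _ fun a _ =>
    Submodule.smul_of_tower_mem _ _ (Ideal.subset_span ⟨a, rfl⟩)

omit hF in
theorem comb_mem_st {Z : Zs S.W} {A : Div S.W} {x : Pt S.W} {u : ι → K} {s : K}
    (hs : GenAt x A s) {j : ι → x.ring} (hj : ∀ a, u a = j a * s) (t : ι → ℂ) :
    ∑ a, t a • u a ∈ Z.st A x ↔ ∑ a, t a • j a ∈ Z.J x := by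
  rw [mem_st S hA.toLoc hs, ← coe_mem_inK]
  have e : (∑ a, t a • u a) / s = ((∑ a, t a • j a : x.ring) : K) := by
    rw [div_eq_iff hs.1]
    push_cast
    rw [Finset.sum_mul]
    exact Finset.sum_congr rfl fun a _ => by rw [hj, smul_mul_assoc]
  rw [e]

omit hA hF in
theorem mem_EM_step {Z Z' : Zs S.W} {x : Pt S.W} (h : ∀ y, y ≠ x → Z'.J y = Z.J y)
    {A : Div S.W} {m : ℤ} {f : K} (hf : f ∈ EM Z A m) (hx : f ∈ Z'.st (A + m • S.H) x) :
    f ∈ EM Z' A m := mem_EM.2 fun y => by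
  by_cases e : y = x
  · subst e; exact hx
  · rw [st_congr (h y e)]; exact mem_EM.1 hf y

theorem Reg.mu {m : ℤ} {A : Div S.W} {Z : Zs S.W} (h : Reg S m A Z) {u : ι → K}
    (hu : Submodule.span ℂ (Set.range u) = EM Z A m) (x : Pt S.W) :
    finrank ℂ (Kill u x) = mu (Z.J x) := by
  obtain ⟨s, hs⟩ := hA.gen x (A + m • S.H)
  obtain ⟨j, hj, hJ⟩ := h.exists_j hA hF hu x hs
  exact (rl S hA x).finrank_kl hJ _ (kill_iff hA.toLoc hs.1 hj)

theorem Reg.down {m : ℤ} {A : Div S.W} {Z : Zs S.W} (h : Reg S m A Z) {u : ι → K}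
    (hu : Submodule.span ℂ (Set.range u) = EM Z A m) (x : Pt S.W) {l : ι → ℂ}
    (hl : l ∈ Kill u x) (h0 : l ≠ 0) : ∃ Z', Z.Step Z' x ∧ EM Z' A m = kerF u l := by
  obtain ⟨s, hs⟩ := hA.gen x (A + m • S.H)
  obtain ⟨j, hj, hJ⟩ := h.exists_j hA hF hu x hs
  rw [kill_iff hA.toLoc hs.1 hj] at hl
  obtain ⟨h1, h2, h3⟩ := (rl S hA x).kerI_spec (Z.fc x) hJ hl h0
  have e1 := Z.upd_self x _ h2
  have hS : Z.Step (Z.upd x _ h2) x :=
    Zs.step_of (e1.le.trans h1) (fun y hy => Z.upd_ne _ _ hy) (by rw [e1, h3])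
  refine ⟨_, hS, le_antisymm (fun f hf => ?_) ?_⟩
  · obtain ⟨t, rfl⟩ := (Submodule.mem_span_range_iff_exists_fun ℂ).1
      (show f ∈ Submodule.span ℂ (Set.range u) from hu ▸ EM_mono hS.le A m hf)
    have := (comb_mem_st hA hs hj t).1 (mem_EM.1 hf x)
    rw [e1] at this
    exact mem_kerF.2 ⟨t, (hl.comb_mem t).1 this, rfl⟩
  · intro f hf
    obtain ⟨t, ht, rfl⟩ := mem_kerF.1 hf
    refine mem_EM_step hS.eq (hu ▸ (Submodule.mem_span_range_iff_exists_fun ℂ).2 ⟨t, rfl⟩) ?_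
    rw [comb_mem_st hA hs hj, e1]
    exact (hl.comb_mem t).2 ht

omit hF in
theorem Zs.Step.max_mul {Z Z' : Zs S.W} {x : Pt S.W} (hS : Z.Step Z' x) :
    maximalIdeal x.ring * Z.J x ≤ Z'.J x :=
  (rl S hA x).max_mul_le (Z'.fc x) (hS.le x) hS.col

theorem Reg.kill {m : ℤ} {A : Div S.W} {Z Z' : Zs S.W} {x : Pt S.W} (hS : Z.Step Z' x)
    (h : Reg S m A Z') {u : ι → K} (hu : Submodule.span ℂ (Set.range u) = EM Z A m) {l : ι → ℂ}
    (hl : ∀ t : ι → ℂ, ∑ a, t a • u a ∈ EM Z' A m → ∑ a, t a * l a = 0) : l ∈ Kill u x := by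
  obtain ⟨s, hs⟩ := hA.gen x (A + m • S.H)
  obtain ⟨j, hj, hJ⟩ := (h.up hA hS.le).exists_j hA hF hu x hs
  rw [kill_iff hA.toLoc hs.1 hj, (rl S hA x).kl_iff hJ]
  refine fun t ht => hl t (mem_EM_step hS.eq
    (hu ▸ (Submodule.mem_span_range_iff_exists_fun ℂ).2 ⟨t, rfl⟩) ?_)
  rw [comb_mem_st hA hs hj]
  exact hS.max_mul hA ht

omit hF in
theorem Zs.Step.pt {Z Z' : Zs S.W} {x : Pt S.W} (hS : Z.Step Z' x) :
    Z'.J x ≠ ⊤ ∧ (Z.J x = ⊤ → Z'.J x = maximalIdeal x.ring) := by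
  have h1 : Z'.J x ≠ ⊤ := fun e => by
    have := hS.col
    rw [e, col_top] at this
    omega
  refine ⟨h1, fun e => le_antisymm (le_maximalIdeal h1) ?_⟩
  have := hS.max_mul hA
  rwa [e, Ideal.mul_top] at this

omit hF in
theorem Reg.soc {m : ℤ} {A : Div S.W} {Z' : Zs S.W} (x : Pt S.W) (h : Reg S m A Z') :
    ∃ P : Submodule ℂ K, EM Z' A m ≤ P ∧ P ≤ M A m ∧
      finrank ℂ P = finrank ℂ (EM Z' A m) + soc (Z'.J x) ∧
      (∀ f ∈ P, f ∉ EM Z' A m → ∃ Z, Z.Step Z' x ∧ EM Z A m = EM Z' A m ⊔ Submodule.span ℂ {f}) ∧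
      ∀ Z, Z.Step Z' x → EM Z A m ≤ P := by
  have hL := hA.toLoc
  have hR := rl S hA x
  have f1 : FinCol (socI (Z'.J x)) := (Z'.fc x).mono (le_socI _)
  have e1 := Z'.upd_self x _ f1
  have e2 : ∀ y, y ≠ x → (Z'.upd x _ f1).J y = Z'.J y := fun y hy => Z'.upd_ne _ _ hy
  have l1 : ∀ y, Z'.J y ≤ (Z'.upd x _ f1).J y := fun y => by
    by_cases e : y = x
    · subst e; rw [e1]; exact le_socI _
    · exact (e2 y e).ge
  refine ⟨EM (Z'.upd x _ f1) A m, EM_mono l1 A m, EM_le_M S hL _ _ _, ?_, fun f hf hf' => ?_,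
    fun Z hS => EM_mono (fun y => ?_) A m⟩
  · have a1 := (h.up hA l1).dim m le_rfl
    have a2 := h.dim m le_rfl
    have a3 := Z'.len_add _ x e2
    have a4 := col_add (Z'.fc x) (le_socI _)
    rw [e1] at a3
    unfold Hb.soc
    omega
  · obtain ⟨s, hs⟩ := hL.gen x (A + m • S.H)
    obtain ⟨g, hg, rfl⟩ := mem_EM.1 hf x s hs
    rw [e1] at hg
    have h1 : ∀ Z : Zs S.W, (∀ y, y ≠ x → Z.J y = Z'.J y) → g ∈ Z.J x → g * s ∈ EM Z A m :=
      fun Z hZ hgZ => mem_EM_step (fun y hy => (hZ y hy).trans (e2 y hy).symm) hf (by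
        rw [mem_st S hL hs, mul_div_cancel_right₀ _ hs.1]
        exact coe_mem_inK.2 hgZ)
    have hg' : g ∉ Z'.J x := fun e => hf' (h1 Z' (fun _ _ => rfl) e)
    have f2 : FinCol (Z'.J x ⊔ Ideal.span {g}) := (Z'.fc x).mono le_sup_left
    have e3 := Z'.upd_self x _ f2
    have hS : (Z'.upd x _ f2).Step Z' x := Zs.step_of (le_sup_left.trans e3.ge)
      (fun y hy => (Z'.upd_ne _ _ hy).symm) (by rw [e3]; exact hR.col_sup (Z'.fc x) hg hg')
    refine ⟨_, hS, ?_⟩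
    have h2 : g * s ∈ EM (Z'.upd x _ f2) A m := h1 _ (fun y hy => Z'.upd_ne _ _ hy)
      (by rw [e3]; exact Submodule.mem_sup_right (Ideal.mem_span_singleton_self g))
    have l2 : EM Z' A m ⊔ Submodule.span ℂ {(g : K) * s} ≤ EM (Z'.upd x _ f2) A m :=
      sup_le (EM_mono hS.le A m) ((Submodule.span_singleton_le_iff_mem _ _).2 h2)
    haveI := fin_EM S hA (Z'.upd x _ f2) A m
    have a1 := (h.up hA hS.le).dim m le_rfl
    have a2 := h.dim m le_rfl
    have a3 := hS.len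
    have a4 := rdim_add_finrank (EM_mono hS.le A m)
    rcases eq_or_eq_of_rdim_one le_sup_left l2 (rfin_of_finite _ _) (by omega) with h3 | h3
    · exact absurd (h3 (Submodule.mem_sup_right (Submodule.mem_span_singleton_self _))) hf'
    · exact le_antisymm h3 l2
  · by_cases e : y = x
    · subst e
      rw [e1]
      exact fun a ha t ht => hS.max_mul hA (Ideal.mul_mem_mul ht ha)
    · rw [e2 y e, hS.eq y e]

omit hF in
theorem Reg.surj {m : ℤ} {A : Div S.W} {Z Z' : Zs S.W} {x : Pt S.W} (hS : Z.Step Z' x)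
    (h : Reg S m A Z') {u : ι → K} (hu : Submodule.span ℂ (Set.range u) = EM Z A m) {l : ι → ℂ}
    (h0 : l ≠ 0) (hk : EM Z' A m = kerF u l) (n : ℕ) {e : K} (he : e ∈ S.W ^ n)
    (hv : ∀ w ∈ S.W, x.In w → x.Van (e / w ^ n)) : ∃ c ∈ Rel S.W u n, ∑ a, l a • c a = e := by
  have hL := hA.toLoc
  obtain ⟨t₀, ht₀⟩ := exists_dual_one h0
  obtain ⟨s, hs⟩ := hL.gen x (A + m • S.H)
  obtain ⟨w, hw, hx⟩ := x.exists_in
  have h1 : ∑ a, t₀ a • u a ∈ EM Z A m :=
    hu ▸ (Submodule.mem_span_range_iff_exists_fun ℂ).2 ⟨t₀, rfl⟩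
  have h2 : e * ∑ a, t₀ a • u a ∈ EM Z' A (m + n) := by
    refine mem_EM_step hS.eq (pow_mul_EM S hL Z A m n (Submodule.mul_mem_mul he h1)) ?_
    obtain ⟨g, hg, e1⟩ := mem_EM.1 h1 x s hs
    obtain ⟨h3, h4⟩ := x.van_iff.1 (hv w hw hx)
    rw [mem_st S hL (gen_twist_nat S hL hs hw hx n), e1]
    refine ⟨_, hS.max_mul hA (Ideal.mul_mem_mul h4 hg), ?_⟩
    have := hs.1
    have := hx.1
    change e / w ^ n * g = _
    field_simp
  have h3 : ∀ f ∈ S.W ^ n * kerF u l, ∃ c : ι → K, (∀ a, c a ∈ S.W ^ n) ∧ ∑ a, l a • c a = 0 ∧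
      ∑ a, c a * u a = f := by
    intro f hf
    refine Submodule.mul_induction_on hf (fun d hd v hv => ?_) ?_
    · obtain ⟨t, ht, rfl⟩ := mem_kerF.1 hv
      refine ⟨fun a => t a • d, fun a => Submodule.smul_mem _ _ hd, ?_, ?_⟩
      · simp only [smul_smul, ← Finset.sum_smul, mul_comm (l _), ht, zero_smul]
      · simp only [Finset.mul_sum, smul_mul_assoc, mul_smul_comm]
    · rintro _ _ ⟨c, hc, hc', rfl⟩ ⟨d, hd, hd', rfl⟩
      refine ⟨c + d, fun a => add_mem (hc a) (hd a), ?_, ?_⟩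
      · simp only [Pi.add_apply, smul_add, Finset.sum_add_distrib, hc', hd', add_zero]
      · simp only [Pi.add_apply, add_mul, Finset.sum_add_distrib]
  obtain ⟨c, hc, hc', hc''⟩ := h3 _ (hk ▸ h.gen_pow' n h2)
  refine ⟨fun a => t₀ a • e - c a, ⟨fun a => sub_mem (Submodule.smul_mem _ _ he) (hc a), ?_⟩, ?_⟩
  · simp only [sub_mul, Finset.sum_sub_distrib, hc'', Finset.mul_sum, smul_mul_assoc,
      mul_smul_comm, sub_self]
  · simp only [smul_sub, Finset.sum_sub_distrib, hc', smul_smul, ← Finset.sum_smul,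
      mul_comm (l _), ht₀, one_smul, sub_zero]

theorem fibB_of : FibB S where
  up _ _ _ _ h hl := h.up hA hl
  jet _ _ _ h _ hj := (h.jets hA hj).1
  stalk _ _ _ h x _ hs := h.stalk hA hF x hs
  uniq _ _ _ _ _ h h' e := h.uniq hA hF h' e
  hom _ _ _ _ _ h _ ht := h.hom hA hF ht
  down _ _ _ h _ _ _ hu x _ hl h0 := h.down hA hF hu x hl h0
  mu _ _ _ h _ _ _ hu x := h.mu hA hF hu x
  kill _ _ _ _ _ hS h _ _ _ hu _ hl := Reg.kill hA hF hS h hu hl
  soc _ _ _ x h := h.soc hA x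
  step_pt _ _ _ hS := hS.pt hA
  surj _ _ _ _ _ hS h _ _ _ hu _ h0 hk _ n _ he hv := Reg.surj hA hS h hu h0 hk n he hv

omit hA hF in
theorem fibB : FIBB := fun _ _ _ _ hA _ hF => fibB_of hA hF

end Vale.Agent.P297Z.Sf.Fb
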