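import Vale.Agent.P297Z.Hb.TowDefs
import Vale.Agent.P297Z.Hb.Fam2
import Vale.Agent.P297Z.Hb.FibA
import Vale.Agent.P297Z.Hb.FibB
import Vale.Agent.P297Z.Hb.LaSurf
import Vale.Agent.P297Z.Hb.GeoFib

/-! P297: the points of the spaces of subsheaves and the universal families. -/

set_option linter.all false

noncomputable section

namespace Vale.Agent.P297Z.Sf

open Fb Vale.Agent.P297Z.Hb Pw

variable {K : Type} [Field K] [Algebra ℂ K] {S : Surf K}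

theorem fbA (h : S.All) : FibA S := fibA K S h (las S h)

theorem fbB (h : S.All) : FibB S := fibB K S h (las S h) (fbA h)

theorem span_eq_top {ι : Type} {u : ι → K} (h : Submodule.span ℂ (Set.range u) ≠ ⊥) :
    Module.finrank K (Submodule.span K (Set.range u)) = 1 := by
  obtain ⟨a, ha⟩ : ∃ a, u a ≠ 0 := by
    by_contra o
    exact h (Submodule.span_eq_bot.2 (by rintro _ ⟨a, rfl⟩; exact by_contra fun e => o ⟨a, e⟩))
  rw [show Submodule.span K (Set.range u) = ⊤ from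
    Ideal.eq_top_of_isUnit_mem _ (Submodule.subset_span ⟨a, rfl⟩) (Ne.isUnit ha), finrank_top,
    Module.finrank_self]

/-- the value of a function is the sum of the values of its homogeneous parts -/
theorem exists_val (h : S.All) {ι : Type} [Fintype ι] (t : ι → (S.spc h).R) :
    ∃ N : ℕ, ∀ a, t a = ∑ j ∈ Finset.range N,
      frm h j (co h j (t a)) (S.Wp_nat j ▸ S.mem_ring.1 (show S.ring from t a).2 j) := by
  classical
  refine ⟨∑ a, ((show S.ring from t a).1.coeff.support.sup Int.toNat + 1), fun a => co_ext fun i => ?_⟩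
  rw [map_sum]
  simp only [co_frm]
  by_cases h0 : co h i (t a) = 0
  · rw [h0]
    exact (Finset.sum_eq_zero fun j _ => by split_ifs with e; exacts [e ▸ h0, rfl]).symm
  · have h1 : 0 ≤ i := by
      by_contra o
      have := S.mem_ring.1 (show S.ring from t a).2 i
      rw [S.Wp_neg (not_le.1 o)] at this
      exact h0 this
    lift i to ℕ using h1
    rw [Finset.sum_eq_single i (fun j _ e => if_neg fun e' => e (by exact_mod_cast e'))
      fun o => absurd (Finset.mem_range.2 ?_) o, if_pos rfl]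
    have h2 := Finset.le_sup (f := Int.toNat) (Finsupp.mem_support_iff.2 h0)
    have h3 := Finset.single_le_sum (f := fun a =>
      (show S.ring from t a).1.coeff.support.sup Int.toNat + 1) (fun _ _ => Nat.zero_le _)
      (Finset.mem_univ a)
    rw [Int.toNat_natCast] at h2
    exact lt_of_lt_of_le (Nat.lt_succ_of_le h2) h3

namespace Ctx

variable {c : Ctx S} {h : S.All} {r₀ r : ℕ}

theorem h0_eq (h : S.All) : h0 c.D = c.v + 1 := by
  rw [h0, ← c.φ_span, finrank_span_eq_card c.φ_ind, Fintype.card_fin, Nat.cast_add, Nat.cast_one]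

theorem pt_mem (hc : Spc.Clo _ (c.XS r)) (z : (c.Xr r).Pt) : ∃ Z, c.IsPt (c.am z) Z :=
  Mor.incl_mem (c.XS_stab r) hc z

theorem exists_pt {w : ((PP c.v).prod (c.Gr r)).Pt} (hw : w ∈ c.XS r) :
    ∃ z : (c.Xr r).Pt, c.am z = w :=
  ⟨_, Dim.incl_subPt (c.XS_stab r) w fun _ hr => hr w hw⟩

theorem pz_eq (z : (c.Xr r).Pt) : c.pz z = ((c.gr r).onPt z).co := rfl

theorem pz_ne (z : (c.Xr r).Pt) : c.pz z ≠ 0 := Ge.co_ne ((c.gr r).onPt z)

theorem fz_eq (z : (c.Xr r).Pt) : c.fz z = ∑ i, z.1 (c.yl r i) • c.φ i := rfl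

theorem fz_mem (z : (c.Xr r).Pt) : c.fz z ∈ H0 c.D ∧ c.fz z ≠ 0 := ⟨c.fpt_mem _, c.fpt_ne _⟩

theorem eff_fz (h : S.All) (z : (c.Xr r).Pt) : 0 ≤ c.D + div S.W (c.fz z) := fun C => by
  have h1 := (fz_mem z).1.resolve_left (fz_mem z).2 C trivial
  have h2 : div S.W (c.fz z) C = C.ord (c.fz z) := toDiv_apply (h.fin_div _) C
  simp only [Finsupp.add_apply, h2, Finsupp.coe_zero, Pi.zero_apply]
  omega

theorem Ok.reg_pt (H : c.Ok r₀) (hr : r₀ ≤ r) {z : (c.Xr r).Pt} {Z : Zs S.W}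
    (hZ : c.IsPt (c.am z) Z) : Reg S c.m (c.A (c.fz z)) Z ∧ Z.len = c.s - r ∧ r ≤ c.s :=
  ⟨H.reg _ (fz_mem z).1 (fz_mem z).2 Z ((Nat.add_le_add_left hr _).trans hZ.2.1.le),
    Nat.eq_sub_of_add_eq hZ.2.1, (Nat.le_add_left _ _).trans hZ.2.1.le⟩

theorem chi_A (h : S.All) {f : K} (hf : f ≠ 0) (j : ℤ) :
    chi (c.A f + j • S.H) = chi (c.L - c.D + j • S.H) := by
  rw [← h.lin _ f hf, A]
  congr 1
  abel

theorem M_A (h : S.All) {f : K} (hf : f ≠ 0) (j : ℤ) (g : K) :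
    f * g ∈ M (c.A f) j ↔ g ∈ M (c.L - c.D) j := by
  obtain ⟨Z, hZ⟩ := (fbA h).empty
  rw [← (fbA h).zero Z _ _ hZ, ← (fbA h).zero Z _ _ hZ, A, ← sub_sub]
  exact (fbA h).mulf Z _ j f g hf

theorem M_A_eq (h : S.All) {f : K} (hf : f ≠ 0) (j : ℤ) :
    M (c.A f) j = (M (c.L - c.D) j).map (LinearMap.mulLeft ℂ f) := by
  ext g
  refine ⟨fun hg => ⟨f⁻¹ * g, (M_A h hf j _).1 ?_, mul_inv_cancel_left₀ hf g⟩, ?_⟩
  · rwa [mul_inv_cancel_left₀ hf]
  · rintro ⟨g, hg, rfl⟩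
    exact (M_A h hf j g).2 hg

theorem Ok.s_eq (H : c.Ok r₀) (h : S.All) :
    (c.s : ℤ) = chi (c.L - c.D + (c.m : ℤ) • S.H) := by
  obtain ⟨Z, hZ⟩ := (fbA h).empty
  have h0 := c.φ_ind.ne_zero 0
  have h1 := (H.reg _ (c.φ_span ▸ Submodule.subset_span ⟨0, rfl⟩) h0 Z
    (by rw [hZ, zero_add]; exact H.le)).dim _ le_rfl
  rw [(fbA h).zero Z _ _ hZ, chi_A h h0, hZ, M_A_eq h h0, ← (Submodule.equivMapOfInjective _
    (mul_right_injective₀ h0) _).finrank_eq] at h1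
  exact h1.trans (sub_zero _)

theorem fam_u (z : (c.Xr (r + 1)).Pt) : (c.fam r).u z = c.ug (c.pz z) := rfl

theorem β_apply (p : (Fin r → c.B) → ℂ) (s : (Fin r → c.B) × Fin r) :
    c.β r p s = c.lc (Plk.vc p s.1 s.2) :=
  (LinearMap.sum_apply _ _ _).trans rfl

theorem famV_u (z : (c.Xr r).Pt) : (c.famV r).u z = c.β r (c.pz z) :=
  funext fun s => (β_apply (c.pz z) s).symm

theorem span_β (p : (Fin r → c.B) → ℂ) : Submodule.span ℂ (Set.range (c.β r p)) = c.Usp p := by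
  rw [Usp, Plk.sub, Submodule.map_span]
  congr 1
  ext x
  exact ⟨by rintro ⟨s, rfl⟩; exact ⟨_, ⟨s.1, s.2, rfl⟩, (β_apply p s).symm⟩,
    by rintro ⟨_, ⟨J, a, rfl⟩, rfl⟩; exact ⟨(J, a), β_apply p _⟩⟩

theorem span_fam {z : (c.Xr (r + 1)).Pt} {Z : Zs S.W} (hZ : c.IsPt (c.am z) Z) :
    Submodule.span ℂ (Set.range ((c.fam r).u z)) = EM Z (c.A (c.fz z)) c.m :=
  (span_ug hZ.1 (pz_ne z)).trans hZ.2.2

theorem span_famV {z : (c.Xr r).Pt} {Z : Zs S.W} (hZ : c.IsPt (c.am z) Z) :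
    Submodule.span ℂ (Set.range ((c.famV r).u z)) = EM Z (c.A (c.fz z)) c.m :=
  (congrArg (fun u => Submodule.span ℂ (Set.range u)) (famV_u z)).trans
    ((span_β _).trans hZ.2.2)

theorem finrank_EM {z : (c.Xr r).Pt} {Z : Zs S.W} (hZ : c.IsPt (c.am z) Z) :
    Module.finrank ℂ (EM Z (c.A (c.fz z)) c.m) = r :=
  hZ.2.2 ▸ finrank_Usp hZ.1 (pz_ne z)

theorem pz_alt (hc : Spc.Clo _ (c.XS r)) (z : (c.Xr r).Pt) : c.pz z ∈ c.Alt r := by
  obtain ⟨Z, hZ⟩ := pt_mem hc z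
  obtain ⟨J₀, h0⟩ := Function.ne_iff.1 (pz_ne z)
  obtain ⟨u, -, -, hu⟩ := Plk.Rel.exists_plk (z := c.pz z) hZ.1 h0
  intro J σ
  rw [hu J, hu (J ∘ σ), mul_left_comm]
  exact congrArg _ (Matrix.det_permute' σ (Plk.cols u J))

theorem Ok.Gn_e (H : c.Ok r₀) (h : S.All) (j : ℕ) : Gn S.W c.e j = M c.L (c.m + j) := by
  obtain ⟨Z, hZ⟩ := (fbA h).empty
  rw [← (fbA h).zero Z _ _ hZ]
  exact Gn_EM h (fbA h) (H.regL Z hZ) (c.e_span.trans ((fbA h).zero Z _ _ hZ).symm) j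

theorem Ok.Gn_u (H : c.Ok r₀) (h : S.All) (hr : r₀ ≤ r) {z : (c.Xr r).Pt} {Z : Zs S.W}
    (hZ : c.IsPt (c.am z) Z) (j : ℕ) :
    Gn S.W ((c.famV r).u z) j = EM Z (c.A (c.fz z)) (c.m + j) :=
  Gn_EM h (fbA h) (H.reg_pt hr hZ).1 (span_famV hZ) j

theorem Ok.dim_Gn (H : c.Ok r₀) (h : S.All) (hr : r₀ ≤ r) (hc : Spc.Clo _ (c.XS r))
    (z : (c.Xr r).Pt) (j : ℕ) : (Module.finrank ℂ (Gn S.W ((c.famV r).u z) j) : ℤ) =
      chi (c.L - c.D + ((c.m : ℤ) + j) • S.H) - (c.s - r : ℕ) := by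
  obtain ⟨Z, hZ⟩ := pt_mem hc z
  obtain ⟨h1, h2, -⟩ := H.reg_pt hr hZ
  rw [H.Gn_u h hr hZ, h1.dim _ (by omega), chi_A h (fz_mem z).2, h2]

theorem Ok.flatV (H : c.Ok r₀) (h : S.All) (hr : r₀ ≤ r) (hc : Spc.Clo _ (c.XS r)) :
    (c.famV r).Flat S 1 := by
  refine ⟨fun j => ⟨(chi (c.L - c.D + ((c.m : ℤ) + j) • S.H) - (c.s - r : ℕ)).toNat, fun z => by
    rw [← H.dim_Gn h hr hc z j, Int.toNat_natCast]⟩, fun z => span_eq_top fun e => ?_⟩
  obtain ⟨Z, hZ⟩ := pt_mem hc z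
  have := finrank_EM hZ
  rw [← span_famV hZ, e, finrank_bot] at this
  have := H.pos
  omega

theorem span_fam_eq (hc : Spc.Clo _ (c.XS (r + 1))) (z : (c.Xr (r + 1)).Pt) :
    Submodule.span ℂ (Set.range ((c.fam r).u z)) =
      Submodule.span ℂ (Set.range ((c.famV (r + 1)).u z)) :=
  let ⟨_, hZ⟩ := pt_mem hc z
  (span_fam hZ).trans (span_famV hZ).symm

theorem Ok.flat (H : c.Ok r₀) (h : S.All) (hr : r₀ ≤ r + 1) (hc : Spc.Clo _ (c.XS (r + 1))) :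
    (c.fam r).Flat S 1 := (H.flatV h hr hc).of_span (span_fam_eq hc)

theorem Ok.Ecl_fam (H : c.Ok r₀) (h : S.All) (hr : r₀ ≤ r + 1) (hc : Spc.Clo _ (c.XS (r + 1)))
    [Nonempty (c.Xr (r + 1)).Pt] : (c.fam r).Ecl h 1 = c.Ecl h (r + 1) :=
  (H.flatV h hr hc).Ecl_indep h (c.fam r) rfl rfl (span_fam_eq hc)

/-- the equations of the nested space -/
theorem Ok.mem_kill (H : c.Ok r₀) (hr : r₀ ≤ r + 1) (hc : Spc.Clo _ (c.XS (r + 1)))
    (y : (c.Yr h r).Pt) {x : Pt S.W} (hx : S.Over h ((Mor.snd _ _).onPt y) x)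
    (l : (Fin r → c.B) → ℂ) : l ∈ Fb.Kill (c.ug (c.pz ((Mor.fst _ _).onPt y))) x ↔
      ∀ k ∈ (c.fam r).Kt h, ∑ J, l J * y.1 (k J) = 0 := by
  have key : ∀ (j : ℕ) (t : (Fin r → c.B) → K) (ht : ∀ J, t J ∈ S.W ^ j), ∀ w ∈ S.W, x.In w →
      (∑ J, l J * ((Mor.snd _ _).onPt y).1 (frm h j (t J) (ht J)) = 0 ↔
        x.Van ((∑ J, l J • t J) / w ^ j)) := fun j t ht w hw h1 => by
    have h2 := SA.over_form hx (w := ⟨w, hw⟩) h1
      (Submodule.sum_mem _ fun J _ => Submodule.smul_mem _ (l J) (ht J) : ∑ J, l J • t J ∈ S.W ^ j)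
    refine (Eq.congr_left ?_).trans h2
    have h3 := map_sum (((Mor.snd _ _).onPt y).1.toLinearMap ∘ₗ SA.formL S j)
      (fun J => l J • (⟨t J, ht J⟩ : (S.W ^ j : Submodule ℂ K))) Finset.univ
    simp only [map_smul] at h3
    exact h3.symm.trans (congrArg ((Mor.snd _ _).onPt y).1
      (SA.form_congr (Subtype.property _) _ rfl (by simp)))
  constructor
  · intro hl k hk
    obtain ⟨w, hw, h1⟩ := x.exists_in
    obtain ⟨N, hN⟩ := exists_val h fun J => evp (S.spc h) ((Mor.fst _ _).onPt y) (k J)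
    rw [Finset.sum_congr rfl fun J _ => by rw [evp_pt y (k J), hN J, map_sum, Finset.mul_sum],
      Finset.sum_comm]
    exact Finset.sum_eq_zero fun j _ => (key j _ _ w hw h1).2
      (hl j _ ⟨fun J => S.Wp_nat j ▸ cf_mem h _ j (k J), hk _ j⟩ w hw h1)
  · intro hl j t ht w hw h1
    obtain ⟨k, hk, h2, h3⟩ := (H.flat h hr hc).lift h ((Mor.fst _ _).onPt y) (j := j) (c := t) ht
    refine (key j t ht.1 w hw h1).1 (Eq.trans (Finset.sum_congr rfl fun J _ => ?_) (hl k hk))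
    obtain ⟨h4, h5⟩ := evz_of_pure h _ (h3 J ((Mor.fst _ _).onPt y))
    rw [evp_pt y (k J)]
    exact congrArg (fun v => l J * ((Mor.snd _ _).onPt y).1 v)
      (h5.trans (SA.form_congr _ _ rfl (h2 J))).symm

theorem Usp_kerF {p : (Fin (r + 1) → c.B) → ℂ} (h1 : Plk.Rel p) (h0 : p ≠ 0)
    {l : (Fin r → c.B) → ℂ} (hl : l ≠ 0) {x : Pt S.W} (h3 : l ∈ Fb.Kill (c.ug p) x) :
    c.Usp l = kerF (c.ug p) l := by
  obtain ⟨-, h7⟩ := h1.down h0 hl fun τ hτ => by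
    obtain ⟨u, k1, k2⟩ := x.exists_in
    have k3 := h3 0 (fun J => algebraMap ℂ K (τ J)) ⟨fun J => by
      rw [pow_zero]
      exact Submodule.algebraMap_mem _, by
      simp only [← Algebra.smul_def]
      exact (lc_sum _ τ).symm.trans ((congrArg _ hτ).trans (map_zero _))⟩ u k1 k2
    refine Pt.van_const (x := x) ?_
    convert k3 using 1
    simp [Algebra.smul_def, mul_comm]
  rw [Usp, h7, ← Submodule.map_comp, kerF]
  congr 1
  exact LinearMap.ext fun τ => lc_sum _ τ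

/-- the points of the nested space -/
theorem Geom.ptN (G : c.Geom h r₀) (H : c.Ok r₀) (hr : r₀ ≤ r) (hs : r < c.s)
    (w : (c.Nr h r).Pt) : ∃ (Z Z' : Zs S.W) (x : Pt S.W), Z.Step Z' x ∧
      c.IsPt (c.am (((Mor.fst _ _).comp (c.πN h r)).onPt w)) Z ∧
      c.IsPt (c.am ((c.ρN h r (G.maps r hr hs)).onPt w)) Z' ∧
      S.Over h (((Mor.snd _ _).comp (c.πN h r)).onPt w) x ∧
      c.fz ((c.ρN h r (G.maps r hr hs)).onPt w) = c.fz (((Mor.fst _ _).comp (c.πN h r)).onPt w) ∧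
      c.pz ((c.ρN h r (G.maps r hr hs)).onPt w) = ((c.incN h r).onPt w).co ∧
      ((c.incN h r).onPt w).co ∈ Fb.Kill (c.ug (c.pz (((Mor.fst _ _).comp (c.πN h r)).onPt w))) x ∧
      EM Z' (c.A (c.fz ((c.ρN h r (G.maps r hr hs)).onPt w))) c.m =
        kerF (c.ug (c.pz (((Mor.fst _ _).comp (c.πN h r)).onPt w))) ((c.incN h r).onPt w).co := by
  obtain ⟨Z, Z', x, hd⟩ := exists_dat (fbB h) H.reg (Nat.le_succ_of_le hr)
    (Mor.incl_mem (c.NS_stab h r) (G.cloN r hr hs) w)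
  have e1 : c.fz ((c.ρN h r (G.maps r hr hs)).onPt w) =
      c.fz (((Mor.fst _ _).comp (c.πN h r)).onPt w) := congrArg c.fpt (fst_ρ0 ((c.incN h r).onPt w))
  have e2 : c.pz ((c.ρN h r (G.maps r hr hs)).onPt w) = ((c.incN h r).onPt w).co :=
    co_ρ0 ((c.incN h r).onPt w)
  exact ⟨Z, Z', x, hd.step, hd.pt, hd.pt', hd.ov, e1, e2, hd.kill, hd.pt'.2.2.symm.trans
    ((congrArg c.Usp e2).trans (Usp_kerF hd.pt.1 (Ge.co_ne _) (Ge.co_ne _) hd.kill))⟩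

end Ctx

end Vale.Agent.P297Z.Sf
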