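import Vale.Agent.P297Z.Hb.GeoBase
import Vale.Agent.P297Z.Hb.GeoStep
import Vale.Agent.P297Z.Hb.Tow0

/-! P297: the geometry of the spaces of subsheaves of rank one. -/

set_option linter.all false

noncomputable section

namespace Vale.Agent.P297Z

/-- a local frame of a submodule which is a bundle gives local equations -/
theorem Hb.Ge.eqs_of_free {X : Spc} {ι : Type} [Fintype ι] [Nonempty ι]
    {T : X.Pt → Submodule ℂ (ι → ℂ)} (N : Submodule X.R (ι → X.R))
    (h1 : ∀ y : X.Pt, FreeAt y.1 N (Fintype.card ι - 1))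
    (h2 : ∀ (y : X.Pt) l, l ∈ T y ↔ ∀ k ∈ N, ∑ J, l J * y.1 (k J) = 0) : Hb.Ge.Eqs X T := by
  intro y
  obtain ⟨a, v, p, h3, h4, -⟩ := AK.free_basis (h1 y)
  refine ⟨a, fun i => (v i).1, h3, fun y' h5 l => (h2 y' l).trans
    ⟨fun h6 i => h6 _ (v i).2, fun h6 k hk => mul_left_cancel₀ h5 ?_⟩⟩
  have h7 : ∀ J, y'.1 a * y'.1 (k J) = ∑ i, y'.1 (p i ⟨k, hk⟩) * y'.1 ((v i).1 J) := fun J => by
    have := congrArg (fun t : N => y'.1 (t.1 J)) (h4 ⟨k, hk⟩)
    simpa using this.symm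
  rw [mul_zero, Finset.mul_sum]
  simp only [mul_left_comm (y'.1 a), h7, Finset.mul_sum]
  rw [Finset.sum_comm]
  refine Finset.sum_eq_zero fun i _ => ?_
  simp only [mul_left_comm (l _), ← Finset.mul_sum, h6 i, mul_zero]

namespace Sf.Ctx

open Fb Hb Hb.Ge Dim

variable {K : Type} [Field K] [Algebra ℂ K] {S : Surf K} {c : Ctx S} {h : S.All} {r₀ r : ℕ}

theorem Ok.locEq (H : c.Ok r₀) (h : S.All) (hr : r₀ ≤ r + 1) : c.LocEq h r := fun hc =>
  eqs_of_free ((c.fam r).Kt h) ((H.flat h hr hc).isBun h) fun y l =>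
    (pz_eq ((Mor.fst _ _).onPt y) ▸ H.mem_kill hr hc y (SA.exists_over _).choose_spec l :)

theorem Ok.geom (H : c.Ok r₀) (h : S.All) : c.Geom h r₀ := by
  have hA := fbA h
  have hB := fbB h
  obtain ⟨h1, h2, h3, h4⟩ := base_case c h (fbA h)
  have key : ∀ n r, r₀ ≤ r → r + n = c.s → c.Inv h r := by
    intro n
    induction n with
    | zero =>
      rintro r - (rfl : r = c.s)
      refine ⟨h1, by simpa using h2, fun k e hk _ => ?_⟩
      rw [Set.eq_empty_of_forall_notMem (s := c.Vs h c.s k) fun y ⟨Z, x, h5, _, h6⟩ => by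
        rw [soc_top ((hA.len_zero Z).1 (by have := h5.2.1; omega) x)] at h6
        omega, cdim_empty]
      exact WithBot.bot_lt_coe _
    | succ n ih =>
      exact fun r hr e => (step hA hB H.reg hr (by omega) (ih _ (by omega) (by omega))
        (H.locEq h (by omega))).1
  have k1 : ∀ r, r₀ ≤ r → r ≤ c.s → c.Inv h r := fun r hr hs => key (c.s - r) r hr (by omega)
  have k2 := fun r (hr : r₀ ≤ r) (hs : r < c.s) =>
    (step hA hB H.reg hr hs (k1 _ (by omega) hs) (H.locEq h (by omega))).2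
  exact ⟨fun r hr hs => (k1 r hr hs).clo, fun r hr hs => (k1 r hr hs).var,
    fun r hr hs => (k2 r hr hs).1, fun r hr hs => (k2 r hr hs).2.1,
    fun r hr _ => maps hB H.reg (by omega), fun r hr hs G y =>
      let ⟨n, e⟩ := (k2 r hr hs).2.2 G y
      ⟨n, e ▸ Spc.Orb.refl _⟩,
    fun r hr hs => injO hA hB H.reg hr hs (k2 r hr (by omega)).1, h3, h4⟩

end Sf.Ctx

end Vale.Agent.P297Z
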