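import Vale.Agent.P297Z.Hb.PistB
import Vale.Agent.P297Z.Hb.Tow0
import Vale.Agent.P297Z.Hb.GeoStep

/-! P297: the direct images of the powers of the line bundle on the nested space. -/

set_option linter.all false

noncomputable section

namespace Vale.Agent.P297Z.Sf.Ctx

open Fb Vale.Agent.P297Z.Hb Pw Hb.Ge Dim

variable {K : Type} [Field K] [Algebra ℂ K] {S : Surf K} {c : Ctx S} {h : S.All} {r₀ r : ℕ}

theorem Ok.mem_kT (H : c.Ok r₀) (hr : r₀ ≤ r + 1) (hc : Spc.Clo _ (c.XS (r + 1)))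
    (y : (c.Yr h r).Pt) (l : (Fin r → c.B) → ℂ) : l ∈ c.kT h r y ↔
      ∀ k : (c.fam r).Kt h, ∑ J, l J * y.1 (k.1 J) = 0 :=
  (H.mem_kill hr hc y (SA.exists_over _).choose_spec l).trans Subtype.forall'

theorem Geom.πstar (G : c.Geom h r₀) (H : c.Ok r₀) (hr : r₀ ≤ r) (hs : r < c.s) (i : ℕ) :
    fstar (c.πN h r) (kact _ ((c.lN h r - 1) ^ i) (oG _)) -
      kact _ (cc i (-c.Ecl h (r + 1))) (oG _) ∈ Fd (c.Yr h r) (c.v + 2 * (c.s - r) - i) := by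
  have hr' : r₀ ≤ r + 1 := by omega
  have hc := G.clo (r + 1) hr' hs
  have hX := G.var (r + 1) hr' hs
  obtain ⟨a⟩ := hX.ne
  obtain ⟨Z, hZ⟩ := pt_mem hc a
  obtain ⟨x, hx⟩ := (fbA h).free Z
  obtain ⟨z, hz⟩ := SA.exists_pt h x
  have h1 := finrank_kT (y := pair a z) (fbB h) H.reg hr' (by rwa [fst_pair]) (by rwa [snd_pair])
  rw [hx, (las S h x).mu_top] at h1
  obtain ⟨⟨l, h2⟩, h3, h4⟩ := finrank_eq_one_iff'.1 h1
  obtain ⟨w, h5, h6⟩ : ∃ w : (c.Pr h r).Pt, (Mor.adjPr _ _ _).onPt w = pair a z ∧ w.co = l :=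
    ⟨_, pr_adjPt _ fun e => h3 (Subtype.ext e), co_adjPt _ _⟩
  haveI := hX.ne
  rw [← H.Ecl_fam h hr' hc, Fam.Ecl, neg_sub]
  refine Ps.segre (ι := Fin r → c.B) (δ := Sum.elim (c.dp (r + 1)) fun _ => (c.m : ℤ))
    (γ := c.dl h r) (K := (c.fam r).KM h) (φ := ((c.fam r).Kt h).subtype) (w := w)
    (hX.prod (SA.isVar h)).proj (fun _ _ => rfl) (Nat.sub_add_cancel Fintype.card_pos)
    ((H.flat h hr' hc).isBun h) (c.NS_stab h r) (fun n => ?_) (G.varN r hr hs) ?_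
    (fun l' hl => ?_) ?_ i
  · rw [NS_eq hc]
    exact H.mem_kT hr' hc _ _
  · rw [NS_eq hc]
    change w.co ∈ c.kT h r _
    rwa [h5, h6]
  · obtain ⟨t, ht⟩ := h4 ⟨l', (H.mem_kT hr' hc _ _).2 (h5 ▸ hl)⟩
    exact ⟨t, h6 ▸ (congrArg Subtype.val ht).symm⟩
  · funext j
    rcases j with _ | j | j
    · exact (sub_zero _).trans ((sub_zero _).trans (zero_add _).symm)
    · exact (sub_zero _).trans ((zero_sub _).trans (add_zero _).symm)
    · exact (congrArg (· - _) (sub_zero _)).trans ((zero_sub _).trans (add_zero _).symm)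

end Vale.Agent.P297Z.Sf.Ctx
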