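import Vale.Agent.P297Z.Hb.FibC3

/-! P297: tangent vectors of the space of rank one subsheaves. -/

set_option linter.all false

open IsLocalRing Module

namespace Vale.Agent.P297Z.Sf.Fb.Tg

open Vale.Agent.P297Z.Hb

variable {K : Type} [Field K] [Algebra ℂ K] {S : Surf K} {ι : Type} [Fintype ι]
  {Z : Zs S.W} {u : ι → K} {m : ℤ} {A : Div S.W}

/-- the vectors of sections -/
noncomputable def EP (ι : Type) (Z : Zs S.W) (A : Div S.W) (j : ℤ) : Submodule ℂ (ι → K) :=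
  Submodule.pi Set.univ fun _ => EM Z A j

/-- the multiples of `u` -/
def lu (u : ι → K) : K →ₗ[ℂ] (ι → K) where
  toFun t := t • u
  map_add' s t := add_smul s t u
  map_smul' c t := smul_assoc c t u

theorem finrank_lu {a₀ : ι} (h0 : u a₀ ≠ 0) (N : Submodule ℂ K) :
    finrank ℂ (N.map (lu u)) = finrank ℂ N :=
  (Submodule.equivMapOfInjective _ (fun s t e => mul_right_cancel₀ h0 (congrFun e a₀))
    N).finrank_eq.symm

theorem finrank_pi (ι : Type) [Fintype ι] (N : Submodule ℂ K) [Module.Finite ℂ N] :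
    Module.Finite ℂ (Submodule.pi Set.univ fun _ : ι => N) ∧
      finrank ℂ (Submodule.pi Set.univ fun _ : ι => N) = Fintype.card ι * finrank ℂ N := by
  have h := rdim_pi (ι := ι) (fun _ => ⊥) (fun _ => N) fun _ => rfin_of_finite _ _
  rw [Submodule.pi_univ_bot] at h
  refine ⟨(rdim_bot _).1.1 h.1, (rdim_bot _).2.symm.trans (h.2.trans ?_)⟩
  simp [(rdim_bot N).2]

theorem EP_le (B : Div S.W) (j : ℤ) : EP ι Z A j ≤ KB Z u (A + j • S.H) := fun b hb =>
  mem_KB.2 fun x => ⟨0, fun a => by simpa using mem_EM.1 (hb a trivial) x⟩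

theorem KB_eq (hL : S.Loc) (hA : LAS S) (hu : Gen Z (A + m • S.H) u) {k : ℤ}
    (hc : S.Cech1 (k • S.H)) : KB Z u (A + (m + k) • S.H) = Ln u ⊔ EP ι Z A (m + k) := by
  refine le_antisymm (fun b hb => ?_) (sup_le (Ln_le_KB _) (EP_le A _))
  obtain ⟨t, ht⟩ := ker_glob hL hA hu hc (by rw [add_smul]; abel) (mem_KB.1 hb)
  rw [← add_sub_cancel (t • u) b]
  exact Submodule.add_mem_sup (mem_Ln.2 ⟨t, rfl⟩) fun a _ => mem_EM.2 (ht a)

theorem hom' (hB : FibB S) (hR : Reg S m A Z)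
    (hu : Submodule.span ℂ (Set.range u) = EM Z A m) {B : Div S.W} {k : ℤ} {t : K}
    (h : ∀ a, t * u a ∈ M B (m + k)) : t ∈ M (B - A) k := by
  refine hB.hom m k A B Z hR t fun v hv => ?_
  obtain ⟨c, rfl⟩ := (Submodule.mem_span_range_iff_exists_fun ℂ).1 (hu ▸ hv)
  rw [Finset.mul_sum]
  exact sum_mem fun a _ => by rw [mul_smul_comm]; exact Submodule.smul_mem _ _ (h a)

theorem fin_EM (h : S.All) (hF : FibA S) (Z : Zs S.W) (A : Div S.W) (j : ℤ) :
    Module.Finite ℂ (EM Z A j) :=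
  have := (h.fg A).1 j
  Submodule.finiteDimensional_of_le (hF.le Z A j)

theorem rdim_KB (h : S.All) (hG : S.Good) (hA : LAS S) (hF : FibA S) (hB : FibB S)
    (hR : Reg S m A Z) (hu : Submodule.span ℂ (Set.range u) = EM Z A m) (k : ℕ)
    (hc : S.Cech1 ((k : ℤ) • S.H)) :
    RFin (Ln u) (KB Z u (A + (m + k) • S.H)) ∧
      (rdim (Ln u) (KB Z u (A + (m + k) • S.H)) : ℤ) + chi ((k : ℤ) • S.H) =
        Fintype.card ι * finrank ℂ (EM Z A (m + k)) := by
  have hg := gen_of_reg h.toLoc hB hR hu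
  obtain ⟨a₀, h0⟩ := ne_zero h.toLoc hg
  have := fin_EM h hF Z A (m + k)
  obtain ⟨h1, h2⟩ : Module.Finite ℂ (EP ι Z A (m + k)) ∧ finrank ℂ (EP ι Z A (m + k)) = _ :=
    finrank_pi ι (EM Z A (m + k))
  have e : Ln u ⊓ EP ι Z A (m + k) = (M (0 : Div S.W) k).map (lu u) := by
    refine le_antisymm ?_ ?_
    · rintro b ⟨hb, hb'⟩
      obtain ⟨t, rfl⟩ := mem_Ln.1 hb
      have h3 := hom' hB hR hu (t := t) fun a => hF.le Z A _ (hb' a trivial)
      rw [sub_self] at h3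
      exact ⟨t, h3, rfl⟩
    · rintro _ ⟨t, ht, rfl⟩
      exact ⟨mem_Ln.2 ⟨t, rfl⟩, fun a _ =>
        M_mul_EM h.toLoc ht (hu ▸ Submodule.subset_span ⟨a, rfl⟩) rfl⟩
  have h3 := rdim_inf_add (Ln u) (EP ι Z A (m + k))
  rw [e, finrank_lu h0, h2] at h3
  rw [KB_eq h.toLoc hA hg hc, (rdim_sup _ _).2, (cech_iff h hG k).1 hc]
  exact ⟨(rdim_sup _ _).1.2 (rfin_of_finite _ _), by exact_mod_cast h3⟩

theorem tan_eq (h : S.All) (hG : S.Good) (h1 : S.Cech1 0) (hA : LAS S) (hF : FibA S)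
    (hB : FibB S) {L D : Div S.W} (hD : 0 ≤ D) (hR : Reg S m (L - D) Z)
    (hu : Submodule.span ℂ (Set.range u) = EM Z (L - D) m) :
    KB Z u (L - D + m • S.H) ≤ Ln u ⊔ Tt u (EM Z (L - D)) L m ∧
    Ln u ⊔ Tt u (EM Z (L - D)) L m ≤ NB Z u (L - D + m • S.H) ∧
    (finrank ℂ (Tt u (EM Z (L - D)) L m) : ℤ) + 1 =
      h0 D + Fintype.card ι * finrank ℂ (EM Z (L - D) m) + rdim (KB Z u (L - D + m • S.H))
        (Ln u ⊔ Tt u (EM Z (L - D)) L m) := by
  have hL := h.toLoc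
  have hg := gen_of_reg hL hB hR hu
  obtain ⟨a₀, h0'⟩ := ne_zero hL hg
  have hN : Nk S.W u (EM Z (L - D)) m 0 = NB Z u (L - D + m • S.H) := by
    rw [Nk_eq hL, add_zero]
  have hc : S.Cech1 (((0 : ℕ) : ℤ) • S.H) := by simpa using h1
  obtain ⟨r1, r2⟩ := rdim_KB h hG hA hF hB hR hu 0 hc
  have k1 := KB_eq hL hA hg hc
  rw [Nat.cast_zero, add_zero] at r1 r2 k1
  rw [zero_smul, hG.chi_zero] at r2
  have := (h.fg L).1 m
  have := (finrank_pi ι (M L m)).1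
  have f1 : Module.Finite ℂ (Tt u (EM Z (L - D)) L m) :=
    Submodule.finiteDimensional_of_le inf_le_right
  have l1 : KB Z u (L - D + m • S.H) ≤ Ln u ⊔ Tt u (EM Z (L - D)) L m := by
    rw [k1]
    refine sup_le_sup_left (le_inf ?_ fun b hb a _ => (hF.sat Z L D hD).le m (hb a trivial)) _
    rw [hN]
    exact (EP_le L m).trans (KB_le hL _)
  have l2 : Ln u ⊔ Tt u (EM Z (L - D)) L m ≤ NB Z u (L - D + m • S.H) :=
    sup_le ((Ln_le_KB _).trans (KB_le hL _)) (hN ▸ inf_le_left)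
  have e : Ln u ⊓ Tt u (EM Z (L - D)) L m = (H0 D).map (lu u) := by
    refine le_antisymm ?_ ?_
    · rintro b ⟨hb, -, hb'⟩
      obtain ⟨t, rfl⟩ := mem_Ln.1 hb
      have h3 := hom' hB hR hu (t := t) (B := L) (k := 0) fun a => by
        rw [add_zero]; exact hb' a trivial
      rw [sub_sub_cancel, M, zero_smul, add_zero] at h3
      exact ⟨t, h3, rfl⟩
    · rintro _ ⟨t, ht, rfl⟩
      refine ⟨mem_Ln.2 ⟨t, rfl⟩, ?_, fun a _ => ?_⟩
      · rw [hN]
        exact ((Ln_le_KB _).trans (KB_le hL _)) (mem_Ln.2 ⟨t, rfl⟩)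
      · have h2 : u a ∈ EM Z (L - D) m := hu ▸ Submodule.subset_span ⟨a, rfl⟩
        have h3 := mul_mem_secOn ht (hF.le Z _ m h2)
        rwa [← add_assoc, add_sub_cancel] at h3
  have h3 := rdim_inf_add (Ln u) (Tt u (EM Z (L - D)) L m)
  rw [e, finrank_lu h0', ← (rdim_sup _ _).2, rdim_add (A := Ln u) (Ln_le_KB _) l1
    ((rdim_sup _ _).1.2 (rfin_of_finite _ _))] at h3
  refine ⟨l1, l2, ?_⟩
  rw [← h3, h0]
  push_cast
  omega

theorem kos_at (h : S.All) (hG : S.Good) (hA : LAS S) (hF : FibA S) (hB : FibB S)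
    (hR : Reg S m A Z) (hu : Submodule.span ℂ (Set.range u) = EM Z A m)
    (ho : Onto Z u (A + m • S.H))
    (hn : rdim (KB Z u (A + m • S.H)) (NB Z u (A + m • S.H)) = 2 * Z.len) (k : ℕ)
    (hc : S.Cech1 ((k : ℤ) • S.H)) :
    Onto Z u (A + (m + k) • S.H) ∧ RFin (Ln u) (Nk S.W u (EM Z A) m k) ∧
      (rdim (Ln u) (Nk S.W u (EM Z A) m k) : ℤ) =
        Fintype.card ι * (chi (A + (m + k) • S.H) - Z.len) - chi ((k : ℤ) • S.H) + 2 * Z.len := by
  have hL := h.toLoc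
  have hg := gen_of_reg hL hB hR hu
  have o1 : Onto Z u (A + (m + k) • S.H) := ho.mul hL k (by rw [add_smul]; abel)
  obtain ⟨r1, r2⟩ := rdim_KB h hG hA hF hB hR hu k hc
  have r3 := r1.trans (rdim_dg hL hA hg _).1
  have r4 := rdim_add (A := Ln u) (Ln_le_KB _) (KB_le hL _) r3
  rw [Nk_eq hL, r4, o1.rdim hL hA hg, ← ho.rdim hL hA hg, hn,
    ← hR.dim (m + k) (by omega), ← r2]
  refine ⟨o1, r3, ?_⟩
  push_cast
  ring

theorem kos_one (hL : S.Loc) (d : ℕ) {B B' : Div S.W} (e : B' = (d : ℤ) • S.H + B)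
    (b : Fin 3 → ι → K) (hb : ∀ i, b i ∈ NB Z u B')
    (h : ∀ i j, S.x i ^ d • b j - S.x j ^ d • b i ∈ Ln u) :
    ∃ a ∈ NB Z u B, ∀ i, b i - S.x i ^ d • a ∈ Ln u := by
  have h0 := fun i => pow_ne_zero d (S.x_ne i)
  have h1 : ∀ i, b i - S.x i ^ d • (S.x 0 ^ d)⁻¹ • b 0 ∈ Ln u := fun i => by
    have h2 := smul_Ln (S.x 0 ^ d)⁻¹ (h 0 i)
    rwa [smul_sub, inv_smul_smul₀ (h0 0), smul_comm] at h2
  refine ⟨(S.x 0 ^ d)⁻¹ • b 0, mem_NB.2 fun x => ?_, h1⟩
  obtain ⟨i, hi⟩ := hL.pt_cover x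
  have h2 := sub_mem (mem_NB.1 (hb i) x) (Tr_le hL _ x (Ln_le _ x (h1 i)))
  rw [sub_sub_cancel] at h2
  have h3 := inv_smul_Hm hL (gen_pow hL (S.x_mem i) hi d) h2 e
  rwa [inv_smul_smul₀ (h0 i)] at h3

theorem kos_three (hL : S.Loc) (hA : LAS S) (hR : Reg S m A Z) (hg : Gen Z (A + m • S.H) u)
    (d : ℕ) {j k₂ k₃ : ℤ} (hj : 0 ≤ j) (e₂ : k₂ = j + 2 * d) (e₃ : k₃ = j + 3 * d)
    (ho : Onto Z u (A + (m + k₂) • S.H)) (hcc : S.Cech1 (k₃ • S.H))
    (v : ι → K) (hv : v ∈ NB Z u (A + (m + k₃) • S.H)) :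
    ∃ c : Fin 3 → ι → K, (∀ i, c i ∈ NB Z u (A + (m + k₂) • S.H)) ∧
      v - ∑ i, S.x i ^ d • c i ∈ Ln u := by
  classical
  have h0 := fun i => pow_ne_zero d (S.x_ne i)
  have e : A + (m + k₃) • S.H = (d : ℤ) • S.H + (A + (m + k₂) • S.H) := by
    rw [e₂, e₃]
    module
  choose n hn using hL.pt_cover
  have h1 : ∀ i, ∃ c ∈ NB Z u (A + (m + k₂) • S.H), ∀ x : Z.fin.toFinset,
      (if n x = i then (S.x i ^ d)⁻¹ • v else 0) - c ∈ TrK Z u (A + (m + k₂) • S.H) x := by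
    intro i
    obtain ⟨τ, hτ, _, ⟨c, hc, rfl⟩, e1⟩ := Submodule.mem_sup.1
      (ho (x := fun x => if n x = i then (S.x i ^ d)⁻¹ • v else 0) fun x _ => by
        by_cases hx : n x = i
        · simp only [if_pos hx]
          exact inv_smul_Hm hL (gen_pow hL (S.x_mem i) (hx ▸ hn x) d) (mem_NB.1 hv x) e
        · simp only [if_neg hx]
          exact zero_mem _)
    refine ⟨c, hc, fun x => ?_⟩
    have e2 : τ x + c = _ := congrFun e1 x
    rw [← e2, add_sub_cancel_right]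
    exact hτ x trivial
  choose c hc hc' using h1
  have h2 : v - ∑ i, S.x i ^ d • c i ∈ KB Z u (A + (m + k₃) • S.H) := by
    refine mem_KB_of hL hA hg (sub_mem hv (sum_mem fun i _ => mem_NB.2 fun x =>
      smul_Hm hL (pow_sec hL (S.x_mem i) d) (mem_NB.1 (hc i) x) e)) fun x _ => ?_
    have e1 : v - ∑ i, S.x i ^ d • c i =
        ∑ i, S.x i ^ d • ((if n x = i then (S.x i ^ d)⁻¹ • v else 0) - c i) := by
      simp only [smul_sub, Finset.sum_sub_distrib, smul_ite, smul_zero, smul_inv_smul₀ (h0 _),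
        Finset.sum_ite_eq, Finset.mem_univ, if_true]
    change v - ∑ i, S.x i ^ d • c i ∈ TrK Z u _ x
    rw [e1]
    exact sum_mem fun i _ => smul_Tr hL (pow_sec hL (S.x_mem i) d) (hc' i x) e
  rw [KB_eq hL hA hg hcc] at h2
  obtain ⟨l, hl, p, hp, e1⟩ := Submodule.mem_sup.1 h2
  choose q hq eq using fun a => pigeon hL hR d (j := m + j) (f := p a) (by omega) (by
    have h3 : p a ∈ EM Z A (m + k₃) := hp a trivial
    rwa [e₃, ← add_assoc] at h3)
  refine ⟨fun i => c i + fun a => q a i, fun i => add_mem (hc i) ?_, ?_⟩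
  · refine KB_le hL _ (EP_le A _ fun a _ => ?_)
    have h3 := hq a i
    rwa [add_assoc, ← e₂] at h3
  · have e2 : p = ∑ i, S.x i ^ d • fun a => q a i := by
      funext a
      rw [eq a, Finset.sum_apply]
      rfl
    simp only [smul_add, Finset.sum_add_distrib]
    rw [← sub_sub, ← e1, ← e2, add_sub_cancel_right]
    exact hl

end Tg

open Tg Vale.Agent.P297Z.Hb

theorem fibC : FIBC := by
  intro K _ _ S h hG h1 hA hF hB
  have hL := h.toLoc
  refine ⟨step h hG h1, fun m A Z hR ι _ u hu b hb => ?_, fun m L D Z hD hR ι _ u hu => ?_,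
    fun m L D Z hD hR ι _ u hu hle => ?_⟩
  · obtain ⟨a₀, h0⟩ := ne_zero hL (gen_of_reg hL hB hR hu)
    exact line S h0 b hb
  · have hg := gen_of_reg hL hB hR hu
    obtain ⟨-, l2, e⟩ := tan_eq h hG h1 hA hF hB hD hR hu
    have h2 := (rdim_mono (rdim_dg hL hA hg _).1 le_rfl l2).trans (rdim_le hL hA hg _)
    omega
  · have hg := gen_of_reg hL hB hR hu
    obtain ⟨l1, l2, e⟩ := tan_eq h hG h1 hA hF hB hD hR hu
    have h2 := rdim_mono (rdim_dg hL hA hg _).1 le_rfl l2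
    have h3 := rdim_le hL hA hg (L - D + m • S.H)
    have ho := onto_of_le hL hA hg (by omega)
    refine ⟨?_, fun d _ hc k => ?_⟩
    · rw [Nk_eq hL, add_zero, sup_comm]
      exact le_of_rdim_le l1 l2 (rdim_dg hL hA hg _).1 (by omega)
    have hk := fun k : ℕ => kos_at h hG hA hF hB hR hu ho (by omega) (k * d) (hc k)
    refine ⟨(hk k).2.1, (hk k).2.2, ?_⟩
    have q1 : (((k + 1) * d : ℕ) : ℤ) = (k * d : ℕ) + d := by push_cast; ring
    have q2 : (((k + 2) * d : ℕ) : ℤ) = (k * d : ℕ) + 2 * d := by push_cast; ring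
    have q3 : (((k + 3) * d : ℕ) : ℤ) = (k * d : ℕ) + 3 * d := by push_cast; ring
    have e₁ := kos_one (Z := Z) (u := u) hL d (B := L - D + (m + (k * d : ℕ)) • S.H)
      (B' := L - D + (m + ((k + 1) * d : ℕ)) • S.H) (by rw [q1]; module)
    have e₃ := kos_three hL hA hR hg d (Int.natCast_nonneg _) q2 q3 (hk (k + 2)).1 (hc (k + 3))
    have l : ∀ j, Ln u ≤ Nk S.W u (EM Z (L - D)) m j := fun j => by
      rw [Nk_eq hL]
      exact (Ln_le_KB _).trans (KB_le hL _)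
    simp only [← Nk_eq hL] at e₁ e₃
    refine ⟨e₁, kos_two (fun g b hb => smul_Ln g hb) (l _) (l _) (l _) (hk k).2.1 (hk _).2.1
      (hk _).2.1 (fun i b hb => ?_) ?_ e₁ e₃, e₃⟩
    · rw [Nk_eq hL] at hb ⊢
      exact mem_NB.2 fun x => smul_Hm hL (pow_sec hL (S.x_mem i) d) (mem_NB.1 hb x) (by
        rw [q1, q2]; module)
    · have t0 := (hk k).2.2
      have t1 := (hk (k + 1)).2.2
      have t2 := (hk (k + 2)).2.2
      have t3 := (hk (k + 3)).2.2
      have s1 := third_step h.toRR (L - D) (m + (k * d : ℕ)) d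
      have s2 := third_step h.toRR 0 (k * d : ℕ) d
      simp only [zero_add, add_assoc m, ← q1, ← q2, ← q3] at s1 s2
      refine Int.natCast_inj.1 ?_
      rw [Nat.cast_add, Nat.cast_add, Nat.cast_mul 3, Nat.cast_mul 3, t0, t1, t2, t3,
        Nat.cast_ofNat]
      linear_combination (Fintype.card ι : ℤ) * s1 - s2

end Vale.Agent.P297Z.Sf.Fb
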