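import Vale.Agent.P297Z.Hb.Fam1
import Vale.Agent.P297Z.K.Tan
import Vale.Agent.P297Z.Dim.Reg
import Vale.Agent.P297Z.Dim.Var
import Vale.Agent.P297Z.Quot.Plk

/-! P297: tangent vectors: derivatives of relations, alternating tensors. -/

set_option linter.all false

noncomputable section

namespace Vale.Agent.P297Z

namespace Hb.Tn

variable {X : Spc} {z : X.Pt} {D : X.R →ₗ[ℂ] ℂ}

/-- a linear relation that holds at all points holds for all functionals -/
theorem lin_rel {V ι : Type} [AddCommGroup V] [Module ℂ V] [Fintype ι] {a : ι → X.R} {w : ι → V}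
    (h : ∀ z : X.Pt, ∑ i, z.1 (a i) • w i = 0) (D : X.R →ₗ[ℂ] ℂ) : ∑ i, D (a i) • w i = 0 := by
  refine (Module.forall_dual_apply_eq_zero_iff ℂ _).1 fun l => ?_
  have h1 : ∑ i, l (w i) • a i = 0 := X.sep _ fun y hy => by
    have := congrArg l (h ⟨y, hy⟩)
    simpa only [map_sum, map_smul, smul_eq_mul, map_zero, mul_comm] using this
  have h2 := congrArg D h1
  simpa only [map_sum, map_smul, smul_eq_mul, map_zero, mul_comm] using h2

theorem tan_eq (z : X.Pt) : Tan z.1 = Dim.tan z.1 ⊥ :=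
  Submodule.ext fun D => ⟨fun h => ⟨h, fun a ha => by rw [Ideal.mem_bot.1 ha, map_zero]⟩,
    fun h => h.1⟩

instance fin_tan (z : X.Pt) : Module.Finite ℂ (Tan z.1) := tan_eq z ▸ Dim.finite_tan

/-- the dimension of the cone is at most the dimension of the tangent space -/
theorem le_tan {n : ℕ} (h : X.IsVar n) (z : X.Pt) :
    n + Fintype.card X.J ≤ Module.finrank ℂ (Tan z.1) := by
  haveI := h.dom
  have h1 := Dim.td_le_tan (k := ℂ) (z := z.1) (I := ⊥) (P := ⊥) le_rfl bot_le
  have h2 := h.dim.symm.trans (Dim.dim_eq_td (k := ℂ) (R := X.R))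
  rw [Dim.td_quot_bot, ← tan_eq] at h1
  exact (le_of_eq (by exact_mod_cast h2)).trans h1

theorem tan_one (hD : D ∈ Tan z.1) : D 1 = 0 := Dim.tan_one (tan_eq z ▸ hD)

/-- a tangent vector that is radial on homogeneous generators is radial -/
theorem rad_of_gen (hD : D ∈ Tan z.1) (ξ : X.J → ℂ) {s : Set X.R} (hs : Algebra.adjoin ℂ s = ⊤)
    (h : ∀ x ∈ s, ∃ γ, x ∈ X.wt γ ∧ D x = (∑ j, ξ j * γ j) * z.1 x) :
    ∀ γ, ∀ r ∈ X.wt γ, D r = (∑ j, ξ j * γ j) * z.1 r := by
  have h1 : ∀ x ∈ Submonoid.closure s, ∃ γ, x ∈ X.wt γ ∧ D x = (∑ j, ξ j * γ j) * z.1 x := by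
    intro x hx
    induction hx using Submonoid.closure_induction with
    | mem x hx => exact h x hx
    | one => exact ⟨0, X.one_mem, by simp [tan_one hD]⟩
    | mul x y _ _ hx hy =>
      obtain ⟨γ, h2, h3⟩ := hx
      obtain ⟨δ, h4, h5⟩ := hy
      refine ⟨γ + δ, Spc.mul_mem h2 h4, ?_⟩
      rw [hD x y, h3, h5, map_mul]
      simp only [Pi.add_apply, Int.cast_add, mul_add, Finset.sum_add_distrib]
      ring
  intro γ r hr
  have h2 : r ∈ Submodule.span ℂ (Submonoid.closure s : Set X.R) := by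
    rw [← Algebra.adjoin_eq_span, hs]
    trivial
  rw [← cmp_of_mem X.span hr]
  clear hr
  induction h2 using Submodule.span_induction with
  | mem x hx =>
    obtain ⟨δ, h3, h4⟩ := h1 x hx
    by_cases e : δ = γ
    · subst e
      rw [cmp_of_mem X.span h3, h4]
    · rw [cmp_of_ne X.span e h3, map_zero, map_zero, mul_zero]
  | zero => simp
  | add x y _ _ hx hy => rw [map_add, map_add, map_add, hx, hy, mul_add]
  | smul t x _ hx => rw [map_smul, map_smul, map_smul, hx, smul_eq_mul, smul_eq_mul, mul_left_comm]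

/-- a tangent vector that kills generators is zero -/
theorem eq_zero_of_gen (hD : D ∈ Tan z.1) {s : Set X.R} (hs : Algebra.adjoin ℂ s = ⊤)
    (h : ∀ x ∈ s, D x = 0) : D = 0 := by
  refine LinearMap.ext fun r => ?_
  have hr : r ∈ Algebra.adjoin ℂ s := hs ▸ trivial
  induction hr using Algebra.adjoin_induction with
  | mem x hx => exact h x hx
  | algebraMap t => rw [Algebra.algebraMap_eq_smul_one, map_smul, tan_one hD, smul_zero]; rfl
  | add x y _ _ hx hy => rw [map_add, hx, hy, map_add]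
  | mul x y _ _ hx hy =>
    rw [hD x y, hx, hy]
    simp

/-- the count of dimensions -/
theorem count {A B : Type} [AddCommGroup A] [Module ℂ A] [AddCommGroup B] [Module ℂ B]
    [Module.Finite ℂ A] {β : A →ₗ[ℂ] B} (hβ : Function.Injective β) {T P : Submodule ℂ A}
    {N Q : Submodule ℂ B} (hQ : Module.Finite ℂ Q) {a : ℕ} {p : B}
    (h1 : a + 1 ≤ Module.finrank ℂ T) (h2 : T ≤ P)
    (h3 : Module.finrank ℂ Q ≤ a + Module.finrank ℂ N) (h4 : P.map β ⊔ N ≤ Q)
    (h5 : P.map β ⊓ N ≤ Submodule.span ℂ {p}) : T = P ∧ Module.finrank ℂ T = a + 1 ∧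
      Module.finrank ℂ Q = a + Module.finrank ℂ N ∧ Q = T.map β ⊔ N := by
  haveI : Module.Finite ℂ N := Submodule.finiteDimensional_of_le (le_sup_right.trans h4)
  have h6 := (Submodule.finrank_mono h5).trans (finrank_span_le_card _)
  simp only [Set.toFinset_singleton, Finset.card_singleton] at h6
  have h7 := Submodule.finrank_sup_add_finrank_inf_eq (P.map β) N
  rw [← (Submodule.equivMapOfInjective _ hβ P).finrank_eq] at h7
  have h8 := Submodule.finrank_mono h4
  have h9 := Submodule.finrank_mono h2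
  have e : T = P := Submodule.eq_of_le_of_finrank_le h2 (by omega)
  exact ⟨e, by omega, by omega, e.symm ▸ (Submodule.eq_of_le_of_finrank_le h4 (by omega)).symm⟩

end Hb.Tn

namespace Plk

variable {r : ℕ} {B : Type}

/-- an alternating tensor with all its slices in the subspace of a point -/
theorem Rel.alt_zero {p v : (Fin r → B) → ℂ} (h : Rel p) {J₀ : Fin r → B} (h0 : p J₀ ≠ 0)
    (hv : ∀ (J : Fin r → B) (σ : Equiv.Perm (Fin r)),
      v (J ∘ σ) = ((Equiv.Perm.sign σ : ℤ) : ℂ) * v J)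
    (h1 : ∀ J c, vc v J c ∈ sub p) (h2 : v J₀ = 0) : v = 0 := by
  classical
  obtain ⟨u, hu, -, h3⟩ := h.exists_plk h0
  have h4 : sub p = Submodule.span ℂ (Set.range (vc p J₀)) := h.sub_eq h0
  have h5 : ∀ J c, (∀ a, v (Function.update J c (J₀ a)) = 0) → v J = 0 := fun J c e => by
    obtain ⟨t, ht⟩ := (Submodule.mem_span_range_iff_exists_fun ℂ).1 (h4 ▸ h1 J c)
    have h6 : t = 0 := funext fun a => by
      have h7 := (congrFun ht (J₀ a)).trans (e a)
      rw [Finset.sum_apply, Finset.sum_eq_single a (fun b _ hb => by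
        rw [Pi.smul_apply, h.vc_ne h0.isUnit hb, smul_zero]) (by simp), Pi.smul_apply, vc_self,
        smul_eq_mul] at h7
      exact (mul_eq_zero.1 h7).resolve_right h0
    rw [← vc_self v J c, ← ht, h6]
    simp
  have key : ∀ k : ℕ, ∀ J : Fin r → B, (∀ c : Fin r, k ≤ c → J c ∈ Set.range J₀) → v J = 0 := by
    intro k
    induction k with
    | zero =>
      intro J hJ
      choose σ hσ using fun c => hJ c (Nat.zero_le _)
      by_cases hi : Function.Injective σ
      · have := hv J₀ (Equiv.ofBijective σ (Finite.injective_iff_bijective.1 hi))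
        rw [h2, mul_zero] at this
        exact (congrArg v (funext hσ)).symm.trans this
      · obtain ⟨a, b, e, hab⟩ := Function.not_injective_iff.1 hi
        have e' : J a = J b := by rw [← hσ, ← hσ, e]
        have h6 := hv J (Equiv.swap a b)
        rw [Equiv.Perm.sign_swap hab, show J ∘ Equiv.swap a b = J from funext fun c =>
          Equiv.apply_swap_eq_self e' c] at h6
        simpa [CharZero.eq_neg_self_iff] using h6
    | succ k ih =>
      intro J hJ
      by_cases hk : k < r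
      · refine h5 J ⟨k, hk⟩ fun a => ih _ fun c hc => ?_
        by_cases e : c = ⟨k, hk⟩
        · rw [e, Function.update_self]
          exact ⟨a, rfl⟩
        · rw [Function.update_of_ne e]
          exact hJ c (lt_of_le_of_ne hc fun e' => e (Fin.ext e'.symm))
      · exact ih J fun c hc => absurd (hc.trans_lt c.2) hk
  exact funext fun J => key r J fun c hc => absurd c.2 (not_lt.2 hc)

end Plk

namespace Sf.Fam

variable {K : Type} [Field K] [Algebra ℂ K] {S : Surf K} {X : Spc} {V : Type} [AddCommGroup V]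
  [Module K V] [Module ℂ V] [IsScalarTower ℂ K V] {F : Fam K X V} {ρ : ℕ}

/-- the derivative of the generators -/
def du (F : Fam K X V) (D : X.R →ₗ[ℂ] ℂ) (a : F.ι) : V := ∑ b, D (F.g a b) • F.e b

theorem du_app (F₂ : Fam K X V) (hD : F₂.D = F.D) (D : X.R →ₗ[ℂ] ℂ) :
    (F.app F₂ hD).du D = Sum.elim (F.du D) (F₂.du D) := by
  funext a
  refine (Fintype.sum_sum_type _).trans ?_
  rcases a with a | a <;> simp [app, du]

/-- the derivative of a flat family is a tangent vector -/
theorem Flat.du_mem (hF : F.Flat S ρ) (h : S.All) {z : X.Pt} {D : X.R →ₗ[ℂ] ℂ}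
    (hD : D ∈ Tan z.1) : F.du D ∈ F.Tq S z := by
  refine ⟨fun a => Gn_zero S.W F.e ▸ Submodule.sum_mem _ fun b _ =>
    Submodule.smul_mem _ _ (Submodule.subset_span ⟨b, rfl⟩), fun j c hc => ?_⟩
  obtain ⟨k, h1, h2, -⟩ := hF.lift h z hc
  choose n t w h3 h4 using fun a => exists_cf h j (k a)
  have e : ∀ (φ ψ : X.R → ℂ), ∑ x : (Σ a : F.ι, Fin (n a)) × F.B,
      (φ (t x.1.1 x.1.2) * ψ (F.g x.1.1 x.2)) • w x.1.1 x.1.2 • F.e x.2 =
        ∑ a, (∑ i, φ (t a i) • w a i) • ∑ b, ψ (F.g a b) • F.e b := fun φ ψ => by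
    rw [Fintype.sum_prod_type, Fintype.sum_sigma]
    refine Finset.sum_congr rfl fun a _ => ?_
    rw [Finset.sum_smul]
    refine Finset.sum_congr rfl fun i _ => ?_
    rw [Finset.smul_sum]
    refine Finset.sum_congr rfl fun b _ => ?_
    rw [mul_smul, smul_assoc, smul_comm (w a i)]
  have h5 := Hb.Tn.lin_rel (a := fun x : (Σ a : F.ι, Fin (n a)) × F.B =>
    t x.1.1 x.1.2 * F.g x.1.1 x.2) (w := fun x => w x.1.1 x.1.2 • F.e x.2) (fun y => by
      simp only [map_mul]
      rw [e y.1 y.1, ← h1 y j]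
      exact Finset.sum_congr rfl fun a _ => by rw [h4]; rfl) D
  have h6 : ∀ a b : X.R, D (a * b) = z.1 a * D b + D a * z.1 b := fun a b => by
    rw [hD a b, mul_comm (D a)]
  simp only [h6, add_smul, Finset.sum_add_distrib] at h5
  rw [e z.1 D, e D z.1] at h5
  simp only [← h4, h2] at h5
  rw [show ∑ a, c a • F.du D a = _ from eq_neg_of_add_eq_zero_left h5]
  exact neg_mem ⟨_, fun a => Submodule.sum_mem _ fun i _ => Submodule.smul_mem _ _ (h3 a i), rfl⟩

/-- the derivative of a family contained in a flat family -/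
theorem Flat.du_sub {F₂ : Fam K X V} (hF : F₂.Flat S ρ) (h : S.All) (e : F₂.D = F.D)
    (hl : ∀ y, Submodule.span ℂ (Set.range (F.u y)) ≤ Submodule.span ℂ (Set.range (F₂.u y)))
    {z : X.Pt} {D : X.R →ₗ[ℂ] ℂ} (hD : D ∈ Tan z.1) {a : F.ι} {w : F₂.ι → ℂ}
    (hw : ∑ b, w b • F₂.u z b = F.u z a) :
    ∑ b, w b • F₂.du D b - F.du D a ∈ Submodule.span ℂ (Set.range (F₂.u z)) := by
  classical
  have h1 : ∀ y, Submodule.span ℂ (Set.range ((F.app F₂ e).u y)) =
      Submodule.span ℂ (Set.range (F₂.u y)) := fun y =>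
    (congrArg _ ((congrArg Set.range (u_app F₂ e y)).trans (Set.Sum.elim_range _ _))).trans
      ((Submodule.span_union _ _).trans (sup_eq_right.2 (hl y)))
  have h2 : ∀ (u : F.ι → V) (u' : F₂.ι → V), ∑ x : F.ι ⊕ F₂.ι,
      Sum.elim (Pi.single a (-1 : K)) (fun b => algebraMap ℂ K (w b)) x • Sum.elim u u' x =
        ∑ b, w b • u' b - u a := fun u u' => by
    rw [Fintype.sum_sum_type, Finset.sum_eq_single a (fun b _ hb => by
      simp [Pi.single_eq_of_ne hb]) (by simp)]
    simp [neg_add_eq_sub]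
  have h3 := ((hF.of_span h1).du_mem h hD).2 0
    (Sum.elim (Pi.single a (-1 : K)) fun b => algebraMap ℂ K (w b)) ⟨fun x => by
      rw [pow_zero]
      rcases x with x | x
      · by_cases o : x = a
        · subst o
          simpa using Submodule.mem_one.2 ⟨1, map_one (algebraMap ℂ K)⟩
        · simp [Pi.single_eq_of_ne o]
      · exact Submodule.algebraMap_mem _, by
      rw [u_app]
      exact (h2 _ _).trans (sub_eq_zero.2 hw)⟩
  rw [Gn_zero, h1, du_app] at h3
  exact h2 (F.du D) (F₂.du D) ▸ h3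

end Sf.Fam

end Vale.Agent.P297Z
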