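import Vale.Agent.P297Z.Hb.Tow0
import Vale.Agent.P297Z.Hb.Tan0
import Vale.Agent.P297Z.Hb.GeoFib
import Vale.Agent.P297Z.Hb.FibA
import Vale.Agent.P297Z.Hb.FibB
import Vale.Agent.P297Z.Hb.FibC
import Vale.Agent.P297Z.Hb.LaSurf
import Vale.Agent.P297Z.Surf.RR
import Vale.Agent.P297Z.K.Proj

/-! P297: the tangent spaces of the spaces of subsheaves of rank one. -/

set_option linter.all false

noncomputable section

namespace Vale.Agent.P297Z.Sf.Ctx

open Fb Vale.Agent.P297Z.Hb Pw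

variable {K : Type} [Field K] [Algebra ℂ K] {S : Surf K} {c : Ctx S} {h : S.All} {r₀ r : ℕ}

namespace Tg

theorem prop (h : S.All) {a b : Fin (c.v + 1) → ℂ} (hb : ∑ i, b i • c.φ i ≠ 0)
    (h1 : (∑ i, a i • c.φ i) / (∑ i, b i • c.φ i) ∈ H0 (0 : Div S.W)) :
    ∃ t : ℂ, ∀ i, a i = t * b i := by
  obtain ⟨t, ht⟩ := h.const _ h1
  rw [div_eq_iff hb, ← Algebra.smul_def, Finset.smul_sum] at ht
  refine ⟨t, fun i => Fintype.linearIndependent_iffₛ.1 c.φ_ind a (fun i => t * b i) ?_ i⟩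
  simpa only [mul_smul] using ht

theorem mem_MA (h : S.All) {f : K} (hf : f ≠ 0) (g : K) (j : ℤ) :
    g * f ∈ M (c.A f) j ↔ g ∈ M (c.L - c.D) j := by
  refine (mem_secOn_div h.toLoc2 hf g).symm.trans (Eq.to_iff ?_)
  unfold M H0 A
  congr 2
  abel

theorem adjoin_top (c : Ctx S) (r : ℕ) :
    Algebra.adjoin ℂ (Set.range (c.yl r) ∪ Set.range (c.pl r)) = ⊤ := by
  have key : ∀ {ι : Type} (φ : MvPolynomial ι ℂ →ₐ[ℂ] (c.Xr r).R), (∀ i, φ (MvPolynomial.X i) ∈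
      Set.range (c.yl r) ∪ Set.range (c.pl r)) → ∀ a, φ a ∈
      Algebra.adjoin ℂ (Set.range (c.yl r) ∪ Set.range (c.pl r)) := fun φ h1 a =>
    map_adjoin_mem φ (by rintro _ ⟨i, rfl⟩; exact h1 i) a
      (MvPolynomial.adjoin_range_X.ge Algebra.mem_top)
  refine eq_top_iff.2 fun x hx => ?_
  obtain ⟨w, rfl⟩ : ∃ w, (c.inc r).φ w = x := Ideal.Quotient.mk_surjective x
  clear hx
  induction w using TensorProduct.induction_on with
  | zero => exact (map_zero (c.inc r).φ).symm ▸ zero_mem _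
  | tmul a b =>
    rw [fam_tmul_eq, map_mul]
    exact mul_mem (key (c.pr r).φ (fun i => Or.inl ⟨i, rfl⟩) a)
      (key (c.gr r).φ (fun i => Or.inr ⟨i, rfl⟩) b)
  | add x y hx hy => exact (map_add (c.inc r).φ x y).symm ▸ add_mem hx hy

theorem X_wt (ι : Type) [Fintype ι] [Nonempty ι] (i : ι) :
    (MvPolynomial.X i : MvPolynomial ι ℂ) ∈ (PI ι).wt fun _ => 1 := by
  have e : (fun j : Option pt0.J => j.elim (1 : ℤ) 0) = fun _ => 1 := funext fun j => by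
    rcases j with _ | j
    exacts [rfl, j.elim]
  exact (congrArg (fun γ => (MvPolynomial.X i : MvPolynomial ι ℂ) ∈ (PI ι).wt γ) e).mp
    (Spc.X_mem pt0 ι (fun _ => 0) i)

theorem yl_wt (c : Ctx S) (r : ℕ) (i : Fin (c.v + 1)) :
    c.yl r i ∈ (c.Xr r).wt ((c.pr r).ρ fun _ => 1) := (c.pr r).wt_map _ _ (X_wt _ i)

/-- the family of the reflexive hulls -/
def famH (c : Ctx S) (r : ℕ) {n : ℕ} (e : Fin n → K) : Fam K (c.Xr r) K where
  D := fun _ => LinearMap.id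
  m := c.m
  B := Fin n × Fin (c.v + 1)
  e := fun x => e x.1 * c.φ x.2
  τ := 0
  e_wt := fun b g => by rw [Pi.zero_apply, chr_zero, one_smul]; rfl
  ι := Fin n
  γ := fun _ => (c.pr r).ρ fun _ => 1
  g := fun b x => if b = x.1 then c.yl r x.2 else 0
  g_wt := fun b x => by
    rw [Pi.zero_apply, sub_zero]
    split_ifs
    exacts [yl_wt c r _, zero_mem _]

theorem du_H {n : ℕ} (e : Fin n → K) (D : (c.Xr r).R →ₗ[ℂ] ℂ) (b : Fin n) :
    (famH c r e).du D b = e b * ∑ i, D (c.yl r i) • c.φ i := by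
  refine (Fintype.sum_prod_type _).trans ?_
  rw [Finset.sum_eq_single b (fun b' _ hb => Finset.sum_eq_zero fun i _ => by
    simp [famH, hb.symm]) (by simp), Finset.mul_sum]
  exact Finset.sum_congr rfl fun i _ => by simp [famH]

theorem u_H {n : ℕ} (e : Fin n → K) (z : (c.Xr r).Pt) :
    (famH c r e).u z = fun b => e b * c.fz z :=
  funext fun b => (du_H e z.1.toLinearMap b).trans (congrArg (e b * ·) (fz_eq z).symm)

theorem flat_H {n : ℕ} (e : Fin n → K) :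
    (famH c r e).Flat S (Module.finrank K (Submodule.span K (Set.range e))) := by
  refine ⟨fun j => ⟨Module.finrank ℂ (Gn S.W e j), fun z => ?_⟩, fun z => ?_⟩
  · have e1 : Gn S.W (fun b => e b * c.fz z) j = (Gn S.W e j).map (LinearMap.mulRight ℂ (c.fz z)) := by
      ext x
      constructor
      · rintro ⟨t, ht, rfl⟩
        exact ⟨_, ⟨t, ht, rfl⟩, by simp [Finset.sum_mul, mul_assoc]⟩
      · rintro ⟨_, ⟨t, ht, rfl⟩, rfl⟩
        exact ⟨t, ht, by simp [Finset.sum_mul, mul_assoc]⟩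
    refine (congrArg (fun u : Fin n → K => Module.finrank ℂ (Gn S.W u j)) (u_H e z)).trans ?_
    rw [e1]
    exact (Submodule.equivMapOfInjective _ (mul_left_injective₀ (fz_mem z).2) _).finrank_eq.symm
  · refine (congrArg (fun u : Fin n → K => Module.finrank K (Submodule.span K (Set.range u)))
      (u_H e z)).trans ?_
    rw [show (fun b => e b * c.fz z) = LinearMap.mulRight K (c.fz z) ∘ e from rfl, Set.range_comp,
      ← Submodule.map_span]
    exact (Submodule.equivMapOfInjective _ (mul_left_injective₀ (fz_mem z).2) _).finrank_eq.symm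

theorem span_H (h : S.All) {n : ℕ} {e : Fin n → K}
    (he : Submodule.span ℂ (Set.range e) = M (c.L - c.D) c.m) (z : (c.Xr r).Pt) :
    Submodule.span ℂ (Set.range ((famH c r e).u z)) = M (c.A (c.fz z)) c.m := by
  refine (congrArg (fun u : Fin n → K => Submodule.span ℂ (Set.range u)) (u_H e z)).trans ?_
  rw [show (fun b => e b * c.fz z) = LinearMap.mulRight ℂ (c.fz z) ∘ e from rfl, Set.range_comp,
    ← Submodule.map_span, he]
  ext x
  constructor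
  · rintro ⟨g, hg, rfl⟩
    exact (mem_MA h (fz_mem z).2 g _).2 hg
  · intro hx
    have e1 := div_mul_cancel₀ x (fz_mem z).2
    exact ⟨_, (mem_MA h (fz_mem z).2 _ _).1 (e1.symm ▸ hx), e1⟩

theorem β_lc (v : (Fin r → c.B) → ℂ) (s : (Fin r → c.B) × Fin r) :
    c.β r v s = c.lc (Plk.vc v s.1 s.2) := by
  simp [β, lc, Plk.vc, Fintype.linearCombination_apply]

theorem du_V (D : (c.Xr r).R →ₗ[ℂ] ℂ) : (c.famV r).du D = c.β r (c.dpl r D) :=
  funext fun s => (β_lc (c.dpl r D) s).symm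

/-- a tangent vector that is radial on the Pluecker coordinates is radial -/
theorem key (h : S.All) (H : c.Ok r₀) (hr : r₀ ≤ r) (hc : Spc.Clo _ (c.XS r)) {z : (c.Xr r).Pt}
    {D : (c.Xr r).R →ₗ[ℂ] ℂ} (hD : D ∈ Tan z.1) {t : ℂ} (h1 : c.dpl r D = t • c.pz z) :
    ∃ t' : ℂ, ∀ i, D (c.yl r i) = t' * z.1 (c.yl r i) := by
  classical
  have hF := fibA K S h (las S h)
  haveI := (h.fg (c.L - c.D)).1 c.m
  obtain ⟨n, e, he⟩ := Submodule.fg_iff_exists_fin_generating_family.1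
    ((Submodule.fg_iff_finiteDimensional (M (c.L - c.D) c.m)).2 inferInstance)
  have h2 : ∀ y, Submodule.span ℂ (Set.range ((c.famV r).u y)) ≤ M (c.A (c.fz y)) c.m := fun y =>
    let ⟨Z, hZ⟩ := pt_mem hc y
    (span_famV hZ).trans_le (hF.le _ _ _)
  obtain ⟨Z, hZ⟩ := pt_mem hc z
  have h5 := Fb.Tg.hom' (fibB K S h (las S h) hF) (H.reg_pt hr hZ).1 (span_famV hZ) (k := 0)
    (B := c.A (c.fz z)) (t := (∑ i, D (c.yl r i) • c.φ i) / c.fz z) fun a => by
      have h6 : (c.famV r).u z a ∈ M (c.A (c.fz z)) c.m := h2 z (Submodule.subset_span ⟨a, rfl⟩)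
      obtain ⟨w, hw⟩ := (Submodule.mem_span_range_iff_exists_fun ℂ).1 ((span_H h he z).ge h6)
      have h7 := (span_H h he z).le ((flat_H e).du_sub (F := c.famV r) h rfl
        (fun y => (h2 y).trans (span_H h he y).ge) hD hw)
      have h8 := add_mem h7 (Submodule.smul_mem _ t h6)
      rw [show (c.famV r).du D a = t • (c.famV r).u z a from congrFun ((du_V D).trans
        ((congrArg _ h1).trans ((map_smul _ _ _).trans (congrArg (t • ·) (famV_u z).symm)))) a,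
        sub_add_cancel] at h8
      rw [add_zero, ← hw, Finset.mul_sum]
      refine (congrArg (· ∈ M (c.A (c.fz z)) c.m) (Finset.sum_congr rfl fun b _ => ?_)).mpr h8
      rw [du_H e D b, congrFun (u_H e z) b, mul_smul_comm, mul_left_comm,
        div_mul_cancel₀ _ (fz_mem z).2]
  rw [sub_self, M, zero_smul, add_zero, fz_eq] at h5
  exact prop h (fz_eq z ▸ (fz_mem z).2) h5

theorem eq_zero {z : (c.Xr r).Pt} {D : (c.Xr r).R →ₗ[ℂ] ℂ} (hD : D ∈ Tan z.1)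
    (h1 : ∀ i, D (c.yl r i) = 0) (h2 : c.dpl r D = 0) : D = 0 :=
  Tn.eq_zero_of_gen hD (adjoin_top c r) (by
    rintro _ (⟨i, rfl⟩ | ⟨J, rfl⟩)
    exacts [h1 i, congrFun h2 J])

theorem le_TT (G : c.Geom h r₀) (H : c.Ok r₀) (hr : r₀ ≤ r) (hs : r ≤ c.s) (z : (c.Xr r).Pt) :
    c.v + 2 * (c.s - r) + 1 ≤ Module.finrank ℂ (c.TT r z) := by
  have h1 := Tn.le_tan (G.var r hr hs) z
  have h2 := ((c.dpl r).domRestrict (Tan z.1)).finrank_range_add_finrank_ker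
  rw [LinearMap.range_domRestrict] at h2
  let ev : LinearMap.ker ((c.dpl r).domRestrict (Tan z.1)) →ₗ[ℂ] (Fin (c.v + 1) → ℂ) :=
    { toFun := fun D i => D.1.1 (c.yl r i)
      map_add' := fun _ _ => rfl
      map_smul' := fun _ _ => rfl }
  have h3 : Function.Injective ev := fun D D' e => Subtype.ext (Subtype.ext (sub_eq_zero.1
    (eq_zero (sub_mem D.1.2 D'.1.2) (fun i => sub_eq_zero.2 (congrFun e i))
      ((map_sub _ _ _).trans (sub_eq_zero.2 (D.2.trans D'.2.symm))))))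
  have h4 : LinearMap.range ev ≤ Submodule.span ℂ {fun i => z.1 (c.yl r i)} := by
    rintro _ ⟨D, rfl⟩
    obtain ⟨t, ht⟩ := key h H hr (G.clo r hr hs) D.1.2 (t := 0) (D.2.trans (zero_smul _ _).symm)
    exact Submodule.mem_span_singleton.2 ⟨t, (funext ht).symm⟩
  have h5 := (LinearMap.finrank_range_of_inj h3).symm.trans_le ((Submodule.finrank_mono h4).trans
    (finrank_span_le_card _))
  have h6 : Fintype.card (c.Xr r).J = 2 := rfl
  simp only [Set.toFinset_singleton, Finset.card_singleton] at h5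
  unfold TT
  omega

theorem TT_le (h : S.All) (H : c.Ok r₀) (hr : r₀ ≤ r) (hc : Spc.Clo _ (c.XS r))
    (z : (c.Xr r).Pt) : c.TT r z ≤ c.Alt r ⊓ ((c.famV r).Tq S z).comap (c.β r) := by
  rintro _ ⟨D, hD, rfl⟩
  refine ⟨fun J σ => ?_, (du_V D ▸ (H.flatV h hr hc).du_mem h hD :)⟩
  have e : c.pl r (J ∘ σ) = ((Equiv.Perm.sign σ : ℤ) : ℂ) • c.pl r J :=
    sub_eq_zero.1 ((c.Xr r).sep _ fun y hy => by
      rw [map_sub, map_smul]
      exact sub_eq_zero.2 (pz_alt hc ⟨y, hy⟩ J σ))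
  exact (congrArg D e).trans (map_smul D _ _)

theorem Tq_le (h : S.All) (H : c.Ok r₀) (hr : r₀ ≤ r) (hc : Spc.Clo _ (c.XS r))
    (z : (c.Xr r).Pt) : Module.finrank ℂ ((c.famV r).Tq S z) ≤
      c.v + Fintype.card (c.famV r).ι * r + 2 * (c.s - r) := by
  have hF := fibA K S h (las S h)
  obtain ⟨Z, hZ⟩ := pt_mem hc z
  obtain ⟨h1, h2, -⟩ := H.reg_pt hr hZ
  have h3 := (Fb.fibC K S h H.good H.cech (las S h) hF (fibB K S h (las S h) hF)).tan _ _ _ Z
    (eff_fz h z) h1 _ _ (span_famV hZ)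
  have e : (c.famV r).Tq S z = Tt ((c.famV r).u z) (EM Z (c.A (c.fz z))) c.L c.m := by
    have e1 : Gn S.W (c.famV r).e 0 = M c.L c.m := (Gn_zero S.W c.e).trans c.e_span
    have e2 := Gn_EM h hF h1 (span_famV hZ)
    ext b
    exact ⟨fun hb => ⟨fun j t ht => (add_zero ((c.m : ℤ) + j)).symm ▸ e2 j ▸ hb.2 j t ht,
      fun a _ => e1 ▸ hb.1 a⟩, fun hb => ⟨fun a => e1.symm ▸ hb.2 a trivial,
      fun j t ht => (e2 j).symm ▸ add_zero ((c.m : ℤ) + j) ▸ hb.1 j t ht⟩⟩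
  have h4 := finrank_EM hZ
  rw [h0_lin h.toLoc2 _ (fz_mem z).2, h0_eq h, h2] at h3
  unfold A at h4 e
  rw [h4, ← e] at h3
  zify
  omega

theorem β_inj (hr : 0 < r) : Function.Injective (c.β r) :=
  (injective_iff_map_eq_zero _).2 fun v hv => funext fun J =>
    (Plk.vc_self v J ⟨0, hr⟩).symm.trans (congrFun (c.lc_inj
      (((β_lc v (J, ⟨0, hr⟩)).symm.trans (congrFun hv _)).trans (map_zero _).symm)) _)

end Tg

open Tg

theorem Geom.inj (G : c.Geom h r₀) (H : c.Ok r₀) (hr : r₀ ≤ r) (hs : r ≤ c.s) : (c.gr r).Inj := by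
  intro z z' ho
  obtain ⟨Z, hZ⟩ := pt_mem (G.clo r hr hs) z
  obtain ⟨Z', hZ'⟩ := pt_mem (G.clo r hr hs) z'
  obtain ⟨t, ht, e⟩ := co_orb ho
  have e1 : c.Usp ((c.gr r).onPt z).co = c.Usp ((c.gr r).onPt z').co := by
    rw [e, Usp, Usp, Plk.sub_smul _ ht]
  have e2 := ((fibB K S h (las S h) (fibA K S h (las S h))).uniq _ _ _ _ _ (H.reg_pt hr hZ).1
    (H.reg_pt hr hZ').1 (hZ.2.2.symm.trans (e1.trans hZ'.2.2))).1
  have e3 : c.fz z' / c.fz z ∈ H0 (0 : Div S.W) := Or.inr fun C _ => by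
    have := DFunLike.congr_fun (add_left_cancel (sub_right_injective e2)) C
    rw [div_apply h.toLoc2, div_apply h.toLoc2] at this
    rw [Crv.ord, Pl.ord_div _ (fz_mem z').2 (fz_mem z).2]
    exact le_of_eq (by rw [Finsupp.zero_apply, add_zero]; exact (sub_eq_zero.2 this.symm).symm)
  rw [fz_eq, fz_eq] at e3
  obtain ⟨t', e4⟩ := prop h (fz_eq z ▸ (fz_mem z).2) e3
  exact (Spc.orb_sub _ (c.XS_stab r) z z').2 ((Spc.orb_prod _ _).2
    ⟨Ge.PI_orb (ι := Fin (c.v + 1)) (funext e4), ho⟩)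

theorem Geom.unr (G : c.Geom h r₀) (H : c.Ok r₀) (hr : r₀ ≤ r) (hs : r ≤ c.s) : (c.gr r).Unr := by
  rintro z D hD ⟨ξ, h1⟩
  obtain ⟨t, h2⟩ := key h H hr (G.clo r hr hs) hD (t := ∑ j, ξ j * ((1 : ℤ) : ℂ))
    (funext fun J => h1 _ _ (X_wt _ J))
  refine ⟨Sum.elim (fun _ => t) ξ, Tn.rad_of_gen hD _ (adjoin_top c r) ?_⟩
  rintro _ (⟨i, rfl⟩ | ⟨J, rfl⟩)
  · refine ⟨_, yl_wt c r i, (h2 i).trans (congrArg (· * _) ?_)⟩
    refine Eq.trans ?_ (Fintype.sum_sum_type _).symm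
    change t = ∑ j : Option Empty, t * ((1 : ℤ) : ℂ) + ∑ j : Option Empty, ξ j * ((0 : ℤ) : ℂ)
    simp
  · refine ⟨_, c.pl_wt r J, (h1 _ _ (X_wt _ J)).trans (congrArg (· * _) ?_)⟩
    refine Eq.trans ?_ (Fintype.sum_sum_type _).symm
    change ∑ j : Option Empty, ξ j * ((1 : ℤ) : ℂ) =
      ∑ j : Option Empty, t * ((0 : ℤ) : ℂ) + ∑ j : Option Empty, ξ j * ((1 : ℤ) : ℂ)
    simp

theorem alt_line (hc : Spc.Clo _ (c.XS r)) (hr : 0 < r) (z : (c.Xr r).Pt)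
    {v : (Fin r → c.B) → ℂ} (hv : v ∈ c.Alt r)
    (h1 : ∀ s, c.β r v s ∈ Gn S.W ((c.famV r).u z) 0) : ∃ t : ℂ, v = t • c.pz z := by
  obtain ⟨Z, hZ⟩ := pt_mem hc z
  obtain ⟨J₀, h0⟩ := Function.ne_iff.1 (pz_ne z)
  have h2 : Plk.Rel (c.pz z) := hZ.1
  refine ⟨v J₀ / c.pz z J₀, sub_eq_zero.1 (h2.alt_zero h0
    (sub_mem hv (Submodule.smul_mem _ _ (pz_alt hc z))) (fun J a => ?_) ?_)⟩
  · refine sub_mem (?_ : Plk.vc v J a ∈ _) (Submodule.smul_mem _ (v J₀ / c.pz z J₀)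
      (Submodule.subset_span ⟨J, a, rfl⟩))
    have h3 := h1 (J, a)
    rw [Gn_zero, span_famV hZ, β_lc] at h3
    obtain ⟨x, h4, h5⟩ := hZ.2.2.ge h3
    exact c.lc_inj h5 ▸ h4
  · rw [Pi.sub_apply, Pi.smul_apply, smul_eq_mul, div_mul_cancel₀ _ h0, sub_self]

theorem Geom.TT_eq (G : c.Geom h r₀) (H : c.Ok r₀) (hr : r₀ ≤ r) (hs : r ≤ c.s)
    (z : (c.Xr r).Pt) : c.TT r z = c.Alt r ⊓ ((c.famV r).Tq S z).comap (c.β r) ∧
      Module.finrank ℂ (c.TT r z) = c.v + 2 * (c.s - r) + 1 ∧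
      Module.finrank ℂ ((c.famV r).Tq S z) =
        c.v + Fintype.card (c.famV r).ι * r + 2 * (c.s - r) ∧
      (c.famV r).Tq S z = (c.TT r z).map (c.β r) ⊔
        Submodule.pi Set.univ fun _ => Gn S.W ((c.famV r).u z) 0 := by
  have hc := G.clo r hr hs
  have h0 := H.pos.trans_le hr
  obtain ⟨Z, hZ⟩ := pt_mem hc z
  have h1 := (Fb.Tg.finrank_pi (c.famV r).ι (Gn S.W ((c.famV r).u z) 0)).2
  rw [show Module.finrank ℂ (Gn S.W ((c.famV r).u z) 0) = r by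
    rw [Gn_zero, span_famV hZ, finrank_EM hZ]] at h1
  have h2 : Module.Finite ℂ ((c.famV r).Tq S z) :=
    haveI := (Fb.Tg.finrank_pi (c.famV r).ι (Gn S.W (c.famV r).e 0)).1
    Submodule.finiteDimensional_of_le (S₂ := Submodule.pi Set.univ fun _ => Gn S.W (c.famV r).e 0)
      fun b hb a _ => hb.1 a
  obtain ⟨h3, h4, h5, h6⟩ := Tn.count (β_inj h0) (p := c.β r (c.pz z))
    (N := Submodule.pi Set.univ fun _ => Gn S.W ((c.famV r).u z) 0) h2 (le_TT G H hr hs z)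
    (TT_le h H hr hc z) ((Tq_le h H hr hc z).trans_eq ((add_right_comm _ _ _).trans
      (congrArg _ h1.symm))) (sup_le (Submodule.map_le_iff_le_comap.2 inf_le_right) fun b hb =>
      ⟨fun a => Gn_mono S.W (Submodule.span_le.2 (Set.range_subset_iff.2 (Fam.u_mem z))) 0
        (hb a trivial), fun j t ht => Submodule.sum_mem _ fun a _ =>
          smul_mem_Gn S.W _ (j := 0) (ht.1 a) (hb a trivial)⟩) (by
      rintro _ ⟨⟨v, hv, rfl⟩, hv'⟩
      obtain ⟨t, rfl⟩ := alt_line hc h0 z hv.1 fun s => hv' s trivial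
      exact Submodule.mem_span_singleton.2 ⟨t, (map_smul _ _ _).symm⟩)
  exact ⟨h3, h4, h5.trans ((congrArg _ h1).trans (add_right_comm _ _ _)), h6⟩

end Vale.Agent.P297Z.Sf.Ctx
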