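import Vale.Agent.P297Z.Hb.Tcl2
import Vale.Agent.P297Z.Hb.Tan

/-! P297: the class of the lifts of the tangent vectors. -/

set_option linter.all false

noncomputable section

namespace Vale.Agent.P297Z.Sf.Ctx

open Fb Vale.Agent.P297Z.Hb Pw

variable {K : Type} [Field K] [Algebra ℂ K] {S : Surf K} {c : Ctx S} {h : S.All} {r₀ r : ℕ}

theorem Geom.cl_Tq (G : c.Geom h r₀) (H : c.Ok r₀) (hr : r₀ ≤ r) (hs : r ≤ c.s) :
    ((c.famV r).tR S).Sb ((c.famV r).Tq S)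
      (c.v + Fintype.card (c.famV r).ι * r + 2 * (c.s - r)) ∧
    ((c.famV r).tR S).cl ((c.famV r).Tq S)
      (c.v + Fintype.card (c.famV r).ι * r + 2 * (c.s - r)) =
      (c.v + 1 : ℕ) • pullK (c.pr r) (OP c.v 1) +
        pK (c.Xr r) (S.spc h) (dualK _ ((c.famV r).Kcl h 1) * c.Ecl h r) :=
  G.cl_Tq' H hr hs fun z => (G.TT_eq H hr hs z).2.2.1

end Vale.Agent.P297Z.Sf.Ctx
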