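import Vale.Agent.P297Z.Hb.Fam0
import Vale.Agent.P297Z.Quot.SurS

/-! P297: families of subsheaves given by generators: flat families. -/

set_option linter.all false

noncomputable section

namespace Vale.Agent.P297Z.Sf

open Pw

variable {K : Type} [Field K] [Algebra ℂ K] {S : Surf K} {W X : Spc}

theorem poly_sum {P : Rp X} {ι : Type} [Fintype ι] (f : ι → Fn X P.Y) (h : ∀ i, f i ∈ P.poly) :
    (fun z => ∑ i, f i z : Fn X P.Y) ∈ P.poly := by
  have e : (fun z => ∑ i, f i z : Fn X P.Y) = (∑ i, (⟨f i, h i⟩ : P.poly) : P.poly).1 :=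
    funext fun z => (Rp.sum_val Finset.univ (fun i => (⟨f i, h i⟩ : P.poly)) z).symm
  exact e ▸ Subtype.property _

theorem poly_pi {ι : Type} [Fintype ι] {Q : ι → Rp X} (f : ∀ i, Fn X (Q i).Y)
    (h : ∀ i, f i ∈ (Q i).poly) : (fun z i => f i z : Fn X (Rp.pi Q).Y) ∈ (Rp.pi Q).poly := by
  classical
  have e : (fun z i => f i z : Fn X (Rp.pi Q).Y) =
      fun z => ∑ i, (LinearMap.single ℂ (fun i => (Q i).Y) i (f i z) : (Rp.pi Q).Y) :=
    funext fun z => (Finset.univ_sum_single fun i => f i z).symm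
  exact e ▸ poly_sum (P := Rp.pi Q) _ fun i => (Rp.mp_single i).map_poly (h i)

theorem cf_neg (h : S.All) (z : X.Pt) {j : ℤ} (hj : j < 0) (r : (X.prod (S.spc h)).R) :
    cf h z j r = 0 := by
  have := cf_mem h z j r
  rwa [S.Wp_neg hj, Submodule.mem_bot] at this

theorem cf_bdd (h : S.All) (r : (X.prod (S.spc h)).R) :
    ∃ N : ℕ, ∀ (z : X.Pt) (j : ℤ), (N : ℤ) ≤ j → cf h z j r = 0 := by
  induction r using TensorProduct.induction_on with
  | zero => exact ⟨0, fun z j _ => map_zero _⟩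
  | tmul a b =>
    obtain ⟨N, hN⟩ := (show S.ring from b).1.coeff.support.finite_toSet.bddAbove
    refine ⟨N.toNat + 1, fun z j hj => ?_⟩
    have h1 : (show S.ring from b).1.coeff j = 0 := by_contra fun e => by
      have := hN (Finsupp.mem_support_iff.2 e)
      omega
    exact (congrArg (fun t : S.ring => t.1.coeff j) (evp_tmul z a b)).trans
      ((congrArg (z.1 a • ·) h1).trans (smul_zero _))
  | add x y hx hy =>
    obtain ⟨n, h1⟩ := hx
    obtain ⟨n', h2⟩ := hy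
    exact ⟨n + n', fun z j hj => (map_add (cf h z j) x y).trans
      ((congrArg₂ (· + ·) (h1 z j (by omega)) (h2 z j (by omega))).trans (add_zero _))⟩

theorem cf_sum (h : S.All) {ι : Type} [Fintype ι] (k : ι → (X.prod (S.spc h)).R) :
    ∃ N : ℕ, ∀ a (z : X.Pt) (i : ℤ),
      cf h z i (k a) = ∑ j ∈ Finset.range N, if i = j then cf h z j (k a) else 0 := by
  choose N hN using fun a => cf_bdd h (k a)
  refine ⟨∑ a, N a, fun a z i => ?_⟩
  rcases lt_or_ge i 0 with hi | hi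
  · rw [cf_neg h z hi, Finset.sum_eq_zero fun j _ => if_neg (by omega)]
  lift i to ℕ using hi
  simp only [Nat.cast_inj, Finset.sum_ite_eq, Finset.mem_range]
  split_ifs with hi
  · rfl
  · have := Finset.single_le_sum (f := N) (fun _ _ => Nat.zero_le _) (Finset.mem_univ a)
    exact hN a z i (by omega)

theorem fdim_eq_of_ev {R T A B : Type} [CommRing R] [Algebra ℂ R] [CommRing T] [Algebra ℂ T]
    [AddCommGroup A] [Module R A] [Module ℂ A] [IsScalarTower ℂ R A] [AddCommGroup B] [Module T B]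
    [Module ℂ B] [IsScalarTower ℂ T B] {w : R →ₐ[ℂ] ℂ} {s : T →ₐ[ℂ] ℂ} {e : R → T}
    (he : Function.Surjective e) (hw : ∀ r, w r = s (e r)) (ε : A →ₗ[ℂ] B)
    (h1 : ∀ r a, ε (r • a) = e r • ε a) (h2 : Function.Surjective ε)
    (h3 : ∀ a, ε a = 0 → a ∈ RingHom.ker w • (⊤ : Submodule R A)) : fdim w A = fdim s B := by
  let L : Fib w A →ₗ[ℂ] Fib s B := Rp.fibL w
    ((RingHom.ker s • ⊤ : Submodule T B).mkQ.restrictScalars ℂ ∘ₗ ε) fun r a => by
      change Submodule.Quotient.mk (ε (r • a)) = w r • Submodule.Quotient.mk (ε a)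
      rw [h1, Submodule.Quotient.mk_smul, fib_smul, hw]
  refine (LinearEquiv.ofBijective L ⟨(injective_iff_map_eq_zero _).2 fun x hx => ?_,
    fun y => ?_⟩).finrank_eq
  · obtain ⟨a, rfl⟩ := fib_surj x
    obtain ⟨a', h4, h5⟩ : ∃ a' ∈ RingHom.ker w • (⊤ : Submodule R A), ε a' = ε a := by
      refine Submodule.smul_induction_on (p := fun b =>
        ∃ a' ∈ RingHom.ker w • (⊤ : Submodule R A), ε a' = b)
        ((Submodule.Quotient.mk_eq_zero (RingHom.ker s • ⊤ : Submodule T B)).1 hx) ?_ ?_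
      · intro t ht b _
        obtain ⟨r, rfl⟩ := he t
        obtain ⟨a', rfl⟩ := h2 b
        exact ⟨r • a', Submodule.smul_mem_smul ((hw r).trans ht) trivial, h1 r a'⟩
      · rintro _ _ ⟨a₁, h4, rfl⟩ ⟨a₂, h5, rfl⟩
        exact ⟨a₁ + a₂, add_mem h4 h5, map_add ε _ _⟩
    rw [Submodule.Quotient.mk_eq_zero, ← sub_add_cancel a a']
    exact add_mem (h3 _ (by rw [map_sub, h5, sub_self])) h4
  · obtain ⟨b, rfl⟩ := fib_surj y
    obtain ⟨a, rfl⟩ := h2 b
    exact ⟨Submodule.Quotient.mk a, rfl⟩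

theorem exists_cden (S : Surf K) {ι : Type} [Finite ι] (b : ι → K) :
    ∃ (N : ℕ) (q : K), q ≠ 0 ∧ q ∈ S.W ^ N ∧ ∀ k, q * b k ∈ S.W ^ N := by
  haveI := S.model.frac _ (S.x_mem 0) (S.x_ne 0)
  obtain ⟨c, hc⟩ := IsLocalization.exist_integer_multiples_of_finite
    (nonZeroDivisors (chart S.W (S.x 0))) b
  have h1 : ∀ k, ((c : chart S.W (S.x 0)) : K) * b k ∈ chart S.W (S.x 0) := fun k => by
    obtain ⟨a, ha⟩ := hc k
    exact (show (a : K) = ((c : chart S.W (S.x 0)) : K) * b k from ha) ▸ a.2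
  choose n hn using fun k => exists_pow_of_mem_chart (S.x_mem 0) (S.x_ne 0) (h1 k)
  obtain ⟨n₀, h2⟩ := exists_pow_of_mem_chart (S.x_mem 0) (S.x_ne 0) (c : chart S.W (S.x 0)).2
  obtain ⟨n₁, h3⟩ := (Set.finite_range n).bddAbove
  refine ⟨n₀ + n₁, (c : chart S.W (S.x 0)) * S.x 0 ^ (n₀ + n₁), mul_ne_zero
    (fun e => nonZeroDivisors.ne_zero c.2 (Subtype.ext e)) (pow_ne_zero _ (S.x_ne 0)),
    h2 _ (Nat.le_add_right _ _), fun k => ?_⟩
  rw [mul_right_comm]
  exact hn k _ ((h3 ⟨k, rfl⟩).trans (Nat.le_add_left _ _))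

/-- the coefficient of degree `j` -/
def co (h : S.All) (j : ℤ) : (S.spc h).R →ₗ[ℂ] K where
  toFun := fun t => (show S.ring from t).1.coeff j
  map_add' := fun _ _ => rfl
  map_smul' := fun _ _ => rfl

/-- the forms, in the ring of the space -/
def frm (h : S.All) (n : ℕ) (b : K) (hb : b ∈ S.W ^ n) : (S.spc h).R := S.form n b hb

theorem co_ext {h : S.All} {t t' : (S.spc h).R} (e : ∀ j, co h j t = co h j t') : t = t' :=
  Subtype.ext (AddMonoidAlgebra.ext (Finsupp.ext e))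

theorem co_frm (h : S.All) (n : ℕ) (b : K) (hb : b ∈ S.W ^ n) (j : ℤ) :
    co h j (frm h n b hb) = if (n : ℤ) = j then b else 0 := coeff_mon b n j

theorem co_mul_frm (h : S.All) (n : ℕ) (b : K) (hb : b ∈ S.W ^ n) (t : (S.spc h).R) (j : ℤ) :
    co h j (t * frm h n b hb) = co h (j - n) t * b := by
  rw [mul_comm t, mul_comm _ b]
  change (mon b n * (show S.ring from t).1).coeff j = _
  rw [mon, ← LaurentPolynomial.single_eq_C_mul_T, AddMonoidAlgebra.coeff_single_mul_apply,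
    neg_add_eq_sub]
  rfl

theorem freeAt_ker {R ι κ : Type} [CommRing R] [Algebra ℂ R] [IsNoetherianRing R] [Fintype ι]
    [Fintype κ] [DecidableEq κ] {s : R →ₐ[ℂ] ℂ} {σ : κ → ι} (h1 : Function.Injective σ)
    {p : ι → κ → R} {q : R} (hq : s q ≠ 0) (h2 : ∀ k, p (σ k) = Pi.single k q) :
    FreeAt s (LinearMap.ker (Fintype.linearCombination R p))
      (Fintype.card ι - Fintype.card κ) := by
  classical
  refine FreeAt.left (g := Fintype.linearCombination R p) (f := Submodule.subtype _)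
    (by rw [Nat.sub_add_cancel (Fintype.card_le_of_injective σ h1)]; exact freeAt_fun ι)
    (freeAt_fun κ) (fun a => a.2) (.of_inj (Submodule.injective_subtype _))
    (.of_ker fun b hb => ⟨⟨b, hb⟩, rfl⟩) fun b =>
      ⟨q, ∑ k, Pi.single (σ k) (b k), hq, funext fun k => ?_⟩
  simp [h2, Pi.single_apply, mul_comm]

/-- the relations between finitely many vectors form a bundle on the surface -/
theorem exists_rel (h : S.All) {V ι : Type} [AddCommGroup V] [Module K V] [Fintype ι]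
    (u : ι → V) : ∃ N : Submodule (S.spc h).R (ι → (S.spc h).R),
      (∀ c, c ∈ N ↔ ∀ j, ∑ a, co h j (c a) • u a = 0) ∧ ∀ s : (S.spc h).Pt, FreeAt s.1 N
        (Fintype.card ι - Module.finrank K (Submodule.span K (Set.range u))) := by
  classical
  obtain ⟨κ, σ, h1, h2, h3⟩ := exists_linearIndependent' K u
  letI : Fintype κ := Fintype.ofInjective σ h1
  choose m hm using fun a => (Submodule.mem_span_range_iff_exists_fun K).1
    (h2.ge (Submodule.subset_span ⟨a, rfl⟩))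
  have h4 : ∀ c : ι → K, ∑ a, c a • u a = 0 ↔ ∀ k, ∑ a, c a * m a k = 0 := fun c => by
    have e : ∑ a, c a • u a = ∑ k, (∑ a, c a * m a k) • (u ∘ σ) k := by
      simp only [← hm, Finset.smul_sum, Finset.sum_smul, mul_smul]
      exact Finset.sum_comm
    rw [e]
    exact ⟨Fintype.linearIndependent_iff.1 h3 _, fun e => by simp [e]⟩
  have h5 : ∀ k, m (σ k) = Pi.single k 1 := fun k =>
    h3.fintypeLinearCombination_injective ((hm (σ k)).trans (by simp))
  obtain ⟨n, q, h6, h7, h8⟩ := exists_cden S fun x : ι × κ => m x.1 x.2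
  let p : ι → κ → (S.spc h).R := fun a k => frm h n _ (h8 (a, k))
  have h9 : (Dg.Fr (S.spc h) fun _ : ι => fun _ => (n : ℤ)).IsHom
      (Dg.Fr (S.spc h) fun _ : κ => 0) (Fintype.linearCombination (S.spc h).R p :) :=
    Qt.lc_hom (M := Dg.Fr (S.spc h) fun _ : κ => 0) _ p fun a g =>
      (Dg.Fr_act _ g (p a)).trans (funext fun k =>
        ((congrArg (· • _) (chr_zero g)).trans (one_smul _ _)).trans (SA.form_mem_wt h _ g))
  obtain ⟨r, hr⟩ := syz ⟨Dg.Fr (S.spc h) fun _ : ι => fun _ => (n : ℤ), _, fun _ => freeAt_fun ι⟩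
    ⟨Dg.Fr (S.spc h) fun _ : κ => 0, _, fun _ => freeAt_fun κ⟩ _ h9
  obtain ⟨s, hs⟩ : ∃ s : (S.spc h).Pt, s.1 (frm h n q h7) ≠ 0 := by_contra fun e =>
    mon_ne_zero h6 n (congrArg Subtype.val (S.ring_sep (S.form n q h7) fun z hz =>
      by_contra fun e' => e ⟨⟨z, hz⟩, e'⟩))
  have h10 := freeAt_ker (p := p) h1 hs fun k => funext fun k' => co_ext fun j => by
    rw [co_frm, h5]
    by_cases e : k' = k
    · rw [e, Pi.single_eq_same, Pi.single_eq_same, co_frm, mul_one]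
    · rw [Pi.single_eq_of_ne e, Pi.single_eq_of_ne e, map_zero, mul_zero, ite_self]
  have h11 : ∀ (c : ι → (S.spc h).R) k j, co h j (Fintype.linearCombination (S.spc h).R p c k) =
      q * ∑ a, co h (j - n) (c a) * m a k := fun c k j => by
    rw [Fintype.linearCombination_apply, Finset.sum_apply, map_sum, Finset.mul_sum]
    exact Finset.sum_congr rfl fun a _ => (co_mul_frm h n _ _ (c a) j).trans (mul_left_comm _ _ _)
  refine ⟨LinearMap.ker (Fintype.linearCombination (S.spc h).R p), fun c => ⟨fun hc j => ?_,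
    fun hc => funext fun k => co_ext fun j => ?_⟩, fun y => ?_⟩
  · refine (h4 _).2 fun k => (mul_eq_zero.1 ?_).resolve_left h6
    have := h11 c k (j + n)
    rw [add_sub_cancel_right, LinearMap.mem_ker.1 hc, Pi.zero_apply, map_zero] at this
    exact this.symm
  · rw [h11, (h4 _).1 (hc _) k, mul_zero, Pi.zero_apply, map_zero]
  · rw [← h2, finrank_span_eq_card h3, ← (hr s).unique h10]
    exact hr y

section V

variable {V V' : Type} [AddCommGroup V] [Module K V] [Module ℂ V] [IsScalarTower ℂ K V]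
  [AddCommGroup V'] [Module K V'] [Module ℂ V'] [IsScalarTower ℂ K V']

namespace Fam

variable {F : Fam K X V} {F' : Fam K X V'} {h : S.All} {ρ ρ' : ℕ}

/-- the space of the coefficients of degree `j` -/
abbrev cp (F : Fam K X V) (S : Surf K) (j : ℕ) : Rp X :=
  Rp.pi fun a => @Rp.sc X K _ _ (S.W ^ j) (fin_pow S j) (F.γ a)

/-- the combination of the generators -/
def lc (F : Fam K X V) (z : X.Pt) : (F.ι → K) →ₗ[ℂ] V :=
  (Fintype.linearCombination K (F.u z)).restrictScalars ℂ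

theorem lc_apply (z : X.Pt) (c : F.ι → K) : F.lc z c = ∑ a, c a • F.u z a := rfl

theorem mp_lc (F : Fam K X V) (S : Surf K) (j : ℕ) :
    Rp.Mp (F.cp S j) (F.rp S j) fun z => F.lc z := by
  refine ⟨fun (c : F.ι → K) hc => ?_, fun z g (c : F.ι → K) _ => ?_⟩
  · have e : (fun z => F.lc z c : Fn X V) = fun z => ∑ a, ∑ b, z.1 (F.g a b) • c a • F.e b :=
      funext fun z => Finset.sum_congr rfl fun a _ => by
        rw [u, Finset.smul_sum]
        exact Finset.sum_congr rfl fun b _ => smul_comm _ _ _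
    exact e ▸ poly_sum (P := F.rp S j) _ fun a => poly_sum (P := F.rp S j) _ fun b =>
      Rp.smul_cst_mem (P := F.rp S j) _ (smul_mem_Gn S.W F.e (j := 0) (hc a trivial)
        (Gn_zero S.W F.e ▸ Submodule.subset_span ⟨b, rfl⟩))
  · change ∑ a, (chr (F.γ a) g • c a) • F.u z a = F.D g (∑ a, c a • F.u (Spc.mv z g) a)
    rw [map_sum]
    exact Finset.sum_congr rfl fun a _ => by rw [map_smul, D_u, smul_assoc, smul_comm]

theorem Gn_map (z : X.Pt) (j : ℕ) : Gn S.W (F.u z) j = (F.cp S j).U.map (F.lc z) :=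
  Submodule.ext fun _ => ⟨fun ⟨c, hc, e⟩ => ⟨c, fun a _ => hc a, e⟩,
    fun ⟨c, hc, e⟩ => ⟨c, fun a => hc a trivial, e⟩⟩

theorem RelV_inf (z : X.Pt) (j : ℕ) :
    RelV S.W (F.u z) j = (F.cp S j).U ⊓ LinearMap.ker (F.lc z) :=
  Submodule.ext fun _ => ⟨fun ⟨hc, e⟩ => ⟨fun a _ => hc a, e⟩,
    fun ⟨hc, e⟩ => ⟨fun a => hc a trivial, e⟩⟩

theorem Flat.sb_Gn (hF : F.Flat S ρ) {j n : ℕ}
    (hn : ∀ z, Module.finrank ℂ (Gn S.W (F.u z) j) = n) :
    (F.rp S j).Sb (fun z => Gn S.W (F.u z) j) n :=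
  (funext fun z => Gn_map z j : (fun z => Gn S.W (F.u z) j) = _).symm ▸
    (Rp.sb_top (F.cp S j)).map (F.mp_lc S j) fun z => Gn_map (S := S) (F := F) z j ▸ hn z

theorem Flat.sb_RelV [Nonempty X.Pt] (hF : F.Flat S ρ) (j : ℕ) :
    ∃ n, (F.cp S j).Sb (fun z => RelV S.W (F.u z) j) n := by
  obtain ⟨n, hn⟩ := hF.dim j
  exact ⟨_, ((Rp.sb_top (F.cp S j)).ses' (F.mp_lc S j) (fun z => RelV_inf z j)
    (fun z => Gn_map z j) hn).2.1⟩

theorem poly_cf (F : Fam K X V) (h : S.All) (j : ℕ) (k : F.ι → (X.prod (S.spc h)).R) :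
    (fun z a => cf h z j (k a) : Fn X (F.cp S j).Y) ∈ (F.cp S j).poly :=
  poly_pi (Q := fun a => @Rp.sc X K _ _ (S.W ^ j) (fin_pow S j) (F.γ a))
    (fun a z => cf h z j (k a)) fun a => by
      obtain ⟨n, t, w, hw, e⟩ := exists_cf h j (k a)
      rw [show (fun z => cf h z j (k a)) = _ from funext e]
      exact poly_sum (P := @Rp.sc X K _ _ (S.W ^ j) (fin_pow S j) (F.γ a)) _ fun i =>
        Rp.smul_cst_mem _ (hw i)

theorem exists_of_poly (h : S.All) {j : ℕ} {f : X.Pt → F.ι → K} (hf : f ∈ (F.cp S j).poly) :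
    ∃ k : F.ι → (X.prod (S.spc h)).R, ∀ a z (i : ℤ),
      cf h z i (k a) = if i = j then f z a else 0 := by
  refine Rp.poly_ind (P := F.cp S j) (p := fun f : X.Pt → F.ι → K =>
    ∃ k : F.ι → (X.prod (S.spc h)).R, ∀ a z (i : ℤ),
      cf h z i (k a) = if i = j then f z a else 0) ?_ ?_ ?_ ?_ hf
  · exact fun c hc => ⟨fun a => (Mor.snd X (S.spc h)).φ (S.form j (c a) (hc a trivial)),
      fun a z i => cf_snd h z i j _ _⟩
  · exact ⟨0, fun a z i => (map_zero _).trans (ite_self _).symm⟩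
  · rintro f f' - - ⟨k, hk⟩ ⟨k', hk'⟩
    refine ⟨k + k', fun a z i => ?_⟩
    rw [Pi.add_apply, map_add, hk, hk']
    exact ite_add_zero.symm
  · rintro r f - ⟨k, hk⟩
    refine ⟨fun a => (Mor.fst X (S.spc h)).φ r * k a, fun a z i => ?_⟩
    rw [cf_mul_fst, hk]
    exact smul_ite_zero _ _ _

theorem exists_of_sec (h : S.All) {j : ℕ} {f : X.Pt → F.ι → K} (hf : f ∈ (F.cp S j).poly)
    (h1 : ∀ z, f z ∈ RelV S.W (F.u z) j) : ∃ k ∈ F.Kt h, ∀ a z (i : ℤ),
      cf h z i (k a) = if i = j then f z a else 0 := by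
  obtain ⟨k, hk⟩ := exists_of_poly h hf
  refine ⟨k, fun z i => ?_, hk⟩
  simp only [hk]
  split_ifs
  exacts [(h1 z).2, by simp]

theorem Flat.lift (hF : F.Flat S ρ) (h : S.All) (z : X.Pt) {j : ℕ} {c : F.ι → K}
    (hc : c ∈ RelV S.W (F.u z) j) : ∃ k ∈ F.Kt h, (∀ a, cf h z j (k a) = c a) ∧
      ∀ a z' (i : ℤ), i ≠ j → cf h z' i (k a) = 0 := by
  haveI : Nonempty X.Pt := ⟨z⟩
  obtain ⟨n, hn⟩ := hF.sb_RelV j
  obtain ⟨f, h1, h2, rfl⟩ := hn.alg z c hc
  obtain ⟨k, hk, h3⟩ := exists_of_sec h h1 h2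
  exact ⟨k, hk, fun a => (h3 a z j).trans (if_pos rfl), fun a z' i hi => (h3 a z' i).trans (if_neg hi)⟩

theorem Flat.tor' (hF : F.Flat S ρ) (z : X.Pt) {k : F.ι → (X.prod (S.spc h)).R} (hk : k ∈ F.Kt h)
    (h0 : ∀ a j, cf h z j (k a) = 0) :
    k ∈ (RingHom.ker z.1).map (Mor.fst X (S.spc h)).φ • F.Kt h := by
  haveI : Nonempty X.Pt := ⟨z⟩
  have key : ∀ j : ℕ, ∃ k' ∈ (RingHom.ker z.1).map (Mor.fst X (S.spc h)).φ • F.Kt h,
      ∀ a y (i : ℤ), cf h y i (k' a) = if i = j then cf h y j (k a) else 0 := fun j => by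
    obtain ⟨n, hn⟩ := hF.sb_RelV j
    have h1 := (Submodule.Quotient.mk_eq_zero _).1 (hn.fib_zero z
      ⟨⟨_, F.poly_cf h j k⟩, fun y => ⟨fun a => S.Wp_nat j ▸ cf_mem h y j (k a), hk y j⟩⟩
      (funext fun a => h0 a j))
    refine Submodule.smul_induction_on (p := fun s : ((F.cp S j).Sec _ hn.eqv).M =>
      ∃ k' ∈ (RingHom.ker z.1).map (Mor.fst X (S.spc h)).φ • F.Kt h, ∀ a y (i : ℤ),
        cf h y i (k' a) = if i = j then (Rp.inc hn.eqv s).1 y a else 0) h1 ?_ ?_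
    · intro r hr s _
      obtain ⟨k', h2, h3⟩ := exists_of_sec h (Rp.inc hn.eqv s).2 (Rp.inc_mem hn.eqv s)
      refine ⟨_, Submodule.smul_mem_smul (Ideal.mem_map_of_mem _ hr) h2, fun a y i => ?_⟩
      refine (cf_mul_fst h y i r (k' a)).trans ?_
      rw [h3]
      exact smul_ite_zero _ _ _
    · rintro s s' ⟨k₁, h2, h3⟩ ⟨k₂, h4, h5⟩
      refine ⟨_, add_mem h2 h4, fun a y i => ?_⟩
      rw [Pi.add_apply, map_add, h3, h5]
      exact ite_add_zero.symm
  choose k' h1 h2 using key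
  obtain ⟨N, hN⟩ := cf_sum h k
  have e : k = ∑ j ∈ Finset.range N, k' j := funext fun a =>
    sub_eq_zero.1 (eq_zero_of_cf h _ fun y i => by
      rw [map_sub, Finset.sum_apply, map_sum, sub_eq_zero, hN]
      simp only [h2])
  exact e ▸ Submodule.sum_mem _ fun j _ => h1 j

theorem Flat.tor (hF : F.Flat S ρ) (z : X.Pt) {k : F.ι → (X.prod (S.spc h)).R} (hk : k ∈ F.Kt h)
    (h0 : ∀ a j, cf h z j (k a) = 0) : ∃ r : X.R, z.1 r ≠ 0 ∧ (Mor.fst X (S.spc h)).φ r • k ∈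
      (RingHom.ker z.1).map (Mor.fst X (S.spc h)).φ • F.Kt h :=
  ⟨1, ev_one, Submodule.smul_mem _ _ (hF.tor' z hk h0)⟩

theorem Flat.gens (hF : F.Flat S ρ) (G : F.Gens h) (z : X.Pt) {n : ℕ} {c : F.ι → K}
    (hc : c ∈ RelV S.W (F.u z) n) : ∃ s : G.P → K, (∀ p, s p ∈ S.Wp (n - G.j p)) ∧
      c = ∑ p, s p • G.kv z p := by
  obtain ⟨k, hk, h1, -⟩ := hF.lift h z hc
  obtain ⟨t, rfl⟩ := (Submodule.mem_span_range_iff_exists_fun _).1 (G.span.ge hk)
  refine ⟨fun p => cf h z (n - G.j p) (t p), fun p => cf_mem h z _ _, funext fun a => ?_⟩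
  rw [← h1, Finset.sum_apply, Finset.sum_apply, map_sum]
  refine Finset.sum_congr rfl fun p _ => ?_
  rw [Pi.smul_apply, Pi.smul_apply, smul_eq_mul, smul_eq_mul, mul_comm (t p),
    cf_mul h z fun j hj => cf_of_wt h z (G.wt p a) hj, mul_comm]
  rfl

theorem Flat.lift' (hF : F.Flat S ρ) (h : S.All) (z : X.Pt) {c : F.ι → (S.spc h).R}
    (hc : ∀ j, ∑ a, co h j (c a) • F.u z a = 0) :
    ∃ k ∈ F.Kt h, ∀ a, evp (S.spc h) z (k a) = c a := by
  choose k h1 h2 h3 using fun j : ℕ => hF.lift h z (j := j) (c := fun a => co h j (c a))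
    ⟨fun a => S.Wp_nat j ▸ S.mem_ring.1 (show S.ring from c a).2 j, hc j⟩
  have e : ∀ a i, cf h z i ((Mor.snd X (S.spc h)).φ (c a)) = co h i (c a) := fun a i =>
    congrArg (co h i) (evp_snd (S.spc h) z (c a))
  obtain ⟨N, hN⟩ := cf_sum h fun a => (Mor.snd X (S.spc h)).φ (c a)
  refine ⟨∑ j ∈ Finset.range N, k j, Submodule.sum_mem _ fun j _ => h1 j, fun a =>
    co_ext fun i => ?_⟩
  change cf h z i _ = _
  rw [← e, hN, Finset.sum_apply, map_sum]
  refine Finset.sum_congr rfl fun j _ => ?_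
  split_ifs with hi
  · rw [hi, h2, e]
  · exact h3 j a z i hi

theorem Flat.isBun (hF : F.Flat S ρ) (h : S.All) : (F.KM h).IsBun (Fintype.card F.ι - ρ) := by
  refine GMod.isBun_of_rank fun w => ?_
  let z := (Mor.fst X (S.spc h)).onPt w
  obtain ⟨N, h1, h2⟩ := exists_rel h (F.u z)
  let ε : (F.KM h).M →ₗ[ℂ] N :=
    { toFun := fun k => ⟨fun a => evp (S.spc h) z (k.1 a), (h1 _).2 (k.2 z)⟩
      map_add' := fun k k' => Subtype.ext (funext fun a => map_add (evp (S.spc h) z) _ _)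
      map_smul' := fun t k => Subtype.ext (funext fun a => map_smul (evp (S.spc h) z) _ _) }
  rw [← hF.rank z, ← (h2 ((Mor.snd X (S.spc h)).onPt w)).fdim]
  refine fdim_eq_of_ev (e := evp (S.spc h) z) (fun t => ⟨_, evp_snd (S.spc h) z t⟩)
    (evp_pt w) ε (fun r k => Subtype.ext (funext fun a => map_mul (evp (S.spc h) z) _ _))
    (fun c => ?_) fun k hk => ?_
  · obtain ⟨k, hk, h3⟩ := hF.lift' h z ((h1 _).1 c.2)
    exact ⟨⟨k, hk⟩, Subtype.ext (funext h3)⟩
  · exact (Submodule.mem_smul_top_iff _ (F.Kt h) k).2 (Submodule.smul_mono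
      (Ideal.map_le_iff_le_comap.2 fun r hr => hr) le_rfl
      (hF.tor' z k.2 fun a j => (congrArg (fun c : N => co h j (c.1 a)) hk).trans (map_zero _)))

end Fam

end V

end Vale.Agent.P297Z.Sf
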