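import Vale.Agent.P297Z.Hb.Pw

/-! P297: the class of a subbundle from a sum with a line as intersection. -/

set_option linter.all false

noncomputable section

namespace Vale.Agent.P297Z.Pw.Rp

variable {X : Spc} {P Q : Rp X}

theorem tt_abs [hX : Nonempty X.Pt] {β : P.Y →ₗ[ℂ] Q.Y} (hβ : Mp P Q fun _ => β)
    {A : Submodule ℂ P.Y} {a q u t : ℕ} (hA : P.Sb (fun _ => A) a) {T : X.Pt → Submodule ℂ P.Y}
    {Tq U : X.Pt → Submodule ℂ Q.Y} (hTq : Q.Sb Tq q) (hU : Q.Sb U u)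
    (hT : ∀ z, T z = A ⊓ (Tq z).comap β) (dT : ∀ z, Module.finrank ℂ (T z) = t)
    (hsum : ∀ z, Tq z = (T z).map β ⊔ U z) {p : X.Pt → P.Y}
    (hp : Mp (sc X (⊤ : Submodule ℂ ℂ) 0) P fun z => LinearMap.toSpanSingleton ℂ P.Y (p z))
    (p0 : ∀ z, p z ≠ 0) (pA : ∀ z, p z ∈ A) (pU : ∀ z, β (p z) ∈ U z)
    (hl : ∀ z, ∀ v ∈ A, β v ∈ U z → ∃ s : ℂ, v = s • p z) :
    P.Sb T t ∧ P.cl T t = Q.cl Tq q - Q.cl U u + 1 := by
  have h1 : P.Sb T t := (funext hT : T = _).symm ▸ hA.comap hTq hβ fun z => hT z ▸ dT z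
  have pT : ∀ z, p z ∈ T z := fun z => by
    rw [hT]
    refine ⟨pA z, ?_⟩
    rw [hsum]
    exact Submodule.mem_sup_right (pU z)
  obtain ⟨h2, h3⟩ := h1.prod hU
  obtain ⟨h4, h5⟩ := (sb_top (sc X (⊤ : Submodule ℂ ℂ) 0)).iso
    (V' := fun z => (T z).prod (U z) ⊓ LinearMap.ker (β.coprod LinearMap.id))
    (hp.prod (hβ.comp hp).neg)
    (fun z (s : ℂ) _ hs => (smul_eq_zero.1 (congrArg Prod.fst hs)).resolve_right (p0 z))
    fun z => by
      ext ⟨v, b⟩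
      constructor
      · rintro ⟨⟨hv, hb⟩, h0⟩
        have h6 : b = -β v := eq_neg_of_add_eq_zero_right h0
        subst h6
        obtain ⟨s, rfl⟩ := hl z v (hT z ▸ hv).1 (neg_mem_iff.1 hb)
        exact ⟨s, trivial, rfl⟩
      · rintro ⟨s : ℂ, -, hs⟩
        obtain ⟨rfl, rfl⟩ : s • p z = v ∧ -β (s • p z) = b := Prod.ext_iff.1 hs
        exact ⟨⟨(T z).smul_mem s (pT z), neg_mem (map_smul β s (p z) ▸ (U z).smul_mem s (pU z))⟩,
          add_neg_cancel _⟩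
  obtain ⟨-, -, h6, h7⟩ := h2.ses (V' := Tq) (hβ.coprod mp_id) (fun _ => rfl)
    (fun z => (hsum z).trans ((congrArg _ (Submodule.map_id _).symm).trans
      (LinearMap.map_coprod_prod β LinearMap.id (T z) (U z)).symm)) h4.dim
  have h8 := (h6.dim hX.some).symm.trans (hTq.dim _)
  have h9 := cl_sc (X := X) (⊤ : Submodule ℂ ℂ) 0
  have h10 : Module.finrank ℂ (⊤ : Submodule ℂ ℂ) • line X (-0) = 1 := by
    rw [finrank_top, Module.finrank_self, neg_zero, line_zero, one_smul]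
  rw [h8, h3, h5.trans (h9.trans h10)] at h7
  refine ⟨h1, ?_⟩
  rw [eq_sub_of_add_eq h7]
  ring

end Vale.Agent.P297Z.Pw.Rp
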