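import Vale.Agent.P297Z.Hb.TowDefs
import Vale.Agent.P297Z.Hb.Fam1
import Vale.Agent.P297Z.Hb.TtA

/-! P297: the maps between the spaces of values used for the tangent bundle of the cone. -/

set_option linter.all false

noncomputable section

namespace Vale.Agent.P297Z.Sf

open Fb Vale.Agent.P297Z.Hb Pw

variable {K : Type} [Field K] [Algebra ℂ K] {S : Surf K}

namespace Fam

variable {X : Spc} {V : Type} [AddCommGroup V] [Module K V] [Module ℂ V] [IsScalarTower ℂ K V]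
  {F : Fam K X V} {ρ n : ℕ}

/-- the families of values in the span of the generators -/
def piU (F : Fam K X V) (S : Surf K) (z : X.Pt) : Submodule ℂ (F.ι → V) :=
  Submodule.pi Set.univ fun _ => Gn S.W (F.u z) 0

/-- the sum of the twists of the bundle of the generators -/
theorem Flat.sb_piU (hF : F.Flat S ρ) (hn : ∀ z, Module.finrank ℂ (Gn S.W (F.u z) 0) = n) :
    (F.tR S).Sb (F.piU S) (∑ _a : F.ι, n) ∧ (F.tR S).cl (F.piU S) (∑ _a : F.ι, n) =
      ∑ a, line X (F.γ a) * (F.rp S 0).cl (fun z => Gn S.W (F.u z) 0) n := by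
  obtain ⟨h1, h2⟩ := Rp.sb_pi (Q := fun a => (F.rp S 0).shift (-F.γ a))
    (T := fun _ z => (Gn S.W (F.u z) 0 : Submodule ℂ V)) (r := fun _ => n)
    fun a => ((hF.sb_Gn hn).shift _).1
  refine ⟨h1, h2.trans (Finset.sum_congr rfl fun a _ => ?_)⟩
  rw [((hF.sb_Gn hn).shift _).2, neg_neg]

theorem pK_dual_Ecl (hX : X.Cn) (h : S.All) (F : Fam K X V) (ρ : ℕ)
    (E : K0 (X.prod (S.spc h))) : pK X (S.spc h) (dualK _ (F.Ecl h ρ) * E) =
      ∑ a, line X (F.γ a) *
        pK X (S.spc h) (E * pullK (Mor.snd _ _) (line (S.spc h) fun _ => (F.m : ℤ))) -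
      pK X (S.spc h) (dualK _ (F.Kcl h ρ) * E) := by
  rw [Ecl, map_sub, map_sum, sub_mul, Finset.sum_mul, map_sub, map_sum]
  congr 1
  refine Finset.sum_congr rfl fun a _ => ?_
  have e : F.deg h a = (Mor.fst X (S.spc h)).ρ (F.γ a) +
      (Mor.snd X (S.spc h)).ρ fun _ => (F.m : ℤ) := funext fun j => by
    cases j
    · exact (add_zero _).symm
    · exact (zero_add _).symm
  rw [← pK_mul hX (SA.isProj h), dualK_line, neg_neg, e, line_add, pullK_line, pullK_line,
    mul_assoc, mul_comm E]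

end Fam

namespace Ctx

variable (c : Ctx S) (r : ℕ)

theorem tt_β (v : (Fin r → c.B) → ℂ) (s : (Fin r → c.B) × Fin r) :
    c.β r v s = ∑ i, v (Function.update s.1 s.2 i) • c.e i := by
  simp only [β, LinearMap.pi_apply, LinearMap.sum_apply, LinearMap.comp_apply,
    LinearMap.proj_apply, LinearMap.toSpanSingleton_apply]

theorem tt_mp_β : Rp.Mp (c.cR r) ((c.famV r).tR S) fun _ => c.β r :=
  Rp.mp_cst (P := c.cR r) (P' := (c.famV r).tR S) (c.β r)
    (fun (v : (Fin r → c.B) → ℂ) _ (s : (Fin r → c.B) × Fin r) _ => by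
      change c.β r v s ∈ Gn S.W c.e 0
      rw [tt_β, Gn_zero]
      exact Submodule.sum_mem _ fun i _ =>
        Submodule.smul_mem _ _ (Submodule.subset_span ⟨i, rfl⟩))
    fun g v _ => map_smul (c.β r) (chr (-c.dp r) g) v

theorem tt_sb_Alt : (c.cR r).Sb (fun _ => c.Alt r) (Module.finrank ℂ (c.Alt r)) := by
  have h := (Rp.Sb.iso (P := Rp.sc (c.Xr r) (c.Alt r) (-c.dp r)) (P' := c.cR r) (Rp.sb_top _)
    (Φ := fun _ => LinearMap.id) (V' := fun _ => c.Alt r)
    (Rp.mp_cst (P := Rp.sc (c.Xr r) (c.Alt r) (-c.dp r)) (P' := c.cR r) LinearMap.id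
      (fun _ _ => trivial) fun _ _ _ => rfl) (fun _ _ _ h => h)
    fun _ => (Submodule.map_id _).symm).1
  exact h

theorem tt_mp_pz : Rp.Mp (Rp.sc (c.Xr r) (⊤ : Submodule ℂ ℂ) 0) (c.cR r) fun z =>
    LinearMap.toSpanSingleton ℂ ((Fin r → c.B) → ℂ) (c.pz z) := by
  classical
  refine ⟨fun (u : ℂ) _ => ?_, fun z g (u : ℂ) _ => funext fun J => ?_⟩
  · have e : (fun z => u • c.pz z : Fn (c.Xr r) ((Fin r → c.B) → ℂ)) =
        fun z => ∑ J, z.1 (c.pl r J) • (Pi.single J u : (Fin r → c.B) → ℂ) := funext fun z => by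
      rw [← Finset.univ_sum_single (u • c.pz z)]
      refine Finset.sum_congr rfl fun J _ => ?_
      rw [← Pi.single_smul, Pi.smul_apply, smul_eq_mul, smul_eq_mul, mul_comm]
      rfl
    exact e ▸ poly_sum (P := c.cR r) _ fun J => Rp.smul_cst_mem (P := c.cR r) _ trivial
  · have e : (Spc.mv z g).1 (c.pl r J) = chr (c.dp r) g * z.1 (c.pl r J) :=
      (congrArg z.1 (Spc.mem_wt.1 (c.pl_wt r J) g)).trans (map_smul z.1 _ _)
    change (chr 0 g * u) * z.1 (c.pl r J) = chr (-c.dp r) g * (u * (Spc.mv z g).1 (c.pl r J))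
    rw [e, chr_zero, one_mul, mul_left_comm u, ← mul_assoc, chr_neg_mul, one_mul]

end Ctx

end Vale.Agent.P297Z.Sf
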