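import Vale.Agent.P297Z.Hb.Tow0
import Vale.Agent.P297Z.Hb.TtB

/-! P297: the class of the tangent bundle of the cone, from the classes of its two pieces. -/

set_option linter.all false

noncomputable section

namespace Vale.Agent.P297Z.Sf.Ctx

open Fb Vale.Agent.P297Z.Hb Pw

variable {K : Type} [Field K] [Algebra ℂ K] {S : Surf K} {c : Ctx S} {h : S.All} {r₀ r : ℕ}

theorem Geom.cl_TT_of (G : c.Geom h r₀) (H : c.Ok r₀) (hr : r₀ ≤ r) (hs : r ≤ c.s)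
    (hline : ∀ (z : (c.Xr r).Pt), ∀ v ∈ c.Alt r,
      (∀ s, c.β r v s ∈ Gn S.W ((c.famV r).u z) 0) → ∃ t : ℂ, v = t • c.pz z)
    (hTT : ∀ z : (c.Xr r).Pt, c.TT r z = c.Alt r ⊓ ((c.famV r).Tq S z).comap (c.β r) ∧
      Module.finrank ℂ (c.TT r z) = c.v + 2 * (c.s - r) + 1 ∧
      Module.finrank ℂ ((c.famV r).Tq S z) =
        c.v + Fintype.card (c.famV r).ι * r + 2 * (c.s - r) ∧
      (c.famV r).Tq S z = (c.TT r z).map (c.β r) ⊔
        Submodule.pi Set.univ fun _ => Gn S.W ((c.famV r).u z) 0)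
    (hU : ((c.famV r).rp S 0).cl (fun z => Gn S.W ((c.famV r).u z) 0) r =
      pK (c.Xr r) (S.spc h) (c.Ecl h r * pullK (Mor.snd _ _) (line (S.spc h) fun _ => (c.m : ℤ))))
    (hTq : ((c.famV r).tR S).Sb ((c.famV r).Tq S)
      (c.v + Fintype.card (c.famV r).ι * r + 2 * (c.s - r)) ∧
    ((c.famV r).tR S).cl ((c.famV r).Tq S)
      (c.v + Fintype.card (c.famV r).ι * r + 2 * (c.s - r)) =
      (c.v + 1 : ℕ) • pullK (c.pr r) (OP c.v 1) +
        pK (c.Xr r) (S.spc h) (dualK _ ((c.famV r).Kcl h 1) * c.Ecl h r)) :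
    (c.cR r).Sb (c.TT r) (c.v + 2 * (c.s - r) + 1) ∧
    (c.cR r).cl (c.TT r) (c.v + 2 * (c.s - r) + 1) =
      (c.v + 1 : ℕ) • pullK (c.pr r) (OP c.v 1) -
        pK (c.Xr r) (S.spc h) (dualK _ (c.Ecl h r) * c.Ecl h r) + 1 := by
  have hc := G.clo r hr hs
  have hV := G.var r hr hs
  haveI := hV.ne
  haveI := hV.dom
  have hn : ∀ z, Module.finrank ℂ (Gn S.W ((c.famV r).u z) 0) = r := fun z => by
    obtain ⟨Z, hZ⟩ := pt_mem hc z
    rw [Gn_zero, span_famV hZ, finrank_EM hZ]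
  obtain ⟨h1, h2⟩ := (H.flatV h hr hc).sb_piU hn
  obtain ⟨h3, h4⟩ := hTq
  obtain ⟨h5, h6⟩ := Rp.tt_abs (c.tt_mp_β r) (c.tt_sb_Alt r) h3 h1 (fun z => (hTT z).1)
    (fun z => (hTT z).2.1) (fun z => (hTT z).2.2.2) (c.tt_mp_pz r) pz_ne (pz_alt hc)
    (fun z s _ => by
      change c.β r (c.pz z) s ∈ Gn S.W ((c.famV r).u z) 0
      rw [Gn_zero, ← famV_u]
      exact Submodule.subset_span ⟨s, rfl⟩)
    fun z v hv h0 => hline z v hv fun s => h0 s trivial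
  refine ⟨h5, h6.trans ?_⟩
  have h7 := Fam.pK_dual_Ecl ⟨Spc.conn_of_domain, hV.ne⟩ h (c.famV r) 1 (c.Ecl h r)
  rw [h4, h2, hU]
  refine congrArg (· + 1) ?_
  rw [add_sub_assoc, sub_eq_add_neg (_ • _)]
  exact congrArg (_ + ·) ((neg_sub _ _).symm.trans (congrArg Neg.neg h7.symm))

end Vale.Agent.P297Z.Sf.Ctx
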