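import Vale.Agent.P297Z.Hb.Tan
import Vale.Agent.P297Z.Hb.Tcl
import Vale.Agent.P297Z.Hb.TtC

/-! P297: the class of the tangent bundle of the cone. -/

set_option linter.all false

noncomputable section

namespace Vale.Agent.P297Z.Sf.Ctx

open Fb Vale.Agent.P297Z.Hb Pw

variable {K : Type} [Field K] [Algebra ℂ K] {S : Surf K} {c : Ctx S} {h : S.All} {r₀ r : ℕ}

theorem Geom.cl_TT (G : c.Geom h r₀) (H : c.Ok r₀) (hr : r₀ ≤ r) (hs : r ≤ c.s) :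
    (c.cR r).Sb (c.TT r) (c.v + 2 * (c.s - r) + 1) ∧
    (c.cR r).cl (c.TT r) (c.v + 2 * (c.s - r) + 1) =
      (c.v + 1 : ℕ) • pullK (c.pr r) (OP c.v 1) -
        pK (c.Xr r) (S.spc h) (dualK _ (c.Ecl h r) * c.Ecl h r) + 1 :=
  G.cl_TT_of H hr hs (fun z _ hv h0 => alt_line (G.clo r hr hs) (H.pos.trans_le hr) z hv h0)
    (G.TT_eq H hr hs) (G.cl_U H hr hs) (G.cl_Tq H hr hs)

end Vale.Agent.P297Z.Sf.Ctx
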