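import Vale.Agent.P297Z.Hb.Ob
import Vale.Agent.P297Z.Hb.Tt
import Vale.Agent.P297Z.Hb.Deg
import Vale.Agent.P297Z.Hb.Pist
import Vale.Agent.P297Z.Hb.Geom
import Vale.Agent.P297Z.Cp.MainB

/-! P297: the towers. -/

set_option linter.all false

noncomputable section

namespace Vale.Agent.P297Z.Sf

open Fb Vale.Agent.P297Z.Hb Pw

variable {K : Type} [Field K] [Algebra ℂ K] {S : Surf K} {c : Ctx S} {h : S.All} {r₀ r : ℕ}

theorem deg_var {X Y : Spc} {d : ℕ} (f : Mor X Y) (hX : X.IsVar d) (hY : Y.IsVar d)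
    (hf : f.SurjO) : ∃ k : ℕ, 0 < k ∧ fstar f (oG X) - k • oG Y ∈ Fd Y d ∧ (f.InjO → k = 1) :=
  deg X Y f d hX.proj hY.proj ⟨hY.dom, hY.ne⟩ hX.dim hY.dim hf

namespace Ctx

variable (c h) in
/-- one step of a tower -/
structure SD (P Q : Prop) (d a b : ℕ) where
  N : Spc
  varN : P → N.IsVar d
  π : Mor N ((c.Xr a).prod (S.spc h))
  ρ : Mor N (c.Xr b)
  l : K0 N
  lcls : P → IsCls l 1
  pρ : P → ((c.pr b).comp ρ).Homot ((c.pr a).comp ((Mor.fst _ _).comp π))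
  step : P → pullK (ρ.map (Mor.id _)) (c.Ecl h b) =
    pullK (((Mor.fst _ _).comp π).map (Mor.id _)) (c.Ecl h a) -
      pullK (Mor.fst _ _) l * pullK (((Mor.snd _ _).comp π).map (Mor.id _)) (delta (S.spc h))
  k : ℕ
  kpos : P → 0 < k
  k1 : Q → k = 1
  ρstar : P → fstar ρ (oG _) - k • oG _ ∈ Fd (c.Xr b) d
  πstar : P → ∀ i, fstar π (kact _ ((l - 1) ^ i) (oG _)) -
    kact _ (cc i (-c.Ecl h a)) (oG _) ∈ Fd _ (d - i)

theorem Geom.sd (G : c.Geom h r₀) (H : c.Ok r₀) {n₀ : ℕ} (hn : n₀ + r₀ = c.s) (n : ℕ) :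
    Nonempty (c.SD h (n < n₀) (n = 0) (c.v + 2 * n + 2) (c.s - n) (c.s - (n + 1))) := by
  by_cases hl : n < n₀
  · obtain ⟨r, hr⟩ : ∃ r, c.s = r + 1 + n := ⟨c.s - 1 - n, by omega⟩
    have h1 : r₀ ≤ r := by omega
    have h2 : r < c.s := by omega
    rw [show c.s - n = r + 1 by omega, show c.s - (n + 1) = r by omega,
      show c.v + 2 * n + 2 = c.v + 2 * (c.s - r) by omega]
    obtain ⟨k, k1, k2, k3⟩ := deg_var _ (G.varN r h1 h2) (G.var r h1 h2.le)
      (G.surj r h1 h2 (G.maps r h1 h2))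
    exact ⟨⟨_, fun _ => G.varN r h1 h2, c.πN h r, _, c.lN h r, fun _ => bCls_line _,
      fun _ z => Eq.mp (congrArg (Spc.Orb _ _) ((congrArg (Mor.fst _ _).onPt
        (inc_ρN (G.maps r h1 h2) z)).trans (fst_ρ0 _))) (Spc.Orb.refl _),
      fun _ => G.step H h1 h2, k, fun _ => k1, fun e => k3 (G.inj0 r h1 (by omega) _),
      fun _ => k2, fun _ => G.πstar H h1 h2⟩⟩
  · exact ⟨⟨_, (hl · |>.elim), Mor.fst _ _, Mor.snd _ _, 1, (hl · |>.elim), (hl · |>.elim),
      (hl · |>.elim), 1, (hl · |>.elim), fun _ => rfl, (hl · |>.elim), (hl · |>.elim)⟩⟩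

/-- the tower -/
def Geom.tower (G : c.Geom h r₀) (H : c.Ok r₀) (hB : c.Big h r₀) {n₀ : ℕ} (hn : n₀ + r₀ = c.s) :
    Tower (S.spc h) (S.lK h c.L) (S.lK h (c.L - c.D)) c.v n₀ (h0 c.D - chi c.D).toNat where
  X n := c.Xr (c.s - n)
  var n hl := by
    have := G.var (c.s - n) (by omega) (by omega)
    rwa [show c.s - (c.s - n) = n by omega] at this
  E n := c.Ecl h (c.s - n)
  rkE n hl := by
    haveI := (G.var (c.s - n) (by omega) (by omega)).ne
    exact (H.flatV h (by omega) (G.clo (c.s - n) (by omega) (by omega))).rk_Ecl h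
  p n := c.pr (c.s - n)
  p0 := by
    have := G.var _ H.le le_rfl
    rw [Nat.sub_self, mul_zero, add_zero] at this
    obtain ⟨k, -, k2, k3⟩ := deg_var _ this (isVar_PP _) G.psurj
    rwa [k3 G.pinj, one_smul] at k2
  E0 := G.E0 H
  ob n hl := by
    have := G.ob H hB (r := c.s - n) (by omega) (by omega)
    rwa [show c.s - (c.s - n) = n by omega] at this
  N n := (G.sd H hn n).some.N
  varN n := (G.sd H hn n).some.varN
  π n := (G.sd H hn n).some.π
  ρ n := (G.sd H hn n).some.ρ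
  l n := (G.sd H hn n).some.l
  lcls n := (G.sd H hn n).some.lcls
  pρ n := (G.sd H hn n).some.pρ
  step n := (G.sd H hn n).some.step
  c n := (G.sd H hn n).some.k
  cpos n := (G.sd H hn n).some.kpos
  c0 := (G.sd H hn 0).some.k1 rfl
  ρstar n := (G.sd H hn n).some.ρstar
  πstar n := (G.sd H hn n).some.πstar

end Ctx

theorem tower : TOWER := fun K _ _ S h c n r H hB hn => by
  have G := H.geom h
  have hs := H.le
  have e : c.s - r = n := by omega
  have e' : c.s - n = r := by omega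
  have h1 := G.cl_TT H le_rfl hs
  have h2 := G.var r le_rfl hs
  rw [e] at h1 h2
  refine ⟨⟨G.clo r le_rfl hs, h2, H.flatV h le_rfl (G.clo r le_rfl hs), G.inj H le_rfl hs,
    G.unr H le_rfl hs, fun z => (G.TT_eq H le_rfl hs z).1, h1.1, h1.2⟩,
    G.tower H hB hn, congrArg c.Xr e', ?_, ?_⟩
  · change HEq (c.Ecl h (c.s - n)) _
    rw [e']
  · change HEq (c.pr (c.s - n)) _
    rw [e']

end Vale.Agent.P297Z.Sf
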