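import Vale.Agent.P297Z.Hb.DegAlg
import Vale.Agent.P297Z.K.Loc

/-! P297: the degree lemma, the generic rank of a module on an irreducible space. -/

set_option linter.all false

noncomputable section

namespace Vale.Agent.P297Z.Hb.Dg

variable {Y : Spc}

theorem cls_inj {A B : GMod Y} {f : A.M →ₗ[Y.R] B.M} (hf : A.IsHom B f)
    (hi : Function.Injective f) : cls B = cls A + cls (B.quo _ hf.stab_range) := by
  have h : GMod.SES A B (B.quo _ hf.stab_range) f (LinearMap.range f).mkQ :=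
    ⟨hf, fun _ _ => rfl, fun a => (Submodule.Quotient.mk_eq_zero _).2 ⟨a, rfl⟩, fun z =>
      ⟨InjAt.of_inj hi, ExAt.of_ker fun b hb => (Submodule.Quotient.mk_eq_zero _).1 hb,
        SurjAt.of_surj (Submodule.mkQ_surjective _)⟩⟩
  have h1 : (QuotientAddGroup.mk (FreeAbelianGroup.of B - FreeAbelianGroup.of A -
      FreeAbelianGroup.of (B.quo _ hf.stab_range)) : FreeAbelianGroup (GMod Y) ⧸ GRel Y) = 0 :=
    (QuotientAddGroup.eq_zero_iff _).2 (AddSubgroup.subset_closure ⟨_, _, _, _, _, h, rfl⟩)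
  have h2 : cls B - cls A - cls (B.quo _ hf.stab_range) = 0 := h1
  rw [sub_sub, sub_eq_zero] at h2
  exact h2

theorem G_ind {P : G Y → Prop} (h0 : P 0) (h1 : ∀ M, P (cls M)) (h2 : ∀ x, P x → P (-x))
    (h3 : ∀ x y, P x → P y → P (x + y)) (x : G Y) : P x := by
  obtain ⟨x, rfl⟩ := QuotientAddGroup.mk_surjective x
  induction x using FreeAbelianGroup.induction_on with
  | zero => exact h0
  | of M => exact h1 M
  | neg M h => exact h2 _ h
  | add x y hx hy => exact h3 _ _ hx hy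

theorem isHom_gen (M : GMod Y) {γ : Y.J → ℤ} {m : M.M} (hm : m ∈ M.wt (-γ)) :
    ((GMod.one Y).shift γ).IsHom M (LinearMap.toSpanSingleton Y.R M.M m) := fun g r => by
  change (chr (-γ) g • Y.act g r) • m = M.act g ((show Y.R from r) • m)
  rw [M.act_smul, M.mem_wt.1 hm g, smul_assoc, smul_comm]

theorem mem_shift {M : GMod Y} {γ δ : Y.J → ℤ} {m : M.M} (hm : m ∈ M.wt (δ + γ)) :
    (show (M.shift γ).M from m) ∈ (M.shift γ).wt δ := fun g => by
  change chr (-γ) g • M.act g m = chr δ g • m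
  rw [M.mem_wt.1 hm g, smul_smul, ← chr_add, add_comm δ, neg_add_cancel_left]

variable [IsDomain Y.R] {n : ℕ} (hn : ringKrullDim Y.R = n)
include hn

theorem cls_tors (M : GMod Y) (h : Module.IsTorsion Y.R M.M) : cls M ∈ Fl Y n := by
  refine AddSubgroup.subset_closure ⟨M, (Dim.dim_quot_lt_iff' (k := ℂ) _ _).2 fun p hp o => ?_, rfl⟩
  obtain ⟨b, h1, h2⟩ := Submodule.annihilator_top_inter_nonZeroDivisors h
  rw [Submodule.annihilator_top] at h1
  have h3 : (⊥ : Ideal Y.R) < p :=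
    bot_lt_iff_ne_bot.2 fun e => nonZeroDivisors.ne_zero h2 ((Ideal.mem_bot).1 (e ▸ o h1))
  have h4 := Dim.td_lt (k := ℂ) h3
  rw [Dim.td_quot_bot] at h4
  have h5 := (Dim.dim_eq_td (k := ℂ) (R := Y.R)).symm.trans hn
  have h6 : Dim.td ℂ Y.R = n := by exact_mod_cast h5
  exact h6 ▸ h4

theorem cls_step {γ δ : Y.J → ℤ} {s : Y.R} (hs : s ∈ Y.wt γ) (h0 : s ≠ 0) :
    cls ((GMod.one Y).shift (δ + γ)) - cls ((GMod.one Y).shift δ) ∈ Fl Y n := by
  have h1 : (show ((GMod.one Y).shift (δ + γ)).M from s) ∈ ((GMod.one Y).shift (δ + γ)).wt (-δ) :=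
    mem_shift (by rwa [neg_add_cancel_left])
  have h2 := cls_inj (isHom_gen _ h1) fun (a b : Y.R) h =>
    mul_right_cancel₀ (M₀ := Y.R) h0 h
  rw [h2, add_sub_cancel_left]
  refine cls_tors hn _ fun x => ⟨⟨s, mem_nonZeroDivisors_of_ne_zero h0⟩, ?_⟩
  obtain ⟨r, rfl⟩ := Submodule.mkQ_surjective _ x
  exact (Submodule.Quotient.mk_eq_zero _).2 ⟨r, mul_comm (show Y.R from r) s⟩

theorem cls_line (hs : ∀ j, ∃ s ∈ Y.wt (Pi.single j 1), s ≠ 0) (γ : Y.J → ℤ) :
    cls ((GMod.one Y).shift γ) - oG Y ∈ Fl Y n := by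
  let S : AddSubgroup (Y.J → ℤ) :=
    { carrier := {γ | ∀ δ, cls ((GMod.one Y).shift (δ + γ)) - cls ((GMod.one Y).shift δ) ∈ Fl Y n}
      zero_mem' := fun δ => by rw [add_zero, sub_self]; exact zero_mem _
      add_mem' := fun {a b} ha hb δ => by
        have := add_mem (hb (δ + a)) (ha δ)
        rwa [sub_add_sub_cancel, add_assoc] at this
      neg_mem' := fun {a} ha δ => by
        have := neg_mem (ha (δ + -a))
        rwa [neg_sub, neg_add_cancel_right] at this }
  have h1 : γ ∈ S := by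
    rw [← Finset.univ_sum_single γ]
    refine sum_mem fun j _ => ?_
    obtain ⟨s, h2, h3⟩ := hs j
    have h4 : Pi.single j 1 ∈ S := fun δ => cls_step hn h2 h3
    have h5 := zsmul_mem h4 (γ j)
    rwa [← Pi.single_smul, smul_eq_mul, mul_one] at h5
  have h2 := h1 0
  have h3 : (1 : Y.R) ∈ (GMod.one Y).wt (-0) := by
    rw [neg_zero]
    exact Y.one_mem
  have h4 := cls_inj (isHom_gen (GMod.one Y) h3) fun (a b : Y.R) h =>
    mul_right_cancel₀ (M₀ := Y.R) one_ne_zero h
  have h5 := cls_tors hn ((GMod.one Y).quo _ (isHom_gen (GMod.one Y) h3).stab_range) fun x => by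
    obtain ⟨r, rfl⟩ := Submodule.mkQ_surjective _ x
    exact ⟨1, (Submodule.Quotient.mk_eq_zero _).2 ⟨r, mul_comm (show Y.R from r) 1⟩⟩
  rw [zero_add] at h2
  have h6 := sub_mem h2 h5
  rwa [sub_sub, ← h4] at h6

/-- the class of a module is its rank times the class of the space, up to lower terms -/
theorem cls_rank (hs : ∀ j, ∃ s ∈ Y.wt (Pi.single j 1), s ≠ 0) (M : GMod Y) :
    cls M - Module.finrank Y.R M.M • oG Y ∈ Fl Y n := by
  obtain ⟨r, hr⟩ : ∃ r, Module.finrank Y.R M.M = r := ⟨_, rfl⟩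
  rw [hr]
  induction r generalizing M with
  | zero =>
    rw [zero_smul, sub_zero]
    exact cls_tors hn M (Module.finrank_eq_zero_iff_isTorsion.1 hr)
  | succ r ih =>
    obtain ⟨γ, m, hm, h0⟩ : ∃ γ, ∃ m ∈ M.wt γ, m ∉ Submodule.torsion Y.R M.M := by
      by_contra o
      push Not at o
      have h1 : Module.IsTorsion Y.R M.M := fun x =>
        M.induction (P := fun x => x ∈ Submodule.torsion Y.R M.M) (zero_mem _) o
          (fun _ _ => add_mem) x
      rw [Module.finrank_eq_zero_iff_isTorsion.2 h1] at hr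
      omega
    have hi : Function.Injective (LinearMap.toSpanSingleton Y.R M.M m) :=
      (injective_iff_map_eq_zero _).2 fun a ha => by
        by_contra o
        exact h0 ⟨⟨a, mem_nonZeroDivisors_of_ne_zero o⟩, ha⟩
    rw [← neg_neg γ] at hm
    have h1 := (LinearMap.range (LinearMap.toSpanSingleton Y.R M.M m)).finrank_quotient_add_finrank
    rw [LinearMap.finrank_range_of_inj hi, Module.finrank_self, hr] at h1
    have h2 := ih (M.quo _ (isHom_gen M hm).stab_range) (Nat.succ_injective h1)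
    have h3 := add_mem (cls_line hn hs (-γ)) h2
    rwa [cls_inj (isHom_gen M hm) hi, succ_nsmul', ← sub_add_sub_comm]

theorem shift_sub (hs : ∀ j, ∃ s ∈ Y.wt (Pi.single j 1), s ≠ 0) (M : GMod Y) (γ : Y.J → ℤ) :
    cls (M.shift γ) - cls M ∈ Fl Y n := by
  have h := sub_mem (cls_rank hn hs (M.shift γ)) (cls_rank hn hs M)
  rwa [show Module.finrank Y.R (M.shift γ).M = Module.finrank Y.R M.M from rfl,
    sub_sub_sub_cancel_right] at h

end Vale.Agent.P297Z.Hb.Dg
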