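import Vale.Agent.P297Z.Hb.DegGr
import Vale.Agent.P297Z.Hb.DegRank
import Vale.Agent.P297Z.K.Part
import Vale.Agent.P297Z.K.AK2

/-! P297: the degree lemma and closed images for maps with a projective structure. -/

set_option linter.all false

open scoped nonZeroDivisors

noncomputable section

namespace Vale.Agent.P297Z.Hb.Dg

variable {X Y : Spc}

theorem red (X : Spc) : IsReduced X.R :=
  ⟨fun r ⟨n, hn⟩ => X.sep r fun z _ =>
    eq_zero_of_pow_eq_zero (n := n) (by rw [← map_pow, hn, map_zero])⟩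

/-- every component has a point -/
theorem pt_of_min (X : Spc) {p : Ideal X.R} (hp : p ∈ minimalPrimes X.R) :
    ∃ z : X.Pt, ∀ a ∈ p, z.1 a = 0 := by
  classical
  have := red X
  have hf := minimalPrimes.finite_of_isNoetherianRing X.R
  have h1 : ∀ q ∈ hf.toFinset.erase p, ∃ a ∈ q, a ∉ p := fun q hq => by
    by_contra o
    push Not at o
    have h2 := hf.mem_toFinset.1 (Finset.mem_of_mem_erase hq)
    exact Finset.ne_of_mem_erase hq (le_antisymm o (hp.2 h2.1 o))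
  choose! c h2 h3 using h1
  have h4 : ∏ q ∈ hf.toFinset.erase p, c q ≠ 0 := fun o => by
    have := hp.1.1
    obtain ⟨q, h5, h6⟩ := Ideal.IsPrime.prod_mem_iff.1 (o ▸ p.zero_mem)
    exact h3 q h5 h6
  by_contra o
  refine h4 (X.sep _ fun z hz => by_contra fun h5 => o ⟨⟨z, hz⟩, fun a ha => ?_⟩)
  have h6 : (∏ q ∈ hf.toFinset.erase p, c q) * a = 0 := IsNilpotent.eq_zero (by
    rw [← mem_nilradical, nilradical, ← Ideal.sInf_minimalPrimes, Ideal.mem_sInf]
    intro q hq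
    by_cases e : q = p
    · rw [e]
      exact p.mul_mem_left _ ha
    · have h7 := Finset.mem_erase.2 ⟨e, hf.mem_toFinset.2 hq⟩
      exact Ideal.mul_mem_right _ _ (Ideal.mem_of_dvd _ (Finset.dvd_prod_of_mem _ h7) (h2 q h7)))
  have h7 := congrArg z h6
  rw [map_mul, map_zero] at h7
  exact (mul_eq_zero.1 h7).resolve_left h5

variable {g : Mor X Y} (P : Prj g)

theorem exists_w (e : P.E) : ∃ w : X.R, w ∈ X.R⁰ ∧
    w ∈ wt (P.actE (GMod.one X)) (Pi.single e 1) ∧
    ∀ z : X.R →ₐ[ℂ] ℂ, z w ≠ 0 → ∃ a ∈ P.y e, z a ≠ 0 := by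
  have := red X
  obtain ⟨w, h1, h2⟩ := exists_nzd (Submodule.span ℂ (P.y e : Set X.R)) fun p hp => by
    obtain ⟨z, hz⟩ := pt_of_min X hp
    obtain ⟨a, h1, h2⟩ := ((P.pts z.1).1 z.2).2 e
    exact ⟨a, Submodule.subset_span h1, fun o => h2 (hz a o)⟩
  refine ⟨w, h2, (Submodule.span_le (p := wt (P.actE (GMod.one X)) (Pi.single e 1))).2
    (fun a ha => ?_) h1, fun z hz => by_contra fun o => hz ?_⟩
  · obtain ⟨γ, h⟩ := P.y_wt e a ha
    have h3 := P.mem_wtE (M := GMod.one X) h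
    rwa [P.π_add] at h3
  · push Not at o
    exact (Submodule.span_le (p := LinearMap.ker z.toLinearMap)).2 o h1

/-- the graded algebra of a projective structure -/
def gd : Gd Y.R g.Src P.E where
  V := fun k => P.partS k (GMod.one X)
  π := fun k => P.cmpE (GMod.one X) k
  π_mem := fun k a => P.cmpE_mem (GMod.one X) k a
  π_self := fun _ _ h => P.cmpE_of_mem h
  π_ne := fun _ _ h _ ha => P.cmpE_of_ne h ha
  mul := fun k l a ha b hb => P.mem_partS.2
    (mul_mem_wt (fun h => X.act (tor P.π h)) (P.mem_partS.1 ha) (P.mem_partS.1 hb))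
  one := P.mem_partS.2 fun h => (map_one (X.act (tor P.π h))).trans (by
    rw [chr_zero, one_smul]; rfl)
  fg := fun k => P.partS_fg k _
  w := fun e => (exists_w P e).choose
  w_mem := fun e => P.mem_partS.2 (exists_w P e).choose_spec.2.1
  w_nzd := fun e => (exists_w P e).choose_spec.1

theorem gd_w (e : P.E) (z : X.R →ₐ[ℂ] ℂ) (h : z ((gd P).w e) ≠ 0) : ∃ a ∈ P.y e, z a ≠ 0 :=
  (exists_w P e).choose_spec.2.2 z h

include P in
/-- the image is closed -/
theorem pcl (y : Y.Pt) (hy : ∀ b, g.φ b = 0 → y.1 b = 0) : ∃ z : X.Pt, g.onPt z = y := by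
  by_contra o
  obtain ⟨n, k₀, h⟩ := P.zero_lemma (M := GMod.one X) ⊤ ((RingHom.ker y.1).map g.φ)
    (fun _ _ _ => trivial) 1 fun x _ hx b _ => by
      by_contra o'
      push Not at o'
      have e : y.1 = x.comp g.φ := Dim.pt_ext fun r hr => by_contra fun h0 =>
        o' (g.φ r) h0 (Ideal.mul_mem_right (α := X.R) b _ (Ideal.mem_map_of_mem _ hr))
      obtain ⟨a, h1, h2⟩ := y.2
      exact o ⟨⟨x, (P.pts x).2 ⟨⟨a, h1, by rwa [e] at h2⟩, hx⟩⟩, Subtype.ext e.symm⟩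
  obtain ⟨r, h1, h2⟩ := (gd P).nak (k := k₀ ⊔ 0) le_sup_right (RingHom.ker y.1) fun a ha => by
    have h3 := h _ le_sup_left a trivial (P.mem_partS.1 ha)
    rw [map_one, one_pow] at h3
    exact (congrArg (· ∈ (RingHom.ker y.1).map g.φ) (one_mul (show X.R from a))).mp h3
  rw [RingHom.mem_ker, map_sub, hy r h2, map_one, zero_sub, neg_eq_zero] at h1
  exact one_ne_zero h1

theorem card_J : Fintype.card X.J = Fintype.card Y.J + Fintype.card P.E := by
  let e : (X.J → ℤ) ≃+ (Y.J → ℤ) × (P.E → ℤ) :=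
    { toFun := fun δ => (P.ret δ, P.π δ)
      invFun := fun a => g.ρ a.1 + P.σ a.2
      left_inv := P.tot
      right_inv := fun a => Prod.ext (P.ret_add _ _) (P.π_add _ _)
      map_add' := fun a b => Prod.ext (map_add _ a b) (map_add _ a b) }
  simpa using e.toIntLinearEquiv.finrank_eq

theorem exists_ne (hY : Y.IsProj) (y : Y.Pt) (j : Y.J) :
    ∃ s ∈ Y.wt (Pi.single j 1), y.1 s ≠ 0 := by
  obtain ⟨s, h1, -, h2⟩ := hY
  obtain ⟨a, h3, h4⟩ := (h2 y.1).1 y.2 j
  exact ⟨a, h1 j a h3, h4⟩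

/-- two points of a fibre in the same orbit differ by the torus of the new directions -/
theorem fib_rel (hY : Y.IsProj) {z z' : X.Pt} (h1 : g.onPt z = g.onPt z') (h2 : X.Orb z z')
    {k : P.E → ℤ} {a v : X.R} (ha : a ∈ wt (P.actE (GMod.one X)) k)
    (hv : v ∈ wt (P.actE (GMod.one X)) k) : z.1 a * z'.1 v = z'.1 a * z.1 v := by
  obtain ⟨t, ht⟩ := h2
  have h3 : tor g.ρ t = 1 := funext fun j => Units.ext (by
    obtain ⟨s, h4, h5⟩ := exists_ne hY (g.onPt z) j
    have h6 : z.1 (g.φ s) = z'.1 (g.φ s) := congrArg (fun y : Y.Pt => y.1 s) h1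
    rw [ht, AlgHom.comp_apply, Spc.mem_wt.1 (g.wt_map _ s h4), map_smul, smul_eq_mul, ← chr_tor,
      chr_single] at h6
    exact mul_right_cancel₀ h5 (h6.symm.trans (one_mul _).symm))
  have h4 : t = tor P.π (tor P.σ t) := chr_ext fun δ => by
    rw [chr_tor, chr_tor]
    conv_lhs => rw [← P.tot δ, chr_add, ← chr_tor g.ρ, h3, chr_one, one_mul]
  have h5 : ∀ b : X.R, b ∈ wt (P.actE (GMod.one X)) k → z'.1 b = chr k (tor P.σ t) * z.1 b := by
    intro b hb
    have h6 : X.act (tor P.π (tor P.σ t)) b = chr k (tor P.σ t) • b := hb _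
    rw [ht, AlgHom.comp_apply, h4, h6, map_smul, smul_eq_mul, ← h4]
  rw [h5 a ha, h5 v hv]
  ring

/-- the degree lemma for a map with a projective structure -/
theorem pdeg (hY : Y.IsProj) [IsDomain Y.R] (y : Y.Pt) {n : ℕ} (hn : ringKrullDim Y.R = n)
    (hi : Function.Injective g.φ)
    (hd : ∀ p ∈ minimalPrimes X.R, Dim.td ℂ (X.R ⧸ p) ≤ n + Fintype.card P.E) {x : G Y}
    (hx : Extr (fun γ => kact Y (line Y γ)) (fun k => cls (P.part k (GMod.one X))) x) :
    ∃ c : ℕ, 0 < c ∧ x - c • oG Y ∈ Fl Y n ∧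
      ((∀ z z' : X.Pt, g.onPt z = g.onPt z' → X.Orb z z') → c = 1) := by
  have h1 : IsReduced g.Src := red X
  have h2 : Algebra.FiniteType ℂ g.Src := X.ft
  have h3 : Algebra.FiniteType Y.R g.Src := Algebra.FiniteType.of_restrictScalars_finiteType ℂ _ _
  have h4 : Dim.td ℂ Y.R = n := by exact_mod_cast (Dim.dim_eq_td (k := ℂ)).symm.trans hn
  have hs : ∀ j, ∃ s ∈ Y.wt (Pi.single j 1), s ≠ 0 := fun j =>
    (exists_ne hY y j).imp fun s h => ⟨h.1, fun o => h.2 (by rw [o, map_zero])⟩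
  obtain ⟨N, hN⟩ := (gd P).bdd (h4 ▸ hd)
  obtain ⟨k₁, h5, h6⟩ := (gd P).const hN
  have h7 := ((gd P).pos hi).trans_le ((gd P).mono h5)
  refine ⟨_, h7, ?_, fun h => le_antisymm ((gd P).le_one ((gd P).pw_mem' h5) fun a ha => ?_) h7⟩
  · obtain ⟨H, h8, ⟨k₀, h9⟩, rfl⟩ := hx
    refine rec_const (Fl Y n) _ (fun γ x => ?_) h8 (k₀ := k₀ ⊔ k₁) (fun k hk => ?_) 0
    · refine G_ind (P := fun x => kact Y (line Y γ) x - x ∈ Fl Y n) ?_ (fun M => ?_)
        (fun x hx => ?_) (fun x y hx hy => ?_) x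
      · rw [map_zero, sub_zero]
        exact zero_mem _
      · rw [kact_line]
        exact shift_sub hn hs M γ
      · rw [map_neg, neg_sub_neg, ← neg_sub]
        exact neg_mem hx
      · rw [map_add, add_sub_add_comm]
        exact add_mem hx hy
    · rw [h9 k (le_sup_left.trans hk), ← h6 k (le_sup_right.trans hk)]
      exact cls_rank hn hs (P.part k (GMod.one X))
  · obtain ⟨β, h8, h9⟩ := y.2
    have : CharZero Y.R := charZero_of_injective_algebraMap (algebraMap ℂ Y.R).injective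
    have key : ∀ {F : Type} [Field F] (σ : g.Src →+* F), σ ((gd P).pw 1) ≠ 0 →
        ∀ e, σ ((gd P).w e) ≠ 0 := fun σ hσ e o => hσ (by
      rw [Gd.pw, map_prod]
      exact Finset.prod_eq_zero (Finset.mem_univ e) (by rw [Pi.one_apply, pow_one, o]))
    refine dep_of_two ((gd P).pw_nzd 1) (fun σ hσ => ?_)
      (two_of_pts (β := β) (fun o => h9 (by rw [o, map_zero])) fun z z' e1 e2 e3 e4 => ?_)
    · rw [Gd.pw, map_prod]
      exact Finset.prod_ne_zero_iff.2 fun e _ => by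
        rw [map_pow]
        exact pow_ne_zero _ (key (σ : g.Src →+* Om Y.R) hσ e)
    · have e5 := (P.pts z).2 ⟨⟨β, h8, e2⟩, fun e => gd_w P e z (key (z : g.Src →+* ℂ) e3 e)⟩
      have e6 := (P.pts z').2 ⟨⟨β, h8, (e1 β ▸ e2 : z' (algebraMap Y.R g.Src β) ≠ 0)⟩,
        fun e => gd_w P e z' (key (z' : g.Src →+* ℂ) e4 e)⟩
      have e7 : g.onPt ⟨z, e5⟩ = g.onPt ⟨z', e6⟩ := Subtype.ext (AlgHom.ext e1)
      exact fib_rel P hY e7 (h _ _ e7) (P.mem_partS.1 ha) (P.mem_partS.1 ((gd P).pw_mem' h5))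

end Vale.Agent.P297Z.Hb.Dg
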