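import Vale.Agent.P297Z.Hb.Pw1

/-! P297: bundles given by their fibres inside a fixed space. -/

set_option linter.all false

noncomputable section

namespace Vale.Agent.P297Z.Pw.Rp

open Submodule.Quotient renaming mk → mq
open GMod

variable {W X : Spc} {P P' : Rp X} {V V₁ V₂ : X.Pt → Submodule ℂ P.Y}
  {V' : X.Pt → Submodule ℂ P'.Y} {n n₁ n₂ n' k : ℕ} {Φ : X.Pt → P.Y →ₗ[ℂ] P'.Y}

theorem tot_val (z : X.Pt) (v : P.Y) :
    v ∈ P.U ↔ ∃ a : P.tot.M, ((LinearMap.id : P.tot.M →ₗ[X.R] P.tot.M) a).1 z = v :=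
  ⟨fun hv => ⟨⟨cst X v, P.cst_mem hv⟩, rfl⟩, fun ⟨a, ha⟩ => ha ▸ val_mem a.2 z⟩

theorem sb_top (P : Rp X) : P.Sb (fun _ => P.U) (Module.finrank ℂ P.U) :=
  sb_hom (IsHom.id _) tot_val fun _ => rfl

theorem cl_top {ι : Type} [Fintype ι] (b : ι → P.Y) (ε : ι → X.J → ℤ) (h1 : LinearIndependent ℂ b)
    (h2 : Submodule.span ℂ (Set.range b) = P.U) (h3 : ∀ i, b i ∈ wt P.D (ε i)) :
    P.cl (fun _ => P.U) (Module.finrank ℂ P.U) = ∑ i, line X (-ε i) := by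
  have hb : ∀ i, b i ∈ P.U := fun i => h2 ▸ Submodule.subset_span ⟨i, rfl⟩
  let c : ι → P.poly := fun i => ⟨cst X (b i), P.cst_mem (hb i)⟩
  have hc : ∀ (a : ι → X.R) (z : X.Pt), (Fintype.linearCombination X.R c a).1 z =
      ∑ i, z.1 (a i) • b i := fun a z => sum_val _ _ z
  have hr : Module.finrank ℂ P.U = ∑ _ : ι, 1 := by
    rw [← h2, finrank_span_eq_card h1, Finset.sum_const, smul_eq_mul, mul_one, Finset.card_univ]
  have hA := isBun_pi fun i => (isBun_one X).shift (-ε i)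
  refine ((sb_top P).cl_hom (A := GMod.pi fun i => (one X).shift (-ε i))
    (ψ := Fintype.linearCombination X.R c) (fun g (a : ι → X.R) => Subtype.ext (funext fun z => ?_))
    (fun z v => ⟨fun hv => ?_, ?_⟩) (hr ▸ hA)).trans
    (hr ▸ kc_pi fun i => (isBun_one X).shift (-ε i))
  · refine (hc _ z).trans (Eq.trans ?_ (congrArg (P.D g) (hc a (Spc.mv z g))).symm)
    rw [map_sum]
    refine Finset.sum_congr rfl fun i _ => ?_
    show z.1 (chr (- -ε i) g • X.act g (a i)) • b i = P.D g (z.1 (X.act g (a i)) • b i)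
    rw [neg_neg, map_smul, map_smul, h3 i g, smul_smul, smul_eq_mul, mul_comm]
  · obtain ⟨a, rfl⟩ := (Submodule.mem_span_range_iff_exists_fun ℂ).1 (h2.ge hv)
    exact ⟨fun i => algebraMap ℂ X.R (a i), (hc _ z).trans
      (Finset.sum_congr rfl fun i _ => congrArg (· • b i) (z.1.commutes _))⟩
  · rintro ⟨a, rfl⟩
    exact val_mem (Subtype.property _) z

theorem cl_sc {Y : Type} [AddCommGroup Y] [Module ℂ Y] (U : Submodule ℂ Y) [FiniteDimensional ℂ U]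
    (η : X.J → ℤ) : (sc X U η).cl (fun _ => U) (Module.finrank ℂ U) =
      Module.finrank ℂ U • line X (-η) := by
  let b := Module.finBasis ℂ U
  refine (cl_top (P := sc X U η) (fun i => (b i : Y)) (fun _ => η)
    (b.linearIndependent.map' U.subtype U.ker_subtype) ?_ fun _ _ => rfl).trans ?_
  · show Submodule.span ℂ (Set.range (U.subtype ∘ b)) = U
    rw [Set.range_comp, ← Submodule.map_span, b.span_eq, Submodule.map_subtype_top]
  · rw [Finset.sum_const, Finset.card_univ, Fintype.card_fin]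

theorem sb_bot (P : Rp X) : P.Sb (fun _ => ⊥) 0 ∧ P.cl (fun _ => ⊥) 0 = 0 := by
  have h : P.Sb (fun _ => ⊥) 0 := ⟨fun z g v hv => by
      rw [(Submodule.mem_bot ℂ).1 hv, map_zero]
      exact Submodule.zero_mem _,
    fun z v hv => ⟨0, P.poly.zero_mem, fun _ => Submodule.zero_mem _,
      ((Submodule.mem_bot ℂ).1 hv).symm⟩, fun _ => finrank_bot ℂ _⟩
  exact ⟨h, h.cl_eq.trans (kc_zero fun z => freeAt_zero_iff.1 (h.isBun z))⟩

/-- preimages of constant dimension -/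
theorem Sb.comap (h : P.Sb V n) (h' : P'.Sb V' n') (H : Mp P P' Φ)
    (hk : ∀ z, Module.finrank ℂ (V z ⊓ (V' z).comap (Φ z) : Submodule ℂ P.Y) = k) :
    P.Sb (fun z => V z ⊓ (V' z).comap (Φ z)) k := by
  obtain ⟨c, -, hc⟩ := h'.coker
  obtain ⟨F, hF, hF1⟩ : ∃ F : (P.Sec V h.eqv).M →ₗ[X.R] (inc_isHom h'.eqv).cokerM.M,
      IsHom _ _ F ∧ ∀ s, F s = (LinearMap.range (inc h'.eqv)).mkQ (H.lin (inc h.eqv s)) :=
    ⟨_, (isHom_mkQ _ _ (inc_isHom h'.eqv).stab_range).comp (H.isHom.comp (inc_isHom h.eqv)),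
      fun _ => rfl⟩
  have h1 : ∀ (z : X.Pt) s, fibMap z.1 F (mq s) = 0 ↔ Φ z ((inc h.eqv s).1 z) ∈ V' z :=
    fun z s => by
      rw [fibMap_mk, hF1]
      refine (h'.ses_coker.fib_exact z (mq (H.lin (inc h.eqv s)))).trans ⟨?_, fun hv => ?_⟩
      · rintro ⟨x, hx⟩
        obtain ⟨t, rfl⟩ := fib_surj x
        exact (val_of_mk LinearMap.id hx).subst (inc_mem h'.eqv t z)
      · obtain ⟨t, ht⟩ := (h'.val z _).1 hv
        exact ⟨mq t, evF_inj (ψ := LinearMap.id) (fun _ => fib0) ht⟩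
  have h2 : ∀ z : X.Pt, frk z.1 F = n - k := fun z => by
    have h3 : (LinearMap.ker (fibC z.1 F)).map (evF (inc h.eqv) z) = V z ⊓ (V' z).comap (Φ z) := by
      ext v
      constructor
      · rintro ⟨x, hx, rfl⟩
        obtain ⟨s, rfl⟩ := fib_surj x
        exact ⟨inc_mem h.eqv s z, (h1 z s).1 hx⟩
      · rintro ⟨hv, hv'⟩
        obtain ⟨s, rfl⟩ := (h.val z v).1 hv
        exact ⟨mq s, (h1 z s).2 hv', rfl⟩
    have h4 := (fibC z.1 F).finrank_range_add_finrank_ker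
    rw [(Submodule.equivMapOfInjective _ (evF_inj (ψ := inc h.eqv) (h.fib_zero z)) _).finrank_eq,
      h3, hk] at h4
    exact Nat.eq_sub_of_add_eq (h4.trans (h.isBun.fdim z))
  obtain ⟨c', hc'⟩ := exists_add hc h2
  refine ⟨fun z g v hv => ⟨h.eqv z g v hv.1, ?_⟩, fun z v hv => ?_, hk⟩
  · show Φ z (P.D g v) ∈ V' z
    rw [H.eqv z g v (h.alg.le _ hv.1)]
    exact h'.eqv z g _ hv.2
  · obtain ⟨s, rfl⟩ := (h.val z v).1 hv.1
    obtain ⟨x, hx⟩ := (hF.fib_ker_exact hc' h2 z (mq s)).1 ((h1 z s).2 hv.2)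
    obtain ⟨t, rfl⟩ := fib_surj x
    obtain ⟨u, hu⟩ := (Submodule.Quotient.mk_eq_zero _).1 ((hF1 t.1).symm.trans t.2)
    exact ⟨_, (inc h.eqv t.1).2, fun w => ⟨inc_mem h.eqv t.1 w,
      (congrArg (fun s : P'.poly => s.1 w) hu).subst (inc_mem h'.eqv u w)⟩, val_of_mk _ hx⟩

theorem Sb.map_val (h : P.Sb V n) (H : Mp P P' Φ) (hV' : ∀ z, V' z = (V z).map (Φ z)) (z : X.Pt)
    (v : P'.Y) : v ∈ V' z ↔ ∃ s, ((H.lin ∘ₗ inc h.eqv) s).1 z = v := by
  rw [hV']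
  constructor
  · rintro ⟨u, hu, rfl⟩
    obtain ⟨s, rfl⟩ := (h.val z u).1 hu
    exact ⟨s, rfl⟩
  · rintro ⟨s, rfl⟩
    exact ⟨_, inc_mem h.eqv s z, rfl⟩

/-- images of constant dimension -/
theorem Sb.map (h : P.Sb V n) (H : Mp P P' Φ)
    (hk : ∀ z, Module.finrank ℂ ((V z).map (Φ z)) = k) : P'.Sb (fun z => (V z).map (Φ z)) k :=
  sb_hom (H.isHom.comp (inc_isHom h.eqv)) (h.map_val H fun _ => rfl) hk

theorem finrank_add {Y Y' : Type} [AddCommGroup Y] [Module ℂ Y] [AddCommGroup Y'] [Module ℂ Y']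
    (T : Submodule ℂ Y) [FiniteDimensional ℂ T] (φ : Y →ₗ[ℂ] Y') :
    Module.finrank ℂ (T ⊓ LinearMap.ker φ : Submodule ℂ Y) + Module.finrank ℂ (T.map φ) =
      Module.finrank ℂ T := by
  rw [← (φ.domRestrict T).finrank_range_add_finrank_ker, LinearMap.range_domRestrict,
    LinearMap.ker_domRestrict, ← Submodule.finrank_map_subtype_eq T, Submodule.map_comap_subtype,
    add_comm]

theorem Sb.dim_add (h : P.Sb V n) (hV₁ : ∀ z, V₁ z = V z ⊓ LinearMap.ker (Φ z))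
    (hV' : ∀ z, V' z = (V z).map (Φ z)) (z : X.Pt) :
    Module.finrank ℂ (V₁ z) + Module.finrank ℂ (V' z) = n := by
  have := h.fin z
  rw [hV₁, hV', finrank_add, h.dim]

theorem Sb.cl_add (h : P.Sb V (n₁ + n')) (h₁ : P.Sb V₁ n₁) (h' : P'.Sb V' n') (H : Mp P P' Φ)
    (hV₁ : ∀ z, V₁ z = V z ⊓ LinearMap.ker (Φ z)) (hV' : ∀ z, V' z = (V z).map (Φ z)) :
    P.cl V (n₁ + n') = P.cl V₁ n₁ + P'.cl V' n' := by
  have h1 : ∀ s z, (inc h₁.eqv s).1 z ∈ V z ⊓ LinearMap.ker (Φ z) := fun s z =>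
    hV₁ z ▸ inc_mem h₁.eqv s z
  rw [h.cl_eq, h₁.cl_eq, h'.cl_eq]
  refine kc_ses (f := toSec h.eqv (inc h₁.eqv) fun s z => (h1 s z).1)
    ⟨toSec_isHom _ (inc_isHom _) _, toSec_isHom _ (H.isHom.comp (inc_isHom h.eqv)) _,
      fun s => Subtype.ext (Subtype.ext (funext fun z => (h1 s z).2)), fun z =>
      ⟨.of_inj fun a b e => inc_inj _ (congrArg (inc h.eqv) e), .of_ker fun s hs =>
        ⟨⟨s.1, fun w => (hV₁ w).ge ⟨s.2 w, congrArg (fun t : (P'.Sec V' h'.eqv).M => t.1.1 w) hs⟩⟩,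
          rfl⟩, surjAt_iff_fib.2 (h'.toSec_surj (h.map_val H hV') z)⟩⟩ h₁.isBun h'.isBun

theorem Sb.ses_aux (h : P.Sb V n) (H : Mp P P' Φ) (hV₁ : ∀ z, V₁ z = V z ⊓ LinearMap.ker (Φ z))
    (hV' : ∀ z, V' z = (V z).map (Φ z)) (hk : ∀ z, Module.finrank ℂ (V₁ z) = n₁)
    (hk' : ∀ z, Module.finrank ℂ (V' z) = n') (e : n = n₁ + n') :
    P.Sb V₁ n₁ ∧ P'.Sb V' n' ∧ P.cl V n = P.cl V₁ n₁ + P'.cl V' n' := by
  subst e
  have h₁ : P.Sb V₁ n₁ := (funext hV₁ : V₁ = _).symm ▸ h.comap (sb_bot P').1 H fun z =>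
    hV₁ z ▸ hk z
  have h' : P'.Sb V' n' := (funext hV' : V' = _).symm ▸ h.map H fun z => hV' z ▸ hk' z
  exact ⟨h₁, h', h.cl_add h₁ h' H hV₁ hV'⟩

/-- the exact sequence of a map of constant rank -/
theorem Sb.ses (h : P.Sb V n) (H : Mp P P' Φ) (hV₁ : ∀ z, V₁ z = V z ⊓ LinearMap.ker (Φ z))
    (hV' : ∀ z, V' z = (V z).map (Φ z)) (hk : ∀ z, Module.finrank ℂ (V₁ z) = n₁) [Nonempty X.Pt] :
    n₁ ≤ n ∧ P.Sb V₁ n₁ ∧ P'.Sb V' (n - n₁) ∧ P.cl V n = P.cl V₁ n₁ + P'.cl V' (n - n₁) := by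
  have h1 := h.dim_add hV₁ hV'
  simp only [hk] at h1
  have h2 := h1 (Classical.arbitrary _)
  exact ⟨by omega, h.ses_aux H hV₁ hV' hk (fun z => by have := h1 z; omega) (by omega)⟩

theorem Sb.ses' (h : P.Sb V n) (H : Mp P P' Φ) (hV₁ : ∀ z, V₁ z = V z ⊓ LinearMap.ker (Φ z))
    (hV' : ∀ z, V' z = (V z).map (Φ z)) (hk : ∀ z, Module.finrank ℂ (V' z) = n') [Nonempty X.Pt] :
    n' ≤ n ∧ P.Sb V₁ (n - n') ∧ P'.Sb V' n' ∧ P.cl V n = P.cl V₁ (n - n') + P'.cl V' n' := by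
  have h1 := h.dim_add hV₁ hV'
  simp only [hk] at h1
  have h2 := h1 (Classical.arbitrary _)
  exact ⟨by omega, h.ses_aux H hV₁ hV' (fun z => by have := h1 z; omega) hk (by omega)⟩

theorem Sb.iso (h : P.Sb V n) (H : Mp P P' Φ) (h1 : ∀ z, ∀ v ∈ V z, Φ z v = 0 → v = 0)
    (hV' : ∀ z, V' z = (V z).map (Φ z)) : P'.Sb V' n ∧ P'.cl V' n = P.cl V n :=
  (sb_inj (H.isHom.comp (inc_isHom h.eqv)) (h.map_val H hV') h.isBun fun z s hs =>
    h.fib_zero z s (h1 z _ (s.2 z) hs)).imp_right fun e => e.trans h.cl_eq.symm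

theorem Sb.quot (h : P.Sb V (n₁ + k)) (h₁ : P.Sb V₁ n₁) (hle : ∀ z, V₁ z ≤ V z) :
    IsCls (P.cl V (n₁ + k) - P.cl V₁ n₁) k := by
  have hf := toSec_isHom h.eqv (inc_isHom h₁.eqv) fun s z => hle z (inc_mem _ s z)
  have hs := hf.ses_coker fun z => .of_inj fun a b e => inc_inj _ (congrArg (inc h.eqv) e)
  have hC := hs.isBun_right h₁.isBun h.isBun fun z => (injective_iff_map_eq_zero _).2 fun x hx => by
    obtain ⟨s, rfl⟩ := fib_surj x
    exact h₁.fib_zero z s (val_of_mk (inc h.eqv) (b := 0) hx)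
  refine ⟨⟨_, k, hC⟩, rfl, ?_⟩
  rw [h.cl_eq, h₁.cl_eq, kc_ses hs h₁.isBun hC, add_sub_cancel_left, kc_eq hC]

theorem Sb.prod (h : P.Sb V n) (h' : P'.Sb V' n') :
    (P.prod P').Sb (fun z => (V z).prod (V' z)) (n + n') ∧
      (P.prod P').cl (fun z => (V z).prod (V' z)) (n + n') = P.cl V n + P'.cl V' n' := by
  let A := P.Sec V h.eqv
  let B := P'.Sec V' h'.eqv
  have h1 : (A.prod B).IsHom A (LinearMap.fst X.R A.M B.M) := fun _ _ => rfl
  have h2 : (A.prod B).IsHom B (LinearMap.snd X.R A.M B.M) := fun _ _ => rfl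
  refine (sb_inj ((mp_inl.isHom.comp ((inc_isHom h.eqv).comp h1)).add
    (mp_inr.isHom.comp ((inc_isHom h'.eqv).comp h2))) (fun z v => ⟨fun hv => ?_, ?_⟩)
    (h.isBun.prod h'.isBun) fun z s hs => ?_).imp_right fun e => ?_
  · obtain ⟨s, hs⟩ := (h.val z _).1 hv.1
    obtain ⟨t, ht⟩ := (h'.val z _).1 hv.2
    exact ⟨(s, t), Prod.ext ((add_zero _).trans hs) ((zero_add _).trans ht)⟩
  · rintro ⟨s, rfl⟩
    exact ⟨(V z).add_mem (s.1.2 z) (V z).zero_mem, (V' z).add_mem (V' z).zero_mem (s.2.2 z)⟩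
  · have h3 := congrArg (fibMap z.1 (LinearMap.inl X.R A.M B.M))
      (h.fib_zero z s.1 ((add_zero _).symm.trans (congrArg Prod.fst hs)))
    have h4 := congrArg (fibMap z.1 (LinearMap.inr X.R A.M B.M))
      (h'.fib_zero z s.2 ((zero_add _).symm.trans (congrArg Prod.snd hs)))
    rw [map_zero, fibMap_mk, Submodule.Quotient.mk_eq_zero] at h3 h4
    have h5 := Submodule.add_mem _ h3 h4
    exact (Submodule.Quotient.mk_eq_zero _).2 ((Prod.fst_add_snd s).subst h5)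
  · rw [e, kc_prod h.isBun h'.isBun, h.cl_eq, h'.cl_eq]

theorem isHom_sum {A B : GMod X} {ι : Type} (s : Finset ι) {f : ι → A.M →ₗ[X.R] B.M}
    (h : ∀ i, A.IsHom B (f i)) : A.IsHom B (∑ i ∈ s, f i) := fun g a => by
  rw [LinearMap.sum_apply, LinearMap.sum_apply, map_sum]
  exact Finset.sum_congr rfl fun i _ => h i g a

theorem sb_pi {ι : Type} [Fintype ι] {Q : ι → Rp X} {T : ∀ i, X.Pt → Submodule ℂ (Q i).Y}
    {r : ι → ℕ} (h : ∀ i, (Q i).Sb (T i) (r i)) :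
    (pi Q).Sb (fun z => Submodule.pi Set.univ fun i => T i z) (∑ i, r i) ∧
      (pi Q).cl (fun z => Submodule.pi Set.univ fun i => T i z) (∑ i, r i) =
        ∑ i, (Q i).cl (T i) (r i) := by
  classical
  let A := fun i => (Q i).Sec (T i) (h i).eqv
  let p : ∀ i, (GMod.pi A).M →ₗ[X.R] (A i).M := fun i =>
    LinearMap.proj (R := X.R) (φ := fun i => (A i).M) i
  have h1 : ∀ i, (GMod.pi A).IsHom (A i) (p i) := fun _ _ _ => rfl
  have h2 : ∀ s (z : X.Pt), ((∑ i, (mp_single i).lin ∘ₗ inc (h i).eqv ∘ₗ p i) s).1 z =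
      fun i => (inc (h i).eqv (p i s)).1 z := fun s z => by
    rw [LinearMap.sum_apply]
    exact (sum_val _ _ z).trans (Finset.univ_sum_single fun i => (inc (h i).eqv (p i s)).1 z)
  refine (sb_inj (isHom_sum Finset.univ fun i =>
    (mp_single i).isHom.comp ((inc_isHom (h i).eqv).comp (h1 i))) (fun z v => ⟨fun hv => ?_, ?_⟩)
    (isBun_pi fun i => (h i).isBun) fun z s hs => ?_).imp_right fun e => ?_
  · choose s hs using fun i => ((h i).val z _).1 (hv i trivial)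
    exact ⟨s, (h2 s z).trans (funext hs)⟩
  · rintro ⟨s, rfl⟩ i -
    exact (congrFun (h2 s z) i).symm.subst (inc_mem _ _ z)
  · refine (Submodule.Quotient.mk_eq_zero _).2 ((Finset.univ_sum_single s).subst
      (Submodule.sum_mem (RingHom.ker z.1 • (⊤ : Submodule X.R (∀ i, (A i).M))) fun i _ => ?_))
    have h3 := congrArg (fibMap z.1 (LinearMap.single X.R (fun i => (A i).M) i))
      ((h i).fib_zero z (p i s) (congrFun ((h2 s z).symm.trans hs) i))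
    rwa [map_zero, fibMap_mk, Submodule.Quotient.mk_eq_zero] at h3
  · rw [e, kc_pi fun i => (h i).isBun]
    exact Finset.sum_congr rfl fun i _ => (h i).cl_eq.symm

theorem Sb.shift (h : P.Sb V n) (η : X.J → ℤ) :
    (P.shift η).Sb V n ∧ (P.shift η).cl V n = line X (-η) * P.cl V n :=
  (sb_inj (P := P.shift η) (A := (P.Sec V h.eqv).shift (-η)) (ψ := inc h.eqv)
    (fun g s => Subtype.ext (funext fun z => congrArg (fun γ => chr γ g • P.D g (s.1.1 (Spc.mv z g)))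
      (neg_neg η))) h.val (h.isBun.shift _) h.fib_zero).imp_right fun e => by
    rw [e, kc_shift h.isBun, h.cl_eq]

theorem onPt_mv (f : Mor W X) (w : W.Pt) (g : W.J → ℂˣ) :
    f.onPt (Spc.mv w g) = Spc.mv (f.onPt w) (tor f.ρ g) :=
  Subtype.ext (AlgHom.ext fun r => congrArg w.1 (f.act_map g r).symm)

theorem pull_mem (f : Mor W X) {h : Fn X P.Y} (hh : h ∈ P.poly) :
    (fun w => h (f.onPt w) : Fn W (P.pull f).Y) ∈ (P.pull f).poly :=
  poly_ind (P := P) (p := fun h => (fun w => h (f.onPt w) : Fn W (P.pull f).Y) ∈ (P.pull f).poly)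
    (fun _ hu => (P.pull f).cst_mem hu) (P.pull f).poly.zero_mem
    (fun _ _ _ _ => (P.pull f).poly.add_mem) (fun r _ _ => (P.pull f).poly.smul_mem (f.φ r)) hh

theorem Sb.pull (h : P.Sb V n) (f : Mor W X) :
    (P.pull f).Sb (fun w => V (f.onPt w)) n ∧
      (P.pull f).cl (fun w => V (f.onPt w)) n = pullK f (P.cl V n) := by
  obtain ⟨L, hL⟩ := AK.exists_plift f (P.Sec V h.eqv) (V := (P.pull f).tot.M)
    (AddMonoidHom.mk' (fun s => ⟨_, pull_mem f s.1.2⟩) fun _ _ => rfl) fun _ _ => rfl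
  have h1 : (f.pull (P.Sec V h.eqv)).IsHom (P.pull f).tot L := AK.isHom_pu fun t s => by
    rw [hL, hL]
    exact Subtype.ext (funext fun w => congrArg (fun y => P.D (tor f.ρ t) (s.1.1 y))
      (onPt_mv f w t).symm)
  have h2 : ∀ w v, v ∈ V (f.onPt w) ↔ ∃ a, (L a).1 w = v := fun w v => by
    constructor
    · intro hv
      obtain ⟨s, rfl⟩ := (h.val _ v).1 hv
      exact ⟨_, congrArg (fun t : (P.pull f).poly => t.1 w) (hL s)⟩
    · rintro ⟨a, rfl⟩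
      induction a using AK.pu_ind with
      | h0 => rw [map_zero]; exact (V _).zero_mem
      | h1 s => rw [hL]; exact s.2 _
      | hs r a ha => rw [map_smul]; exact (V _).smul_mem (w.1 r) ha
      | ha a b ha hb => rw [map_add]; exact (V _).add_mem ha hb
  have h3 := sb_hom (P := P.pull f) h1 h2 fun w => h.dim _
  exact ⟨h3, (h3.cl_hom h1 h2 (h.isBun.pull f)).trans (by rw [h.cl_eq, pullK_kc f h.isBun])⟩

/-- a module that maps to the trivial bundle with constant rank -/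
theorem sb_of_hom {A : GMod X} (ψ : A.M →ₗ[X.R] P.poly) (hψ : A.IsHom P.tot ψ)
    (hV : ∀ z v, v ∈ V z ↔ ∃ a, (ψ a).1 z = v) (hn : ∀ z, Module.finrank ℂ (V z) = n) :
    P.Sb V n ∧ ∀ (B : GMod X) (φ : B.M →ₗ[X.R] A.M) (a b : ℕ), B.IsHom A φ → A.IsBun a →
      B.IsBun b → (∀ x, ψ (φ x) = 0) → (∀ z : X.Pt, Function.Injective (fibMap z.1 φ)) →
      a = b + n → P.cl V n = kc A a - kc B b := by
  have h := sb_hom hψ hV hn
  refine ⟨h, fun B φ a b hφ hA hB h0 hi e => ?_⟩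
  subst e
  have h1 := h.toSec_surj hV
  have h2 := toSec_isHom h.eqv hψ fun a z => (hV z _).2 ⟨a, rfl⟩
  have h3 : ∀ x, toSec h.eqv (A := A) ψ (fun a z => (hV z _).2 ⟨a, rfl⟩) (φ x) = 0 := fun x =>
    Subtype.ext (h0 x)
  generalize toSec h.eqv (A := A) ψ _ = g at h1 h2 h3
  rw [kc_ses (ses_of_fib hφ h2 h3 hA h.isBun hi (fun z y hy => ?_) h1) hB h.isBun,
    add_sub_cancel_left, h.cl_eq]
  refine (Submodule.eq_of_le_of_finrank_eq (S₁ := LinearMap.range (fibC z.1 φ))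
    (S₂ := LinearMap.ker (fibC z.1 g)) ?_ ?_).ge hy
  · rintro _ ⟨x, rfl⟩
    exact fibMap_comp_zero h3 x
  · have h4 : frk z.1 g + _ = fdim z.1 A.M := (fibC z.1 g).finrank_range_add_finrank_ker
    have h5 := frk_of_inj (hi z)
    rw [frk_of_surj (h1 z), h.isBun.fdim, hA.fdim] at h4
    rw [hB.fdim, frk] at h5
    omega

/-- descending induction along a Koszul complex -/
theorem desc [Nonempty X.Pt] {K Y : Type} [Field K] [Algebra ℂ K] [AddCommGroup Y] [Module K Y] [Module ℂ Y]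
    [IsScalarTower ℂ K Y] (D : (X.J → ℂˣ) → Y →ₗ[K] Y) (U : ℕ → Submodule ℂ Y)
    (fin : ∀ k, FiniteDimensional ℂ (U k))
    (gen : ∀ k, U k ≤ Submodule.span ℂ
      {u | u ∈ U k ∧ ∃ γ, u ∈ wt (fun g => (D g).restrictScalars ℂ) γ})
    (y : Fin 3 → K) (hy : ∀ i, y i ≠ 0) (hU : ∀ k i, ∀ u ∈ U k, y i • u ∈ U (k + 1))
    (H : ℕ → X.Pt → Submodule ℂ Y) (hle : ∀ k z, H k z ≤ U k)
    (hH : ∀ k z i, ∀ u ∈ H k z, y i • u ∈ H (k + 1) z)
    (heq : ∀ k z g, ∀ v ∈ H k (Spc.mv z g), D g v ∈ H k z)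
    (r : ℕ → ℕ) (hr : ∀ k z, Module.finrank ℂ (H k z) = r k)
    (e₁ : ∀ k z (b : Fin 3 → Y), (∀ i, b i ∈ H (k + 1) z) → (∀ i j, y i • b j = y j • b i) →
      ∃ a ∈ H k z, ∀ i, b i = y i • a)
    (e₂ : ∀ k z (c : Fin 3 → Y), (∀ i, c i ∈ H (k + 2) z) → ∑ i, y i • c i = 0 →
      ∃ b : Fin 3 → Y, (∀ i, b i ∈ H (k + 1) z) ∧
        ∀ i, c i = y (i + 1) • b (i + 2) - y (i + 2) • b (i + 1))
    (e₃ : ∀ k z, ∀ e ∈ H (k + 3) z, ∃ c : Fin 3 → Y, (∀ i, c i ∈ H (k + 2) z) ∧ e = ∑ i, y i • c i)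
    (c : ℕ → K0 X) (hc : ∀ k, c k - 3 * c (k + 1) + 3 * c (k + 2) - c (k + 3) = 0) (k₁ : ℕ)
    (h₁ : ∀ k, k₁ ≤ k →
      (Rp.mk Y (fun g => (D g).restrictScalars ℂ) (U k) (fin k) (gen k)).Sb (H k) (r k) ∧
      (Rp.mk Y (fun g => (D g).restrictScalars ℂ) (U k) (fin k) (gen k)).cl (H k) (r k) = c k)
    (k : ℕ) :
    (Rp.mk Y (fun g => (D g).restrictScalars ℂ) (U k) (fin k) (gen k)).Sb (H k) (r k) ∧
      (Rp.mk Y (fun g => (D g).restrictScalars ℂ) (U k) (fin k) (gen k)).cl (H k) (r k) = c k := by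
  let Q : ℕ → Rp X := fun k => Rp.mk Y (fun g => (D g).restrictScalars ℂ) (U k) (fin k) (gen k)
  let Q3 : ℕ → Rp X := fun k => pi fun _ : Fin 3 => Q k
  let H3 : ℕ → X.Pt → Submodule ℂ (Fin 3 → Y) := fun k z => Submodule.pi Set.univ fun _ => H k z
  let m : Fin 3 → Y →ₗ[ℂ] Y := fun i => (LinearMap.lsmul K Y (y i)).restrictScalars ℂ
  let p : Fin 3 → (Fin 3 → Y) →ₗ[ℂ] Y := fun i => LinearMap.proj i
  have hm : ∀ k i, Mp (Q k) (Q (k + 1)) fun _ => m i := fun k i =>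
    mp_cst (P := Q k) (P' := Q (k + 1)) (m i) (hU k i) fun g u _ => (map_smul (D g) (y i) u).symm
  have hp : ∀ k i, Mp (Q3 k) (Q (k + 1)) fun _ => m i ∘ₗ p i := fun k i => (hm k i).comp (mp_proj i)
  let α : Y →ₗ[ℂ] (Fin 3 → Y) := LinearMap.pi m
  let β : (Fin 3 → Y) →ₗ[ℂ] (Fin 3 → Y) :=
    LinearMap.pi fun i => m (i + 1) ∘ₗ p (i + 2) + -(m (i + 2) ∘ₗ p (i + 1))
  let γ : (Fin 3 → Y) →ₗ[ℂ] Y := ∑ i, m i ∘ₗ p i
  have hα : ∀ k, Mp (Q k) (Q3 (k + 1)) fun _ => α := fun k => mp_pi (hm k)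
  have hβ : ∀ k, Mp (Q3 k) (Q3 (k + 1)) fun _ => β := fun k => mp_pi fun i =>
    ((hm k (i + 1)).comp (mp_proj (i + 2))).add ((hm k (i + 2)).comp (mp_proj (i + 1))).neg
  have hγ : ∀ k, Mp (Q3 k) (Q (k + 1)) fun _ => γ := fun k => mp_sum _ fun i _ => hp k i
  have eβ : ∀ b i, β b i = y (i + 1) • b (i + 2) - y (i + 2) • b (i + 1) := fun b i =>
    (sub_eq_add_neg _ _).symm
  have eγ : ∀ b, γ b = ∑ i, y i • b i := fun b => LinearMap.sum_apply _ _ b
  have e0' : ∀ a, γ (β a) = 0 := fun a => by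
    rw [eγ, Fin.sum_univ_three, eβ, eβ, eβ]
    show y 0 • (y 1 • a 2 - y 2 • a 1) + y 1 • (y 2 • a 0 - y 0 • a 2) +
      y 2 • (y 0 • a 1 - y 1 • a 0) = 0
    module
  have hi : ∀ a : Y, y 0 • a = 0 → a = 0 := fun a ha => (smul_eq_zero.1 ha).resolve_left (hy 0)
  have key : ∀ j k, k₁ ≤ k + j → (Q k).Sb (H k) (r k) ∧ (Q k).cl (H k) (r k) = c k := by
    intro j
    induction j with
    | zero => exact h₁
    | succ j ih =>
      intro k hk
      obtain ⟨a1, b1⟩ := ih (k + 1) (by omega)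
      obtain ⟨a2, b2⟩ := ih (k + 2) (by omega)
      obtain ⟨a3, b3⟩ := ih (k + 3) (by omega)
      obtain ⟨s1, t1⟩ := sb_pi (Q := fun _ : Fin 3 => Q (k + 1)) fun _ => a1
      obtain ⟨s2, t2⟩ := sb_pi (Q := fun _ : Fin 3 => Q (k + 2)) fun _ => a2
      have e0 : (fun z => U k ⊓ (H3 (k + 1) z).comap α) = H k := funext fun z => by
        refine le_antisymm (fun u hu => ?_) fun u hu => ⟨hle k z hu, fun i _ => hH k z i u hu⟩
        obtain ⟨a, ha, h⟩ := e₁ k z (fun i => y i • u) (fun i => hu.2 i trivial)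
          fun i j => smul_comm _ _ _
        rwa [sub_eq_zero.1 (hi (u - a) (by rw [smul_sub, h 0, sub_self]))]
      have s0 : (Q k).Sb (H k) (r k) := e0 ▸ (sb_top (Q k)).comap s1 (hα k) fun z =>
        (congrArg (fun T : Submodule ℂ Y => Module.finrank ℂ T) (congrFun e0 z)).trans (hr k z)
      obtain ⟨u1, u2⟩ := s0.iso (hα k) (V' := fun z => H3 (k + 1) z ⊓ LinearMap.ker β)
        (fun z v _ h => hi v (congrFun h 0)) fun z => by
          refine le_antisymm (fun b hb => ?_) ?_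
          · have h0 : ∀ i, y (i + 1) • b (i + 2) = y (i + 2) • b (i + 1) := fun i =>
              sub_eq_zero.1 ((eβ b i).symm.trans (congrFun hb.2 i))
            obtain ⟨a, ha, h⟩ := e₁ k z b (fun i => hb.1 i trivial) fun i j => by
              fin_cases i <;> fin_cases j <;>
                first | rfl | exact h0 0 | exact h0 1 | exact h0 2 | exact (h0 0).symm |
                  exact (h0 1).symm | exact (h0 2).symm
            exact ⟨a, ha, (funext h).symm⟩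
          · rintro _ ⟨a, ha, rfl⟩
            exact ⟨fun i _ => hH k z i a ha, funext fun i =>
              (eβ _ i).trans (sub_eq_zero.2 (smul_comm _ _ a))⟩
      obtain ⟨-, -, v1, v2⟩ := s1.ses (hβ (k + 1)) (fun _ => rfl)
        (V' := fun z => H3 (k + 2) z ⊓ LinearMap.ker γ) (fun z => by
          refine le_antisymm (fun b hb => ?_) ?_
          · obtain ⟨a, ha, h⟩ := e₂ k z b (fun i => hb.1 i trivial) ((eγ b).symm.trans hb.2)
            exact ⟨a, fun i _ => ha i, funext fun i => (eβ a i).trans (h i).symm⟩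
          · rintro _ ⟨a, ha, rfl⟩
            exact ⟨fun i _ => (eβ a i).symm.subst (sub_mem (hH _ z _ _ (ha _ trivial))
              (hH _ z _ _ (ha _ trivial))), e0' a⟩) u1.dim
      obtain ⟨-, -, w1, w2⟩ := s2.ses (hγ (k + 2)) (fun _ => rfl) (V' := H (k + 3)) (fun z => by
          refine le_antisymm (fun b hb => ?_) ?_
          · obtain ⟨a, ha, h⟩ := e₃ k z b hb
            exact ⟨a, fun i _ => ha i, (eγ a).trans h.symm⟩
          · rintro _ ⟨a, ha, rfl⟩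
            exact (eγ a).symm.subst (sum_mem fun i _ => hH _ z _ _ (ha _ trivial))) v1.dim
      have z := Classical.arbitrary X.Pt
      rw [(w1.dim z).symm.trans (a3.dim z), t2, b3] at w2
      have v3 := t1.symm.trans (v2.trans (congrArg₂ (· + ·) u2 (eq_sub_of_add_eq w2.symm)))
      simp only [b1, b2, Finset.sum_const, Finset.card_univ, Fintype.card_fin, nsmul_eq_mul,
        Nat.cast_ofNat] at v3
      exact ⟨s0, by linear_combination -v3 - hc k⟩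
  exact key k₁ k (Nat.le_add_left _ _)

end Vale.Agent.P297Z.Pw.Rp
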