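import Vale.Agent.P297Z.Hb.FamDefs
import Vale.Agent.P297Z.Hb.Pw
import Vale.Agent.P297Z.K.PK

/-! P297: families of subsheaves given by generators: evaluation. -/

set_option linter.all false

noncomputable section

namespace Vale.Agent.P297Z.Sf

open Pw

variable {K : Type} [Field K] [Algebra ℂ K] {S : Surf K} {W X : Spc}

theorem fam_tmul_eq {Y : Spc} (a : X.R) (b : Y.R) :
    (a ⊗ₜ[ℂ] b : (X.prod Y).R) = (Mor.fst X Y).φ a * (Mor.snd X Y).φ b :=
  ((Algebra.TensorProduct.tmul_mul_tmul a 1 1 b).trans (by rw [mul_one, one_mul])).symm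

theorem evp_tmul {Y : Spc} (z : X.Pt) (a : X.R) (b : Y.R) :
    evp Y z (a ⊗ₜ[ℂ] b) = z.1 a • b := by
  rw [fam_tmul_eq, evp_fst_mul, evp_snd]

theorem evp_pt {Y : Spc} (w : (X.prod Y).Pt) (r : (X.prod Y).R) :
    w.1 r = ((Mor.snd X Y).onPt w).1 (evp Y ((Mor.fst X Y).onPt w) r) := by
  have : w.1 = ((Mor.snd X Y).onPt w).1.comp (evp Y ((Mor.fst X Y).onPt w)) :=
    Algebra.TensorProduct.ext' fun a b => by
      refine (congrArg w.1 (fam_tmul_eq a b)).trans ?_
      refine Eq.trans ?_ (congrArg ((Mor.snd X Y).onPt w).1 (evp_tmul _ a b)).symm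
      rw [map_mul, map_smul]
      rfl
  exact DFunLike.congr_fun this r

theorem evp_map {Y : Spc} (f : Mor W X) (w : W.Pt) (r : (X.prod Y).R) :
    evp Y w ((f.map (Mor.id Y)).φ r) = evp Y (f.onPt w) r := by
  have : (evp Y w).comp (f.map (Mor.id Y)).φ = evp Y (f.onPt w) :=
    Algebra.TensorProduct.ext' fun a b => by
      refine Eq.trans ?_ (evp_tmul _ a b).symm
      change evp Y w ((Mor.fst W Y).φ (f.φ a) * (Mor.snd W Y).φ b) = _
      rw [evp_fst_mul, evp_snd]
      rfl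
  exact DFunLike.congr_fun this r

theorem cf_map (h : S.All) (f : Mor W X) (w : W.Pt) (j : ℤ) (r : (X.prod (S.spc h)).R) :
    cf h w j ((f.map (Mor.id (S.spc h))).φ r) = cf h (f.onPt w) j r :=
  congrArg (fun t : S.ring => t.1.coeff j) (evp_map f w r)

theorem cf_mem (h : S.All) (z : X.Pt) (j : ℤ) (r : (X.prod (S.spc h)).R) : cf h z j r ∈ S.Wp j :=
  S.mem_ring.1 (evz h z r).2 j

theorem mv_one (z : X.Pt) : Spc.mv z 1 = z :=
  Subtype.ext (AlgHom.ext fun r => congrArg z.1 (X.act_one r))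

theorem cf_of_wt (h : S.All) (z : X.Pt) {δ : X.J → ℤ} {n j : ℤ} {r : (X.prod (S.spc h)).R}
    (hr : r ∈ (X.prod (S.spc h)).wt (Sum.elim δ fun _ => n)) (hj : j ≠ n) : cf h z j r = 0 := by
  have e : (evz h z r).1 = mon ((evz h z r).1.coeff n) n := eq_mon_of_scale fun t => by
    ext i
    have h1 := ((congrArg (cf h z i) (Spc.mem_wt.1 hr _)).trans (map_smul _ _ _)).symm.trans
      (cf_act h z i (Sum.elim 1 fun _ => t) r)
    have h2 : chr (Sum.elim δ fun _ : Unit => n) (Sum.elim 1 fun _ => t) = ((t ^ n : ℂˣ) : ℂ) :=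
      (chr_sum_type _ _).trans ((congrArg₂ (· * ·) (chr_one δ) (chr_unit (fun _ => n) fun _ => t)).trans
        (one_mul _))
    have h3 : (Spc.mv z fun i => (Sum.elim 1 (fun _ => t) : X.J ⊕ Unit → ℂˣ) (.inl i)) = z :=
      mv_one z
    rw [scale_apply, AddMonoidAlgebra.coeff_smul_apply]
    exact ((congrArg (fun y => ((t ^ i : ℂˣ) : ℂ) • cf h y i r) h3).symm.trans h1.symm).trans
      (congrArg (· • cf h z i r) h2)
  change (evz h z r).1.coeff j = 0
  rw [e, coeff_mon, if_neg hj.symm]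

theorem evz_eq_mon (h : S.All) (z : X.Pt) {n : ℤ} {r : (X.prod (S.spc h)).R}
    (hr : ∀ j : ℤ, j ≠ n → cf h z j r = 0) : (evz h z r).1 = mon (cf h z n r) n := by
  ext j
  rw [coeff_mon]
  split_ifs with e
  · rw [← e]; rfl
  · exact hr j (Ne.symm e)

theorem evz_of_pure (h : S.All) (z : X.Pt) {n : ℕ} {r : (X.prod (S.spc h)).R}
    (hr : ∀ j : ℤ, j ≠ n → cf h z j r = 0) :
    ∃ ha, evz h z r = S.form n (cf h z n r) ha :=
  ⟨S.Wp_nat n ▸ cf_mem h z n r, Subtype.ext (evz_eq_mon h z hr)⟩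

theorem cf_mul (h : S.All) (z : X.Pt) {n : ℤ} {r : (X.prod (S.spc h)).R}
    (hr : ∀ j : ℤ, j ≠ n → cf h z j r = 0) (j : ℤ) (r' : (X.prod (S.spc h)).R) :
    cf h z j (r * r') = cf h z n r * cf h z (j - n) r' := by
  change (evz h z (r * r')).1.coeff j = cf h z n r * (evz h z r').1.coeff (j - n)
  rw [map_mul, Subalgebra.coe_mul, evz_eq_mon h z hr, mon, ← LaurentPolynomial.single_eq_C_mul_T,
    AddMonoidAlgebra.coeff_single_mul_apply, neg_add_eq_sub]

theorem cf_snd (h : S.All) (z : X.Pt) (j : ℤ) (n : ℕ) (a : K) (ha : a ∈ S.W ^ n) :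
    cf h z j ((Mor.snd X (S.spc h)).φ (S.form n a ha)) = if j = n then a else 0 :=
  (congrArg (fun t : S.ring => t.1.coeff j) (evp_snd (S.spc h) z (S.form n a ha))).trans
    ((coeff_mon a n j).trans (if_congr eq_comm rfl rfl))

theorem eq_zero_of_cf (h : S.All) (r : (X.prod (S.spc h)).R) (hr : ∀ z j, cf h z j r = 0) :
    r = 0 :=
  (X.prod (S.spc h)).sep r fun w hw => by
    have e : evp (S.spc h) ((Mor.fst X (S.spc h)).onPt ⟨w, hw⟩) r = 0 :=
      Subtype.ext (AddMonoidAlgebra.ext (Finsupp.ext fun j => hr _ j))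
    rw [show w r = _ from evp_pt ⟨w, hw⟩ r, e, map_zero]

section V

variable {V V' : Type} [AddCommGroup V] [Module K V] [Module ℂ V] [IsScalarTower ℂ K V]
  [AddCommGroup V'] [Module K V'] [Module ℂ V'] [IsScalarTower ℂ K V']

theorem Gn_zero {ι : Type} [Fintype ι] (W : Submodule ℂ K) (u : ι → V) :
    Gn W u 0 = Submodule.span ℂ (Set.range u) := by
  ext v
  rw [Submodule.mem_span_range_iff_exists_fun]
  constructor
  · rintro ⟨c, hc, rfl⟩
    simp only [pow_zero, Submodule.mem_one] at hc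
    choose t ht using hc
    exact ⟨t, Finset.sum_congr rfl fun a _ => by rw [← ht, algebraMap_smul]⟩
  · rintro ⟨t, rfl⟩
    exact ⟨fun a => algebraMap ℂ K (t a), fun a => by
      rw [pow_zero]; exact Submodule.mem_one.2 ⟨_, rfl⟩,
      Finset.sum_congr rfl fun a _ => algebraMap_smul _ _ _⟩

theorem smul_mem_Gn {ι : Type} [Fintype ι] (W : Submodule ℂ K) (u : ι → V) {i j : ℕ} {t : K}
    (ht : t ∈ W ^ i) {v : V} (hv : v ∈ Gn W u j) : t • v ∈ Gn W u (i + j) := by
  obtain ⟨c, hc, rfl⟩ := hv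
  exact ⟨fun a => t * c a, fun a => pow_add W i j ▸ Submodule.mul_mem_mul ht (hc a), by
    simp only [Finset.smul_sum, mul_smul]⟩

theorem Gn_mono {ι ι' : Type} [Fintype ι] [Fintype ι'] (W : Submodule ℂ K) {u : ι → V} {u' : ι' → V}
    (e : Submodule.span ℂ (Set.range u) ≤ Submodule.span ℂ (Set.range u')) (j : ℕ) :
    Gn W u j ≤ Gn W u' j := by
  rintro _ ⟨c, hc, rfl⟩
  exact Submodule.sum_mem _ fun a _ => smul_mem_Gn W u' (j := 0) (hc a)
    (Gn_zero W u' ▸ e (Submodule.subset_span ⟨a, rfl⟩))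

theorem Gn_EM (hA : S.All) (hF : Fb.FibA S) {m : ℕ} {A : Div S.W} {Z : Fb.Zs S.W}
    (hR : Fb.Reg S m A Z) {ι : Type} [Fintype ι] {u : ι → K}
    (hu : Submodule.span ℂ (Set.range u) = Fb.EM Z A m) (j : ℕ) :
    Gn S.W u j = Fb.EM Z A (m + j) := by
  have hs := hF.sat Z A 0 le_rfl
  rw [sub_zero] at hs
  have h1 : ∀ j : ℕ, S.W ^ j * Fb.EM Z A m ≤ Fb.EM Z A (m + j) := by
    intro j
    induction j with
    | zero => simp
    | succ j ih =>
      rw [pow_succ', mul_assoc, Nat.cast_succ, ← add_assoc]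
      exact (mul_le_mul' le_rfl ih).trans (hs.mul _)
  refine le_antisymm ?_ ?_
  · rintro _ ⟨c, hc, rfl⟩
    exact Submodule.sum_mem _ fun a _ => h1 j (Submodule.mul_mem_mul (hc a)
      (hu ▸ Submodule.subset_span ⟨a, rfl⟩))
  · induction j with
    | zero => rw [Gn_zero, hu]; simp
    | succ j ih =>
      rw [Nat.cast_succ, ← add_assoc]
      refine (hR.gen _ (by omega)).trans (Submodule.mul_le.2 fun l hl b hb => ?_)
      have hl' : l ∈ S.W ^ 1 := by
        rw [pow_one]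
        exact Submodule.span_le.2 (by rintro _ ⟨i, rfl⟩; exact S.x_mem i) hl
      exact add_comm 1 j ▸ smul_mem_Gn S.W u hl' (ih hb)

theorem finrank_prod' {k A B : Type} [Field k] [AddCommGroup A] [Module k A] [AddCommGroup B]
    [Module k B] (p : Submodule k A) (q : Submodule k B) [FiniteDimensional k p]
    [FiniteDimensional k q] :
    Module.finrank k (p.prod q) = Module.finrank k p + Module.finrank k q := by
  rw [← Module.finrank_prod]
  exact LinearEquiv.finrank_eq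
    { toFun := fun v => (⟨v.1.1, v.2.1⟩, ⟨v.1.2, v.2.2⟩)
      map_add' := fun _ _ => rfl
      map_smul' := fun _ _ => rfl
      invFun := fun v => ⟨(v.1.1, v.2.1), v.1.2, v.2.2⟩
      left_inv := fun _ => rfl
      right_inv := fun _ => rfl }

theorem Gn_sum {ι ι' : Type} [Fintype ι] [Fintype ι'] (W : Submodule ℂ K) (u : ι → V)
    (u' : ι' → V') (j : ℕ) :
    Gn W (Sum.elim (fun a => (u a, 0)) fun a => (0, u' a)) j = (Gn W u j).prod (Gn W u' j) := by
  ext ⟨v, v'⟩
  constructor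
  · rintro ⟨c, hc, e⟩
    simp only [Fintype.sum_sum_type, Sum.elim_inl, Sum.elim_inr, Prod.ext_iff, Prod.fst_add,
      Prod.snd_add, Prod.fst_sum, Prod.snd_sum, Prod.smul_mk, smul_zero, Finset.sum_const_zero,
      add_zero, zero_add] at e
    exact ⟨⟨_, fun a => hc (.inl a), e.1⟩, ⟨_, fun a => hc (.inr a), e.2⟩⟩
  · rintro ⟨⟨c, hc, e⟩, ⟨c', hc', e'⟩⟩
    refine ⟨Sum.elim c c', fun a => a.rec hc hc', ?_⟩
    simp only [Fintype.sum_sum_type, Sum.elim_inl, Sum.elim_inr, Prod.ext_iff, Prod.fst_add,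
      Prod.snd_add, Prod.fst_sum, Prod.snd_sum, Prod.smul_mk, smul_zero, Finset.sum_const_zero,
      add_zero, zero_add]
    exact ⟨e, e'⟩

namespace Fam

variable {F : Fam K X V} {F' : Fam K X V'} {h : S.All} {ρ ρ' : ℕ}

theorem u_mem (z : X.Pt) (a : F.ι) : F.u z a ∈ Submodule.span ℂ (Set.range F.e) :=
  Submodule.sum_mem _ fun b _ => Submodule.smul_mem _ _ (Submodule.subset_span ⟨b, rfl⟩)

theorem u_pull (f : Mor W X) (w : W.Pt) : (F.pull f).u w = F.u (f.onPt w) := rfl

theorem u_shift (η : X.J → ℤ) (z : X.Pt) : (F.shift η).u z = F.u z := rfl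

theorem u_sum (z : X.Pt) :
    (F.sum F').u z = Sum.elim (fun a => (F.u z a, 0)) fun a => (0, F'.u z a) := by
  funext a
  refine (Fintype.sum_sum_type _).trans ?_
  rcases a with a | a <;> simp [sum, u, Prod.ext_iff, Prod.fst_sum, Prod.snd_sum]

theorem u_app (F₂ : Fam K X V) (hD : F₂.D = F.D) (z : X.Pt) :
    (F.app F₂ hD).u z = Sum.elim (F.u z) (F₂.u z) := by
  funext a
  refine (Fintype.sum_sum_type _).trans ?_
  rcases a with a | a <;> simp [app, u]

theorem u_top (z : X.Pt) : F.top.u z = F.e := by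
  classical
  funext a
  change F.B at a
  change ∑ b : F.B, z.1 (@ite _ (a = b) (Classical.propDecidable _) 1 0) • F.e b = F.e a
  rw [Finset.sum_eq_single a (fun b _ e => by rw [if_neg e.symm, map_zero, zero_smul]) (by simp),
    if_pos rfl, map_one, one_smul]

theorem Flat.pull (hF : F.Flat S ρ) (f : Mor W X) : (F.pull f).Flat S ρ :=
  ⟨fun j => (hF.dim j).imp fun _ hn w => hn (f.onPt w), fun w => hF.rank (f.onPt w)⟩

theorem Flat.shift (hF : F.Flat S ρ) (η : X.J → ℤ) : (F.shift η).Flat S ρ := ⟨hF.dim, hF.rank⟩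

theorem Flat.sum (hF : F.Flat S ρ) (hF' : F'.Flat S ρ') : (F.sum F').Flat S (ρ + ρ') := by
  refine ⟨fun j => ?_, fun z => ?_⟩
  · obtain ⟨n, hn⟩ := hF.dim j
    obtain ⟨n', hn'⟩ := hF'.dim j
    refine ⟨n + n', fun z => ?_⟩
    have e : Gn S.W ((F.sum F').u z) j = _ := (congrArg (fun u => Gn S.W u j) (u_sum z)).trans
      (Gn_sum S.W (F.u z) (F'.u z) j)
    rw [e, finrank_prod', hn, hn']
  · have e : Set.range ((F.sum F').u z) = LinearMap.inl K V V' '' Set.range (F.u z) ∪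
        LinearMap.inr K V V' '' Set.range (F'.u z) := by
      rw [u_sum, ← Set.range_comp, ← Set.range_comp]
      exact Set.Sum.elim_range _ _
    haveI := FiniteDimensional.span_of_finite K (Set.finite_range (F.u z))
    haveI := FiniteDimensional.span_of_finite K (Set.finite_range (F'.u z))
    rw [e, LinearMap.span_inl_union_inr, finrank_prod', hF.rank, hF'.rank]

theorem Flat.of_span (hF : F.Flat S ρ) {F₂ : Fam K X V} (e : ∀ z,
    Submodule.span ℂ (Set.range (F₂.u z)) = Submodule.span ℂ (Set.range (F.u z))) :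
    F₂.Flat S ρ := by
  refine ⟨fun j => (hF.dim j).imp fun n hn z => ?_, fun z => ?_⟩
  · rw [le_antisymm (Gn_mono S.W (e z).le j) (Gn_mono S.W (e z).ge j), hn]
  · rw [← Submodule.span_span_of_tower ℂ K, e, Submodule.span_span_of_tower, hF.rank]

theorem flat_top (F : Fam K X V) :
    F.top.Flat S (Module.finrank K (Submodule.span K (Set.range F.e))) :=
  ⟨fun j => ⟨_, fun z => congrArg (fun u : F.B → V => Module.finrank ℂ (Gn S.W u j)) (u_top z)⟩,
    fun z => congrArg (fun u : F.B → V => Module.finrank K (Submodule.span K (Set.range u)))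
      (u_top z)⟩

theorem Flat.le [Nonempty X.Pt] (hF : F.Flat S ρ) : ρ ≤ Fintype.card F.ι :=
  hF.rank (Classical.arbitrary _) ▸ finrank_range_le_card (R := K) (F.u (Classical.arbitrary _))

theorem exists_gens (F : Fam K X V) (h : S.All) : Nonempty (F.Gens h) := by
  obtain ⟨T, w, hw, hT⟩ := exists_wt_gens (X.prod (S.spc h)).R (F.KM h).span
  let κ : T → F.ι → (X.prod (S.spc h)).R := fun t => (show F.Kt h from t.1).1
  have h1 : ∀ t a, κ t a ∈ (X.prod (S.spc h)).wt
      (Sum.elim ((fun i => w t (.inl i)) - F.γ a) fun _ => w t (.inr ()) - F.m) := by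
    intro t a g
    have e1 : Dg.fact (F.deg h) g (κ t) = chr (w t) g • κ t :=
      (Dg.Fr_act (F.deg h) g (κ t)).symm.trans (congrArg Subtype.val (hw t g))
    have e2 : chr (F.deg h a) g • (X.prod (S.spc h)).act g (κ t a) = chr (w t) g • κ t a :=
      congrFun e1 a
    let δ : (X.prod (S.spc h)).J → ℤ := Sum.elim ((fun i => w t (.inl i)) - F.γ a)
        fun _ => w t (.inr ()) - F.m
    have e3 : w t = F.deg h a + δ := by
      funext i
      rcases i with i | i
      · exact (add_sub_cancel _ _).symm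
      · exact (add_sub_cancel _ _).symm
    rw [e3, chr_add, mul_smul] at e2
    exact smul_right_injective _ (chr_ne _ _) e2
  refine ⟨⟨T, κ, fun t i => w t (.inl i), fun t => (w t (.inr ()) - F.m).toNat, fun t a => ?_, ?_⟩⟩
  · rcases le_or_gt 0 (w t (.inr ()) - F.m) with h0 | h0
    · rw [Int.toNat_of_nonneg h0]
      exact h1 t a
    · have : κ t a = 0 := eq_zero_of_cf h _ fun z j => by
        by_cases e : j = w t (.inr ()) - F.m
        · have := cf_mem h z j (κ t a)
          rwa [S.Wp_neg (e ▸ h0), Submodule.mem_bot] at this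
        · exact cf_of_wt h z (h1 t a) e
      rw [this]
      exact zero_mem _
  · have := ((Submodule.map_span (F.Kt h).subtype _).symm.trans
      (congrArg (Submodule.map (F.Kt h).subtype) hT)).trans (Submodule.map_subtype_top _)
    refine Eq.trans (congrArg _ ?_) this
    ext v
    exact ⟨fun ⟨t, e⟩ => ⟨t.1, t.2, e⟩, fun ⟨t, ht, e⟩ => ⟨⟨t, ht⟩, e⟩⟩

theorem Gens.mem (G : F.Gens h) (p : G.P) : G.κ p ∈ F.Kt h :=
  G.span ▸ Submodule.subset_span ⟨p, rfl⟩

theorem Gens.kv_mem (G : F.Gens h) (z : X.Pt) (p : G.P) :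
    G.kv z p ∈ RelV S.W (F.u z) (G.j p) :=
  ⟨fun a => S.Wp_nat (G.j p) ▸ cf_mem h z _ _, G.mem p z _⟩

theorem Gens.kv_mv (G : F.Gens h) (z : X.Pt) (g : X.J → ℂˣ) (p : G.P) (a : F.ι) :
    G.kv (Spc.mv z g) p a = chr (G.η p - F.γ a) g • G.kv z p a := by
  have h1 := ((congrArg (cf h z (G.j p)) (Spc.mem_wt.1 (G.wt p a) _)).trans
    (map_smul _ _ _)).symm.trans (cf_act h z (G.j p) (Sum.elim g 1) (G.κ p a))
  have h2 : chr (Sum.elim (G.η p - F.γ a) fun _ : Unit => (G.j p : ℤ)) (Sum.elim g 1) =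
      chr (G.η p - F.γ a) g :=
    (chr_sum_type _ _).trans ((congrArg _ (chr_one _)).trans (mul_one _))
  refine Eq.trans ?_ (h1.symm.trans (congrArg (· • G.kv z p a) h2))
  change _ = (((1 : ℂˣ) ^ (G.j p : ℤ) : ℂˣ) : ℂ) • G.kv (Spc.mv z g) p a
  rw [one_zpow, Units.val_one, one_smul]

/-- the coefficients of the relations are polynomial functions -/
theorem exists_cf (h : S.All) (j : ℕ) (r : (X.prod (S.spc h)).R) :
    ∃ (n : ℕ) (a : Fin n → X.R) (w : Fin n → K), (∀ i, w i ∈ S.W ^ j) ∧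
      ∀ z : X.Pt, cf h z j r = ∑ i, z.1 (a i) • w i := by
  induction r using TensorProduct.induction_on with
  | zero => exact ⟨0, Fin.elim0, Fin.elim0, fun i => i.elim0, fun z => map_zero _⟩
  | tmul a b =>
    refine ⟨1, fun _ => a, fun _ => (show S.ring from b).1.coeff j, fun _ =>
      S.Wp_nat j ▸ S.mem_ring.1 (show S.ring from b).2 j, fun z => ?_⟩
    rw [Fin.sum_univ_one]
    exact congrArg (fun t : S.ring => t.1.coeff j) (evp_tmul z a b)
  | add x y hx hy =>
    obtain ⟨n, a, w, h1, h2⟩ := hx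
    obtain ⟨n', a', w', h1', h2'⟩ := hy
    refine ⟨n + n', Fin.append a a', Fin.append w w', fun i => ?_, fun z => ?_⟩
    · refine Fin.addCases (fun i => ?_) (fun i => ?_) i
      · rw [Fin.append_left]; exact h1 i
      · rw [Fin.append_right]; exact h1' i
    · rw [Fin.sum_univ_add]
      simp only [Fin.append_left, Fin.append_right]
      exact (map_add (cf h z j) x y).trans (congrArg₂ (· + ·) (h2 z) (h2' z))

end Fam

end V

end Vale.Agent.P297Z.Sf
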