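import Vale.Agent.P297Z.Hb.ObDefs
import Vale.Agent.P297Z.Hb.Fam0
import Vale.Agent.P297Z.Quot.Fam
import Vale.Agent.P297Z.Quot.Hbq

/-! P297: comparison of the universal families of the Quot spaces with the families given by
generators. -/

set_option linter.all false

open scoped TensorProduct

noncomputable section

namespace Vale.Agent.P297Z.Sf.LD

open Qt

variable {K : Type} [Field K] [Algebra ℂ K] {S : Surf K} {D : LD S} {h : S.All} {W : Spc}

namespace Brx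

theorem evL_sep {Y : Spc} (L : GMod Y) (u : ((Mor.snd W Y).pull L).M)
    (h0 : ∀ z, evL z L u = 0) : u = 0 := by
  classical
  let ψ : W.R ⊗[ℂ] L.M →ₗ[ℂ] ((Mor.snd W Y).pull L).M := TensorProduct.lift (LinearMap.mk₂ ℂ
    (fun a l => (Mor.snd W Y).tm L ((Mor.fst W Y).φ a) l)
    (fun a b l => by rw [map_add, Mor.tm_add_left]) (fun c a l => by rw [map_smul, Mor.csmul_tm])
    (fun a l m => Mor.tm_add _ _ _ _ _) fun c a l => Mor.tm_csmul _ _ _ _ _)
  have hs : ∀ u, ∃ t, ψ t = u := fun u => by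
    refine (Mor.snd W Y).pull_induction L (P := fun u => ∃ t, ψ t = u) ⟨0, map_zero _⟩
      (fun a n => ?_) (fun x y ⟨s, hs⟩ ⟨t, ht⟩ => ⟨s + t, by rw [map_add, hs, ht]⟩) u
    refine TensorProduct.induction_on
      (motive := fun a : W.R ⊗[ℂ] Y.R => ∃ t, ψ t = (Mor.snd W Y).tm L a n) a
      ⟨0, (map_zero _).trans (Mor.tm_zero_left _ _ _).symm⟩ (fun a b => ?_) ?_
    · exact ⟨a ⊗ₜ (b • n), ((Mor.snd W Y).tm_smul L _ b n).trans (congrArg
        (fun r => (Mor.snd W Y).tm L r n) ((mul_comm _ _).trans (Mor.fst_mul_snd a b)))⟩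
    · rintro a b ⟨s, hs⟩ ⟨t, ht⟩
      exact ⟨s + t, by rw [map_add, hs, ht]; exact (Mor.tm_add_left _ _ _ _ _).symm⟩
  obtain ⟨t, rfl⟩ := hs u
  let e := Module.Basis.ofVectorSpace ℂ L.M
  have h1 : ∀ (z : W.Pt) t i, z.1 (TensorProduct.equivFinsuppOfBasisRight e t i) =
      e.repr (evL z L (ψ t)) i := by
    intro z t i
    induction t using TensorProduct.induction_on with
    | zero => simp only [map_zero, Finsupp.zero_apply]
    | add a b ha hb => simp only [map_add, Finsupp.add_apply, ha, hb]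
    | tmul a l =>
      have h2 : evL z L (ψ (a ⊗ₜ l)) = z.1 a • l :=
        (evL_tmul z L ((Mor.fst W Y).φ a) l).trans
          ((congrArg (· • l) (evR_fst z a)).trans (algebraMap_smul _ _ _))
      rw [TensorProduct.equivFinsuppOfBasisRight_apply_tmul_apply, h2, map_smul, map_smul,
        Finsupp.smul_apply, smul_eq_mul, smul_eq_mul, mul_comm]
  have h2 : t = 0 := (TensorProduct.equivFinsuppOfBasisRight e).map_eq_zero_iff.1
    (Finsupp.ext fun i => W.sep _ fun z hz => (h1 ⟨z, hz⟩ t i).trans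
      ((congrArg (fun u => e.repr u i) (h0 ⟨z, hz⟩)).trans (by rw [map_zero]; rfl)))
  rw [h2, map_zero]

theorem evS_sep {Y : Spc} (L : GMod Y) (γ : (W.prod Y).J → ℤ)
    (u : (((Mor.snd W Y).pull L).shift γ).M) (h0 : ∀ z, evS z L γ u = 0) : u = 0 :=
  evL_sep L (unsh _ γ u) h0

theorem εV_sep {Y : Spc} {D : Dat Y} (c : D.Crd W) (v : c.VV.M) (h0 : ∀ z, c.εV z v = 0) :
    v = 0 := funext fun a => evS_sep _ _ (v a) fun z => congrFun (h0 z) a

theorem kc_sub (M : GMod W) {N N' : Submodule W.R M.M} (e : N = N') (hN : M.Stab N)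
    (hN' : M.Stab N') (n : ℕ) : kc (M.sub N hN) n = kc (M.sub N' hN') n := by
  subst e
  rfl

theorem evR_eq {Y : Spc} (z : W.Pt) : evR Y z = evp Y z :=
  Algebra.TensorProduct.ext' fun a b => (evR_tmul z a b).trans (evp_tmul z a b).symm

theorem finrank_pi {ι V : Type} [Fintype ι] [AddCommGroup V] [Module ℂ V] (p : ι → Submodule ℂ V)
    [∀ a, FiniteDimensional ℂ (p a)] :
    Module.finrank ℂ (Submodule.pi Set.univ p) = ∑ a, Module.finrank ℂ (p a) := by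
  rw [← Module.finrank_pi_fintype]
  exact LinearEquiv.finrank_eq
    { toFun := fun v a => ⟨v.1 a, v.2 a trivial⟩
      map_add' := fun _ _ => rfl
      map_smul' := fun _ _ => rfl
      invFun := fun v => ⟨fun a => (v a).1, fun a _ => (v a).2⟩
      left_inv := fun _ => rfl
      right_inv := fun _ => rfl }

/-- the components -/
def cm (v : (D.dat h).V.M) (a : D.ι) : S.lbS (D.A a) := v a

theorem wt_iff {k : ℤ} {v : (D.dat h).V.M} :
    v ∈ (D.dat h).V.wt (dg _ k) ↔ ∀ a, cm v a ∈ (S.lb h (D.A a)).wt fun _ => k :=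
  ⟨fun hv a g => congrFun (hv g) a, fun hv g => funext fun a => hv a g⟩

theorem cm_eq {k : ℤ} {v : (D.dat h).V.M} (hv : v ∈ (D.dat h).V.wt (dg _ k)) (a : D.ι) :
    (cm v a).1 = mon (D.vl h k v a) k := by
  obtain ⟨x, hx, e⟩ := (Sl.mem_lb_wt S h _ _ _).1 (wt_iff.1 hv a)
  have e1 : (cm v a).1 = mon x k := congrArg Subtype.val e
  change _ = mon ((cm v a).1.coeff k) k
  rw [e1, coeff_mon, if_pos rfl]

theorem tv_apply (q : (Fin D.r → D.β) → ℂ) (s : (Fin D.r → D.β) × Fin D.r) :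
    D.tv q s = ∑ i, q (Function.update s.1 s.2 i) • D.ev i :=
  LinearMap.sum_apply _ _ _

theorem vl_smul {v : (D.dat h).V.M} (hv : v ∈ (D.dat h).V.wt (dg _ D.m)) (r : (S.spc h).R)
    (j : ℤ) : D.vl h (D.m + j) (r • v) = (show S.ring from r).1.coeff j • D.vl h D.m v := by
  funext a
  change ((show S.ring from r).1 * (cm v a).1).coeff (D.m + j) = _ * D.vl h D.m v a
  rw [cm_eq hv, mon, ← LaurentPolynomial.single_eq_C_mul_T,
    AddMonoidAlgebra.coeff_mul_single_apply, add_neg_cancel_comm]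

theorem vl_lc {ι : Type} [Fintype ι] {b : ι → (D.dat h).V.M}
    (hb : ∀ s, b s ∈ (D.dat h).V.wt (dg _ D.m)) (ρ : ι → (S.spc h).R) (j : ℤ) :
    D.vl h (D.m + j) (Fintype.linearCombination (S.spc h).R b ρ) =
      ∑ s, (show S.ring from ρ s).1.coeff j • D.vl h D.m (b s) := by
  rw [Fintype.linearCombination_apply, map_sum]
  exact Finset.sum_congr rfl fun s _ => vl_smul (hb s) _ j

theorem cf_nat (r : S.ring) (j : ℕ) : r.1.coeff j ∈ S.W ^ j := S.Wp_nat j ▸ S.mem_ring.1 r.2 j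

theorem cf_neg (r : S.ring) {j : ℤ} (hj : j < 0) : r.1.coeff j = 0 := by
  have h1 := S.mem_ring.1 r.2 j
  rwa [S.Wp_neg hj, Submodule.mem_bot] at h1

end Brx

open Brx

theorem vl_mem (k : ℤ) (v : (D.dat h).V.M) (a : D.ι) : D.vl h k v a ∈ M (D.A a) k := (cm v a).2 k
theorem vl_of_wt {k j : ℤ} {v : (D.dat h).V.M} (hv : v ∈ (D.dat h).V.wt (dg _ k)) (hj : j ≠ k) :
    D.vl h j v = 0 := funext fun a => by
  change (cm v a).1.coeff j = 0
  rw [cm_eq hv, coeff_mon, if_neg hj.symm]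
theorem vl_ext {v : (D.dat h).V.M} (h0 : ∀ k, D.vl h k v = 0) : v = 0 :=
  funext fun a => show cm v a = 0 from
    Subtype.ext (AddMonoidAlgebra.ext (Finsupp.ext fun j => congrFun (h0 j) a))
theorem exists_vl (h : S.All) (k : ℤ) {x : D.ι → K} (hx : ∀ a, x a ∈ M (D.A a) k) :
    ∃ v ∈ (D.dat h).V.wt (dg _ k), D.vl h k v = x :=
  ⟨fun a => S.sec k (x a) (hx a), wt_iff.2 fun a => Sl.sec_mem_wt S h k _ (hx a),
    funext fun a => (coeff_mon (x a) k k).trans (if_pos rfl)⟩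
theorem vl_eV (i : D.β) : D.vl h D.m ((D.dat h).eV i) = D.ev i := by
  funext a
  change (Pi.single (M := fun a => S.lbS (D.A a)) (D.a i) (S.sec D.m (D.e i) (D.e_mem i))
    a).1.coeff D.m = Pi.single (M := fun _ => K) (D.a i) (D.e i) a
  by_cases e : a = D.a i
  · subst e
    rw [Pi.single_eq_same, Pi.single_eq_same]
    exact (coeff_mon _ _ _).trans (if_pos rfl)
  · rw [Pi.single_eq_of_ne e, Pi.single_eq_of_ne e]
    rfl
theorem vl_v0 (q : (Fin D.r → D.β) → ℂ) (s : (Fin D.r → D.β) × Fin D.r) :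
    D.vl h D.m ((D.dat h).v0 q s) = D.tv q s := by
  rw [tv_apply]
  refine (map_sum (D.vl h D.m) _ _).trans (Finset.sum_congr rfl fun i _ => ?_)
  exact (map_smul (D.vl h D.m) _ _).trans (congrArg (q (Function.update s.1 s.2 i) • ·) (vl_eV i))
theorem vl_μ0 (q : (Fin D.r → D.β) → ℂ) (ρ : (D.dat h).Φ0.M) (j : ℤ) :
    D.vl h (D.m + j) ((D.dat h).μ0 q ρ) = ∑ s, (show S.ring from ρ s).1.coeff j • D.tv q s :=
  (vl_lc ((D.dat h).v0_wt q) ρ j).trans
    (Finset.sum_congr rfl fun s _ => congrArg (_ • ·) (vl_v0 q s))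

namespace Brx

theorem vl_inj {k : ℤ} {v : (D.dat h).V.M} (hv : v ∈ (D.dat h).V.wt (dg _ k))
    (h0 : D.vl h k v = 0) : v = 0 := vl_ext fun j => by
  by_cases e : j = k
  · rw [e, h0]
  · exact vl_of_wt hv e

theorem vl_ext' {v : (D.dat h).V.M} (h0 : ∀ j : ℤ, D.vl h (D.m + j) v = 0) : v = 0 :=
  vl_ext fun k => add_sub_cancel (D.m : ℤ) k ▸ h0 (k - D.m)

theorem wt_of_vl {k : ℤ} {v : (D.dat h).V.M} (h0 : ∀ j, j ≠ k → D.vl h j v = 0) :
    v ∈ (D.dat h).V.wt (dg _ k) := by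
  obtain ⟨u, hu, e⟩ := exists_vl h k (vl_mem k v)
  have h1 : v - u = 0 := vl_ext fun j => by
    rw [map_sub]
    by_cases e1 : j = k
    · rw [e1, e, sub_self]
    · rw [h0 j e1, vl_of_wt hu e1, sub_self]
  rwa [sub_eq_zero.1 h1]

theorem vl_gen {q : (Fin D.r → D.β) → ℂ} (j : ℕ) {v : (D.dat h).V.M} (hv : v ∈ (D.dat h).gen q) :
    D.vl h (D.m + j) v ∈ Gn S.W (D.tv q) j := by
  obtain ⟨ρ, rfl⟩ := hv
  exact ⟨_, fun s => cf_nat _ j, (vl_μ0 q ρ j).symm⟩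

/-- a family of forms -/
def frm (h : S.All) {j : ℕ} {x : (Fin D.r → D.β) × Fin D.r → K} (hx : ∀ s, x s ∈ S.W ^ j) :
    (D.dat h).Φ0.M := fun s => S.form j (x s) (hx s)

theorem sum_frm {j : ℕ} {x : (Fin D.r → D.β) × Fin D.r → K} (hx : ∀ s, x s ∈ S.W ^ j) (i : ℤ)
    (u : (Fin D.r → D.β) × Fin D.r → D.ι → K) :
    ∑ s, (show S.ring from frm h hx s).1.coeff i • u s =
      if (j : ℤ) = i then ∑ s, x s • u s else 0 := by
  refine (Finset.sum_congr rfl fun s _ => congrArg (· • u s) (coeff_mon (x s) j i)).trans ?_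
  split_ifs
  · rfl
  · exact Finset.sum_eq_zero fun s _ => zero_smul _ _

theorem exists_gen {q : (Fin D.r → D.β) → ℂ} {j : ℕ} {x : D.ι → K} (hx : x ∈ Gn S.W (D.tv q) j) :
    ∃ v ∈ (D.dat h).V.wt (dg _ (D.m + j)), v ∈ (D.dat h).gen q ∧ D.vl h (D.m + j) v = x := by
  obtain ⟨c, hc, rfl⟩ := hx
  refine ⟨(D.dat h).μ0 q (frm h hc), wt_of_vl fun k hk => ?_, ⟨_, rfl⟩, ?_⟩
  · rw [← add_sub_cancel (D.m : ℤ) k, vl_μ0, sum_frm, if_neg (by omega)]
  · rw [vl_μ0, sum_frm, if_pos rfl]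

theorem fr_map {k : ℤ} {N : Submodule ℂ (D.dat h).V.M} (hN : N ≤ (D.dat h).V.wt (dg _ k)) :
    Module.finrank ℂ (N.map (D.vl h k)) = Module.finrank ℂ N := by
  rw [← LinearMap.range_domRestrict]
  exact LinearMap.finrank_range_of_inj ((injective_iff_map_eq_zero _).2 fun v e =>
    Subtype.ext (vl_inj (hN v.2) e))

theorem map_wt (h : S.All) (k : ℤ) : ((D.dat h).V.wt (dg _ k)).map (D.vl h k) =
    Submodule.pi Set.univ fun a => M (D.A a) k := by
  refine le_antisymm ?_ fun x hx => exists_vl h k fun a => hx a trivial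
  rintro _ ⟨v, -, rfl⟩ a -
  exact vl_mem k v a

theorem ev_eq (h : S.All) : D.ev = D.vl h D.m ∘ (D.dat h).eV := funext fun i => (vl_eV i).symm

theorem span_le (h : S.All) :
    Submodule.span ℂ (Set.range (D.dat h).eV) ≤ (D.dat h).V.wt (dg _ D.m) :=
  Submodule.span_le.2 (by rintro _ ⟨i, rfl⟩; exact (D.dat h).eV_wt i)

end Brx

theorem mem_gen (q : (Fin D.r → D.β) → ℂ) (j : ℕ) {v : (D.dat h).V.M}
    (hv : v ∈ (D.dat h).V.wt (dg _ (D.m + j))) :
    v ∈ (D.dat h).gen q ↔ D.vl h (D.m + j) v ∈ Gn S.W (D.tv q) j := by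
  refine ⟨vl_gen j, fun hx => ?_⟩
  obtain ⟨u, h1, h2, e⟩ := Brx.exists_gen (h := h) hx
  rwa [sub_eq_zero.1 (vl_inj (sub_mem hv h1) (by rw [map_sub, e, sub_self]))]
theorem finrank_V (h : S.All) (k : ℤ) : Module.finrank ℂ ((D.dat h).V.wt (dg _ k)) =
    ∑ a, Module.finrank ℂ (M (D.A a) k) := by
  haveI := fun a => (h.fg (D.A a)).1 k
  rw [← fr_map le_rfl, map_wt, finrank_pi]
theorem hq_gen (h : S.All) (q : (Fin D.r → D.β) → ℂ) (j : ℕ) :
    hq (D.dat h).V ((D.dat h).gen q) (D.m + j) =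
      (∑ a, Module.finrank ℂ (M (D.A a) (D.m + j)) : ℕ) - Module.finrank ℂ (Gn S.W (D.tv q) j) := by
  have e : ((D.dat h).V.wt (dg _ (D.m + j)) ⊓ ((D.dat h).gen q).restrictScalars ℂ).map
      (D.vl h (D.m + j)) = Gn S.W (D.tv q) j := by
    refine le_antisymm ?_ fun x hx => ?_
    · rintro _ ⟨v, hv, rfl⟩
      exact vl_gen j hv.2
    · obtain ⟨u, h1, h2, e⟩ := Brx.exists_gen (h := h) hx
      exact ⟨u, ⟨h1, h2⟩, e⟩
  rw [hq, finrank_V, ← fr_map inf_le_left, e]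
theorem ind_iff (h : S.All) : LinearIndependent ℂ (D.dat h).eV ↔ LinearIndependent ℂ D.ev := by
  rw [ev_eq h]
  exact ((D.vl h D.m).linearIndependent_iff_of_disjoint (Submodule.disjoint_def.2
    fun v h1 h2 => vl_inj (span_le h h1) h2)).symm
theorem span_iff (h : S.All) :
    Submodule.span ℂ (Set.range (D.dat h).eV) = (D.dat h).V.wt (dg _ D.m) ↔
      Submodule.span ℂ (Set.range D.ev) = Submodule.pi Set.univ fun a => M (D.A a) D.m := by
  have e : Submodule.span ℂ (Set.range D.ev) =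
      (Submodule.span ℂ (Set.range (D.dat h).eV)).map (D.vl h D.m) := by
    rw [Submodule.map_span, ← Set.range_comp]
    exact congrArg (fun u => Submodule.span ℂ (Set.range u)) (ev_eq h)
  rw [e, ← map_wt h]
  refine ⟨fun h1 => by rw [h1], fun h1 => le_antisymm (span_le h) fun v hv => ?_⟩
  obtain ⟨u, hu, e1⟩ := h1.ge ⟨v, hv, rfl⟩
  rwa [sub_eq_zero.1 (vl_inj (sub_mem hv (span_le h hu)) (by rw [map_sub, e1, sub_self]))]

theorem Brx.gen_of {q : (Fin D.r → D.β) → ℂ} {v : (D.dat h).V.M}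
    (h1 : ∀ j : ℕ, D.vl h (D.m + j) v ∈ Gn S.W (D.tv q) j)
    (h2 : ∀ j : ℤ, j < 0 → D.vl h (D.m + j) v = 0) : v ∈ (D.dat h).gen q := by
  obtain ⟨s, f, hf, rfl⟩ := exists_sum_wt (D.dat h).V.span v
  have hf' : ∀ γ, f γ ∈ (D.dat h).V.wt (dg _ (γ ())) := hf
  refine Submodule.sum_mem _ fun γ hγ => ?_
  have e : D.vl h (γ ()) (∑ γ ∈ s, f γ) = D.vl h (γ ()) (f γ) := by
    rw [map_sum]
    exact Finset.sum_eq_single_of_mem γ hγ fun δ _ hδ =>
      vl_of_wt (hf' δ) fun e => hδ (funext fun _ => e.symm)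
  have h3 := hf' γ
  generalize γ () = k at e h3
  obtain ⟨j, rfl⟩ : ∃ j : ℤ, k = D.m + j := ⟨k - D.m, by ring⟩
  rcases lt_or_ge j 0 with hj | hj
  · rw [vl_inj h3 (e.symm.trans (h2 j hj))]
    exact zero_mem _
  · lift j to ℕ using hj
    exact (mem_gen q j h3).2 (e ▸ h1 j)

theorem rel_iff (h : S.All) (q : (Fin D.r → D.β) → ℂ) (b : (Fin D.r → D.β) × Fin D.r → (D.dat h).V.M)
    (hb : ∀ s, b s ∈ (D.dat h).V.wt (dg _ D.m)) :
    (∀ ρ : (D.dat h).Φ0.M, (D.dat h).μ0 q ρ = 0 →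
      Fintype.linearCombination (S.spc h).R b ρ ∈ (D.dat h).gen q) ↔
      ∀ j, ∀ x ∈ RelV S.W (D.tv q) j, ∑ s, x s • D.vl h D.m (b s) ∈ Gn S.W (D.tv q) j := by
  refine ⟨fun H j x hx => ?_, fun H ρ hρ => gen_of (fun j => ?_) fun j hj => ?_⟩
  · have h1 := vl_gen j (H (frm h hx.1) (vl_ext' fun i => by
      rw [vl_μ0, sum_frm, hx.2, ite_self]))
    exact (congrArg (· ∈ Gn S.W (D.tv q) j) ((vl_lc hb (frm h hx.1) j).trans
      ((sum_frm hx.1 j _).trans (if_pos rfl)))).mp h1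
  · exact (congrArg (· ∈ Gn S.W (D.tv q) j) (vl_lc hb ρ j)).mpr
      (H j _ ⟨fun s => cf_nat _ j, (vl_μ0 q ρ j).symm.trans (by rw [hρ, map_zero])⟩)
  · exact (vl_lc hb ρ j).trans (Finset.sum_eq_zero fun s _ => by rw [cf_neg _ hj, zero_smul])
/-- the condition of the block TAN -/
theorem tan_iff (h : S.All) (q τ : (Fin D.r → D.β) → ℂ) :
    (∀ ρ : (D.dat h).Φ0.M, (D.dat h).μ0 q ρ = 0 → (D.dat h).μ0 τ ρ ∈ (D.dat h).gen q) ↔
      ∀ j, ∀ x ∈ RelV S.W (D.tv q) j, ∑ s, x s • D.tv τ s ∈ Gn S.W (D.tv q) j := by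
  have h1 := rel_iff h q ((D.dat h).v0 τ) ((D.dat h).v0_wt τ)
  simp only [vl_v0] at h1
  exact h1

variable (c : (D.dat h).Crd W)

theorem fam_u (z : W.Pt) : (D.fam c).u z = D.tv (c.cz z) :=
  funext fun s => (tv_apply (c.cz z) s).symm
theorem fam_deg : (D.fam c).deg h = c.ds := rfl
theorem εV_sep (v : c.VV.M) (h0 : ∀ z, c.εV z v = 0) : v = 0 := Brx.εV_sep c v h0
theorem ker_μ (k : (D.fam c).ι → (W.prod (S.spc h)).R) : c.μ k = 0 ↔ k ∈ (D.fam c).Kt h := by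
  have key : ∀ z j, D.vl h (D.m + j) (c.εV z (c.μ k)) =
      ∑ a, cf h z j (k a) • (D.fam c).u z a := fun z j => by
    rw [fam_u]
    refine ((congrArg (D.vl h (D.m + j)) (c.εV_μ z k)).trans (vl_μ0 _ _ j)).trans
      (Finset.sum_congr rfl fun s _ => congrArg (· • D.tv (c.cz z) s) ?_)
    exact congrArg (fun f : (W.prod (S.spc h)).R →ₐ[ℂ] (S.spc h).R =>
      (show S.ring from f (k s)).1.coeff j) (evR_eq z)
  refine ⟨fun h0 z j => (key z j).symm.trans ?_, fun hk => εV_sep c _ fun z => vl_ext' fun j =>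
    (key z j).trans (hk z j)⟩
  rw [h0, map_zero, map_zero]
theorem kc_K1 (n : ℕ) : kc c.K1 n = kc ((D.fam c).KM h) n :=
  kc_sub c.Φ (N := LinearMap.ker c.μ) (N' := (D.fam c).Kt h) (Submodule.ext fun k => ker_μ c k)
    c.μ_hom.stab_ker ((D.fam c).Kt_stab h) n
theorem K1_eq : kc c.K1 (D.dat h).rK = (D.fam c).Kcl h (Fintype.card D.ι) :=
  (kc_K1 c _).trans (congrArg (fun n => kc ((D.fam c).KM h) (Fintype.card (D.fam c).ι - n))
    (Finset.card_eq_sum_ones (Finset.univ : Finset D.ι)).symm)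
theorem eK_eq : c.eK = (D.fam c).Ecl h (Fintype.card D.ι) := congrArg₂ (· - ·) c.kΦ (K1_eq c)
theorem vK_eq : c.vK =
    ∑ a, pullK (Mor.fst _ _) (line W (c.τ a)) * pullK (Mor.snd _ _) (S.lK h (D.A a)) :=
  c.kV.trans (Finset.sum_congr rfl fun a _ => congrArg
    (fun t => pullK (Mor.fst _ _) (line W (c.τ a)) * pullK (Mor.snd W (S.spc h)) t)
    (kc_eq (Sl.lb_isBun S h (D.A a))).symm)

end Vale.Agent.P297Z.Sf.LD
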