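import Vale.Agent.P297Z.Dim.Alg

/-! P297: the degree lemma, commutative algebra. -/

set_option linter.all false

open scoped TensorProduct nonZeroDivisors

noncomputable section

namespace Vale.Agent.P297Z.Hb.Dg

/-- the theorem of zeros -/
theorem nilp_of_maps (k Ω : Type) {A : Type} [Field k] [Field Ω] [IsAlgClosed Ω] [Algebra k Ω]
    [CommRing A] [Algebra k A] [Algebra.FiniteType k A] {a : A}
    (h : ∀ σ : A →ₐ[k] Ω, σ a = 0) : IsNilpotent a := by
  have hJ : IsJacobsonRing A := isJacobsonRing_of_finiteType (A := k)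
  rw [← mem_nilradical, nilradical, Ideal.radical_eq_jacobson, Ideal.jacobson, Ideal.mem_sInf]
  rintro m ⟨-, hm⟩
  let _ := Ideal.Quotient.field m
  have := finite_of_finite_type_of_isJacobsonRing k (A ⧸ m)
  let τ : (A ⧸ m) →ₐ[k] Ω := IsAlgClosed.lift
  have h1 : τ (Ideal.Quotient.mk m a) = 0 := h (τ.comp (Ideal.Quotient.mkₐ k m))
  exact Ideal.Quotient.eq_zero_iff_mem.1 ((map_eq_zero τ).1 h1)

/-- the same for an ideal -/
theorem mem_radical_of_maps {A : Type} [CommRing A] [Algebra ℂ A] [Algebra.FiniteType ℂ A]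
    {I : Ideal A} {a : A} (h : ∀ z : A →ₐ[ℂ] ℂ, (∀ x ∈ I, z x = 0) → z a = 0) :
    a ∈ I.radical := by
  obtain ⟨n, hn⟩ : IsNilpotent (Ideal.Quotient.mk I a) := nilp_of_maps ℂ ℂ fun σ =>
    h (σ.comp (Ideal.Quotient.mkₐ ℂ I)) fun x hx => by
      change σ (Ideal.Quotient.mk I x) = 0
      rw [Ideal.Quotient.eq_zero_iff_mem.2 hx, map_zero]
  exact ⟨n, Ideal.Quotient.eq_zero_iff_mem.1 (by rw [map_pow, hn])⟩

/-- the algebraic closure of the fraction field -/
abbrev Om (B : Type) [CommRing B] [IsDomain B] : Type := AlgebraicClosure (FractionRing B)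

section generic

variable {B A : Type} [CommRing B] [IsDomain B] [CommRing A] [Algebra B A]

theorem om_ne {b : B} (hb : b ≠ 0) : algebraMap B (Om B) b ≠ 0 := by
  rw [IsScalarTower.algebraMap_apply B (FractionRing B) (Om B), map_ne_zero]
  exact IsFractionRing.to_map_ne_zero_of_mem_nonZeroDivisors (mem_nonZeroDivisors_of_ne_zero hb)

theorem nilp_generic [Algebra.FiniteType B A] {a : A} (h : ∀ σ : A →ₐ[B] Om B, σ a = 0) :
    ∃ (b : B) (n : ℕ), b ≠ 0 ∧ b • a ^ n = 0 := by
  obtain ⟨n, hn⟩ : IsNilpotent ((1 : FractionRing B) ⊗ₜ[B] a) :=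
    nilp_of_maps (FractionRing B) (Om B) fun σ =>
      h ((σ.restrictScalars B).comp Algebra.TensorProduct.includeRight)
  rw [Algebra.TensorProduct.tmul_pow, one_pow] at hn
  obtain ⟨b, hb⟩ := (IsLocalizedModule.eq_zero_iff B⁰
    (TensorProduct.mk B (FractionRing B) A 1)).1 hn
  exact ⟨b, n, nonZeroDivisors.coe_ne_zero b, hb⟩

theorem rank_lt [Algebra.FiniteType B A] [Algebra.IsAlgebraic B A] :
    Module.rank B A < Cardinal.aleph0 := by
  have h1 : Module.Finite (FractionRing B) (FractionRing B ⊗[B] A) := Algebra.IsIntegral.finite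
  rw [← (TensorProduct.isBaseChange B A (FractionRing B)).rank_eq]
  exact Module.rank_lt_aleph0 _ _

/-- a function with the same value at all the generic points -/
theorem dep_of_two [CharZero B] [IsReduced A] [Algebra.FiniteType B A] {a v W : A} (hW : W ∈ A⁰)
    (hv : ∀ σ : A →ₐ[B] Om B, σ W ≠ 0 → σ v ≠ 0)
    (h : ∀ σ τ : A →ₐ[B] Om B, σ W ≠ 0 → τ W ≠ 0 → σ a * τ v = τ a * σ v) :
    ∃ b c : B, b ≠ 0 ∧ b • a = c • v := by
  have key : ∀ x : A, (∀ σ : A →ₐ[B] Om B, σ W ≠ 0 → σ x = 0) → ∃ b : B, b ≠ 0 ∧ b • x = 0 := by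
    intro x hx
    obtain ⟨b, n, hb, h1⟩ := nilp_generic (B := B) (a := W * x) fun σ => by
      by_cases o : σ W = 0
      · rw [map_mul, o, zero_mul]
      · rw [map_mul, hx σ o, mul_zero]
    have h2 : b • (W * x) = 0 := by
      refine IsNilpotent.eq_zero ⟨n + 1, ?_⟩
      rw [smul_pow, pow_succ' b, pow_succ (W * x), mul_comm b, mul_smul, ← smul_mul_assoc, h1,
        zero_mul, smul_zero]
    refine ⟨b, hb, (mul_left_mem_nonZeroDivisors_eq_zero_iff hW).1 ?_⟩
    rw [mul_smul_comm, h2]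
  by_cases h0 : ∃ σ : A →ₐ[B] Om B, σ W ≠ 0
  · obtain ⟨σ, hσ⟩ := h0
    have h1 : σ a / σ v ∈ Set.range (algebraMap (FractionRing B) (Om B)) := by
      rw [InfiniteGalois.mem_range_algebraMap_iff_fixed]
      intro θ
      let τ : A →ₐ[B] Om B := ((θ : Om B →ₐ[FractionRing B] Om B).restrictScalars B).comp σ
      have h2 : τ W ≠ 0 := fun o => hσ ((map_eq_zero θ).1 o)
      rw [map_div₀]
      exact ((div_eq_div_iff (hv σ hσ) (hv τ h2)).2 (h σ τ hσ h2)).symm
    obtain ⟨q, hq⟩ := h1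
    obtain ⟨c, b, hb, rfl⟩ := IsFractionRing.div_surjective (A := B) q
    have hb' := om_ne (nonZeroDivisors.ne_zero hb)
    rw [map_div₀, ← IsScalarTower.algebraMap_apply, ← IsScalarTower.algebraMap_apply,
      div_eq_div_iff hb' (hv σ hσ)] at hq
    obtain ⟨b', h2, h3⟩ := key (b • a - c • v) fun τ hτ => by
      apply mul_left_cancel₀ (hv σ hσ)
      rw [map_sub, map_smul, map_smul, Algebra.smul_def, Algebra.smul_def]
      linear_combination algebraMap B (Om B) b * (h σ τ hσ hτ).symm - τ v * hq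
    refine ⟨b' * b, b' * c, mul_ne_zero h2 (nonZeroDivisors.ne_zero hb), ?_⟩
    rw [mul_smul, mul_smul, ← sub_eq_zero, ← smul_sub, h3]
  · obtain ⟨b, h1, h2⟩ := key a fun σ hσ => (h0 ⟨σ, hσ⟩).elim
    exact ⟨b, 0, h1, by rw [h2, zero_smul]⟩

/-- from complex points to generic points -/
theorem two_of_pts [Algebra ℂ B] [Algebra ℂ A] [IsScalarTower ℂ B A] [Algebra.FiniteType ℂ A]
    {a v W : A} {β : B} (hβ : β ≠ 0)
    (h : ∀ z z' : A →ₐ[ℂ] ℂ, (∀ b, z (algebraMap B A b) = z' (algebraMap B A b)) →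
      z (algebraMap B A β) ≠ 0 → z W ≠ 0 → z' W ≠ 0 → z a * z' v = z' a * z v)
    (σ τ : A →ₐ[B] Om B) (hσ : σ W ≠ 0) (hτ : τ W ≠ 0) : σ a * τ v = τ a * σ v := by
  have h1 : Algebra.FiniteType B A := Algebra.FiniteType.of_restrictScalars_finiteType ℂ B A
  have h2 : Algebra.FiniteType ℂ (A ⊗[B] A) := Algebra.FiniteType.trans (S := A) ‹_› inferInstance
  have h3 : IsNilpotent (β • ((W ⊗ₜ[B] W) * (a ⊗ₜ[B] v - v ⊗ₜ[B] a))) := by
    refine nilp_of_maps ℂ ℂ fun y => ?_
    let z : A →ₐ[ℂ] ℂ := y.comp Algebra.TensorProduct.includeLeft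
    let z' : A →ₐ[ℂ] ℂ := y.comp (Algebra.TensorProduct.includeRight.restrictScalars ℂ)
    have e : ∀ s t : A, y (s ⊗ₜ[B] t) = z s * z' t := fun s t => by
      change _ = y (s ⊗ₜ[B] 1) * y (1 ⊗ₜ[B] t)
      rw [← map_mul, Algebra.TensorProduct.tmul_mul_tmul, mul_one, one_mul]
    have e2 : ∀ b, z (algebraMap B A b) = z' (algebraMap B A b) := fun b => by
      change y (algebraMap B A b ⊗ₜ[B] 1) = y (1 ⊗ₜ[B] algebraMap B A b)
      rw [Algebra.algebraMap_eq_smul_one, TensorProduct.smul_tmul]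
    rw [Algebra.smul_def, map_mul, map_mul, map_sub, e, e, e, Algebra.TensorProduct.algebraMap_apply,
      e, map_one, mul_one]
    by_cases o1 : z (algebraMap B A β) = 0
    · rw [o1, zero_mul]
    by_cases o2 : z W = 0
    · rw [o2, zero_mul, zero_mul, mul_zero]
    by_cases o3 : z' W = 0
    · rw [o3, mul_zero, zero_mul, mul_zero]
    rw [h z z' e2 o1 o2 o3, mul_comm (z' a), sub_self, mul_zero, mul_zero]
  have h4 := (h3.map (Algebra.TensorProduct.productMap σ τ)).eq_zero
  rw [map_smul, map_mul, map_sub, Algebra.TensorProduct.productMap_apply_tmul,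
    Algebra.TensorProduct.productMap_apply_tmul, Algebra.TensorProduct.productMap_apply_tmul,
    Algebra.smul_def, mul_eq_zero, mul_eq_zero, mul_eq_zero, sub_eq_zero] at h4
  rw [((h4.resolve_left (om_ne hβ)).resolve_left fun o => o.elim hσ hτ), mul_comm]

end generic

/-- a combination which is not a zero divisor -/
theorem exists_nzd {A : Type} [CommRing A] [Algebra ℂ A] [IsNoetherianRing A] [IsReduced A]
    (V : Submodule ℂ A) (h : ∀ p ∈ minimalPrimes A, ∃ a ∈ V, a ∉ p) : ∃ w ∈ V, w ∈ A⁰ := by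
  have : Finite (minimalPrimes A) := (minimalPrimes.finite_of_isNoetherianRing A).to_subtype
  obtain ⟨w, hw⟩ := Submodule.exists_forall_notMem_of_forall_ne_top
    (fun p : minimalPrimes A => (p.1.restrictScalars ℂ).comap V.subtype) fun p o => by
      obtain ⟨a, h1, h2⟩ := h p.1 p.2
      have h3 : (⟨a, h1⟩ : V) ∈ (p.1.restrictScalars ℂ).comap V.subtype := o ▸ Submodule.mem_top
      exact h2 h3
  refine ⟨w, w.2, mem_nonZeroDivisors_iff_right.2 fun x hx => IsNilpotent.eq_zero ?_⟩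
  rw [← mem_nilradical, nilradical, ← Ideal.sInf_minimalPrimes, Ideal.mem_sInf]
  intro p hp
  exact (hp.1.1.mem_or_mem (hx ▸ p.zero_mem)).resolve_right (hw ⟨p, hp⟩)

/-- small components give an algebraic extension -/
theorem alg_of_td {B A : Type} [CommRing B] [IsDomain B] [Algebra ℂ B] [Algebra.FiniteType ℂ B]
    [CommRing A] [Algebra ℂ A] [Algebra.FiniteType ℂ A] [IsReduced A] [Algebra B A]
    [IsScalarTower ℂ B A] (h : ∀ p ∈ minimalPrimes A, Dim.td ℂ (A ⧸ p) ≤ Dim.td ℂ B) :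
    Algebra.IsAlgebraic B A := by
  have := Algebra.FiniteType.isNoetherianRing ℂ A
  refine ⟨fun a => ?_⟩
  have h1 : ∀ p ∈ minimalPrimes A, ∃ Q : Polynomial B, Q ≠ 0 ∧ Polynomial.aeval a Q ∈ p := by
    intro p hp
    have := hp.1.1
    have h2 : Algebra.IsAlgebraic B (A ⧸ p) := by
      by_cases o : Function.Injective (algebraMap B (A ⧸ p))
      · have := (faithfulSMul_iff_algebraMap_injective _ _).2 o
        exact (Dim.td_eq_iff (k := ℂ)).1 (le_antisymm
          (Dim.td_le_of_injective (IsScalarTower.toAlgHom ℂ B (A ⧸ p)) o) (h p hp))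
      · exact Algebra.isAlgebraic_of_not_injective o
    obtain ⟨Q, h3, h4⟩ := h2.isAlgebraic (Ideal.Quotient.mkₐ B p a)
    rw [Polynomial.aeval_algHom_apply] at h4
    exact ⟨Q, h3, Ideal.Quotient.eq_zero_iff_mem.1 h4⟩
  choose! Q h2 h3 using h1
  have hf := minimalPrimes.finite_of_isNoetherianRing A
  refine ⟨∏ p ∈ hf.toFinset, Q p, Finset.prod_ne_zero_iff.2 fun p hp => h2 p (hf.mem_toFinset.1 hp),
    IsNilpotent.eq_zero ?_⟩
  rw [← mem_nilradical, nilradical, ← Ideal.sInf_minimalPrimes, Ideal.mem_sInf]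
  intro p hp
  rw [map_prod]
  exact Ideal.mem_of_dvd _ (Finset.dvd_prod_of_mem _ (hf.mem_toFinset.2 hp)) (h3 p hp)

section recur

variable {A Γ E : Type*} [AddCommGroup A] [DecidableEq E] (N : AddSubgroup A) (u : Γ → A →+ A)

theorem rec_dir (hu : ∀ γ x, u γ x - x ∈ N) (d : E → ℤ) (l : List Γ) :
    ∀ (H : (E → ℤ) → A) (c : A) (U : Set (E → ℤ)), (∀ k ∈ U, k + d ∈ U) →
      l.foldr (fun γ H' k => H' k - u γ (H' (k - d))) H = 0 → (∀ k ∈ U, H k - c ∈ N) →
      ∀ (n : ℕ) k, k + n • d ∈ U → H k - c ∈ N := by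
  induction l using List.reverseRecOn with
  | nil =>
    intro H c U _ h0 h n k hk
    have h1 := h _ hk
    have h2 : H = 0 := h0
    rw [h2] at h1 ⊢
    exact h1
  | append_singleton l γ ih =>
    intro H c U hU h0 h n
    rw [List.foldr_append] at h0
    have h1 := ih _ 0 {k | k - d ∈ U} (fun k hk => by
      have := hU _ hk
      rwa [Set.mem_setOf_eq, add_sub_cancel_right, ← sub_add_cancel k d]) h0 fun k hk => by
        have h2 := h _ (hU _ hk)
        rw [sub_add_cancel] at h2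
        have h3 := sub_mem (sub_mem h2 (h _ hk)) (hu γ (H (k - d)))
        simp only [List.foldr]
        convert h3 using 1
        abel
    induction n with
    | zero => exact fun k hk => h k (by simpa using hk)
    | succ n ih' =>
      intro k hk
      have h2 := ih' (k + d) (by rwa [add_assoc, ← succ_nsmul'])
      have h3 := h1 (n + 1) (k + d) (by rwa [Set.mem_setOf_eq, add_right_comm, add_sub_cancel_right])
      simp only [List.foldr, add_sub_cancel_right] at h3
      have h4 := sub_mem (sub_mem h2 h3) (hu γ (H k))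
      convert h4 using 1
      abel

theorem rec_const [Fintype E] (hu : ∀ γ x, u γ x - x ∈ N) {H : (E → ℤ) → A}
    (hH : ∀ e : E, ∃ l : List Γ,
      l.foldr (fun γ H' k => H' k - u γ (H' (k - Pi.single e 1))) H = 0)
    {c : A} {k₀ : E → ℤ} (h : ∀ k, k₀ ≤ k → H k - c ∈ N) (k : E → ℤ) : H k - c ∈ N := by
  have key : ∀ s : Finset E, ∀ k : E → ℤ, (∀ e ∉ s, k₀ e ≤ k e) → H k - c ∈ N := by
    intro s
    induction s using Finset.induction_on with
    | empty => exact fun k hk => h k fun e => hk e (Finset.notMem_empty e)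
    | insert e s he ih =>
      intro k hk
      obtain ⟨l, hl⟩ := hH e
      refine rec_dir N u hu (Pi.single e 1) l H c {k | ∀ e ∉ s, k₀ e ≤ k e}
        (fun k hk e' he' => (hk e' he').trans ?_) hl ih (k₀ e - k e).toNat k fun e' he' => ?_
      · rw [Pi.add_apply, Pi.single_apply]
        split_ifs <;> omega
      · rw [Pi.add_apply, Pi.smul_apply, Pi.single_apply]
        split_ifs with o
        · subst o
          simp only [nsmul_eq_mul, mul_one]
          omega
        · rw [smul_zero, add_zero]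
          exact hk e' fun o' => (Finset.mem_insert.1 o').elim o he'
  exact key Finset.univ k fun e he => (he (Finset.mem_univ e)).elim

end recur

end Vale.Agent.P297Z.Hb.Dg
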