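import Vale.Agent.P297Z.Hb.DegAlg

/-! P297: the degree lemma, the ranks of the pieces of a graded algebra. -/

set_option linter.all false

open scoped nonZeroDivisors

noncomputable section

namespace Vale.Agent.P297Z.Hb.Dg

/-- a graded algebra with finite pieces and regular elements in the basic degrees -/
structure Gd (B A E : Type) [CommRing B] [CommRing A] [Algebra B A] [DecidableEq E] where
  V : (E → ℤ) → Submodule B A
  π : (E → ℤ) → A →ₗ[B] A
  π_mem : ∀ k a, π k a ∈ V k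
  π_self : ∀ k, ∀ a ∈ V k, π k a = a
  π_ne : ∀ k l, l ≠ k → ∀ a ∈ V l, π k a = 0
  mul : ∀ k l, ∀ a ∈ V k, ∀ b ∈ V l, a * b ∈ V (k + l)
  one : 1 ∈ V 0
  fg : ∀ k, (V k).FG
  w : E → A
  w_mem : ∀ e, w e ∈ V (Pi.single e 1)
  w_nzd : ∀ e, w e ∈ A⁰

namespace Gd

variable {B A E : Type} [CommRing B] [CommRing A] [Algebra B A] [DecidableEq E] [Fintype E]
  (D : Gd B A E)

instance (k : E → ℤ) : Module.Finite B (D.V k) := Module.Finite.iff_fg.2 (D.fg k)

/-- the monomials -/
def pw (c : E → ℕ) : A := ∏ e, D.w e ^ c e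

theorem pw_nzd (c : E → ℕ) : D.pw c ∈ A⁰ := prod_mem fun e _ => pow_mem (D.w_nzd e) _

theorem pow_mem' (e : E) (n : ℕ) : D.w e ^ n ∈ D.V (n • Pi.single e 1) := by
  induction n with
  | zero => rw [pow_zero, zero_smul]; exact D.one
  | succ n ih => rw [pow_succ, succ_nsmul]; exact D.mul _ _ _ ih _ (D.w_mem e)

theorem pw_mem (c : E → ℕ) : D.pw c ∈ D.V fun e => c e := by
  have h : ∀ s : Finset E, ∏ e ∈ s, D.w e ^ c e ∈ D.V (∑ e ∈ s, c e • Pi.single e 1) := by
    intro s
    induction s using Finset.induction_on with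
    | empty => rw [Finset.prod_empty, Finset.sum_empty]; exact D.one
    | insert e s he ih =>
      rw [Finset.prod_insert he, Finset.sum_insert he]
      exact D.mul _ _ _ (D.pow_mem' e _) _ ih
  have e : (fun e => (c e : ℤ)) = ∑ e, c e • Pi.single e 1 := by
    funext e
    simp [Finset.sum_apply, Pi.single_apply]
  rw [e]
  exact h Finset.univ

theorem pw_mem' {k : E → ℤ} (hk : 0 ≤ k) : (D.pw fun e => (k e).toNat) ∈ D.V k := by
  convert D.pw_mem _ using 2
  funext e
  exact (Int.toNat_of_nonneg (hk e)).symm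

/-- Nakayama -/
theorem nak {k : E → ℤ} (hk : 0 ≤ k) (m : Ideal B) (h : ∀ a ∈ D.V k, a ∈ m.map (algebraMap B A)) :
    ∃ r : B, r - 1 ∈ m ∧ algebraMap B A r = 0 := by
  obtain ⟨r, h1, h2⟩ := Submodule.exists_sub_one_mem_and_smul_eq_zero_of_fg_of_le_smul m (D.V k)
    (D.fg k) fun a ha => by
      have h1 : a ∈ m • (⊤ : Submodule B A) := by
        rw [Ideal.smul_top_eq_map]
        exact h a ha
      rw [← D.π_self k a ha]
      refine Submodule.smul_induction_on h1 (fun r hr x _ => ?_) fun x y hx hy => ?_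
      · rw [map_smul]
        exact Submodule.smul_mem_smul hr (D.π_mem k x)
      · rw [map_add]
        exact add_mem hx hy
  refine ⟨r, h1, (mul_right_mem_nonZeroDivisors_eq_zero_iff
    (D.pw_nzd fun e => (k e).toNat)).1 ?_⟩
  rw [← Algebra.smul_def]
  exact h2 _ (D.pw_mem' hk)

theorem π_aeval {k : E → ℤ} {u : A} (hu : u ∈ D.V k) (α : E →₀ ℕ) (Q : MvPolynomial E B) :
    D.π ((fun e => (α e : ℤ)) + k) (MvPolynomial.aeval D.w Q * u) = Q.coeff α • (D.pw α * u) := by
  induction Q using MvPolynomial.induction_on' with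
  | monomial β c =>
    have e : MvPolynomial.aeval D.w (MvPolynomial.monomial β c) * u = c • (D.pw β * u) := by
      rw [MvPolynomial.aeval_monomial, Finsupp.prod_fintype _ _ (fun _ => pow_zero _),
        Algebra.smul_def, mul_assoc]
      rfl
    have h1 := D.mul _ _ _ (D.pw_mem β) _ hu
    rw [e, map_smul, MvPolynomial.coeff_monomial]
    split_ifs with o
    · rw [← o, D.π_self _ _ h1]
    · rw [D.π_ne _ _ (fun o' => o ?_) _ h1, smul_zero, zero_smul]
      ext e
      exact_mod_cast congrFun (add_right_cancel o') e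
  | add P Q hP hQ => rw [map_add, add_mul, map_add, hP, hQ, MvPolynomial.coeff_add, add_smul]

variable [IsDomain B]

theorem mono {k l : E → ℤ} (h : k ≤ l) : Module.finrank B (D.V k) ≤ Module.finrank B (D.V l) := by
  have h1 := D.pw_mem' (sub_nonneg.2 h)
  refine LinearMap.finrank_le_finrank_of_injective (f := (LinearMap.mulLeft B _).restrict
    (p := D.V k) (q := D.V l) fun a ha => by simpa using D.mul _ _ _ h1 _ ha) ?_
  refine (injective_iff_map_eq_zero _).2 fun a ha => Subtype.ext ?_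
  exact (mul_left_mem_nonZeroDivisors_eq_zero_iff (D.pw_nzd _)).1 (congrArg Subtype.val ha)

theorem bdd [Algebra ℂ B] [Algebra.FiniteType ℂ B] [Algebra ℂ A] [Algebra.FiniteType ℂ A]
    [IsScalarTower ℂ B A] [IsReduced A]
    (h : ∀ p ∈ minimalPrimes A, Dim.td ℂ (A ⧸ p) ≤ Dim.td ℂ B + Fintype.card E) :
    ∃ N, ∀ k, Module.finrank B (D.V k) ≤ N := by
  let _ : Algebra (MvPolynomial E B) A := (MvPolynomial.aeval (R := B) D.w).toRingHom.toAlgebra
  have : IsScalarTower ℂ (MvPolynomial E B) A := IsScalarTower.of_algebraMap_eq fun c => by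
    change _ = MvPolynomial.aeval D.w (algebraMap ℂ (MvPolynomial E B) c)
    rw [IsScalarTower.algebraMap_apply ℂ B (MvPolynomial E B), AlgHom.commutes,
      ← IsScalarTower.algebraMap_apply]
  have h1 : Algebra.FiniteType ℂ (MvPolynomial E B) := Algebra.FiniteType.trans (S := B) ‹_›
    inferInstance
  have h2 : Algebra.IsAlgebraic (MvPolynomial E B) A :=
    alg_of_td fun p hp => by rw [Dim.td_mvPolynomial]; exact h p hp
  have h3 : Algebra.FiniteType (MvPolynomial E B) A :=
    Algebra.FiniteType.of_restrictScalars_finiteType ℂ _ _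
  obtain ⟨N, hN⟩ := Cardinal.lt_aleph0.1 (rank_lt (B := MvPolynomial E B) (A := A))
  refine ⟨N, fun k => ?_⟩
  obtain ⟨u, hu⟩ := exists_linearIndependent_of_le_finrank (R := B) (M := D.V k) le_rfl
  have h4 : LinearIndependent (MvPolynomial E B) fun i => (u i).1 := by
    rw [Fintype.linearIndependent_iff] at hu ⊢
    intro Q hQ i
    ext α
    refine hu (fun i => (Q i).coeff α) (Subtype.ext ?_) i
    apply (mul_left_mem_nonZeroDivisors_eq_zero_iff (D.pw_nzd α)).1
    have h5 := congrArg (D.π ((fun e => (α e : ℤ)) + k)) hQ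
    rw [map_sum, map_zero] at h5
    rw [← h5, AddSubmonoidClass.coe_finsetSum, Finset.mul_sum]
    refine Finset.sum_congr rfl fun j _ => ?_
    rw [Submodule.coe_smul, mul_smul_comm]
    exact (D.π_aeval (u j).2 α (Q j)).symm
  have h5 := h4.cardinal_le_rank
  rw [hN, Cardinal.mk_fin] at h5
  exact_mod_cast h5

theorem pos (h : Function.Injective (algebraMap B A)) : 0 < Module.finrank B (D.V 0) := by
  refine Nat.pos_of_ne_zero fun o => ?_
  obtain ⟨b, hb⟩ := Module.finrank_eq_zero_iff_isTorsion.1 o (x := ⟨1, D.one⟩)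
  have h1 : (b : B) • (1 : A) = 0 := congrArg Subtype.val hb
  rw [← Algebra.algebraMap_eq_smul_one, map_eq_zero_iff _ h] at h1
  exact nonZeroDivisors.coe_ne_zero b h1

theorem const {N : ℕ} (hN : ∀ k, Module.finrank B (D.V k) ≤ N) :
    ∃ k₁ : E → ℤ, 0 ≤ k₁ ∧ ∀ k, k₁ ≤ k → Module.finrank B (D.V k) = Module.finrank B (D.V k₁) := by
  have hb : BddAbove ((fun k => Module.finrank B (D.V k)) '' Set.Ici 0) :=
    ⟨N, by rintro _ ⟨k, -, rfl⟩; exact hN k⟩
  obtain ⟨k₁, h1, h2⟩ := Nat.sSup_mem (Set.nonempty_Ici.image _) hb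
  refine ⟨k₁, h1, fun k hk => le_antisymm ?_ (D.mono hk)⟩
  exact (le_csSup hb ⟨k, le_trans h1 hk, rfl⟩).trans h2.ge

theorem le_one {k : E → ℤ} {v : A} (hv : v ∈ D.V k)
    (h : ∀ a ∈ D.V k, ∃ b c : B, b ≠ 0 ∧ b • a = c • v) : Module.finrank B (D.V k) ≤ 1 := by
  classical
  have h1 := (Submodule.span B {(⟨v, hv⟩ : D.V k)}).finrank_quotient_add_finrank
  have h2 := finrank_span_le_card (R := B) {(⟨v, hv⟩ : D.V k)}
  rw [Module.finrank_eq_zero_iff_isTorsion.2 fun x => ?_] at h1
  · rw [Set.toFinset_singleton, Finset.card_singleton] at h2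
    omega
  · obtain ⟨a, rfl⟩ := Submodule.mkQ_surjective _ x
    obtain ⟨b, c, h3, h4⟩ := h a a.2
    exact ⟨⟨b, mem_nonZeroDivisors_of_ne_zero h3⟩, (Submodule.Quotient.mk_eq_zero _).2
      (Submodule.mem_span_singleton.2 ⟨c, Subtype.ext h4.symm⟩)⟩

end Gd

end Vale.Agent.P297Z.Hb.Dg
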