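import Vale.Agent.P297Z.Hb.Fam3b

/-! P297: families of subsheaves given by generators: the maps of large degree. -/

set_option linter.all false

noncomputable section

namespace Vale.Agent.P297Z

open Pw GMod

theorem exists_of_rel {K V P ι : Type} [Field K] [AddCommGroup V] [Module K V] [Fintype P]
    [Fintype ι] (c : P → ι → K) (v : P → V)
    (H : ∀ s : P → K, ∑ p, s p • c p = 0 → ∑ p, s p • v p = 0) :
    ∃ b : ι → V, ∀ p, ∑ a, c p a • b a = v p := by
  classical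
  let l₁ := Fintype.linearCombination K c
  let l₂ := Fintype.linearCombination K v
  obtain ⟨g, hg⟩ := l₁.rangeRestrict.exists_rightInverse_of_surjective l₁.range_rangeRestrict
  obtain ⟨θ, hθ⟩ := LinearMap.exists_extend (l₂.comp g)
  refine ⟨fun a => θ fun i => if a = i then 1 else 0, fun p => ?_⟩
  have e1 : l₁ (Pi.single p 1) = c p := by simp [l₁]
  have e2 : l₂ (Pi.single p 1) = v p := by simp [l₂]
  have e3 : l₁ (g ⟨c p, _, e1⟩) = c p := congrArg Subtype.val (LinearMap.congr_fun hg ⟨c p, _, e1⟩)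
  have e4 : l₂ (g ⟨c p, _, e1⟩ - Pi.single p 1) = 0 :=
    H _ (show l₁ _ = 0 by rw [map_sub, e3, e1, sub_self])
  rw [map_sub, e2, sub_eq_zero] at e4
  rw [← LinearMap.pi_apply_eq_sum_univ, ← e4]
  exact LinearMap.congr_fun hθ ⟨c p, _, e1⟩

theorem Prj.span_stabE {X Y : Spc} {f : Mor X Y} (P : Prj f) {M : GMod X} {s : Set M.M}
    (hs : ∀ m ∈ s, ∃ k, m ∈ wt (P.actE M) k) (t : P.E → ℂˣ) (m : M.M)
    (hm : m ∈ Submodule.span X.R s) : P.actE M t m ∈ Submodule.span X.R s := by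
  refine Submodule.span_induction (p := fun m _ => P.actE M t m ∈ Submodule.span X.R s)
    (fun m hm => ?_) ?_ (fun a b _ _ ha hb => ?_) (fun r a _ ha => ?_) hm
  · obtain ⟨k, hk⟩ := hs m hm
    rw [show P.actE M t m = chr k t • m from hk t]
    exact Submodule.smul_of_tower_mem _ _ (Submodule.subset_span hm)
  · rw [map_zero]; exact zero_mem _
  · rw [map_add]; exact add_mem ha hb
  · exact (congrArg (· ∈ _) (M.act_smul _ r a)).mpr (Submodule.smul_mem _ _ ha)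

namespace Sf

variable {K : Type} [Field K] [Algebra ℂ K] {S : Surf K} {X : Spc} {h : S.All}
  {V V' : Type} [AddCommGroup V] [Module K V] [Module ℂ V] [IsScalarTower ℂ K V]
  [AddCommGroup V'] [Module K V'] [Module ℂ V'] [IsScalarTower ℂ K V']

namespace Fam

variable {F : Fam K X V} {F' : Fam K X V'} {ρ ρ' : ℕ} {z : X.Pt}

theorem Flat.vl_map (hF : F.Flat S ρ) (ψ : (F.KM h).M →ₗ[(X.prod (S.spc h)).R] (F'.FM h).M)
    {y : (F.KM h).M} (hy : F.inc h y ∈ mT (S.spc h) z (F.FM h).M) (d : ℤ) :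
    F'.vl h z d (ψ y) = 0 := by
  obtain ⟨r, h1, h2⟩ := hF.torP hy
  have h3 : F'.vl h z d (ψ ((Mor.fst X (S.spc h)).φ r • y)) = 0 := vl_of_mz (map_mem_smul ψ h2)
  have h4 := (congrArg (F'.vl h z d) (map_smul ψ ((Mor.fst X (S.spc h)).φ r) y)).trans (vl_fst r)
  exact (smul_eq_zero.1 (h4.symm.trans h3)).resolve_left h1

variable (F F' h) in
/-- the composition with the inclusion -/
def hu : ((F.KM h).hom (F'.KM h)).M →ₗ[(X.prod (S.spc h)).R] ((F.KM h).hom (F'.FM h)).M :=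
  LinearMap.llcomp _ (F.KM h).M (F'.KM h).M (F'.FM h).M (F'.inc h)

theorem hu_hom : IsHom _ _ (F.hu h F') := fun _ _ => rfl

theorem fibEx_hu (hF : F.Flat S ρ) (hF' : F'.Flat S ρ') (w : (X.prod (S.spc h)).Pt) :
    FibExAt (Mor.fst X (S.spc h)) w (A := (F.KM h).hom (F'.KM h)) 0 (F.hu h F') := fun a ha => by
  change (F.KM h).M →ₗ[(X.prod (S.spc h)).R] (F'.KM h).M at a
  obtain ⟨r, e, g, hr, he⟩ := (hF.isBun h w).frame
  choose s h1 h2 using fun i => hF'.torP (x := a (e i))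
    (map_mem_smul (LinearMap.applyₗ (e i)) ha)
  refine ⟨(∏ i, (Mor.fst X (S.spc h)).φ (s i)) * r, 0, ev_mul (by
    rw [map_prod]; exact Finset.prod_ne_zero_iff.2 fun i _ => h1 i) hr, ?_⟩
  have h3 : ((∏ i, (Mor.fst X (S.spc h)).φ (s i)) * r) • a ∈ mT (S.spc h)
      ((Mor.fst X (S.spc h)).onPt w) ((F.KM h).M →ₗ[(X.prod (S.spc h)).R] (F'.KM h).M) := by
    rw [mul_smul, frame_hom he, Finset.smul_sum]
    refine sum_mem fun i _ => ?_
    rw [← map_smul, ← Finset.prod_erase_mul _ _ (Finset.mem_univ i), mul_smul]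
    exact map_mem_smul _ (Submodule.smul_mem _ _ (h2 i))
  exact (congrArg (· ∈ _) (zero_sub _)).mpr (neg_mem h3)

namespace Gens

variable (G : F.Gens h)

/-- the generators as elements of the module of relations -/
def kk (p : G.P) : (F.KM h).M := ⟨G.κ p, G.mem p⟩

theorem pure (p : G.P) (a : F.ι) : PureD h (G.j p) (G.κ p a) := fun z _ hi =>
  cf_of_wt h z (G.wt p a) hi

/-- the degrees of the generators -/
def dg (p : G.P) : (X.prod (S.spc h)).J → ℤ := Sum.elim (G.η p) fun _ => F.m + G.j p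

theorem kk_wt (p : G.P) : G.kk p ∈ (F.KM h).wt (G.dg p) := fun g => Subtype.ext
  ((Dg.Fr_act (F.deg h) g (G.κ p)).trans (funext fun a => by
    let δ : (X.prod (S.spc h)).J → ℤ := Sum.elim (G.η p - F.γ a) fun _ => (G.j p : ℤ)
    have e : G.dg p = F.deg h a + δ := funext fun i => by
      rcases i with i | i
      · exact (add_sub_cancel _ _).symm
      · rfl
    have h1 : (X.prod (S.spc h)).act g (G.κ p a) = chr δ g • G.κ p a := G.wt p a g
    change chr (F.deg h a) g • (X.prod (S.spc h)).act g (G.κ p a) = chr (G.dg p) g • G.κ p a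
    rw [h1, e, chr_add, mul_smul]))

theorem exists_sum (x : (F.KM h).M) :
    ∃ t : G.P → (X.prod (S.spc h)).R, ∑ p, t p • G.kk p = x := by
  obtain ⟨t, ht⟩ := (Submodule.mem_span_range_iff_exists_fun _).1 (G.span.ge x.2)
  refine ⟨t, Subtype.ext (Eq.trans ?_ ht)⟩
  exact (map_sum (F.inc h) _ _).trans (Finset.sum_congr rfl fun p _ => rfl)

theorem map_pure (hm : F'.m = F.m) {ψ : (F.KM h).M →ₗ[(X.prod (S.spc h)).R] (F'.FM h).M} {k : ℤ}
    (hψ : ψ ∈ P297Z.wt ((PF X h).actE ((F.KM h).hom (F'.FM h))) (dE X h k)) (p : G.P) (a : F'.ι) :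
    PureD h (G.j p + k) (ψ (G.kk p) a) := by
  have h1 := (PF X h).hom_wtE hψ (mem_wtE_KM.2 (G.pure p) : G.kk p ∈ _)
  have e : dE X h k + dE X h (F.m + G.j p) = dE X h (F'.m + (G.j p + k)) := funext fun _ => by
    change k + (F.m + G.j p) = F'.m + (G.j p + k)
    rw [hm]; ring
  rw [e] at h1
  exact mem_wtE_FM.1 h1 a

theorem mem_range (hF : F.Flat S ρ) (ψ : (F.KM h).M →ₗ[(X.prod (S.spc h)).R] (F'.FM h).M)
    (z : X.Pt) (k : ℤ) :
    (fun p => F'.vl h z (G.j p + k) (ψ (G.kk p))) ∈ LinearMap.range (G.Ψ V' z) := by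
  obtain ⟨b, hb⟩ := exists_of_rel (G.kv z) (fun p => F'.vl h z (G.j p + k) (ψ (G.kk p)))
    fun s hs => by
      obtain ⟨n, t, h0, ht⟩ := exists_common S s G.j
      let σ : G.P → (X.prod (S.spc h)).R := fun p =>
        (Mor.snd X (S.spc h)).φ (S.form (n - G.j p) (t * s p) (ht p).2)
      have h1 : ∀ p i, i ≠ (n : ℤ) - G.j p → cf h z i (σ p) = 0 := fun p i hi =>
        PureD.snd _ _ _ z i (by rw [Nat.cast_sub (ht p).1]; exact hi)
      have h2 : ∀ p, cf h z ((n : ℤ) - G.j p) (σ p) = t * s p := fun p =>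
        (cf_snd h z _ _ _ _).trans (if_pos (Nat.cast_sub (ht p).1).symm)
      have h3 : (∑ p, σ p • G.κ p) ∈ mT (S.spc h) z (F.ι → (X.prod (S.spc h)).R) :=
        mem_smul_fun.2 fun a => cf_of_mz.2 fun i => by
          simp only [Finset.sum_apply, Pi.smul_apply, smul_eq_mul, map_sum, cf_mul h z (h1 _), h2]
          by_cases e : i = n
          · have := congrFun hs a
            simp only [Finset.sum_apply, Pi.smul_apply, smul_eq_mul, kv, Pi.zero_apply] at this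
            simp only [e, sub_sub_cancel, mul_assoc, ← Finset.mul_sum, this, mul_zero]
          · exact Finset.sum_eq_zero fun p _ => by
              rw [G.pure p a z _ (by omega), mul_zero]
      have h4 := hF.vl_map ψ (z := z) (y := ∑ p, σ p • G.kk p)
        ((congrArg (· ∈ _) ((map_sum (F.inc h) _ _).trans
          (Finset.sum_congr rfl fun p _ => rfl))).mpr h3) (n + k)
      have h5 : F'.vl h z (n + k) (ψ (∑ p, σ p • G.kk p)) =
          t • ∑ p, s p • F'.vl h z (G.j p + k) (ψ (G.kk p)) := by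
        rw [map_sum ψ, Finset.smul_sum]
        refine (map_sum (F'.vl h z (n + k)) _ _).trans (Finset.sum_congr rfl fun p _ => ?_)
        refine ((congrArg (F'.vl h z (n + k)) (map_smul ψ _ _)).trans (vl_smul (h1 p))).trans ?_
        rw [h2, mul_smul, show (n : ℤ) + k - (n - G.j p) = G.j p + k by ring]
      exact (smul_eq_zero.1 (h5.symm.trans h4)).resolve_left h0
  exact ⟨b, funext hb⟩

theorem vl_rel {s : G.P → (X.prod (S.spc h)).R} (hs : ∑ q, s q • G.κ q = 0) {k : ℤ}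
    {x : G.P → F'.ι → (X.prod (S.spc h)).R} (hx : ∀ q a, PureD h (G.j q + k) (x q a))
    {b : F.ι → V'} (hb : ∀ q, F'.vl h z (G.j q + k) (x q) = G.Ψ V' z b q) :
    ∑ q, s q • x q ∈ F'.Kz h z := fun d => by
  have h1 : ∀ a, ∑ q, cf h z (d - (G.j q + k)) (s q) * G.kv z q a = 0 := fun a => by
    have := congrArg (cf h z (d - k)) (congrFun hs a)
    rw [Finset.sum_apply, map_sum, Pi.zero_apply, map_zero] at this
    refine (Finset.sum_congr rfl fun q _ => ?_).trans this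
    rw [Pi.smul_apply, smul_eq_mul, mul_comm (s q), cf_mul h z (G.pure q a z), mul_comm,
      show d - k - G.j q = d - (G.j q + k) by ring]
    rfl
  rw [map_sum]
  simp only [fun q => vl_smul' (j := d) (fun a => hx q a z) (s q), hb]
  change ∑ q, _ • ∑ a, G.kv z q a • b a = 0
  simp only [Finset.smul_sum, smul_smul]
  rw [Finset.sum_comm]
  exact Finset.sum_eq_zero fun a _ => by rw [← Finset.sum_smul, h1, zero_smul]

variable (F') in
/-- the values on the generators modulo the relations -/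
def hv : ((F.KM h).hom (F'.FM h)).M →ₗ[(X.prod (S.spc h)).R]
    (pi fun p => ((F'.FM h).quo (F'.Kt h) (F'.Kt_stab h)).shift (G.dg p)).M :=
  LinearMap.pi fun p => (F'.Kt h).mkQ ∘ₗ LinearMap.applyₗ (M₂ := (F'.FM h).M) (G.kk p)

theorem act_kk (ψ : (F.KM h).M →ₗ[(X.prod (S.spc h)).R] (F'.FM h).M) (p : G.P)
    (g : (X.prod (S.spc h)).J → ℂˣ) : (F'.FM h).act g (ψ ((F.KM h).act g⁻¹ (G.kk p))) =
      chr (-G.dg p) g • (F'.FM h).act g (ψ (G.kk p)) := by
  rw [G.kk_wt p g⁻¹, LinearMap.map_smul_of_tower, map_smul, chr_inv, chr_neg]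

theorem hv_hom : IsHom _ _ (G.hv F') := fun g ψ => funext fun p =>
  congrArg (F'.Kt h).mkQ (G.act_kk ψ p g)

theorem hv_hu (a : ((F.KM h).hom (F'.KM h)).M) : G.hv F' (F.hu h F' a) = 0 := funext fun p =>
  (Submodule.Quotient.mk_eq_zero (F'.Kt h)).2
    ((show (F.KM h).M →ₗ[(X.prod (S.spc h)).R] (F'.KM h).M from a) (G.kk p)).2

theorem hv_mem {ψ : (F.KM h).M →ₗ[(X.prod (S.spc h)).R] (F'.FM h).M} :
    G.hv F' ψ ∈ mT (S.spc h) z _ ↔ ∀ p, ψ (G.kk p) ∈ F'.Kt h ⊔ mT (S.spc h) z _ := by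
  classical
  have key : ∀ y : F'.ι → (X.prod (S.spc h)).R,
      (F'.Kt h).mkQ y ∈ mT (S.spc h) z _ ↔ y ∈ F'.Kt h ⊔ mT (S.spc h) z _ := fun y => by
    rw [← Submodule.comap_map_mkQ, Submodule.mem_comap, Submodule.map_smul'', Submodule.map_top,
      Submodule.range_mkQ]
  refine ⟨fun H p => (key _).1 (map_mem_smul (LinearMap.proj p) H), fun H => ?_⟩
  have e := Finset.univ_sum_single (fun p => (F'.Kt h).mkQ (ψ (G.kk p)))
  refine (congrArg (· ∈ mT (S.spc h) z (G.P → _ ⧸ F'.Kt h)) e).mp (sum_mem fun p _ => ?_)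
  exact map_mem_smul (LinearMap.single _ (fun _ : G.P => _ ⧸ F'.Kt h) p) ((key _).2 (H p))

theorem fibEx_hv (hF : F.Flat S ρ) (w : (X.prod (S.spc h)).Pt) :
    FibExAt (Mor.fst X (S.spc h)) w (F.hu h F') (G.hv F') := fun ψ hψ => by
  change (F.KM h).M →ₗ[(X.prod (S.spc h)).R] (F'.ι → (X.prod (S.spc h)).R) at ψ
  obtain ⟨r, e, g, hr, he⟩ := (hF.isBun h w).frame
  have h1 : ∀ x, ψ x ∈ F'.Kt h ⊔ mT (S.spc h) ((Mor.fst X (S.spc h)).onPt w) _ := fun x => by
    obtain ⟨t, rfl⟩ := G.exists_sum x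
    rw [map_sum]
    exact sum_mem fun p _ => by
      rw [map_smul]
      exact Submodule.smul_mem _ _ (G.hv_mem.1 hψ p)
  choose k h2 n h3 h4 using fun i => Submodule.mem_sup.1 (h1 (e i))
  let a : (F.KM h).M →ₗ[(X.prod (S.spc h)).R] F'.Kt h :=
    ∑ i, LinearMap.smulRightₗ (g i) ⟨k i, h2 i⟩
  refine ⟨r, a, hr, ?_⟩
  have h5 : (F'.Kt h).subtype ∘ₗ a - r • ψ = -∑ i, LinearMap.smulRightₗ (g i) (n i) := by
    rw [frame_hom he]
    ext1 x
    simp only [a, LinearMap.sub_apply, LinearMap.comp_apply, LinearMap.sum_apply, map_sum,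
      LinearMap.neg_apply, LinearMap.smulRightₗ_apply, LinearMap.smulRight_apply, map_smul,
      Submodule.subtype_apply, ← h4, Submodule.coe_smul, smul_add, Finset.sum_add_distrib]
    abel
  exact (congrArg (· ∈ mT (S.spc h) _ _) h5).mpr
    (neg_mem (sum_mem fun i _ => map_mem_smul _ (h3 i)))

theorem exists_loc (hF : F.Flat S ρ) (w : (X.prod (S.spc h)).Pt) : ∃ r, w.1 r ≠ 0 ∧
    ∀ (k : ℤ) (x : G.P → F'.ι → (X.prod (S.spc h)).R) (b : F.ι → V'),
      (∀ q a, PureD h (G.j q + k) (x q a)) →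
      (∀ q, F'.vl h z (G.j q + k) (x q) = G.Ψ V' z b q) →
      ∃ ψ : (F.KM h).M →ₗ[(X.prod (S.spc h)).R] (F'.ι → (X.prod (S.spc h)).R),
        ∀ p, r • x p - ψ (G.kk p) ∈ F'.Kz h z := by
  classical
  obtain ⟨r, e, g, hr, he⟩ := (hF.isBun h w).frame
  choose t ht using fun i => G.exists_sum (e i)
  refine ⟨r, hr, fun k x b hx hb =>
    ⟨∑ i, LinearMap.smulRightₗ (g i) (∑ q, t i q • x q), fun p => ?_⟩⟩
  let s : G.P → (X.prod (S.spc h)).R := fun q =>
    (if q = p then r else 0) - ∑ i, g i (G.kk p) * t i q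
  have key : ∀ {A : Type} [AddCommGroup A] [Module (X.prod (S.spc h)).R A] (y : G.P → A),
      ∑ q, s q • y q = r • y p - ∑ i, g i (G.kk p) • ∑ q, t i q • y q := fun y => by
    simp only [s, sub_smul, Finset.sum_sub_distrib, ite_smul, zero_smul, Finset.sum_ite_eq',
      Finset.mem_univ, if_true, Finset.sum_smul, Finset.smul_sum, mul_smul]
    rw [Finset.sum_comm]
  have hs : ∑ q, s q • G.kk q = 0 := by simp only [key, ht, he, sub_self]
  have h1 := G.vl_rel (s := s) (((map_sum (F.inc h) _ _).trans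
    (Finset.sum_congr rfl fun p _ => rfl)).symm.trans (congrArg (F.inc h) hs)) hx hb
  rw [key] at h1
  rw [LinearMap.sum_apply]
  exact h1

theorem exists_hom (hm : F'.m = F.m) (k : ℤ)
    (ψ : (F.KM h).M →ₗ[(X.prod (S.spc h)).R] (F'.FM h).M) :
    ∃ ψ' : (F.KM h).M →ₗ[(X.prod (S.spc h)).R] (F'.FM h).M,
      ψ' ∈ P297Z.wt ((PF X h).actE ((F.KM h).hom (F'.FM h))) (dE X h k) ∧
      ∀ p, F'.vl h z (G.j p + k) (ψ' (G.kk p)) = F'.vl h z (G.j p + k) (ψ (G.kk p)) := by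
  refine wt_induction ((PF X h).spanE ((F.KM h).hom (F'.FM h)))
    (P := fun ψ : (F.KM h).M →ₗ[(X.prod (S.spc h)).R] (F'.FM h).M =>
      ∃ ψ' : (F.KM h).M →ₗ[(X.prod (S.spc h)).R] (F'.FM h).M,
        ψ' ∈ P297Z.wt ((PF X h).actE ((F.KM h).hom (F'.FM h))) (dE X h k) ∧
        ∀ p, F'.vl h z (G.j p + k) (ψ' (G.kk p)) = F'.vl h z (G.j p + k) (ψ (G.kk p)))
    ⟨0, zero_mem _, fun _ => rfl⟩ (fun l ψ hψ => ?_) ?_ ψ
  · by_cases e : l () = k
    · exact ⟨ψ, e ▸ hψ, fun _ => rfl⟩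
    · refine ⟨0, zero_mem _, fun p => (map_zero (F'.vl h z (G.j p + k))).trans (Eq.symm ?_)⟩
      exact Finset.sum_eq_zero fun a _ => by
        rw [G.map_pure hm (k := l ()) hψ p a z _ (by omega), zero_smul]
  · rintro x y ⟨x', h1, h2⟩ ⟨y', h3, h4⟩
    refine ⟨x' + y', add_mem h1 h3, fun p => ?_⟩
    exact (map_add (F'.vl h z (G.j p + k)) _ _).trans ((congrArg₂ (· + ·) (h2 p) (h4 p)).trans
      (map_add (F'.vl h z (G.j p + k)) _ _).symm)

variable (F') in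
/-- the value on a generator -/
def ev (p : G.P) : ((F.KM h).hom (F'.FM h)).M →ₗ[(X.prod (S.spc h)).R]
    (F'.ι → (X.prod (S.spc h)).R) := LinearMap.applyₗ (M₂ := (F'.FM h).M) (G.kk p)

variable (F') in
/-- the values of the maps of degree `k` -/
def vH (k : ℕ) : ((PF X h).part (dE X h k) ((F.KM h).hom (F'.FM h))).M →ₗ[X.R]
    (G.hR F' k).poly where
  toFun ψ := ⟨fun z p => F'.vl h z (G.j p + k) (G.ev F' p ((PF X h).val ψ)),
    poly_pi (Q := fun p => F'.rp S (G.j p + k)) _ fun p => vl_poly (G.j p + k) _⟩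
  map_add' _ _ := Subtype.ext (funext fun z => funext fun p =>
    (congrArg (F'.vl h z (G.j p + k)) (map_add (G.ev F' p) _ _)).trans (map_add _ _ _))
  map_smul' r _ := Subtype.ext (funext fun z => funext fun p =>
    (congrArg (F'.vl h z (G.j p + k)) (map_smul (G.ev F' p) _ _)).trans (vl_fst r))

theorem vH_hom (k : ℕ) : IsHom _ (G.hR F' k).tot (G.vH F' k) := fun t ψ =>
  Subtype.ext (funext fun z => funext fun p => by
    have e : chr (-G.dg p) (tor (PF X h).ret t) = chr (-G.η p) t := chr_tor _ _ _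
    refine (congrArg (F'.vl h z (G.j p + k)) (G.act_kk ((PF X h).val ψ) p _)).trans ?_
    refine (map_smul (F'.vl h z (G.j p + k)) _ _).trans ?_
    refine (congrArg₂ (· • ·) e ((congrArg (F'.vl h z (G.j p + k))
      (Dg.Fr_act (F'.deg h) _ _)).trans (vl_act t))).trans ?_
    exact (algebraMap_smul K _ _).symm)

theorem vH_surj (hF : F.Flat S ρ) (hm : F'.m = F.m) (z : X.Pt) : ∃ j₁ : ℕ, ∀ k, j₁ ≤ k →
    ∀ v ∈ G.Hm F' k z, ∃ ψ, (G.vH F' k ψ).1 z = v := by
  let M : GMod (X.prod (S.spc h)) :=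
    pi fun p => Dg.Fr _ fun _ : F'.ι => Sum.elim 0 fun _ => -(G.j p : ℤ)
  let s : Set (G.P → F'.ι → (X.prod (S.spc h)).R) := {x | ∃ (k : ℤ) (b : F.ι → V'),
    (∀ q a, PureD h (G.j q + k) (x q a)) ∧ ∀ q, F'.vl h z (G.j q + k) (x q) = G.Ψ V' z b q}
  let N : Submodule (X.prod (S.spc h)).R (G.P → F'.ι → (X.prod (S.spc h)).R) :=
    LinearMap.range (LinearMap.pi (G.ev F')) ⊔ Submodule.pi Set.univ fun _ => F'.Kz h z
  have hw : ∀ (k : ℤ) (x : G.P → F'.ι → (X.prod (S.spc h)).R),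
      (∀ q a, PureD h (G.j q + k) (x q a)) → x ∈ P297Z.wt ((PF X h).actE M) (dE X h k) :=
    fun k x hx t => funext fun q => mem_wtE_Fr.2 (fun a =>
      (show G.j q + k = k - -(G.j q : ℤ) by ring) ▸ hx q a) t
  obtain ⟨j₁, H⟩ := large ((PF X h).le_lemma (M := M) (Submodule.span _ s) N
    ((PF X h).span_stabE fun x ⟨k, _, hx, _⟩ => ⟨_, hw k x hx⟩) fun w x hx => by
      obtain ⟨r, hr, h1⟩ := G.exists_loc (F' := F') (z := z) hF w
      have h5 : Submodule.span _ s ≤ N.comap (LinearMap.lsmul _ _ r) := Submodule.span_le.2 (by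
        rintro x ⟨k, b, h2, h3⟩
        obtain ⟨ψ, h4⟩ := h1 k x b h2 h3
        exact Submodule.mem_sup.2 ⟨_, ⟨ψ, rfl⟩, fun p => r • x p - ψ (G.kk p), fun p _ => h4 p,
          funext fun p => add_sub_cancel _ _⟩)
      exact ⟨r, hr, Submodule.mem_comap.1 (h5 hx)⟩)
  refine ⟨j₁, fun k hk v ⟨h1, b, h2⟩ => ?_⟩
  choose c h3 h4 using fun p => h1 p trivial
  let x : G.P → F'.ι → (X.prod (S.spc h)).R := fun p a =>
    (Mor.snd X (S.spc h)).φ (S.form (G.j p + k) (c p a) (h3 p a))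
  have h5 : ∀ q a, PureD h (G.j q + k) (x q a) := fun q a => PureD.snd (G.j q + k) _ _
  have h6 : ∀ q, F'.vl h z (G.j q + k) (x q) = v q := fun q =>
    Eq.trans (Finset.sum_congr rfl fun a _ => congrArg (· • F'.u z a)
      ((cf_snd h z _ _ _ (h3 q a)).trans (if_pos rfl))) (h4 q)
  obtain ⟨r, hr, h7⟩ := H k (by omega) z
  have h10 : (Mor.fst X (S.spc h)).φ r • x ∈ N :=
    h7 x (Submodule.subset_span ⟨k, b, h5, fun q => (h6 q).trans (congrFun h2 q).symm⟩) (hw k x h5)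
  obtain ⟨_, ⟨ψ, rfl⟩, y, hy, e⟩ := Submodule.mem_sup.1 h10
  obtain ⟨ψ', h8, h9⟩ := G.exists_hom (z := z) hm k ψ
  refine ⟨algebraMap ℂ X.R (z.1 r)⁻¹ • (PF X h).el ψ' h8, ?_⟩
  rw [map_smul]
  refine funext fun p => ?_
  have e1 : F'.vl h z (G.j p + k) (G.ev F' p ψ) + F'.vl h z (G.j p + k) (y p) = z.1 r • v p :=
    (map_add (F'.vl h z (G.j p + k)) _ _).symm.trans
      ((congrArg (F'.vl h z (G.j p + k)) (congrFun e p)).trans ((vl_fst r).trans
        (congrArg (z.1 r • ·) (h6 p))))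
  rw [hy p trivial, add_zero] at e1
  refine (congrArg₂ (· • ·) (z.1.commutes _) ((h9 p).trans e1)).trans ?_
  exact inv_smul_smul₀ hr _

end Gens

theorem Gens.hbl (hX : X.Cn) (G : F.Gens h) (hF : F.Flat S ρ) (hF' : F'.Flat S ρ')
    (hm : F'.m = F.m) : ∃ k₁, ∀ k, k₁ ≤ k → ∀ n, (∀ z, Module.finrank ℂ (G.Hm F' k z) = n) →
    (G.hR F' k).Sb (G.Hm F' k) n ∧ (G.hR F' k).cl (G.Hm F' k) n =
      pK X (S.spc h) (dualK _ (F.Kcl h ρ) * F'.Ecl h ρ' *
        pullK (Mor.snd _ _) (line (S.spc h) fun _ => (k : ℤ))) := by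
  obtain ⟨j1, h1⟩ := push_large hX ((hF.isBun h).hom (isBun_Fr1 (F'.deg h)))
  obtain ⟨j2, h2⟩ := push_large hX ((hF.isBun h).hom (hF'.isBun h))
  obtain ⟨j3, h3⟩ := large ((PF X h).unif (A := (F.KM h).hom (F'.KM h)) 0 (F.hu h F')
    (fun _ _ => (map_zero _).symm) hu_hom (fun _ => map_zero _) (fibEx_hu hF hF'))
  obtain ⟨j4, h4⟩ := large ((PF X h).unif (F.hu h F') (G.hv F') hu_hom G.hv_hom G.hv_hu
    (G.fibEx_hv hF))
  obtain ⟨z₀⟩ := hX.ne
  obtain ⟨j5, h5⟩ := G.vH_surj hF hm z₀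
  refine ⟨j1 + j2 + j3 + j4 + j5, fun k hk n hn => ?_⟩
  obtain ⟨a, ha, ea⟩ := h1 k (by omega)
  obtain ⟨b, hb, eb⟩ := h2 k (by omega)
  have h0 : ∀ x, G.vH F' k ((PF X h).partMap _ (F.hu h F') hu_hom x) = 0 := fun x =>
    Subtype.ext (funext fun z => funext fun p => ((show (F.KM h).M →ₗ[(X.prod (S.spc h)).R]
      (F'.KM h).M from (PF X h).val x) (G.kk p)).2 z _)
  have hi : ∀ z : X.Pt, Function.Injective
      (fibMap z.1 ((PF X h).partMap (dE X h k) (F.hu h F') hu_hom)) := fun z =>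
    (injective_iff_map_eq_zero _).2 fun x hx => by
      obtain ⟨y, rfl⟩ := (h3 k (by omega) z x).1 hx
      obtain ⟨y, rfl⟩ := fib_surj y
      rfl
  let T : X.Pt → Submodule ℂ (G.P → V') := fun z =>
    LinearMap.range (Rp.evF (P := G.hR F' k) (G.vH F' k) z)
  have hT : ∀ z v, v ∈ T z ↔ ∃ ψ, (G.vH F' k ψ).1 z = v := fun z v =>
    ⟨fun ⟨x, hx⟩ => (fib_surj x).imp fun ψ e => by subst e; exact hx,
      fun ⟨ψ, e⟩ => ⟨Submodule.Quotient.mk ψ, e⟩⟩
  have hc : ∀ z, a = b + Module.finrank ℂ (T z) := fun z => by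
    have := Rp.count (P := G.hR F' k) (ψ := G.vH F' k) (hT z) h0 (hi z) fun ψ hψ =>
      (h4 k (by omega) z (Submodule.Quotient.mk ψ)).1 ((Submodule.Quotient.mk_eq_zero _).2
        ((PF X h).mem_smul_of_val (G.hv_mem.2 fun p => hF'.mem_of_pure
          (G.map_pure hm ((PF X h).val_mem ψ) p) (congrFun hψ p))))
    rwa [ha.fdim, hb.fdim] at this
  have hle : ∀ z, T z ≤ G.Hm F' k z := fun z v hv => by
    obtain ⟨ψ, rfl⟩ := (hT z v).1 hv
    exact ⟨fun p _ => vl_mem (G.j p + k), G.mem_range hF ((PF X h).val ψ) z k⟩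
  have e₀ : T z₀ = G.Hm F' k z₀ :=
    le_antisymm (hle z₀) fun v hv => (hT z₀ v).2 (h5 k (by omega) v hv)
  have e₁ : a = b + n := by rw [hc z₀, e₀, hn]
  have hV : ∀ z, T z = G.Hm F' k z := fun z => by
    haveI : FiniteDimensional ℂ (G.Val F' k z) := (Submodule.fg_iff_finiteDimensional _).1
      (Submodule.fg_pi fun p => (Submodule.fg_iff_finiteDimensional _).2 inferInstance)
    haveI : FiniteDimensional ℂ (G.Hm F' k z) := Submodule.finiteDimensional_of_le inf_le_left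
    refine Submodule.eq_of_le_of_finrank_eq (hle z) ?_
    have := hc z
    rw [hn]
    omega
  obtain ⟨hs, hcl⟩ := Rp.sb_of_hom (G.vH F' k) (G.vH_hom k) (fun z v => hV z ▸ hT z v) hn
  refine ⟨hs, ?_⟩
  rw [hcl _ _ a b ((PF X h).partMap_isHom _ _ _) ha hb h0 hi e₁, ea, eb, ← map_sub, ← sub_mul,
    kc_hom (hF.isBun h) (isBun_Fr1 _), kc_hom (hF.isBun h) (hF'.isBun h), ← mul_sub, kc_Fr1]
  rfl

end Fam

end Sf

end Vale.Agent.P297Z
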