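import Vale.Agent.P297Z.Hb.Fam0
import Vale.Agent.P297Z.Hb.Fam1
import Vale.Agent.P297Z.Hb.Fam2
import Vale.Agent.P297Z.Hb.Fam3

/-! P297: families of subsheaves given by generators. -/
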