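import Vale.Agent.P297Z.Hb.Fam1
import Vale.Agent.P297Z.Surf.SspA2

/-! P297: families of subsheaves given by generators: tools for the large degrees. -/

noncomputable section

namespace Vale.Agent.P297Z

open Pw GMod

section gen

variable {X Y : Spc}

theorem tor_inl (g : (X.prod Y).J → ℂˣ) : (fun i => g (.inl i)) = tor (Mor.fst X Y).ρ g :=
  chr_ext fun γ => by
    have h1 : chr ((Mor.fst X Y).ρ γ) g = chr γ (fun i => g (.inl i)) *
      chr (0 : Y.J → ℤ) (fun i => g (.inr i)) := chr_sum_type _ g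
    rw [chr_tor, h1, chr_zero, mul_one]

theorem tor_inr (g : (X.prod Y).J → ℂˣ) : (fun i => g (.inr i)) = tor (Mor.snd X Y).ρ g :=
  chr_ext fun γ => by
    have h1 : chr ((Mor.snd X Y).ρ γ) g = chr (0 : X.J → ℤ) (fun i => g (.inl i)) *
      chr γ (fun i => g (.inr i)) := chr_sum_type _ g
    rw [chr_tor, h1, chr_zero, one_mul]

/-- the ideal of the fibre -/
abbrev mz (Y : Spc) (z : X.Pt) : Ideal (X.prod Y).R := (RingHom.ker z.1).map (Mor.fst X Y).φ

theorem sub_evp_mem (z : X.Pt) (r : (X.prod Y).R) :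
    r - (Mor.snd X Y).φ (evp Y z r) ∈ mz Y z := by
  induction r using TensorProduct.induction_on with
  | zero =>
    have e : (0 : (X.prod Y).R) - (Mor.snd X Y).φ (evp Y z (0 : (X.prod Y).R)) = 0 := by
      rw [map_zero, map_zero, sub_zero]
    exact (congrArg (· ∈ mz Y z) e).mpr (zero_mem (mz Y z))
  | tmul a b =>
    have e : (Mor.fst X Y).φ a * (Mor.snd X Y).φ b -
        (Mor.snd X Y).φ (evp Y z ((Mor.fst X Y).φ a * (Mor.snd X Y).φ b)) =
        (Mor.fst X Y).φ (a - algebraMap ℂ X.R (z.1 a)) * (Mor.snd X Y).φ b := by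
      rw [evp_fst_mul, evp_snd, map_sub, AlgHom.commutes, sub_mul, map_smul, Algebra.smul_def]
    have := Ideal.mul_mem_right ((Mor.snd X Y).φ b) _ (Ideal.mem_map_of_mem (Mor.fst X Y).φ
      (show a - algebraMap ℂ X.R (z.1 a) ∈ RingHom.ker z.1 by simp [RingHom.mem_ker]))
    rw [← e, ← Sf.fam_tmul_eq] at this
    exact this
  | add x y hx hy =>
    have e : ∀ x y : (X.prod Y).R, x + y - (Mor.snd X Y).φ (evp Y z (x + y)) =
        (x - (Mor.snd X Y).φ (evp Y z x)) + (y - (Mor.snd X Y).φ (evp Y z y)) := fun x y => by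
      rw [map_add, map_add]; ring
    exact (congrArg (· ∈ mz Y z) (e x y)).mpr (add_mem hx hy)

theorem mem_mz {z : X.Pt} {r : (X.prod Y).R} : r ∈ mz Y z ↔ evp Y z r = 0 := by
  refine ⟨fun hr => ?_, fun hr => ?_⟩
  · refine (Ideal.map_le_iff_le_comap (K := RingHom.ker (evp Y z))).2 (fun a ha => ?_) hr
    change evp Y z ((Mor.fst X Y).φ a) = 0
    rw [evp_fst, show z.1 a = 0 from ha, map_zero]
  · have := sub_evp_mem z r
    rwa [hr, map_zero, sub_zero] at this

theorem mem_smul_fun {R ι : Type} [CommRing R] [Fintype ι] {I : Ideal R} {x : ι → R} :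
    x ∈ I • (⊤ : Submodule R (ι → R)) ↔ ∀ a, x a ∈ I := by
  classical
  refine ⟨fun hx a => Submodule.smul_induction_on hx (fun r hr n _ => I.mul_mem_right _ hr)
    fun _ _ => add_mem, fun hx => ?_⟩
  rw [pi_eq_sum_univ x]
  exact sum_mem fun a _ => Submodule.smul_mem_smul (hx a) Submodule.mem_top

theorem map_mem_smul {R A B : Type} [CommRing R] [AddCommGroup A] [Module R A] [AddCommGroup B]
    [Module R B] {I : Ideal R} (f : A →ₗ[R] B) {x : A} (hx : x ∈ I • (⊤ : Submodule R A)) :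
    f x ∈ I • (⊤ : Submodule R B) :=
  Submodule.smul_induction_on hx (fun r hr n _ => by
    rw [map_smul]; exact Submodule.smul_mem_smul hr Submodule.mem_top) fun x y hx hy => by
    rw [map_add]; exact add_mem hx hy

/-- a local frame -/
theorem FreeAt.frame {R A : Type} [CommRing R] [Algebra ℂ R] {z : R →ₐ[ℂ] ℂ} [AddCommGroup A]
    [Module R A] {n : ℕ} (h : FreeAt z A n) : ∃ (r : R) (e : Fin n → A) (g : Fin n → A →ₗ[R] R),
      z r ≠ 0 ∧ ∀ x, ∑ i, g i x • e i = r • x := by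
  obtain ⟨e, r, g, hr, -, h2⟩ := h
  refine ⟨r, fun i => e fun j => if i = j then 1 else 0, fun i => (LinearMap.proj i).comp g, hr,
    fun x => ?_⟩
  rw [← h2, LinearMap.pi_apply_eq_sum_univ e]
  rfl

theorem frame_hom {R A B : Type} [CommRing R] [AddCommGroup A] [Module R A] [AddCommGroup B]
    [Module R B] {n : ℕ} {r : R} {e : Fin n → A} {g : Fin n → A →ₗ[R] R}
    (h : ∀ x, ∑ i, g i x • e i = r • x) (ψ : A →ₗ[R] B) :
    r • ψ = ∑ i, LinearMap.smulRightₗ (g i) (ψ (e i)) := LinearMap.ext fun x => by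
  rw [LinearMap.smul_apply, ← map_smul, ← h, map_sum, LinearMap.sum_apply]
  exact Finset.sum_congr rfl fun i _ => map_smul ψ _ _

theorem Prj.hom_wtE {f : Mor X Y} (P : Prj f) {M N : GMod X} {l d : P.E → ℤ}
    {ψ : M.M →ₗ[X.R] N.M} (hψ : ψ ∈ wt (P.actE (M.hom N)) l) {x : M.M}
    (hx : x ∈ wt (P.actE M) d) : ψ x ∈ wt (P.actE N) (l + d) := fun t => by
  have h1 : N.act _ (ψ (M.act (tor P.π t)⁻¹ (M.act (tor P.π t) x))) =
      chr l t • ψ (M.act (tor P.π t) x) :=
    congrArg (fun u : M.M →ₗ[X.R] N.M => u (M.act (tor P.π t) x)) (hψ t)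
  have h2 : M.act (tor P.π t) x = chr d t • x := hx t
  rw [M.act_inv_act, h2, LinearMap.map_smul_of_tower, smul_smul, ← chr_add] at h1
  exact h1

namespace Pw.Rp

open Submodule.Quotient renaming mk → mq

variable {P P' : Rp X} {A B : GMod X}

theorem poly_map (φ : P.Y →ₗ[ℂ] P'.Y) (h1 : ∀ u ∈ P.U, φ u ∈ P'.U) {f : Fn X P.Y}
    (hf : f ∈ P.poly) : (fun z => φ (f z) : Fn X P'.Y) ∈ P'.poly := by
  refine poly_ind (p := fun f => (fun z => φ (f z) : Fn X P'.Y) ∈ P'.poly)
    (fun u hu => P'.cst_mem (h1 u hu)) ?_ (fun a b _ _ ha hb => ?_) (fun r a _ ha => ?_) hf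
  · exact (congrArg (· ∈ P'.poly) (funext fun _ => map_zero φ)).mpr P'.poly.zero_mem
  · exact (congrArg (· ∈ P'.poly) (funext fun _ => map_add φ _ _)).mpr (P'.poly.add_mem ha hb)
  · exact (congrArg (· ∈ P'.poly) (funext fun _ => map_smul φ _ _)).mpr (P'.poly.smul_mem r ha)

theorem count {ψ : A.M →ₗ[X.R] P.tot.M} {φ : B.M →ₗ[X.R] A.M} {z : X.Pt} {T : Submodule ℂ P.Y}
    (hV : ∀ v, v ∈ T ↔ ∃ a, (ψ a).1 z = v) (h0 : ∀ x, ψ (φ x) = 0)
    (hi : Function.Injective (fibMap z.1 φ))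
    (hex : ∀ a, (ψ a).1 z = 0 → ∃ x, fibMap z.1 φ x = mq a) :
    fdim z.1 A.M = fdim z.1 B.M + Module.finrank ℂ T := by
  have h1 := (evF ψ z).finrank_range_add_finrank_ker
  have h2 : LinearMap.ker (evF ψ z) = LinearMap.range (fibC z.1 φ) := by
    refine le_antisymm (fun x hx => ?_) ?_
    · obtain ⟨a, rfl⟩ := fib_surj x
      exact hex a hx
    · rintro _ ⟨x, rfl⟩
      obtain ⟨b, rfl⟩ := fib_surj x
      exact congrArg (fun s : P.poly => s.1 z) (h0 b)
  have h3 := frk_of_inj hi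
  rw [range_evF hV, h2] at h1
  rw [frk] at h3
  rw [fdim, ← h1, h3, add_comm]

end Pw.Rp

end gen

namespace Sf

variable {K : Type} [Field K] [Algebra ℂ K] {S : Surf K} {X : Spc}

/-- the projective structure on the first projection -/
abbrev PF (X : Spc) (h : S.All) : Prj (Mor.fst X (S.spc h)) := Prj.fst X (SA.isProj h)

/-- the constant degree -/
def dE (X : Spc) (h : S.All) (n : ℤ) : (PF X h).E → ℤ := fun _ => n

/-- a function of degree `n` along the surface -/
def PureD (h : S.All) (n : ℤ) (r : (X.prod (S.spc h)).R) : Prop :=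
  ∀ (z : X.Pt) (i : ℤ), i ≠ n → cf h z i r = 0

variable {h : S.All}

theorem tE_inl (t : (PF X h).E → ℂˣ) : (fun i => tor (PF X h).π t (.inl i)) = 1 :=
  (tor_inl _).trans (chr_ext fun γ => by rw [chr_tor, chr_tor, (PF X h).π_ρ, chr_zero, chr_one])

theorem tE_inr (t : (PF X h).E → ℂˣ) : (fun i => tor (PF X h).π t (.inr i)) = t :=
  (tor_inr _).trans (chr_ext fun γ => by
    rw [chr_tor, chr_tor]
    exact congrArg (chr · t) ((PF X h).π_σ γ))

theorem tR_inl (t : X.J → ℂˣ) : (fun i => tor (PF X h).ret t (.inl i)) = t :=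
  (tor_inl _).trans ((PF X h).tor_ret t)

theorem tR_inr (t : X.J → ℂˣ) : (fun i => tor (PF X h).ret t (.inr i)) = 1 :=
  (tor_inr _).trans (chr_ext fun γ => by
    rw [chr_tor, chr_tor, chr_one]
    exact (congrArg (chr · t) ((PF X h).ret_σ γ)).trans (chr_zero t))

theorem cf_tE (z : X.Pt) (i : ℤ) (t : (PF X h).E → ℂˣ) (r : (X.prod (S.spc h)).R) :
    cf h z i ((X.prod (S.spc h)).act (tor (PF X h).π t) r) = chr (dE X h i) t • cf h z i r := by
  rw [cf_act, tE_inl, mv_one, congrFun (tE_inr t) ()]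
  exact congrArg (· • cf h z i r) (chr_unit (fun _ => i) t).symm

theorem cf_tR (z : X.Pt) (i : ℤ) (t : X.J → ℂˣ) (r : (X.prod (S.spc h)).R) :
    cf h z i ((X.prod (S.spc h)).act (tor (PF X h).ret t) r) = cf h (Spc.mv z t) i r := by
  have e : tor (PF X h).ret t (.inr ()) = 1 := congrFun (tR_inr t) ()
  rw [cf_act, tR_inl, e, one_zpow, Units.val_one, one_smul]

theorem pure_iff {n : ℤ} {r : (X.prod (S.spc h)).R} : PureD h n r ↔
    ∀ t, (X.prod (S.spc h)).act (tor (PF X h).π t) r = chr (dE X h n) t • r := by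
  refine ⟨fun hr t => sub_eq_zero.1 (eq_zero_of_cf h _ fun z i => ?_), fun hr z i hi => ?_⟩
  · rw [map_sub, map_smul, cf_tE]
    by_cases e : i = n
    · rw [e, sub_self]
    · rw [hr z i e, smul_zero, smul_zero, sub_self]
  · obtain ⟨t, ht⟩ := chr_sep (γ := dE X h i) (δ := dE X h n) fun e => hi (congrFun e ())
    have := cf_tE z i t r
    rw [hr, map_smul, eq_comm, ← sub_eq_zero, ← sub_smul, smul_eq_zero] at this
    exact this.resolve_left (sub_ne_zero.2 ht)

theorem mem_wtE_Fr {ι : Type} [Fintype ι] {d : ι → (X.prod (S.spc h)).J → ℤ} {k : ℤ}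
    {x : ι → (X.prod (S.spc h)).R} : x ∈ wt ((PF X h).actE (Dg.Fr _ d)) (dE X h k) ↔
      ∀ a, PureD h (k - d a (.inr ())) (x a) := by
  have e : ∀ a t, chr (dE X h k) t =
      chr (d a) (tor (PF X h).π t) * chr (dE X h (k - d a (.inr ()))) t := fun a t => by
    rw [chr_tor, ← chr_add]
    congr 1
    exact funext fun _ => (add_sub_cancel _ _).symm
  refine ⟨fun hx a => pure_iff.2 fun t => ?_, fun hx t => ?_⟩
  · have h1 : chr (d a) (tor (PF X h).π t) • (X.prod (S.spc h)).act _ (x a) =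
      chr (dE X h k) t • x a := congrFun ((Dg.Fr_act d _ x).symm.trans (hx t)) a
    rw [e a, mul_smul] at h1
    exact smul_right_injective _ (chr_ne _ _) h1
  · refine (Dg.Fr_act d _ x).trans (funext fun a => ?_)
    change chr (d a) _ • (X.prod (S.spc h)).act _ (x a) = chr (dE X h k) t • x a
    rw [pure_iff.1 (hx a), e a, mul_smul]

theorem cf_of_mz {z : X.Pt} {r : (X.prod (S.spc h)).R} :
    r ∈ mz (S.spc h) z ↔ ∀ j, cf h z j r = 0 :=
  mem_mz.trans ⟨fun hr j => congrArg (fun t : S.ring => t.1.coeff j) hr,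
    fun hr => Subtype.ext (AddMonoidAlgebra.ext (Finsupp.ext hr))⟩

theorem PureD.snd (n : ℕ) (a : K) (ha : a ∈ S.W ^ n) :
    PureD (X := X) h n ((Mor.snd X (S.spc h)).φ (S.form n a ha)) := fun z i hi => by
  rw [cf_snd, if_neg hi]

/-- a common denominator -/
theorem exists_common {ι : Type} [Fintype ι] (S : Surf K) (s : ι → K) (j : ι → ℕ) :
    ∃ (n : ℕ) (t : K), t ≠ 0 ∧ ∀ p, j p ≤ n ∧ t * s p ∈ S.W ^ (n - j p) := by
  have hw := S.x_mem 0
  have h0 := S.x_ne 0
  have := S.model.frac _ hw h0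
  obtain ⟨b, hb⟩ := IsLocalization.exist_integer_multiples_of_finite
    (nonZeroDivisors (chart S.W (S.x 0))) fun p => s p * S.x 0 ^ j p
  choose c hc using hb
  choose n₀ hn₀ using fun p => exists_pow_of_mem_chart hw h0 (c p).2
  let n := ∑ p, (n₀ p + j p)
  have hn : ∀ p, n₀ p + j p ≤ n := fun p =>
    Finset.single_le_sum (f := fun p => n₀ p + j p) (fun _ _ => Nat.zero_le _) (Finset.mem_univ p)
  have hb0 : ((b : chart S.W (S.x 0)) : K) ≠ 0 := fun e =>
    nonZeroDivisors.ne_zero b.2 (Subtype.ext e)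
  refine ⟨n, (b : chart S.W (S.x 0)) * S.x 0 ^ n, mul_ne_zero hb0 (pow_ne_zero _ h0),
    fun p => ⟨by have := hn p; omega, ?_⟩⟩
  have h1 := hn₀ p (n - j p) (by have := hn p; omega)
  have h2 : (c p : K) = (b : chart S.W (S.x 0)) * (s p * S.x 0 ^ j p) := hc p
  have h3 : S.x 0 ^ n = S.x 0 ^ j p * S.x 0 ^ (n - j p) := by
    rw [← pow_add]; congr 1; have := hn p; omega
  rw [h2] at h1
  convert h1 using 1
  rw [h3]
  ring

end Sf

end Vale.Agent.P297Z
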