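import Vale.Agent.P297Z.Hb.Fam3a

/-! P297: families of subsheaves given by generators: values, the class in large degrees. -/

set_option linter.all false

noncomputable section

namespace Vale.Agent.P297Z

open Pw GMod

theorem Prj.mem_smul_of_val {X Y : Spc} {f : Mor X Y} (P : Prj f) {M : GMod X} {k : P.E → ℤ}
    {a : Ideal Y.R} {y : (P.part k M).M}
    (hy : P.val y ∈ a.map f.φ • (⊤ : Submodule X.R M.M)) :
    y ∈ a • (⊤ : Submodule Y.R (P.part k M).M) := by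
  have e : P.cmpP M k (P.val y) = y := P.val_inj (cmp_of_mem (P.spanE M) (P.val_mem y))
  exact e ▸ P.cmpP_mem_smul M k a hy

/-- the elements that vanish on the fibre -/
abbrev mT {X : Spc} (Y : Spc) (z : X.Pt) (A : Type) [AddCommGroup A] [Module (X.prod Y).R A] :
    Submodule (X.prod Y).R A := mz Y z • ⊤

theorem isBun_Fr1 {X : Spc} {ι : Type} [Fintype ι] (d : ι → X.J → ℤ) :
    (Dg.Fr X d).IsBun (∑ _i : ι, 1) := isBun_pi fun i => (isBun_one X).shift (-d i)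

theorem kc_Fr1 {X : Spc} {ι : Type} [Fintype ι] (d : ι → X.J → ℤ) :
    kc (Dg.Fr X d) (∑ _i : ι, 1) = ∑ i, line X (-d i) :=
  kc_pi fun i => (isBun_one X).shift (-d i)

namespace Sf

variable {K : Type} [Field K] [Algebra ℂ K] {S : Surf K} {X : Spc} {h : S.All}

theorem large {Q : ((PF X h).E → ℤ) → Prop} (H : ∃ k₀, ∀ k, k₀ ≤ k → Q k) :
    ∃ j₁ : ℕ, ∀ j : ℤ, j₁ ≤ j → Q (dE X h j) := by
  obtain ⟨k₀, H⟩ := H
  exact ⟨(k₀ ()).toNat, fun j hj => H _ fun _ => (Int.self_le_toNat _).trans hj⟩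

theorem push_large (hX : X.Cn) {M : GMod (X.prod (S.spc h))} {r : ℕ} (hM : M.IsBun r) :
    ∃ j₁ : ℕ, ∀ j : ℤ, j₁ ≤ j → ∃ a, ((PF X h).part (dE X h j) M).IsBun a ∧
      kc ((PF X h).part (dE X h j) M) a =
        pK X (S.spc h) (kc M r * pullK (Mor.snd _ _) (line (S.spc h) fun _ => j)) := by
  obtain ⟨j₁, H⟩ := large (pushK_part (Prj.nice_fst (PF X h)) hX ⟨M, r, hM⟩)
  refine ⟨j₁, fun j hj => (H j hj).imp fun a ha => ⟨ha.1, ?_⟩⟩
  rw [pK_eq hX (PF X h), pullK_line, mul_comm, kc_eq hM]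
  exact ha.2.symm

theorem pure_induction {Q : (X.prod (S.spc h)).R → Prop} (h0 : Q 0)
    (hw : ∀ n r, PureD h n r → Q r) (ha : ∀ x y, Q x → Q y → Q (x + y))
    (r : (X.prod (S.spc h)).R) : Q r :=
  wt_induction ((PF X h).spanE (one _)) h0 (fun k r hr => hw (k ()) r (pure_iff.2 hr)) ha r

variable {V V' : Type} [AddCommGroup V] [Module K V] [Module ℂ V] [IsScalarTower ℂ K V]
  [AddCommGroup V'] [Module K V'] [Module ℂ V'] [IsScalarTower ℂ K V']

namespace Fam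

variable (F : Fam K X V) (h)

/-- the value at `z` in degree `j` -/
def vl (z : X.Pt) (j : ℤ) : (F.ι → (X.prod (S.spc h)).R) →ₗ[ℂ] V where
  toFun x := ∑ a, cf h z j (x a) • F.u z a
  map_add' x y := by simp only [Pi.add_apply, map_add, add_smul, Finset.sum_add_distrib]
  map_smul' c x := by
    simp only [Pi.smul_apply, map_smul, smul_assoc, RingHom.id_apply, Finset.smul_sum]

variable {F h} {z : X.Pt} {j : ℤ} {x : F.ι → (X.prod (S.spc h)).R} {ρ : ℕ}

theorem vl_apply : F.vl h z j x = ∑ a, cf h z j (x a) • F.u z a := rfl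

theorem vl_fst (a : X.R) : F.vl h z j ((Mor.fst X (S.spc h)).φ a • x) = z.1 a • F.vl h z j x := by
  simp only [vl_apply, Pi.smul_apply, smul_eq_mul, cf_mul_fst, smul_assoc, Finset.smul_sum]

theorem vl_smul {n : ℤ} {r : (X.prod (S.spc h)).R} (hr : ∀ i, i ≠ n → cf h z i r = 0) :
    F.vl h z j (r • x) = cf h z n r • F.vl h z (j - n) x := by
  simp only [vl_apply, Pi.smul_apply, smul_eq_mul, cf_mul h z hr, mul_smul, Finset.smul_sum]

theorem vl_smul' {n : ℤ} (hx : ∀ a i, i ≠ n → cf h z i (x a) = 0) (r : (X.prod (S.spc h)).R) :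
    F.vl h z j (r • x) = cf h z (j - n) r • F.vl h z n x := by
  rw [vl_apply, vl_apply, Finset.smul_sum]
  refine Finset.sum_congr rfl fun a _ => ?_
  rw [Pi.smul_apply, smul_eq_mul, mul_comm, cf_mul h z (hx a), mul_comm, mul_smul]

theorem vl_act (t : X.J → ℂˣ) : F.vl h z j (Dg.fact (F.deg h) (tor (PF X h).ret t) x) =
    F.D t (F.vl h (Spc.mv z t) j x) := by
  rw [vl_apply, vl_apply, map_sum]
  refine Finset.sum_congr rfl fun a _ => ?_
  have e : chr (F.deg h a) (tor (PF X h).ret t) = chr (F.γ a) t := chr_tor _ _ _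
  rw [Dg.fact, map_smul, cf_tR, map_smul, D_u, e, smul_assoc, smul_comm]

theorem vl_mem (j : ℕ) : F.vl h z j x ∈ Gn S.W (F.u z) j :=
  ⟨_, fun a => S.Wp_nat j ▸ cf_mem h z j (x a), rfl⟩

theorem vl_poly (j : ℕ) (x : F.ι → (X.prod (S.spc h)).R) :
    (fun z => F.vl h z j x : Fn X (F.rp S j).Y) ∈ (F.rp S j).poly :=
  (F.mp_lc S j).map_poly (F.poly_cf h j x)

theorem vl_of_mz (hx : x ∈ mT (S.spc h) z (F.ι → (X.prod (S.spc h)).R)) :
    F.vl h z j x = 0 := Finset.sum_eq_zero fun a _ => by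
  rw [cf_of_mz.1 (mem_smul_fun.1 hx a), zero_smul]

variable (F h) in
/-- the relations at one point -/
def Kz (z : X.Pt) : Submodule (X.prod (S.spc h)).R (F.ι → (X.prod (S.spc h)).R) where
  carrier := {x | ∀ j, F.vl h z j x = 0}
  zero_mem' := fun _ => map_zero _
  add_mem' := fun hx hy j => by rw [map_add, hx j, hy j, add_zero]
  smul_mem' := fun r x hx => pure_induction (Q := fun r => ∀ j, F.vl h z j (r • x) = 0)
    (fun j => by rw [zero_smul, map_zero])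
    (fun n r hr j => by rw [vl_smul (hr z), hx, smul_zero])
    (fun a b ha hb j => by rw [add_smul, map_add, ha, hb, add_zero]) r

theorem Flat.liftP (hF : F.Flat S ρ) {n : ℕ} (hx : ∀ a, PureD h n (x a))
    (h0 : F.vl h z n x = 0) : ∃ k ∈ F.Kt h, (∀ a, PureD h n (k a)) ∧
      x - k ∈ mT (S.spc h) z (F.ι → (X.prod (S.spc h)).R) := by
  obtain ⟨k, h1, h2, h3⟩ := hF.lift h z (j := n) (c := fun a => cf h z n (x a))
    ⟨fun a => S.Wp_nat n ▸ cf_mem h z n (x a), h0⟩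
  refine ⟨k, h1, h3, mem_smul_fun.2 fun a => cf_of_mz.2 fun i => ?_⟩
  rw [Pi.sub_apply, map_sub]
  by_cases e : i = n
  · rw [e, h2, sub_self]
  · rw [hx a z i e, h3 a z i e, sub_self]

theorem Flat.mem_of_pure (hF : F.Flat S ρ) {n : ℤ} (hp : ∀ a, PureD h n (x a))
    (h1 : F.vl h z n x = 0) : x ∈ F.Kt h ⊔ mT (S.spc h) z _ := by
  rcases le_or_gt 0 n with h0 | h0
  · obtain ⟨n, rfl⟩ := Int.eq_ofNat_of_zero_le h0
    obtain ⟨w, h1, -, h2⟩ := hF.liftP hp h1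
    exact Submodule.mem_sup.2 ⟨w, h1, _, h2, add_sub_cancel _ _⟩
  · refine Submodule.mem_sup_right (mem_smul_fun.2 fun a => cf_of_mz.2 fun i => ?_)
    by_cases e : i = n
    · have := cf_mem h z i (x a)
      rwa [S.Wp_neg (e ▸ h0), Submodule.mem_bot] at this
    · exact hp a z i e

theorem vl_tE (t : (PF X h).E → ℂˣ) : F.vl h z j (Dg.fact (fun _ => 0) (tor (PF X h).π t) x) =
    chr (dE X h j) t • F.vl h z j x := by
  simp only [vl_apply, Dg.fact, chr_zero, one_smul, cf_tE, smul_assoc, Finset.smul_sum]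

theorem Flat.Kz_le (hF : F.Flat S ρ) (z : X.Pt) :
    F.Kz h z ≤ F.Kt h ⊔ mT (S.spc h) z _ := fun x hx =>
  wt_induction_sub ((PF X h).spanE (Dg.Fr _ fun _ : F.ι => 0)) ((F.Kz h z).restrictScalars ℂ)
    (fun t v hv j => (congrArg (F.vl h z j) (Dg.Fr_act _ _ v)).trans ((vl_tE t).trans
      ((congrArg (chr (dE X h j) t • ·) (hv j)).trans (smul_zero _))))
    (P := fun v => v ∈ F.Kt h ⊔ mT (S.spc h) z (F.ι → (X.prod (S.spc h)).R)) (zero_mem _)
    (fun k v hv hw => hF.mem_of_pure (n := k ())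
      (fun a => sub_zero (k ()) ▸ (mem_wtE_Fr (d := fun _ => 0) (k := k ())).1 hw a) (hv _))
    (fun _ _ => add_mem) x hx

variable (F h) in
/-- the free module on the generators -/
abbrev FM : GMod (X.prod (S.spc h)) := Dg.Fr _ (F.deg h)

variable (F h) in
/-- the inclusion of the relations -/
def inc : (F.KM h).M →ₗ[(X.prod (S.spc h)).R] (F.FM h).M := (F.Kt h).subtype

theorem inc_hom : (F.KM h).IsHom (F.FM h) (F.inc h) := fun _ _ => rfl

theorem mem_wtE_FM {x : (F.FM h).M} {j : ℤ} :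
    x ∈ wt ((PF X h).actE (F.FM h)) (dE X h (F.m + j)) ↔ ∀ a, PureD h j (x a) :=
  mem_wtE_Fr.trans (forall_congr' fun a => by
    rw [show F.m + j - F.deg h a (.inr ()) = j from add_sub_cancel_left _ _])

theorem mem_wtE_KM {x : (F.KM h).M} {j : ℤ} :
    x ∈ wt ((PF X h).actE (F.KM h)) (dE X h (F.m + j)) ↔ ∀ a, PureD h j (F.inc h x a) :=
  Iff.trans ⟨fun hx t => congrArg Subtype.val (hx t), fun hx t => Subtype.ext (hx t)⟩ mem_wtE_FM

theorem Flat.torP (hF : F.Flat S ρ) {x : (F.KM h).M}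
    (hx : F.inc h x ∈ mT (S.spc h) z (F.FM h).M) : ∃ r : X.R, z.1 r ≠ 0 ∧
      (Mor.fst X (S.spc h)).φ r • x ∈ mT (S.spc h) z (F.KM h).M := by
  obtain ⟨r, h1, h2⟩ := hF.tor z x.2 fun a => cf_of_mz.1 (mem_smul_fun.1 hx a)
  exact ⟨r, h1, (Submodule.mem_smul_top_iff _ (F.Kt h) _).2 h2⟩

variable (F h) in
/-- the values of the part of degree `m + j` -/
def vG (j : ℕ) : ((PF X h).part (dE X h (F.m + j)) (F.FM h)).M →ₗ[X.R] (F.rp S j).poly where
  toFun x := ⟨fun z => F.vl h z j ((PF X h).val x), vl_poly j _⟩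
  map_add' x y := Subtype.ext (funext fun z =>
    map_add (F.vl h z j) ((PF X h).val x) ((PF X h).val y))
  map_smul' r _ := Subtype.ext (funext fun _ => vl_fst r)

theorem Flat.cl_Gn (hX : X.Cn) (hF : F.Flat S ρ) (h : S.All) : ∃ j₁, ∀ j, j₁ ≤ j → ∀ n,
    (∀ z, Module.finrank ℂ (Gn S.W (F.u z) j) = n) →
    (F.rp S j).cl (fun z => Gn S.W (F.u z) j) n =
      pK X (S.spc h) (F.Ecl h ρ * pullK (Mor.snd _ _) (line (S.spc h) fun _ => (F.m + j : ℕ))) := by
  obtain ⟨j1, h1⟩ := push_large hX (isBun_Fr1 (F.deg h))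
  obtain ⟨j2, h2⟩ := push_large hX (hF.isBun h)
  refine ⟨j1 + j2, fun j hj n hn => ?_⟩
  obtain ⟨a, ha, ea⟩ := h1 (F.m + j) (by omega)
  obtain ⟨b, hb, eb⟩ := h2 (F.m + j) (by omega)
  have hψ : IsHom _ (F.rp S j).tot (F.vG h j) := fun t x => Subtype.ext (funext fun z =>
    (congrArg (F.vl h z j) (Dg.Fr_act (F.deg h) _ ((PF X h).val x))).trans (vl_act t))
  have hV : ∀ z v, v ∈ Gn S.W (F.u z) j ↔ ∃ x, (F.vG h j x).1 z = v := fun z v =>
    ⟨fun ⟨c, hc, e⟩ => ⟨(PF X h).el (fun a => (Mor.snd X (S.spc h)).φ (S.form j (c a) (hc a)))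
      (mem_wtE_FM.2 fun a => PureD.snd j _ _), Eq.trans (Finset.sum_congr rfl fun a _ =>
        congrArg (· • F.u z a) ((cf_snd h z j j _ (hc a)).trans (if_pos rfl))) e⟩,
      fun ⟨x, e⟩ => e ▸ vl_mem j⟩
  have h0 : ∀ x, F.vG h j ((PF X h).partMap _ (F.inc h) inc_hom x) = 0 := fun x =>
    Subtype.ext (funext fun z => ((PF X h).val x).2 z j)
  have hi : ∀ z : X.Pt, Function.Injective
      (fibMap z.1 ((PF X h).partMap (dE X h (F.m + j)) (F.inc h) inc_hom)) := fun z =>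
    (injective_iff_map_eq_zero _).2 fun x hx => by
      obtain ⟨y, rfl⟩ := fib_surj x
      obtain ⟨r, h3, h4⟩ := hF.torP ((PF X h).val_mem_smul ((Submodule.Quotient.mk_eq_zero _).1 hx))
      exact fib_eq_zero h3 ((Submodule.Quotient.mk_eq_zero _).2
        ((PF X h).mem_smul_of_val (y := r • y) h4))
  obtain ⟨z⟩ := hX.ne
  have hc := Rp.count (ψ := F.vG h j) (hV z) h0 (hi z) fun x hx => by
    obtain ⟨k, h3, h4, h5⟩ := hF.liftP (mem_wtE_FM.1 ((PF X h).val_mem x)) hx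
    exact ⟨Submodule.Quotient.mk ((PF X h).el ⟨k, h3⟩ (mem_wtE_KM.2 h4)),
      ((Submodule.Quotient.eq _).2 ((PF X h).mem_smul_of_val h5)).symm⟩
  rw [ha.fdim, hb.fdim, hn] at hc
  rw [(Rp.sb_of_hom (F.vG h j) hψ hV hn).2 _ _ a b ((PF X h).partMap_isHom _ _ _) ha hb h0 hi hc,
    ea, eb, ← map_sub, ← sub_mul, kc_Fr1, Nat.cast_add]
  rfl

end Fam

end Sf

end Vale.Agent.P297Z
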