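import Vale.Agent.P297Z.Hb.Fib0

/-! P297: regular subsheaves of rank one: jets, stalks, uniqueness. -/

set_option linter.all false

open IsLocalRing Module

namespace Vale.Agent.P297Z.Sf.Fb

open Vale.Agent.P297Z.Hb Bl4

variable {K : Type} [Field K] [Algebra ℂ K] (S : Surf K)

theorem X_le_W : S.X ≤ S.W := Submodule.span_le.2 (by rintro _ ⟨i, rfl⟩; exact S.x_mem i)

theorem x_mem_X (i : Fin 3) : S.x i ∈ S.X := Submodule.subset_span ⟨i, rfl⟩

variable {S}

theorem Reg.mono {m m' : ℤ} {A : Div S.W} {Z : Zs S.W} (h : Reg S m A Z) (hm : m ≤ m') :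
    Reg S m' A Z :=
  ⟨fun j hj => h.gen j (hm.trans hj), fun j hj => h.dim j (hm.trans hj),
    fun j hj => h.h2 j (hm.trans hj)⟩

theorem Reg.gen_pow {m : ℤ} {A : Div S.W} {Z : Zs S.W} (h : Reg S m A Z) (n : ℕ) :
    EM Z A (m + n) ≤ S.X ^ n * EM Z A m := by
  induction n with
  | zero => simp
  | succ n ih =>
    rw [Nat.cast_succ, ← add_assoc, pow_succ', mul_assoc]
    exact (h.gen _ (by omega)).trans (mul_le_mul' le_rfl ih)

theorem Reg.gen_pow' {m : ℤ} {A : Div S.W} {Z : Zs S.W} (h : Reg S m A Z) (n : ℕ) :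
    EM Z A (m + n) ≤ S.W ^ n * EM Z A m :=
  (h.gen_pow n).trans (mul_le_mul' (pow_le_pow_left' (X_le_W S) n) le_rfl)

variable (S) (hA : S.All)
include hA

theorem fin_M (A : Div S.W) (j : ℤ) : Module.Finite ℂ (M A j) := (hA.fg A).1 j

theorem fin_EM (Z : Zs S.W) (A : Div S.W) (j : ℤ) : Module.Finite ℂ (EM Z A j) :=
  haveI := fin_M S hA A j
  Submodule.finiteDimensional_of_le (EM_le_M S hA.toLoc Z A j)

theorem chi_le {A : Div S.W} {j : ℤ} (h : H0 (S.kap - (A + j • S.H)) = ⊥) :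
    chi (A + j • S.H) ≤ finrank ℂ (M A j) := by
  have h1 := hA.le (A + j • S.H)
  unfold h0 at h1
  rw [h, finrank_bot, Nat.cast_zero, add_zero] at h1
  exact h1

theorem finrank_EM (Z : Zs S.W) (A : Div S.W) (j : ℤ) :
    rdim (EM Z A j) (M A j) + finrank ℂ (EM Z A j) = finrank ℂ (M A j) :=
  haveI := fin_M S hA A j
  rdim_add_finrank (EM_le_M S hA.toLoc Z A j)

variable {S}

theorem Reg.jets {m : ℤ} {A : Div S.W} {Z : Zs S.W} (h : Reg S m A Z) {j : ℤ} (hj : m ≤ j) :
    Jets S Z A j ∧ (finrank ℂ (M A j) : ℤ) = chi (A + j • S.H) := by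
  have h1 := chi_le S hA (h.h2 j hj)
  have h2 := finrank_EM S hA Z A j
  have h3 := (rdim_EM_le S hA.toLoc Z A j).2
  have h4 := h.dim j hj
  exact ⟨(jets_iff S hA.toLoc Z A j).2 (by omega), by omega⟩

theorem Reg.up {m : ℤ} {A : Div S.W} {Z Z' : Zs S.W} (h : Reg S m A Z')
    (hl : ∀ y, Z'.J y ≤ Z.J y) : Reg S m A Z := by
  classical
  have hL := hA.toLoc
  refine ⟨fun j hj f hf => ?_, fun j hj => ?_, h.h2⟩
  · choose i hi using hL.pt_cover
    have h1 : ∀ x, f / S.x (i x) ∈ Z.st (A + j • S.H) x := fun x => by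
      rw [← div_mem_st S hL (k := 1) (S.x_mem (i x)) (hi x), zpow_one,
        div_mul_cancel₀ _ (hi x).1]
      exact mem_EM.1 hf x
    have h2 : ∀ k x, (if k = i x then f / S.x (i x) else 0) ∈ Z.st (A + j • S.H) x := by
      intro k x
      split_ifs
      · exact h1 x
      · exact zero_mem _
    choose g hg hg' using fun k : Fin 3 => (h.jets hA hj).1
      (fun x => if k = i x then f / S.x (i x) else 0) fun x => st_le_stalk S hL Z _ x (h2 k x)
    have h3 : ∀ k, g k ∈ EM Z A j := fun k => mem_EM_of S hL (hg k) fun x hx => by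
      have := add_mem (st_mono (hl x) _ (hg' k x fun e => hx (top_le_iff.1 (e ▸ hl x)))) (h2 k x)
      rwa [sub_add_cancel] at this
    have h4 : ∑ k, S.x k * g k ∈ S.X * EM Z A j :=
      Submodule.sum_mem _ fun k _ => Submodule.mul_mem_mul (x_mem_X S k) (h3 k)
    have h5 : ∑ k, S.x k * g k - f ∈ EM Z' A (j + 1) := by
      refine mem_EM_of S hL (sub_mem ?_ (EM_le_M S hL _ _ _ hf)) fun x hx => ?_
      · exact EM_le_M S hL _ _ _ (W_mul_EM S hL Z A j (mul_le_mul' (X_le_W S) le_rfl h4))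
      · have e : f = ∑ k, S.x k * (if k = i x then f / S.x (i x) else 0) := by
          simp [mul_div_cancel₀ _ (hi x).1]
        have e' : ∑ k, S.x k * g k - f =
            ∑ k, S.x k * (g k - if k = i x then f / S.x (i x) else 0) := by
          simp only [mul_sub, Finset.sum_sub_distrib]
          rw [← e]
        rw [e']
        exact Submodule.sum_mem _ fun k _ =>
          M_mul_st S hL (mem_M_one S hL (S.x_mem k)) (hg' k x hx)
    have h6 := sub_mem h4 (mul_le_mul' le_rfl (EM_mono hl A j) (h.gen j hj h5))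
    rwa [sub_sub_cancel] at h6
  · have h1 := h.jets hA hj
    have h2 := (jets_iff S hL Z A j).1 (h1.1.mono S hl)
    have h3 := finrank_EM S hA Z A j
    omega

/-- forms times sections, read at a point -/
theorem pow_mul_le {x : Pt S.W} {w s : K} (hx : x.In w) (I : Ideal x.ring) (E : Submodule ℂ K)
    (hE : ∀ u ∈ E, u / s ∈ inK I) (n : ℕ) : ∀ f ∈ S.W ^ n * E, f / (s * w ^ n) ∈ inK I := by
  intro f hf
  refine Submodule.mul_induction_on hf (fun c hc u hu => ?_) fun a b ha hb => ?_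
  · rw [mul_comm s, mul_div_mul_comm]
    exact mul_mem_inK ⟨_, pow_div_mem hx.2 n c hc⟩ (hE u hu)
  · rw [add_div]
    exact add_mem ha hb

variable (hF : FibA S)
include hF

theorem Reg.stalk {m : ℤ} {A : Div S.W} {Z : Zs S.W} (h : Reg S m A Z) (x : Pt S.W) {s : K}
    (hs : GenAt x (A + m • S.H) s) :
    Z.J x = Ideal.span {a : x.ring | (a : K) * s ∈ EM Z A m} := by
  classical
  have hL := hA.toLoc
  have hR := rl S hA x
  haveI := hR.noeth
  refine le_antisymm ?_ (Ideal.span_le.2 fun a ha => ?_)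
  · refine Submodule.le_of_le_smul_of_le_jacobson_bot (IsNoetherian.noetherian _) max_le_jac
      fun a ha => ?_
    let Z' := Z.upd x _ (hR.finCol_max_mul (Z.fc x))
    have e1 : Z'.J x = maximalIdeal x.ring * Z.J x := Z.upd_self ..
    have e2 : ∀ y, y ≠ x → Z'.J y = Z.J y := fun y hy => Z.upd_ne _ _ hy
    obtain ⟨m₀, hm₀⟩ := hF.large Z' A
    obtain ⟨n, hn⟩ : ∃ n : ℕ, m₀ ≤ m + n := ⟨(m₀ - m).toNat, by omega⟩
    obtain ⟨w, hw, hx⟩ := x.exists_in
    have hs' := gen_twist_nat S hL hs hw hx n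
    obtain ⟨f, hf, hf'⟩ := ((hm₀ _ hn).jets hA le_rfl).1
      (fun y => if y = x then a * (s * w ^ n) else 0) fun y => by
        split_ifs with e
        · subst e; exact mul_gen_mem_stalk hs' a.2
        · exact zero_mem _
    have h1 := hf' x (by
      rw [e1]
      exact fun e => (maximalIdeal.isMaximal _).ne_top (top_le_iff.1 (e ▸ Ideal.mul_le_left)))
    rw [if_pos rfl, mem_st S hL hs', e1, sub_div, mul_div_cancel_right₀ _ hs'.1] at h1
    have h2 : f ∈ EM Z A (m + n) := mem_EM_of S hL hf fun y hy => by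
      by_cases e : y = x
      · subst e
        rw [mem_st S hL hs']
        have := add_mem (inK_mono Ideal.mul_le_right h1) (coe_mem_inK.2 ha)
        rwa [sub_add_cancel] at this
      · have := hf' y (by rwa [e2 y e])
        rwa [if_neg e, sub_zero, st_congr (e2 y e)] at this
    obtain ⟨b, hb, e3⟩ := pow_mul_le hA hx (s := s)
      (Ideal.span {a : x.ring | (a : K) * s ∈ EM Z A m}) (EM Z A m) (fun u hu => by
        obtain ⟨b, -, rfl⟩ := mem_EM.1 hu x s hs
        rw [mul_div_cancel_right₀ _ hs.1]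
        exact coe_mem_inK.2 (Ideal.subset_span hu)) n f (h.gen_pow' n h2)
    have e4 : (b : K) = f / (s * w ^ n) := e3
    rw [← e4, ← AddSubgroupClass.coe_sub, coe_mem_inK] at h1
    exact Submodule.mem_sup.2 ⟨b, hb, _, neg_mem h1, by ring⟩
  · have := (mem_st S hL hs).1 (mem_EM.1 ha x)
    rwa [mul_div_cancel_right₀ _ hs.1, coe_mem_inK] at this

theorem Reg.hom_stalk {m : ℤ} {A B : Div S.W} {Z : Zs S.W} (h : Reg S m A Z) (x : Pt S.W) {t : K}
    (ht : ∀ u ∈ EM Z A m, t * u ∈ Sf.stalk x B) : t ∈ Sf.stalk x (B - (A + m • S.H)) := by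
  have hL := hA.toLoc
  obtain ⟨s, hs⟩ := hL.gen x (A + m • S.H)
  obtain ⟨r, hr⟩ := hL.gen x B
  rw [sub_eq_add_neg, mem_stalk_iff S hL (gen_mul hr (gen_inv hs))]
  refine (rl S hA x).sat _ (Z.fc x) _ fun a ha => ?_
  rw [h.stalk hA hF x hs] at ha
  induction ha using Submodule.span_induction with
  | mem a ha =>
    have h1 := div_gen_mem S hL hr (ht _ ha)
    have h2 := hs.1
    have h3 := hr.1
    convert h1 using 1
    field_simp
  | zero => simpa using zero_mem _
  | add a b _ _ ha hb =>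
    rw [AddMemClass.coe_add, mul_add]
    exact add_mem ha hb
  | smul c a _ ha =>
    rw [smul_eq_mul, MulMemClass.coe_mul, mul_left_comm]
    exact mul_mem c.2 ha

theorem Reg.hom {m k : ℤ} {A B : Div S.W} {Z : Zs S.W} (h : Reg S m A Z) {t : K}
    (ht : ∀ u ∈ EM Z A m, t * u ∈ M B (m + k)) : t ∈ M (B - A) k := by
  refine mem_H0_of_stalk S hA.toLoc fun x => ?_
  have := h.hom_stalk hA hF x fun u hu => M_le_stalk x _ _ (ht u hu)
  rwa [show B + (m + k) • hyp S.W - (A + m • S.H) = B - A + k • hyp S.W by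
    rw [add_smul]; abel] at this

theorem Reg.uniq {m : ℤ} {A A' : Div S.W} {Z Z' : Zs S.W} (h : Reg S m A Z) (h' : Reg S m A' Z')
    (e : EM Z A m = EM Z' A' m) : A = A' ∧ Z = Z' := by
  have hL := hA.toLoc
  have h1 := h.hom hA hF (k := 0) (B := A') (t := 1) fun u hu => by
    rw [one_mul, add_zero]; exact EM_le_M S hL _ _ _ (e ▸ hu)
  have h2 := h'.hom hA hF (k := 0) (B := A) (t := 1) fun u hu => by
    rw [one_mul, add_zero]; exact EM_le_M S hL _ _ _ (e ▸ hu)
  have e1 : A = A' := by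
    ext C
    have a1 := h1.resolve_left one_ne_zero C trivial
    have a2 := h2.resolve_left one_ne_zero C trivial
    simp at a1 a2
    omega
  subst e1
  refine ⟨rfl, Zs.ext (funext fun x => ?_)⟩
  obtain ⟨s, hs⟩ := hL.gen x (A + m • S.H)
  rw [h.stalk hA hF x hs, h'.stalk hA hF x hs, e]

end Vale.Agent.P297Z.Sf.Fb
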