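import Vale.Agent.P297Z.Hb.LaDefs

/-! P297: the calculus of relative dimensions. -/

set_option linter.all false

open Module

namespace Vale.Agent.P297Z.Hb

variable {V W : Type} [AddCommGroup V] [Module ℂ V] [AddCommGroup W] [Module ℂ W]
  {A B C : Submodule ℂ V} {A' B' : Submodule ℂ W}

theorem nonempty_equiv_map (φ : V →ₗ[ℂ] W) (h : ∀ v ∈ B, φ v = 0 ↔ v ∈ A) :
    Nonempty ((B ⧸ A.submoduleOf B) ≃ₗ[ℂ] B.map φ) := by
  have h1 : A.submoduleOf B = LinearMap.ker (φ.domRestrict B) := by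
    ext ⟨v, hv⟩
    exact (h v hv).symm
  exact ⟨(Submodule.quotEquivOfEq _ _ h1).trans ((φ.domRestrict B).quotKerEquivRange.trans
    (LinearEquiv.ofEq _ _ (LinearMap.range_domRestrict B φ)))⟩

theorem rdim_eq_map (φ : V →ₗ[ℂ] W) (h : ∀ v ∈ B, φ v = 0 ↔ v ∈ A) :
    rdim A B = finrank ℂ (B.map φ) := by
  obtain ⟨e⟩ := nonempty_equiv_map φ h
  exact e.finrank_eq

theorem rfin_iff_map (φ : V →ₗ[ℂ] W) (h : ∀ v ∈ B, φ v = 0 ↔ v ∈ A) :
    RFin A B ↔ Module.Finite ℂ (B.map φ) := by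
  obtain ⟨e⟩ := nonempty_equiv_map φ h
  exact Module.Finite.equiv_iff e

theorem rdim_eq (A B : Submodule ℂ V) : rdim A B = finrank ℂ (B.map A.mkQ) :=
  rdim_eq_map _ fun v _ => Submodule.Quotient.mk_eq_zero A

theorem rfin_iff (A B : Submodule ℂ V) : RFin A B ↔ Module.Finite ℂ (B.map A.mkQ) :=
  rfin_iff_map _ fun v _ => Submodule.Quotient.mk_eq_zero A

theorem map_mkQ_le (h : B ≤ C ⊔ A) : B.map A.mkQ ≤ C.map A.mkQ := by
  refine (Submodule.map_mono h).trans ?_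
  rw [Submodule.map_sup, Submodule.mkQ_map_self, sup_bot_eq]

/-- an induced map that is bijective -/
theorem rdim_congr (f : V →ₗ[ℂ] W) (h1 : B.map f ≤ B' ⊔ A') (h2 : B' ≤ B.map f ⊔ A')
    (h : ∀ v ∈ B, f v ∈ A' ↔ v ∈ A) : (RFin A B ↔ RFin A' B') ∧ rdim A B = rdim A' B' := by
  have h3 : ∀ v ∈ B, (A'.mkQ ∘ₗ f) v = 0 ↔ v ∈ A := fun v hv =>
    (Submodule.Quotient.mk_eq_zero A').trans (h v hv)
  have e : B.map (A'.mkQ ∘ₗ f) = B'.map A'.mkQ := by
    rw [Submodule.map_comp]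
    exact le_antisymm (map_mkQ_le h1) (map_mkQ_le h2)
  rw [rfin_iff_map _ h3, rdim_eq_map _ h3, e, rfin_iff, rdim_eq]
  exact ⟨Iff.rfl, rfl⟩

/-- an induced map that is injective -/
theorem rdim_le_of_inj (f : V →ₗ[ℂ] W) (h1 : B.map f ≤ B' ⊔ A')
    (h : ∀ v ∈ B, f v ∈ A' → v ∈ A) (hf : RFin A' B') : RFin A B ∧ rdim A B ≤ rdim A' B' := by
  have h3 : ∀ v ∈ B, (A'.mkQ ∘ₗ f) v = 0 → A.mkQ v = 0 := fun v hv h0 =>
    (Submodule.Quotient.mk_eq_zero A).2 (h v hv ((Submodule.Quotient.mk_eq_zero A').1 h0))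
  have e : B.map (A'.mkQ ∘ₗ f) ≤ B'.map A'.mkQ := by
    rw [Submodule.map_comp]
    exact map_mkQ_le h1
  rw [rfin_iff] at hf
  have h4 : Module.Finite ℂ (B.map (A'.mkQ ∘ₗ f)) := Submodule.finiteDimensional_of_le e
  obtain ⟨e1⟩ := nonempty_equiv_map (A := LinearMap.ker (A'.mkQ ∘ₗ f)) (B := B) (A'.mkQ ∘ₗ f)
    fun _ _ => Iff.rfl
  have h5 : (LinearMap.ker (A'.mkQ ∘ₗ f)).submoduleOf B ≤ A.submoduleOf B := fun v hv =>
    h v v.2 ((Submodule.Quotient.mk_eq_zero A').1 hv)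
  have h6 : Module.Finite ℂ (B ⧸ (LinearMap.ker (A'.mkQ ∘ₗ f)).submoduleOf B) :=
    (Module.Finite.equiv_iff e1).2 h4
  have h7 := Submodule.factor_surjective h5
  refine ⟨Module.Finite.of_surjective _ h7, ?_⟩
  rw [rdim_eq A' B']
  refine le_trans ?_ (e1.finrank_eq.le.trans (Submodule.finrank_mono e))
  exact LinearMap.finrank_le_finrank_of_surjective h7

/-- an induced map that is surjective -/
theorem rdim_le_of_surj (f : V →ₗ[ℂ] W) (h2 : B' ≤ B.map f ⊔ A')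
    (h : ∀ v ∈ B, v ∈ A → f v ∈ A') (hf : RFin A B) : RFin A' B' ∧ rdim A' B' ≤ rdim A B := by
  have h1 := rdim_le_of_inj (A := A'.comap f) (B := B) (A' := A) (B' := B) LinearMap.id
    (by simp) h hf
  have h3 := rdim_congr (A := A'.comap f) (B := B) (A' := A') (B' := B.map f) f le_sup_left
    le_sup_left fun _ _ => Iff.rfl
  have h4 := rdim_le_of_inj (A := A') (B := B') (A' := A') (B' := B.map f) LinearMap.id
    (by simpa using h2) (fun _ _ h => h) (h3.1.1 h1.1)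
  exact ⟨h4.1, h4.2.trans (h3.2.ge.trans h1.2)⟩

theorem RFin.mono {A₁ B₁ : Submodule ℂ V} (h : RFin A B) (hA : A ≤ A₁) (hB : B₁ ≤ B) :
    RFin A₁ B₁ :=
  (rdim_le_of_inj LinearMap.id (by simpa using hB.trans le_sup_left) (fun _ _ h => hA h) h).1

theorem rdim_mono {A₁ B₁ : Submodule ℂ V} (h : RFin A B) (hA : A ≤ A₁) (hB : B₁ ≤ B) :
    rdim A₁ B₁ ≤ rdim A B :=
  (rdim_le_of_inj LinearMap.id (by simpa using hB.trans le_sup_left) (fun _ _ h => hA h) h).2

theorem rdim_inf (A B : Submodule ℂ V) :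
    (RFin (A ⊓ B) B ↔ RFin A B) ∧ rdim (A ⊓ B) B = rdim A B :=
  rdim_congr LinearMap.id (by simp) (by simp) fun v hv => ⟨fun h => ⟨h, hv⟩, fun h => h.1⟩

theorem rdim_sup (A B : Submodule ℂ V) :
    (RFin A (A ⊔ B) ↔ RFin A B) ∧ rdim A (A ⊔ B) = rdim A B :=
  rdim_congr LinearMap.id (by simp) (by simpa using le_sup_of_le_left le_sup_right)
    fun v hv => Iff.rfl

theorem rdim_map (f : V →ₗ[ℂ] W) (hf : Function.Injective f) (A B : Submodule ℂ V) :
    (RFin (A.map f) (B.map f) ↔ RFin A B) ∧ rdim (A.map f) (B.map f) = rdim A B := by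
  have := rdim_congr (A := A) (B := B) (A' := A.map f) (B' := B.map f) f le_sup_left le_sup_left
    fun v _ => ⟨fun ⟨w, hw, e⟩ => hf e ▸ hw, fun h => ⟨v, h, rfl⟩⟩
  exact ⟨this.1.symm, this.2.symm⟩

theorem rdim_map_of_ker (f : V →ₗ[ℂ] W) (hf : ∀ v ∈ B, f v = 0 → v ∈ A) (hAB : A ≤ B) :
    (RFin (A.map f) (B.map f) ↔ RFin A B) ∧ rdim (A.map f) (B.map f) = rdim A B := by
  have := rdim_congr (A := A) (B := B) (A' := A.map f) (B' := B.map f) f le_sup_left le_sup_left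
    fun v hv => ⟨fun ⟨w, hw, e⟩ => by
      have h1 := hf (v - w) (sub_mem hv (hAB hw)) (by rw [map_sub, e, sub_self])
      simpa using add_mem h1 hw, fun h => ⟨v, h, rfl⟩⟩
  exact ⟨this.1.symm, this.2.symm⟩

theorem rdim_comap (f : V →ₗ[ℂ] W) (hB : B' ≤ LinearMap.range f ⊔ A') (hAB : A' ≤ B') :
    (RFin (A'.comap f) (B'.comap f) ↔ RFin A' B') ∧
      rdim (A'.comap f) (B'.comap f) = rdim A' B' := by
  refine rdim_congr f ((Submodule.map_comap_le _ _).trans le_sup_left) (fun w hw => ?_)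
    fun _ _ => Iff.rfl
  obtain ⟨_, ⟨v, rfl⟩, a, ha, rfl⟩ := Submodule.mem_sup.1 (hB hw)
  refine Submodule.add_mem_sup ⟨v, ?_, rfl⟩ ha
  have := sub_mem hw (hAB ha)
  rwa [add_sub_cancel_right] at this

theorem rdim_bot (B : Submodule ℂ V) :
    (RFin ⊥ B ↔ Module.Finite ℂ B) ∧ rdim ⊥ B = finrank ℂ B := by
  rw [rfin_iff_map LinearMap.id fun _ _ => Iff.rfl, rdim_eq_map LinearMap.id fun _ _ => Iff.rfl,
    Submodule.map_id]
  exact ⟨Iff.rfl, rfl⟩

/-- the quotient of the whole space, given by a surjective map -/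
theorem rdim_top_of_surj (φ : V →ₗ[ℂ] W) (hφ : Function.Surjective φ)
    (h : ∀ v, φ v = 0 ↔ v ∈ A) :
    (RFin A ⊤ ↔ Module.Finite ℂ W) ∧ rdim A ⊤ = finrank ℂ W := by
  rw [rfin_iff_map φ fun v _ => h v, rdim_eq_map φ fun v _ => h v, Submodule.map_top,
    LinearMap.range_eq_top.2 hφ]
  exact ⟨Module.Finite.equiv_iff Submodule.topEquiv, finrank_top ℂ W⟩

theorem rdim_top (A : Submodule ℂ V) :
    (RFin A ⊤ ↔ Module.Finite ℂ (V ⧸ A)) ∧ rdim A ⊤ = finrank ℂ (V ⧸ A) :=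
  rdim_top_of_surj A.mkQ A.mkQ_surjective fun _ => Submodule.Quotient.mk_eq_zero A

theorem rfin_of_finite (A B : Submodule ℂ V) [h : Module.Finite ℂ B] : RFin A B :=
  ((rdim_bot B).1.2 h).mono bot_le le_rfl

theorem rfin_of_le (h : B ≤ A) : RFin A B := by
  rw [rfin_iff, le_bot_iff.1 ((Submodule.map_mono h).trans (Submodule.mkQ_map_self A).le)]
  infer_instance

theorem rdim_of_le (h : B ≤ A) : rdim A B = 0 := by
  rw [rdim_eq, le_bot_iff.1 ((Submodule.map_mono h).trans (Submodule.mkQ_map_self A).le)]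
  exact finrank_bot ℂ _

theorem rdim_self (A : Submodule ℂ V) : rdim A A = 0 := rdim_of_le le_rfl

theorem rdim_eq_zero_iff (h : RFin A B) : rdim A B = 0 ↔ B ≤ A := by
  refine ⟨fun h0 v hv => ?_, rdim_of_le⟩
  rw [rfin_iff] at h
  rw [rdim_eq, Submodule.finrank_eq_zero] at h0
  have : A.mkQ v ∈ B.map A.mkQ := ⟨v, hv, rfl⟩
  rw [h0] at this
  exact (Submodule.Quotient.mk_eq_zero A).1 this

theorem rdim_pos_iff (h : RFin A B) : 0 < rdim A B ↔ ¬ B ≤ A := by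
  rw [← rdim_eq_zero_iff h]
  exact Nat.pos_iff_ne_zero

theorem rdim_add_finrank (h : A ≤ B) [Module.Finite ℂ B] :
    rdim A B + finrank ℂ A = finrank ℂ B := by
  have h1 := Submodule.finrank_quotient_add_finrank (A.submoduleOf B)
  rwa [(Submodule.submoduleOfEquivOfLe h).finrank_eq] at h1

theorem finite_of_rfin (h : RFin A B) [Module.Finite ℂ A] : Module.Finite ℂ B := by
  have h1 : Module.Finite ℂ (A.submoduleOf B) :=
    Module.Finite.of_injective
      (LinearMap.codRestrict A (B.subtype ∘ₗ (A.submoduleOf B).subtype) fun v => v.2)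
      fun a b e => Subtype.ext (Subtype.ext (congrArg (fun z : A => (z : V)) e))
  have h2 : Module.Finite ℂ (B ⧸ A.submoduleOf B) := h
  exact Module.Finite.of_submodule_quotient (A.submoduleOf B)

theorem RFin.trans (h1 : RFin A B) (h2 : RFin B C) : RFin A C := by
  have h3 := rdim_le_of_surj (A := B) (B := C) (A' := B.map A.mkQ) (B' := C.map A.mkQ) A.mkQ
    le_sup_left (fun v _ hv => ⟨v, hv, rfl⟩) h2
  rw [rfin_iff] at h1 ⊢
  exact finite_of_rfin h3.1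

theorem rdim_add (hAB : A ≤ B) (hBC : B ≤ C) (h : RFin A C) :
    rdim A C = rdim A B + rdim B C := by
  rw [rfin_iff] at h
  have h1 := rdim_add_finrank (Submodule.map_mono (f := A.mkQ) hBC)
  have h2 := rdim_map_of_ker (A := B) (B := C) A.mkQ
    (fun v _ hv => hAB ((Submodule.Quotient.mk_eq_zero A).1 hv)) hBC
  rw [rdim_eq A C, rdim_eq A B, ← h1, h2.2, add_comm]

theorem rdim_trans_le (h1 : RFin A B) (h2 : RFin B C) : rdim A C ≤ rdim A B + rdim B C := by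
  have h3 := rdim_le_of_surj (A := B) (B := C) (A' := B.map A.mkQ) (B' := C.map A.mkQ) A.mkQ
    le_sup_left (fun v _ hv => ⟨v, hv, rfl⟩) h2
  have h4 := (rfin_iff A C).1 (h1.trans h2)
  rw [rfin_iff] at h1
  have h5 := rdim_add_finrank (A := B.map A.mkQ ⊓ C.map A.mkQ) (B := C.map A.mkQ) inf_le_right
  rw [(rdim_inf _ _).2] at h5
  have h6 := Submodule.finrank_mono
    (inf_le_left : B.map A.mkQ ⊓ C.map A.mkQ ≤ B.map A.mkQ)
  rw [rdim_eq A C, rdim_eq A B]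
  omega

/-- a finite generating set modulo `A` -/
theorem rdim_le_card {s : Finset V} (h : B ≤ Submodule.span ℂ (s : Set V) ⊔ A) :
    RFin A B ∧ rdim A B ≤ s.card := by
  have h0 : Module.Finite ℂ (Submodule.span ℂ (s : Set V)) :=
    Module.Finite.span_of_finite ℂ s.finite_toSet
  have h1 := rdim_le_of_inj (A := A) (B := B) (A' := A) (B' := Submodule.span ℂ (s : Set V))
    LinearMap.id (by simpa using h) (fun _ _ h => h) (rfin_of_finite _ _)
  refine ⟨h1.1, h1.2.trans ((rdim_mono ((rdim_bot _).1.2 h0) bot_le le_rfl).trans ?_)⟩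
  rw [(rdim_bot _).2]
  exact finrank_span_finset_le_card s

/-- a complement of `A` in `B` -/
theorem exists_compl (h : RFin A B) : ∃ U : Submodule ℂ V, U ≤ B ∧ Module.Finite ℂ U ∧
    finrank ℂ U = rdim A B ∧ Disjoint U A ∧ B ≤ U ⊔ A := by
  obtain ⟨U₀, hU⟩ := (A.submoduleOf B).exists_isCompl
  have e := Submodule.quotientEquivOfIsCompl _ _ hU
  have h1 : Module.Finite ℂ (B ⧸ A.submoduleOf B) := h
  have h2 : Module.Finite ℂ U₀ := Module.Finite.equiv e
  refine ⟨U₀.map B.subtype, Submodule.map_subtype_le _ _, inferInstance, ?_, ?_, ?_⟩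
  · rw [Submodule.finrank_map_subtype_eq]
    exact e.finrank_eq.symm
  · rw [Submodule.disjoint_def]
    rintro _ ⟨v, hv, rfl⟩ ha
    rw [Submodule.disjoint_def.1 hU.disjoint v ha hv]
    rfl
  · intro v hv
    have h3 : (⟨v, hv⟩ : B) ∈ A.submoduleOf B ⊔ U₀ := by
      rw [hU.sup_eq_top]; trivial
    obtain ⟨a, ha, w, hw, e⟩ := Submodule.mem_sup.1 h3
    exact Submodule.mem_sup.2 ⟨w, ⟨w, hw, rfl⟩, a, ha, by
      rw [add_comm]; exact congrArg Subtype.val e⟩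

theorem exists_gen_of_le_one (h : RFin A B) (h1 : rdim A B ≤ 1) :
    ∃ v ∈ B, B ≤ Submodule.span ℂ {v} ⊔ A := by
  obtain ⟨U, hU, hf, hd, -, hB⟩ := exists_compl h
  obtain ⟨v, hv⟩ := finrank_le_one_iff.1 (hd.le.trans h1)
  refine ⟨v, hU v.2, hB.trans (sup_le_sup_right (fun w hw => ?_) _)⟩
  obtain ⟨c, hc⟩ := hv ⟨w, hw⟩
  exact Submodule.mem_span_singleton.2 ⟨c, congrArg Subtype.val hc⟩

/-- the product of two subspaces -/
def prodEquiv (A : Submodule ℂ V) (A' : Submodule ℂ W) : A.prod A' ≃ₗ[ℂ] A × A' where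
  toFun v := (⟨v.1.1, v.2.1⟩, ⟨v.1.2, v.2.2⟩)
  map_add' _ _ := rfl
  map_smul' _ _ := rfl
  invFun v := ⟨(v.1, v.2), v.1.2, v.2.2⟩
  left_inv _ := rfl
  right_inv _ := rfl

theorem rdim_prod (A B : Submodule ℂ V) (A' B' : Submodule ℂ W) (h : RFin A B)
    (h' : RFin A' B') :
    RFin (A.prod A') (B.prod B') ∧ rdim (A.prod A') (B.prod B') = rdim A B + rdim A' B' := by
  have h3 : ∀ v ∈ B.prod B', (A.mkQ.prodMap A'.mkQ) v = 0 ↔ v ∈ A.prod A' := fun v _ => by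
    simp [Prod.ext_iff]
  rw [rfin_iff] at h h'
  have e : (B.prod B').map (A.mkQ.prodMap A'.mkQ) = (B.map A.mkQ).prod (B'.map A'.mkQ) :=
    LinearMap.prodMap_map_prod _ _ _ _
  have e1 := prodEquiv (B.map A.mkQ) (B'.map A'.mkQ)
  rw [rfin_iff_map _ h3, rdim_eq_map _ h3, e, rdim_eq, rdim_eq, e1.finrank_eq, finrank_prod]
  exact ⟨(Module.Finite.equiv_iff e1).2 inferInstance, rfl⟩

theorem rdim_pi {ι : Type} [Fintype ι] {U : ι → Type} [∀ i, AddCommGroup (U i)]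
    [∀ i, Module ℂ (U i)] (A B : ∀ i, Submodule ℂ (U i)) (h : ∀ i, RFin (A i) (B i)) :
    RFin (Submodule.pi Set.univ A) (Submodule.pi Set.univ B) ∧
      rdim (Submodule.pi Set.univ A) (Submodule.pi Set.univ B) = ∑ i, rdim (A i) (B i) := by
  let φ : Submodule.pi Set.univ B →ₗ[ℂ] ∀ i, B i ⧸ (A i).submoduleOf (B i) :=
    LinearMap.pi fun i => ((A i).submoduleOf (B i)).mkQ ∘ₗ
      LinearMap.codRestrict (B i) (LinearMap.proj i ∘ₗ (Submodule.pi Set.univ B).subtype)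
        fun v => v.2 i trivial
  have h1 : Function.Surjective φ := by
    intro y
    choose x hx using fun i => ((A i).submoduleOf (B i)).mkQ_surjective (y i)
    exact ⟨⟨fun i => x i, fun i _ => (x i).2⟩, funext hx⟩
  have h2 : (Submodule.pi Set.univ A).submoduleOf (Submodule.pi Set.univ B) =
      LinearMap.ker φ := by
    ext v
    rw [LinearMap.mem_ker, funext_iff]
    exact ⟨fun hv i => (Submodule.Quotient.mk_eq_zero _).2 (hv i trivial),
      fun hv i _ => (Submodule.Quotient.mk_eq_zero ((A i).submoduleOf (B i))).1 (hv i)⟩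
  have e := (Submodule.quotEquivOfEq _ _ h2).trans (φ.quotKerEquivOfSurjective h1)
  have h3 : ∀ i, Module.Finite ℂ (B i ⧸ (A i).submoduleOf (B i)) := h
  refine ⟨(Module.Finite.equiv_iff e).2 inferInstance, ?_⟩
  unfold rdim
  rw [e.finrank_eq, Module.finrank_pi_fintype]

end Vale.Agent.P297Z.Hb
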