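import Vale.Agent.P297Z.Hb.FibDefs
import Vale.Agent.P297Z.Hb.Rdim
import Vale.Agent.P297Z.Surf.Int
import Vale.Agent.P297Z.Surf.RR
import Vale.Agent.P297Z.Surf.Chart

/-! P297: the stalks of the twisted ideal sheaves. -/

set_option linter.all false

open IsLocalRing

namespace Vale.Agent.P297Z.Sf.Fb.Tg

open Vale.Agent.P297Z.Hb

variable {K : Type} [Field K] [Algebra ℂ K] {S : Surf K}

theorem gen_mem {x : Pt S.W} {B : Div S.W} {s : K} (hs : GenAt x B s) : s ∈ stalk x B :=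
  Or.inr fun C hC => (hs.2 C hC).ge

theorem gen_mul {x : Pt S.W} {B B' B'' : Div S.W} {s s' : K} (hs : GenAt x B s)
    (hs' : GenAt x B' s') (e : B'' = B + B') : GenAt x B'' (s * s') := by
  refine ⟨mul_ne_zero hs.1 hs'.1, fun C hC => ?_⟩
  have h1 := hs.2 C hC
  have h2 := hs'.2 C hC
  rw [e, Finsupp.add_apply]
  unfold Crv.ord at *
  rw [Pl.ord_mul _ hs.1 hs'.1]
  omega

theorem gen_inv {x : Pt S.W} {B : Div S.W} {s : K} (hs : GenAt x B s) : GenAt x (-B) s⁻¹ := by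
  refine ⟨inv_ne_zero hs.1, fun C hC => ?_⟩
  have h1 := hs.2 C hC
  rw [Finsupp.neg_apply]
  unfold Crv.ord at *
  rw [Pl.ord_inv]
  omega

theorem gen_one (x : Pt S.W) : GenAt x 0 (1 : K) :=
  ⟨one_ne_zero, fun C _ => by simpa using C.ord_const 1⟩

theorem gen_unit {x : Pt S.W} {b : K} (hb : b ∈ x.ring) (h : ¬ x.Van b) : GenAt x 0 b := by
  obtain ⟨h0, h1⟩ := Pt.inv_mem hb h
  exact ⟨h0, fun C hC => by simpa using Pl.ord_unit _ (hC _ hb) (hC _ h1)⟩

theorem gen_pow (hL : S.Loc) {x : Pt S.W} {w : K} (hw : w ∈ S.W) (hx : x.In w) (n : ℕ) :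
    GenAt x ((n : ℤ) • S.H) (w ^ n) := by
  simpa using Mu.genAt_pow hL hw hx (gen_one x) n

theorem pow_sec (hL : S.Loc) {P : Crv S.W → Prop} {w : K} (hw : w ∈ S.W) (n : ℕ) :
    w ^ n ∈ secOn P ((n : ℤ) • S.H) := by
  induction n with
  | zero => exact Or.inr fun C _ => by simpa using (C.ord_const 1).ge
  | succ n ih =>
    have h := Mu.mul_mem_succ hL (D := 0) hw (by simpa using ih)
    rw [zero_add] at h
    rw [pow_succ']
    exact h

theorem mem_st (hL : S.Loc) (Z : Zs S.W) {x : Pt S.W} {B : Div S.W} {s f : K}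
    (hs : GenAt x B s) : f ∈ Z.st B x ↔ ∃ a ∈ Z.J x, f = (a : K) * s := by
  refine ⟨fun h => h s hs, ?_⟩
  rintro ⟨a, ha, rfl⟩ s' hs'
  refine ⟨⟨s / s', (Mu.div_mem_ring hL hs').2 (gen_mem hs)⟩ * a, Ideal.mul_mem_left _ _ ha, ?_⟩
  have := hs'.1
  push_cast
  field_simp

theorem mem_inK {O : Subalgebra ℂ K} {J : Ideal O} {f : K} :
    f ∈ inK J ↔ ∃ a ∈ J, (a : K) = f := Iff.rfl

theorem mem_st_inK (hL : S.Loc) (Z : Zs S.W) {x : Pt S.W} {B : Div S.W} {s f : K}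
    (hs : GenAt x B s) : f ∈ Z.st B x ↔ s⁻¹ * f ∈ inK (Z.J x) := by
  rw [mem_st hL Z hs, mem_inK]
  have := hs.1
  refine exists_congr fun a => and_congr_right fun _ => ⟨?_, fun h => ?_⟩
  · rintro rfl
    field_simp
  · rw [h]
    field_simp

theorem st_le (hL : S.Loc) (Z : Zs S.W) (x : Pt S.W) (B : Div S.W) : Z.st B x ≤ stalk x B := by
  intro f hf
  obtain ⟨s, hs⟩ := hL.gen x B
  obtain ⟨a, -, rfl⟩ := hf s hs
  have h := mul_mem_secOn ((hL.normal x a).2 a.2) (gen_mem hs)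
  rwa [zero_add] at h

theorem st_top (hL : S.Loc) (Z : Zs S.W) {x : Pt S.W} (h : Z.J x = ⊤) {B : Div S.W} {f : K}
    (hf : f ∈ stalk x B) : f ∈ Z.st B x := fun s hs =>
  ⟨⟨f / s, (Mu.div_mem_ring hL hs).2 hf⟩, h ▸ Submodule.mem_top, (div_mul_cancel₀ f hs.1).symm⟩

theorem mul_st (hL : S.Loc) (Z : Zs S.W) {x : Pt S.W} {B B' B'' : Div S.W} {f g : K}
    (hg : g ∈ stalk x B') (hf : f ∈ Z.st B x) (e : B'' = B' + B) : g * f ∈ Z.st B'' x := by
  obtain ⟨s, hs⟩ := hL.gen x B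
  obtain ⟨s', hs'⟩ := hL.gen x B'
  obtain ⟨a, ha, rfl⟩ := hf s hs
  refine (mem_st hL Z (gen_mul hs' hs e)).2
    ⟨⟨g / s', (Mu.div_mem_ring hL hs').2 hg⟩ * a, Ideal.mul_mem_left _ _ ha, ?_⟩
  have := hs'.1
  push_cast
  field_simp

theorem ring_mul_st (hL : S.Loc) (Z : Zs S.W) {x : Pt S.W} {B : Div S.W} {f g : K}
    (hg : g ∈ x.ring) (hf : f ∈ Z.st B x) : g * f ∈ Z.st B x :=
  mul_st hL Z ((hL.normal x g).2 hg) hf (zero_add B).symm

theorem mul_st_iff (hL : S.Loc) (Z : Zs S.W) {x : Pt S.W} {B B' B'' : Div S.W} {f g : K}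
    (hg : GenAt x B' g) (e : B'' = B' + B) : g * f ∈ Z.st B'' x ↔ f ∈ Z.st B x := by
  refine ⟨fun h => ?_, fun h => mul_st hL Z (gen_mem hg) h e⟩
  have h1 := mul_st hL Z (B'' := B) (gen_mem (gen_inv hg)) h (by rw [e]; abel)
  rwa [← mul_assoc, inv_mul_cancel₀ hg.1, one_mul] at h1

theorem mem_EM {Z : Zs S.W} {A : Div S.W} {j : ℤ} {f : K} :
    f ∈ EM Z A j ↔ ∀ x, f ∈ Z.st (A + j • S.H) x := Submodule.mem_iInf _

theorem secIn_le {x : Pt S.W} {w : K} (hx : x.In w) (B : Div S.W) : secIn w B ≤ stalk x B :=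
  secOn_mono fun _ hC => ⟨hC.crv_in hx, le_rfl⟩

theorem H0_le (x : Pt S.W) (B : Div S.W) : H0 B ≤ stalk x B :=
  secOn_mono fun _ _ => ⟨trivial, le_rfl⟩

theorem M_mul_EM (hL : S.Loc) {Z : Zs S.W} {A : Div S.W} {j k n : ℤ} {f g : K}
    (hg : g ∈ M (0 : Div S.W) k) (hf : f ∈ EM Z A j) (e : n = j + k) : g * f ∈ EM Z A n :=
  mem_EM.2 fun x => mul_st hL Z (H0_le x _ hg) (mem_EM.1 hf x) (by
    rw [e, add_smul]; abel)

theorem pow_mem_M (hL : S.Loc) {w : K} (hw : w ∈ S.W) (n : ℕ) :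
    w ^ n ∈ M (0 : Div S.W) n := by
  have h := pow_sec hL (P := fun _ => True) hw n
  rw [← zero_add ((n : ℤ) • S.H)] at h
  exact h

/-- a common denominator on a chart -/
theorem clear (hL : S.Loc) {x : Pt S.W} {w : K} (hw : w ∈ S.W) (hx : x.In w) {B : Div S.W}
    {ι : Type} [Fintype ι] {f : ι → K} (hf : ∀ a, f a ∈ stalk x B) :
    ∃ β ∈ chart S.W w, ¬ x.Van β ∧ ∀ a, β * f a ∈ secIn w B := by
  classical
  have key : ∀ T : Finset ι, ∃ β ∈ chart S.W w, ¬ x.Van β ∧ ∀ a ∈ T, β * f a ∈ secIn w B := by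
    intro T
    induction T using Finset.induction_on with
    | empty => exact ⟨1, one_mem _, x.not_van_one, by simp⟩
    | insert a T _ ih =>
      obtain ⟨β, h1, h2, h3⟩ := ih
      obtain ⟨γ, g1, g2, g3⟩ := hL.stalk_sec x w hw hx B _ (hf a)
      refine ⟨β * γ, mul_mem h1 g1, fun h => (Pt.van_or (hx.chart_le h1) (hx.chart_le g1) h).elim
        h2 g2, fun b hb => ?_⟩
      rcases Finset.mem_insert.1 hb with rfl | hb
      · rw [mul_assoc]
        exact Mu.chart_mul hL hw hx.1 h1 g3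
      · rw [mul_comm β, mul_assoc]
        exact Mu.chart_mul hL hw hx.1 g1 (h3 b hb)
  obtain ⟨β, h1, h2, h3⟩ := key Finset.univ
  exact ⟨β, h1, h2, fun a => h3 a (Finset.mem_univ a)⟩

theorem chart_pow {w : K} (hw : w ∈ S.W) (h0 : w ≠ 0) {ι : Type} [Fintype ι] {f : ι → K}
    (hf : ∀ a, f a ∈ chart S.W w) : ∃ n : ℕ, ∀ a, f a * w ^ n ∈ S.W ^ n := by
  choose n hn using fun a => exists_pow_of_mem_chart hw h0 (hf a)
  exact ⟨∑ a, n a, fun a => hn a _ (Finset.single_le_sum (fun _ _ => Nat.zero_le _)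
    (Finset.mem_univ a))⟩

/-- a function on the chart that lies in the ideal away from `x` and is a unit at `x` -/
theorem exists_kill (hL : S.Loc) (hA : LAS S) (Z : Zs S.W) {x : Pt S.W} {w : K} (hw : w ∈ S.W)
    (hx : x.In w) : ∃ γ ∈ chart S.W w, ¬ x.Van γ ∧ ∀ y, y.In w → y ≠ x → γ ∈ Z.st 0 y := by
  classical
  have key : ∀ T : Finset (Pt S.W), ∃ γ ∈ chart S.W w, ¬ x.Van γ ∧
      ∀ y ∈ T, y.In w → y ≠ x → γ ∈ Z.st 0 y := by
    intro T
    induction T using Finset.induction_on with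
    | empty => exact ⟨1, one_mem _, x.not_van_one, by simp⟩
    | insert y T _ ih =>
      obtain ⟨β, h1, h2, h3⟩ := ih
      by_cases hy : y.In w ∧ y ≠ x
      · obtain ⟨l, hl, hxl⟩ := hL.sep y x hy.2
        obtain ⟨n, hn⟩ := ((hA y).pow _).1 (Z.fc y)
        have a1 : l / w ∈ chart S.W w := div_mem_chart hl.1
        have a2 : ¬ x.Van (l / w) := (Pt.in_iff hx hw hl.1).1 hxl
        obtain ⟨a3, a4⟩ := y.van_iff.1 (hl.2 w hw hy.1)
        have a5 : ∀ n : ℕ, ¬ x.Van ((l / w) ^ n) := by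
          intro n
          induction n with
          | zero => simpa using x.not_van_one
          | succ n ih =>
            rw [pow_succ]
            exact fun h => (Pt.van_or (pow_mem (hx.chart_le a1) n) (hx.chart_le a1) h).elim ih a2
        refine ⟨β * (l / w) ^ n, mul_mem h1 (pow_mem a1 n), fun h => (Pt.van_or (hx.chart_le h1)
          (pow_mem (hx.chart_le a1) n) h).elim h2 (a5 n), fun z hz hzw hzx => ?_⟩
        rcases Finset.mem_insert.1 hz with rfl | hz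
        · exact ring_mul_st hL Z (hzw.chart_le h1) ((mem_st hL Z (gen_one z)).2
            ⟨_, hn (Ideal.pow_mem_pow a4 n), by simp⟩)
        · rw [mul_comm]
          exact ring_mul_st hL Z (pow_mem (hzw.chart_le a1) n) (h3 z hz hzw hzx)
      · refine ⟨β, h1, h2, fun z hz hzw hzx => ?_⟩
        rcases Finset.mem_insert.1 hz with rfl | hz
        · exact (hy ⟨hzw, hzx⟩).elim
        · exact h3 z hz hzw hzx
  obtain ⟨γ, h1, h2, h3⟩ := key Z.fin.toFinset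
  refine ⟨γ, h1, h2, fun y hy hyx => ?_⟩
  by_cases h : Z.J y = ⊤
  · exact st_top hL Z h ((hL.normal y γ).2 (hy.chart_le h1))
  · exact h3 y (Z.fin.mem_toFinset.2 h) hy hyx

/-- an ideal of a chart without zero is the unit ideal -/
theorem ideal_top {w : K} (hw : w ∈ S.W) (h0 : w ≠ 0) (I : Ideal (chart S.W w))
    (h : ∀ x : Pt S.W, x.In w → ∃ a ∈ I, ¬ x.Van (a : K)) : I = ⊤ := by
  by_contra hne
  obtain ⟨m, hm, hJm⟩ := Ideal.exists_le_maximal I hne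
  let x : Pt S.W := ⟨loc _ m hm.isPrime, w, hw, h0, m, hm, rfl⟩
  have hx : x.In w := ⟨h0, fun a ha => le_loc _ m hm.isPrime (div_mem_chart ha)⟩
  obtain ⟨b, hb, h1⟩ := h x hx
  exact h1 ⟨le_loc _ m hm.isPrime b.2, or_iff_not_imp_left.2 fun h1 h2 =>
    (inv_mem_loc_iff hm.isPrime h1).1 h2 (hJm hb)⟩

/-- a point of a curve outside the subscheme -/
theorem exists_free (hL : S.Loc) (Z : Zs S.W) (C : Crv S.W) {w : K} (hw : w ∈ S.W)
    (hC : C.In w) : ∃ x : Pt S.W, x.On C ∧ x.In w ∧ Z.J x = ⊤ := by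
  obtain ⟨x, hx, h⟩ := (hL.inf_pt C w hw hC).exists_notMem_finite Z.fin
  exact ⟨x, hx.1, hx.2, not_not.1 h⟩

theorem len_eq (Z : Zs S.W) (hA : LAS S) : Z.len = ∑ x : Z.fin.toFinset, col (Z.J x) := by
  rw [Zs.len, finsum_eq_sum_of_support_subset (s := Z.fin.toFinset),
    Finset.sum_coe_sort Z.fin.toFinset fun x => col (Z.J x)]
  intro x hx
  exact Finset.mem_coe.2 (Z.fin.mem_toFinset.2 fun h => hx (((hA x).col_zero _ (Z.fc x)).2 h))

theorem h0_kap (hL : S.Loc) (hG : S.Good) (n : ℕ) : H0 (S.kap - (n : ℤ) • S.H) = ⊥ := by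
  refine (Submodule.eq_bot_iff _).2 fun f hf => ?_
  have h := mul_mem_secOn hf (pow_sec hL (S.x_mem 0) n)
  rw [sub_add_cancel] at h
  have h1 : f * S.x 0 ^ n ∈ H0 S.kap := h
  rw [hG.pg, Submodule.mem_bot] at h1
  exact (mul_eq_zero.1 h1).resolve_right (pow_ne_zero n (S.x_ne 0))

theorem cech_iff (h : S.All) (hG : S.Good) (n : ℕ) :
    S.Cech1 ((n : ℤ) • S.H) ↔ chi ((n : ℤ) • S.H) = Module.finrank ℂ (M (0 : Div S.W) n) := by
  rw [h.cech, h0, h0, h0_kap h.toLoc hG n, finrank_bot, M, zero_add]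
  simp

theorem step (h : S.All) (hG : S.Good) (h1 : S.Cech1 0) :
    ∃ d : ℕ, 0 < d ∧ ∀ k : ℕ, S.Cech1 (((k * d : ℕ) : ℤ) • S.H) := by
  obtain ⟨m₀, hm⟩ := h.large 0
  refine ⟨m₀.toNat + 1, Nat.succ_pos _, fun k => ?_⟩
  rcases Nat.eq_zero_or_pos k with rfl | hk
  · simpa using h1
  · rw [cech_iff h hG]
    have h2 : m₀.toNat + 1 ≤ k * (m₀.toNat + 1) := Nat.le_mul_of_pos_left _ hk
    have h3 := hm ((k * (m₀.toNat + 1) : ℕ) : ℤ) (by omega)
    rw [M, ← h0, h3, zero_add]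

theorem chi_quad (h : S.RR) (D : Div S.W) : ∃ α β γ : ℤ, ∀ t : ℤ,
    2 * chi (D + t • S.H) = α + β * t + γ * t ^ 2 := by
  refine ⟨2 * chi (0 : Div S.W) + inter D D - inter S.kap D,
    inter D S.H + inter S.H D - inter S.kap S.H, inter S.H S.H, fun t => ?_⟩
  rw [h.rr]
  simp only [← interHom_apply h, map_add, map_zsmul, AddMonoidHom.add_apply,
    AddMonoidHom.smul_apply, smul_eq_mul]
  ring

theorem third_step (h : S.RR) (D : Div S.W) (a d : ℤ) :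
    chi (D + (a + 3 * d) • S.H) - 3 * chi (D + (a + 2 * d) • S.H) + 3 * chi (D + (a + d) • S.H) -
      chi (D + a • S.H) = 0 := by
  obtain ⟨α, β, γ, e⟩ := chi_quad h D
  have e0 := e a
  have e1 := e (a + d)
  have e2 := e (a + 2 * d)
  have e3 := e (a + 3 * d)
  have : 2 * (chi (D + (a + 3 * d) • S.H) - 3 * chi (D + (a + 2 * d) • S.H) +
      3 * chi (D + (a + d) • S.H) - chi (D + a • S.H)) = 0 := by
    linear_combination e3 - 3 * e2 + 3 * e1 - e0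
  omega

end Vale.Agent.P297Z.Sf.Fb.Tg
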