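import Vale.Agent.P297Z.Hb.FibC1

/-! P297: the local spaces of maps from the relations. -/

set_option linter.all false

open IsLocalRing

namespace Vale.Agent.P297Z.Sf.Fb.Tg

open Vale.Agent.P297Z.Hb

variable {K : Type} [Field K] [Algebra ℂ K] {S : Surf K} {ι : Type} [Fintype ι]

/-- the maps that extend at `x` -/
def TrK (Z : Zs S.W) (u : ι → K) (B : Div S.W) (x : Pt S.W) : Submodule ℂ (ι → K) where
  carrier := {b | ∃ t : K, ∀ a, b a - t * u a ∈ Z.st B x}
  zero_mem' := ⟨0, fun a => by simp⟩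
  add_mem' := by
    rintro b b' ⟨t, ht⟩ ⟨t', ht'⟩
    refine ⟨t + t', fun a => ?_⟩
    have e : (b + b') a - (t + t') * u a = b a - t * u a + (b' a - t' * u a) := by
      simp only [Pi.add_apply]; ring
    rw [e]
    exact add_mem (ht a) (ht' a)
  smul_mem' := by
    rintro c b ⟨t, ht⟩
    refine ⟨c • t, fun a => ?_⟩
    have e : (c • b) a - (c • t) * u a = c • (b a - t * u a) := by
      simp only [Pi.smul_apply, smul_sub, smul_mul_assoc]
    rw [e]
    exact Submodule.smul_mem _ c (ht a)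

/-- the maps from the relations at `x` -/
def HmK (Z : Zs S.W) (u : ι → K) (B : Div S.W) (x : Pt S.W) : Submodule ℂ (ι → K) where
  carrier := {b | ∀ c : ι → K, (∀ a, c a ∈ x.ring) → ∑ a, c a * u a = 0 →
    ∑ a, c a * b a ∈ Z.st B x}
  zero_mem' := fun c _ _ => by simp
  add_mem' := fun {b b'} hb hb' c h hc => by
    simp only [Pi.add_apply, mul_add, Finset.sum_add_distrib]
    exact add_mem (hb c h hc) (hb' c h hc)
  smul_mem' := fun t b hb c h hc => by
    simp only [Pi.smul_apply, mul_smul_comm, ← Finset.smul_sum]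
    exact Submodule.smul_mem _ t (hb c h hc)

/-- `u` generates the twisted ideal sheaf -/
structure Gen (Z : Zs S.W) (A : Div S.W) (u : ι → K) : Prop where
  mem : ∀ x a, u a ∈ Z.st A x
  gen : ∀ x, ∀ f ∈ Z.st A x, ∃ c : ι → K, (∀ a, c a ∈ x.ring) ∧ f = ∑ a, c a * u a

theorem gen_of_reg (hL : S.Loc) (hB : FibB S) {m : ℤ} {A : Div S.W} {Z : Zs S.W}
    (hR : Reg S m A Z) {u : ι → K} (hu : Submodule.span ℂ (Set.range u) = EM Z A m) :
    Gen Z (A + m • S.H) u := by
  refine ⟨fun x a => mem_EM.1 (hu ▸ Submodule.subset_span ⟨a, rfl⟩) x, fun x f hf => ?_⟩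
  obtain ⟨s, hs⟩ := hL.gen x (A + m • S.H)
  obtain ⟨g, hg, rfl⟩ := hf s hs
  rw [hB.stalk m A Z hR x s hs] at hg
  clear hf
  induction hg using Submodule.span_induction with
  | mem g hg =>
    have h1 : (g : K) * s ∈ Submodule.span ℂ (Set.range u) := hu ▸ hg
    obtain ⟨c, hc⟩ := (Submodule.mem_span_range_iff_exists_fun ℂ).1 h1
    exact ⟨fun a => algebraMap ℂ K (c a), fun a => x.ring.algebraMap_mem _, by
      rw [← hc]; simp only [Algebra.smul_def]⟩
  | zero => exact ⟨0, fun _ => zero_mem _, by simp⟩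
  | add g g' _ _ h h' =>
    obtain ⟨c, hc, e⟩ := h
    obtain ⟨c', hc', e'⟩ := h'
    refine ⟨c + c', fun a => add_mem (hc a) (hc' a), ?_⟩
    push_cast
    rw [add_mul, e, e', ← Finset.sum_add_distrib]
    simp only [Pi.add_apply, add_mul]
  | smul t g _ h =>
    obtain ⟨c, hc, e⟩ := h
    refine ⟨fun a => t * c a, fun a => mul_mem t.2 (hc a), ?_⟩
    rw [smul_eq_mul]
    push_cast
    rw [mul_assoc, e, Finset.mul_sum]
    simp only [mul_assoc]

variable {Z : Zs S.W} {u : ι → K}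

theorem mem_Ln {b : ι → K} : b ∈ Ln u ↔ ∃ t : K, t • u = b := Submodule.mem_span_singleton

theorem smul_Ln {b : ι → K} (g : K) (h : b ∈ Ln u) : g • b ∈ Ln u :=
  (Submodule.span K {u}).smul_mem g h

theorem Ln_le (B : Div S.W) (x : Pt S.W) : Ln u ≤ TrK Z u B x := by
  intro b hb
  obtain ⟨t, rfl⟩ := mem_Ln.1 hb
  exact ⟨t, fun a => by simp⟩

theorem Tr_le (hL : S.Loc) (B : Div S.W) (x : Pt S.W) : TrK Z u B x ≤ HmK Z u B x := by
  rintro b ⟨t, ht⟩ c hc h0
  have e : ∑ a, c a * b a = ∑ a, c a * (b a - t * u a) := by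
    simp only [mul_sub, Finset.sum_sub_distrib, mul_left_comm _ t, ← Finset.mul_sum, h0, mul_zero,
      sub_zero]
  rw [e]
  exact sum_mem fun a _ => ring_mul_st hL Z (hc a) (ht a)

theorem smul_Tr (hL : S.Loc) {x : Pt S.W} {B B' B'' : Div S.W} {g : K} {b : ι → K}
    (hg : g ∈ stalk x B') (hb : b ∈ TrK Z u B x) (e : B'' = B' + B) : g • b ∈ TrK Z u B'' x := by
  obtain ⟨t, ht⟩ := hb
  refine ⟨g * t, fun a => ?_⟩
  rw [Pi.smul_apply, smul_eq_mul, mul_assoc, ← mul_sub]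
  exact mul_st hL Z hg (ht a) e

theorem smul_Hm (hL : S.Loc) {x : Pt S.W} {B B' B'' : Div S.W} {g : K} {b : ι → K}
    (hg : g ∈ stalk x B') (hb : b ∈ HmK Z u B x) (e : B'' = B' + B) : g • b ∈ HmK Z u B'' x := by
  intro c hc h0
  simp only [Pi.smul_apply, smul_eq_mul, mul_left_comm _ g, ← Finset.mul_sum]
  exact mul_st hL Z hg (hb c hc h0) e

theorem inv_smul_Tr (hL : S.Loc) {x : Pt S.W} {B B' B'' : Div S.W} {g : K} {b : ι → K}
    (hg : GenAt x B' g) (hb : b ∈ TrK Z u B'' x) (e : B'' = B' + B) : g⁻¹ • b ∈ TrK Z u B x :=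
  smul_Tr hL (gen_mem (gen_inv hg)) hb (by rw [e]; abel)

theorem inv_smul_Hm (hL : S.Loc) {x : Pt S.W} {B B' B'' : Div S.W} {g : K} {b : ι → K}
    (hg : GenAt x B' g) (hb : b ∈ HmK Z u B'' x) (e : B'' = B' + B) : g⁻¹ • b ∈ HmK Z u B x :=
  smul_Hm hL (gen_mem (gen_inv hg)) hb (by rw [e]; abel)

/-- multiplication by a scalar, as a complex linear map -/
def sm (ι : Type) (g : K) : (ι → K) →ₗ[ℂ] (ι → K) where
  toFun b := g • b
  map_add' := smul_add g
  map_smul' c b := smul_comm g c b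

theorem sm_apply (g : K) (b : ι → K) : sm ι g b = g • b := rfl

theorem rdim_indep (hL : S.Loc) (x : Pt S.W) (B B' : Div S.W) :
    (RFin (TrK Z u B x) (HmK Z u B x) ↔ RFin (TrK Z u B' x) (HmK Z u B' x)) ∧
      rdim (TrK Z u B x) (HmK Z u B x) = rdim (TrK Z u B' x) (HmK Z u B' x) := by
  obtain ⟨g, hg⟩ := hL.gen x (B' - B)
  have e : B' = B' - B + B := by abel
  refine rdim_congr (sm ι g) ?_ (fun b hb => Submodule.mem_sup_left ⟨g⁻¹ • b,
    inv_smul_Hm hL hg hb e, smul_inv_smul₀ hg.1 b⟩) fun b _ => ⟨fun h => ?_, fun h => ?_⟩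
  · rintro _ ⟨b, hb, rfl⟩
    exact Submodule.mem_sup_left (smul_Hm hL (gen_mem hg) hb e)
  · have h1 := inv_smul_Tr hL hg h e
    rwa [sm_apply, inv_smul_smul₀ hg.1] at h1
  · exact smul_Tr hL (gen_mem hg) h e

theorem ext_at (hL : S.Loc) (hA : LAS S) {A : Div S.W} (hu : Gen Z A u) (x : Pt S.W)
    (B : Div S.W) :
    RFin (TrK Z u B x) (HmK Z u B x) ∧ rdim (TrK Z u B x) (HmK Z u B x) ≤ 2 * col (Z.J x) := by
  obtain ⟨s, hs⟩ := hL.gen x A
  choose j hj ej using fun a => hu.mem x a s hs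
  have h1 : Ideal.span (Set.range j) = Z.J x := by
    refine le_antisymm (Ideal.span_le.2 (by rintro _ ⟨a, rfl⟩; exact hj a)) fun g hg => ?_
    obtain ⟨c, hc, e⟩ := hu.gen x (g * s) ((mem_st hL Z hs).2 ⟨g, hg, rfl⟩)
    have e2 : g = ∑ a, (⟨c a, hc a⟩ : x.ring) * j a := by
      refine Subtype.ext (mul_right_cancel₀ hs.1 ?_)
      rw [e]
      push_cast
      rw [Finset.sum_mul]
      exact Finset.sum_congr rfl fun a _ => by rw [ej a, mul_assoc]
    rw [e2]
    exact sum_mem fun a _ => Ideal.mul_mem_left _ _ (Ideal.subset_span ⟨a, rfl⟩)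
  obtain ⟨h2, h3⟩ := (hA x).ext ι j _ (Z.fc x) h1
  have e0 : ∀ f : K, f ∈ Z.st 0 x ↔ f ∈ inK (Z.J x) := fun f => by
    rw [mem_st_inK hL Z (gen_one x), inv_one, one_mul]
  have e1 : TrK Z u 0 x = Tr j (Z.J x) := by
    ext b
    constructor
    · rintro ⟨t, ht⟩
      refine ⟨t * s, fun a => (e0 _).1 ?_⟩
      have := ht a
      rwa [ej a, mul_comm _ s, ← mul_assoc] at this
    · rintro ⟨t, ht⟩
      refine ⟨t / s, fun a => (e0 _).2 ?_⟩
      rw [ej a, mul_comm _ s, ← mul_assoc, div_mul_cancel₀ _ hs.1]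
      exact ht a
  have e3 : ∀ c : ι → x.ring, ∑ a, c a * j a = 0 ↔ ∑ a, (c a : K) * u a = 0 := fun c => by
    have e : ∑ a, (c a : K) * u a = ((∑ a, c a * j a : x.ring) : K) * s := by
      push_cast
      rw [Finset.sum_mul]
      exact Finset.sum_congr rfl fun a _ => by rw [ej a, mul_assoc]
    rw [e, mul_eq_zero, or_iff_left hs.1, ZeroMemClass.coe_eq_zero]
  have e2 : HmK Z u 0 x = Hm j (Z.J x) := by
    ext b
    constructor
    · intro h c hc
      exact (e0 _).1 (h (fun a => c a) (fun a => (c a).2) ((e3 c).1 hc))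
    · intro h c hc h0
      exact (e0 _).2 (h (fun a => ⟨c a, hc a⟩) ((e3 _).2 h0))
  obtain ⟨h4, h5⟩ := rdim_indep (Z := Z) (u := u) hL x B 0
  rw [h4, h5, e1, e2]
  exact ⟨h2, h3⟩

theorem Hm_le (hL : S.Loc) (hA : LAS S) {A : Div S.W} (hu : Gen Z A u) {x : Pt S.W}
    (hx : Z.J x = ⊤) (B : Div S.W) : HmK Z u B x ≤ TrK Z u B x := by
  obtain ⟨h1, h2⟩ := ext_at hL hA hu x B
  rw [((hA x).col_zero _ (Z.fc x)).2 hx] at h2
  exact (rdim_eq_zero_iff h1).1 (by omega)

theorem mem_Nk (hL : S.Loc) {A : Div S.W} {m k : ℤ} {b : ι → K} :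
    b ∈ Nk S.W u (EM Z A) m k ↔ ∀ x, b ∈ HmK Z u (A + (m + k) • S.H) x := by
  constructor
  · intro hb x c hc h0
    obtain ⟨w, hw, hx⟩ := x.exists_in
    obtain ⟨β, h1, h2, h3⟩ := clear hL hw hx (B := 0) fun a => (hL.normal x _).2 (hc a)
    obtain ⟨n, hn⟩ := chart_pow hw hx.1 fun a => (hL.sec_chart w hw hx.1 _).1 (h3 a)
    have e : ∀ v : ι → K, ∑ a, β * c a * w ^ n * v a = β * w ^ n * ∑ a, c a * v a := fun v => by
      rw [Finset.mul_sum]
      exact Finset.sum_congr rfl fun a _ => by ring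
    have h4 := mem_EM.1 (hb n (fun a => β * c a * w ^ n) ⟨hn, by rw [e, h0, mul_zero]⟩) x
    rw [e] at h4
    refine (mul_st_iff hL Z (gen_mul (gen_unit (hx.chart_le h1) h2) (gen_pow hL hw hx n) rfl)
      ?_).1 h4
    simp only [add_smul]
    abel
  · intro hb j c hc
    refine mem_EM.2 fun x => ?_
    obtain ⟨w, hw, hx⟩ := x.exists_in
    have h0 := pow_ne_zero j hx.1
    have e : ∀ v : ι → K, ∑ a, c a * v a = w ^ j * ∑ a, c a / w ^ j * v a := fun v => by
      rw [Finset.mul_sum]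
      exact Finset.sum_congr rfl fun a _ => by field_simp
    have h1 := hb x (fun a => c a / w ^ j) (fun a => pow_div_mem hx.2 j _ (hc.1 a))
      ((mul_eq_zero.1 ((e u).symm.trans hc.2)).resolve_left h0)
    rw [e]
    refine mul_st hL Z (pow_sec hL hw j) h1 ?_
    simp only [add_smul]
    abel

/-- along every curve one of the generators generates the line bundle -/
theorem exists_gen_crv (hL : S.Loc) {A : Div S.W} (hu : Gen Z A u) (C : Crv S.W) :
    ∃ a, u a ≠ 0 ∧ C.ord (u a) + A C ≤ 0 := by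
  obtain ⟨w, hw, hC⟩ := C.exists_in
  obtain ⟨x, h1, -, h2⟩ := exists_free hL Z C hw hC
  obtain ⟨s, hs⟩ := hL.gen x A
  obtain ⟨c, hc, e⟩ := hu.gen x s (st_top hL Z h2 (gen_mem hs))
  by_contra hn
  push Not at hn
  have h3 : s ∈ secOn (fun C' => C' = C) (A - Finsupp.single C 1) := by
    rw [e]
    refine sum_mem fun a _ => ?_
    have h4 : c a ∈ secOn (fun C' => C' = C) (0 : Div S.W) := Or.inr fun C' h => by
      subst h
      simpa using Pl.ord_nonneg_of_mem _ (h1 _ (hc a))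
    have h5 : u a ∈ secOn (fun C' => C' = C) (A - Finsupp.single C 1) := by
      by_cases h0 : u a = 0
      · exact Or.inl h0
      · refine Or.inr fun C' h => ?_
        subst h
        have := hn a h0
        rw [Finsupp.sub_apply, Finsupp.single_eq_same]
        omega
    have h6 := mul_mem_secOn h4 h5
    rwa [zero_add] at h6
  have h4 := h3.resolve_left hs.1 C rfl
  have h5 := hs.2 C h1
  rw [Finsupp.sub_apply, Finsupp.single_eq_same] at h4
  omega

theorem ker_chart (hL : S.Loc) (hA : LAS S) {B : Div S.W} {b : ι → K}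
    (hb : ∀ x, b ∈ TrK Z u B x) {w : K} (hw : w ∈ S.W) (h0 : w ≠ 0) :
    ∃ t : K, ∀ y : Pt S.W, y.In w → ∀ a, b a - t * u a ∈ Z.st B y := by
  let I : Ideal (chart S.W w) :=
    { carrier := {α | ∃ t : K, ∀ y : Pt S.W, y.In w → ∀ a, (α : K) * b a - t * u a ∈ Z.st B y}
      zero_mem' := ⟨0, fun y _ a => by simp⟩
      add_mem' := by
        rintro α α' ⟨t, ht⟩ ⟨t', ht'⟩
        refine ⟨t + t', fun y hy a => ?_⟩
        have e : ((α + α' : chart S.W w) : K) * b a - (t + t') * u a =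
            α * b a - t * u a + (α' * b a - t' * u a) := by push_cast; ring
        rw [e]
        exact add_mem (ht y hy a) (ht' y hy a)
      smul_mem' := by
        rintro c α ⟨t, ht⟩
        refine ⟨c * t, fun y hy a => ?_⟩
        have e : ((c • α : chart S.W w) : K) * b a - (c * t) * u a =
            c * (α * b a - t * u a) := by rw [smul_eq_mul]; push_cast; ring
        rw [e]
        exact ring_mul_st hL Z (hy.chart_le c.2) (ht y hy a) }
  have hI : I = ⊤ := ideal_top hw h0 I fun x hx => by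
    obtain ⟨t, ht⟩ := hb x
    obtain ⟨β, h1, h2, h3⟩ := clear hL hw hx fun a => st_le hL Z x B (ht a)
    obtain ⟨γ, g1, g2, g3⟩ := exists_kill hL hA Z hw hx
    refine ⟨⟨β * γ, mul_mem h1 g1⟩, ⟨β * γ * t, fun y hy a => ?_⟩,
      fun h => (Pt.van_or (hx.chart_le h1) (hx.chart_le g1) h).elim h2 g2⟩
    by_cases hyx : y = x
    · subst hyx
      rw [mul_assoc _ t, ← mul_sub]
      exact ring_mul_st hL Z (hy.chart_le (mul_mem h1 g1)) (ht a)
    · have e : β * γ * b a - β * γ * t * u a = β * (b a - t * u a) * γ := by ring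
      have h4 := mul_st hL Z (secIn_le hy B (h3 a)) (g3 y hy hyx) (add_zero B).symm
      rwa [← e] at h4
  obtain ⟨t, ht⟩ : (1 : chart S.W w) ∈ I := hI ▸ Submodule.mem_top
  exact ⟨t, fun y hy a => by simpa using ht y hy a⟩

/-- a map that extends at every point extends globally -/
theorem ker_glob (hL : S.Loc) (hA : LAS S) {A B G : Div S.W} (hu : Gen Z A u) (hG : S.Cech1 G)
    (e : B = G + A) {b : ι → K} (hb : ∀ x, b ∈ TrK Z u B x) :
    ∃ t : K, ∀ a y, b a - t * u a ∈ Z.st B y := by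
  choose t ht using fun i => ker_chart hL hA hb (S.x_mem i) (S.x_ne i)
  have key : ∀ i (C : Crv S.W), C.In (S.x i) → ∀ a, b a - t i * u a ∈ secOn (fun C' => C' = C) B :=
    fun i C hC a => by
      obtain ⟨y, h1, h2, -⟩ := exists_free hL Z C (S.x_mem i) hC
      exact secOn_mono (fun C' h => ⟨h ▸ h1, le_rfl⟩) (st_le hL Z y B (ht i y h2 a))
  obtain ⟨g, hg⟩ := hG t fun i j => by
    by_cases h0 : t i - t j = 0
    · exact Or.inl h0
    refine Or.inr fun C hC => ?_
    obtain ⟨a, h1, h2⟩ := exists_gen_crv hL hu C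
    have h3 := sub_mem (key j C hC.2 a) (key i C hC.1 a)
    have e1 : b a - t j * u a - (b a - t i * u a) = (t i - t j) * u a := by ring
    rw [e1] at h3
    have h4 := h3.resolve_left (mul_ne_zero h0 h1) C rfl
    rw [e, Finsupp.add_apply] at h4
    unfold Crv.ord at *
    rw [Pl.ord_mul _ h0 h1] at h4
    omega
  refine ⟨g, fun a y => ?_⟩
  obtain ⟨i, hi⟩ := hL.pt_cover y
  have e1 : b a - g * u a = b a - t i * u a + (t i - g) * u a := by ring
  rw [e1]
  exact add_mem (ht i y hi a) (mul_st hL Z (secIn_le hi G (hg i)) (hu.mem y a) e)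

theorem ne_zero (hL : S.Loc) {A : Div S.W} (hu : Gen Z A u) : ∃ a, u a ≠ 0 := by
  obtain ⟨C⟩ := crv_ne hL.toLoc2
  obtain ⟨a, h, -⟩ := exists_gen_crv hL hu C
  exact ⟨a, h⟩

theorem line (S : Surf K) {a₀ : ι} (h0 : u a₀ ≠ 0) (b : ι → K)
    (hb : ∀ j, ∀ c ∈ Rel S.W u j, ∑ a, c a * b a = 0) : b ∈ Ln u := by
  classical
  have := S.model.frac _ (S.x_mem 0) (S.x_ne 0)
  refine mem_Ln.2 ⟨b a₀ / u a₀, funext fun a => ?_⟩
  obtain ⟨p, q, hq, e⟩ := IsFractionRing.div_surjective (A := chart S.W (S.x 0)) (u a / u a₀)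
  have hq0 : (q : K) ≠ 0 := fun h => nonZeroDivisors.ne_zero hq (Subtype.ext h)
  obtain ⟨n, hn⟩ := chart_pow (S.x_mem 0) (S.x_ne 0) (f := ![(p : K), q])
    (fun i => by fin_cases i; exacts [p.2, q.2])
  have e1 : ∀ v : ι → K, ∑ a', (Pi.single a ((q : K) * S.x 0 ^ n) -
      Pi.single a₀ ((p : K) * S.x 0 ^ n) : ι → K) a' * v a' =
        S.x 0 ^ n * (q * v a - p * v a₀) := fun v => by
    simp only [Pi.sub_apply, sub_mul, Finset.sum_sub_distrib, Pi.single_apply, ite_mul, zero_mul,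
      Finset.sum_ite_eq', Finset.mem_univ, if_true]
    ring
  have e2 : (p : K) / q = u a / u a₀ := e
  have e3 : (q : K) * u a - p * u a₀ = 0 := by
    rw [div_eq_div_iff hq0 h0] at e2
    linear_combination -e2
  have h3 : ∀ (a a' : ι) (f : K), f ∈ S.W ^ n → (Pi.single a f : ι → K) a' ∈ S.W ^ n := by
    intro a a' f hf
    rw [Pi.single_apply]
    split_ifs
    · exact hf
    · exact zero_mem _
  have h1 := hb n (Pi.single a ((q : K) * S.x 0 ^ n) - Pi.single a₀ ((p : K) * S.x 0 ^ n))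
    ⟨fun a' => sub_mem (h3 _ _ _ (hn 1)) (h3 _ _ _ (hn 0)), by rw [e1, e3, mul_zero]⟩
  rw [e1] at h1
  have h2 := (mul_eq_zero.1 h1).resolve_left (pow_ne_zero n (S.x_ne 0))
  rw [Pi.smul_apply, smul_eq_mul, div_mul_eq_mul_div, div_eq_iff h0]
  refine mul_left_cancel₀ hq0 ?_
  linear_combination (b a₀) * e3 - (u a₀) * h2

end Vale.Agent.P297Z.Sf.Fb.Tg
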