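import Vale.Agent.P297Z.Hb.FibC2

/-! P297: dimension counts for the maps from the relations. -/

set_option linter.all false

open IsLocalRing Module

namespace Vale.Agent.P297Z.Sf.Fb.Tg

open Vale.Agent.P297Z.Hb

section abs

variable {V W : Type} [AddCommGroup V] [Module ℂ V] [AddCommGroup W] [Module ℂ W]
  {A B C : Submodule ℂ V} {A' : Submodule ℂ W}

theorem le_of_rdim_le (hAB : A ≤ B) (hBC : B ≤ C) (h : RFin A C) (h' : rdim A C ≤ rdim A B) :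
    C ≤ B := by
  have h1 := rdim_add hAB hBC h
  exact (rdim_eq_zero_iff (h.mono hAB le_rfl)).1 (by omega)

theorem rdim_rank (f : V →ₗ[ℂ] W) (hAB : A ≤ B) (hf : ∀ v ∈ A, f v ∈ A') (h : RFin A B) :
    RFin A' (B.map f) ∧ rdim A B = rdim A (B ⊓ A'.comap f) + rdim A' (B.map f) := by
  have h1 := rdim_add (A := A) (B := B ⊓ A'.comap f) (C := B) (le_inf hAB hf) inf_le_left h
  have h2 := rdim_congr (A := B ⊓ A'.comap f) (B := B) (A' := A') (B' := B.map f) f le_sup_left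
    le_sup_left fun v hv => ⟨fun h => ⟨hv, h⟩, fun h => h.2⟩
  exact ⟨h2.1.1 (h.mono (le_inf hAB hf) le_rfl), by rw [h1, h2.2]⟩

theorem rdim_inf_add (A B : Submodule ℂ V) [Module.Finite ℂ B] :
    rdim A B + finrank ℂ (A ⊓ B : Submodule ℂ V) = finrank ℂ B := by
  rw [← (rdim_inf A B).2]
  exact rdim_add_finrank inf_le_right

end abs

variable {K : Type} [Field K] [Algebra ℂ K] {S : Surf K} {ι : Type} [Fintype ι]

theorem kos_two {y : Fin 3 → K} {B N₀ N₁ N₂ N₃ : Submodule ℂ (ι → K)}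
    (hB : ∀ (g : K), ∀ b ∈ B, g • b ∈ B) (l0 : B ≤ N₀) (l1 : B ≤ N₁) (l2 : B ≤ N₂)
    (f0 : RFin B N₀) (f1 : RFin B N₁) (f2 : RFin B N₂) (m12 : ∀ i, ∀ b ∈ N₁, y i • b ∈ N₂)
    (hd : rdim B N₃ + 3 * rdim B N₁ = 3 * rdim B N₂ + rdim B N₀)
    (e₁ : ∀ b : Fin 3 → ι → K, (∀ i, b i ∈ N₁) → (∀ i j, y i • b j - y j • b i ∈ B) →
      ∃ a ∈ N₀, ∀ i, b i - y i • a ∈ B)
    (e₃ : ∀ e ∈ N₃, ∃ c : Fin 3 → ι → K, (∀ i, c i ∈ N₂) ∧ e - ∑ i, y i • c i ∈ B)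
    (c : Fin 3 → ι → K) (hc : ∀ i, c i ∈ N₂) (h0 : ∑ i, y i • c i ∈ B) :
    ∃ b : Fin 3 → ι → K, (∀ i, b i ∈ N₁) ∧
      ∀ i, c i - (y (i + 1) • b (i + 2) - y (i + 2) • b (i + 1)) ∈ B := by
  let T : Submodule ℂ (ι → K) → Submodule ℂ (Fin 3 → ι → K) := fun N =>
    Submodule.pi Set.univ fun _ => N
  have hT : ∀ N v, v ∈ T N ↔ ∀ i, v i ∈ N := fun N v => ⟨fun h i => h i trivial, fun h i _ => h i⟩
  have rT : ∀ N, RFin B N → RFin (T B) (T N) ∧ rdim (T B) (T N) = 3 * rdim B N := fun N h => by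
    have h1 := rdim_pi (ι := Fin 3) (fun _ => B) (fun _ => N) fun _ => h
    refine ⟨h1.1, h1.2.trans ?_⟩
    simp
  let d₀ : (ι → K) →ₗ[ℂ] (Fin 3 → ι → K) := LinearMap.pi fun i => sm ι (y i)
  let d₁ : (Fin 3 → ι → K) →ₗ[ℂ] (Fin 3 → ι → K) := LinearMap.pi fun i =>
    sm ι (y (i + 1)) ∘ₗ LinearMap.proj (i + 2) - sm ι (y (i + 2)) ∘ₗ LinearMap.proj (i + 1)
  let d₂ : (Fin 3 → ι → K) →ₗ[ℂ] (ι → K) := ∑ i, sm ι (y i) ∘ₗ LinearMap.proj i
  have a0 : ∀ v i, d₀ v i = y i • v := fun _ _ => rfl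
  have a1 : ∀ v i, d₁ v i = y (i + 1) • v (i + 2) - y (i + 2) • v (i + 1) := fun _ _ => rfl
  have a2 : ∀ v, d₂ v = ∑ i, y i • v i := fun v => by
    rw [LinearMap.sum_apply]; rfl
  have b2 : ∀ v ∈ T B, d₂ v ∈ B := fun v hv => by
    rw [a2]
    exact sum_mem fun i _ => hB _ _ (hv i trivial)
  obtain ⟨r0, s0⟩ := rdim_rank (A' := T B) d₀ l0 (fun v hv i _ => hB _ _ hv) f0
  obtain ⟨r1, s1⟩ := rdim_rank (A := T B) (B := T N₁) (A' := T B) d₁
    (fun v hv i _ => l1 (hv i trivial))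
    (fun v hv i _ => sub_mem (hB _ _ (hv _ trivial)) (hB _ _ (hv _ trivial))) (rT _ f1).1
  obtain ⟨r2, s2⟩ := rdim_rank (A := T B) (B := T N₂) d₂ (fun v hv i _ => l2 (hv i trivial)) b2
    (rT _ f2).1
  have t1 : rdim (T B) (T N₁ ⊓ (T B).comap d₁) ≤ rdim (T B) (N₀.map d₀) := by
    refine (rdim_le_of_inj LinearMap.id ?_ (fun _ _ h => h) r0).2
    rintro _ ⟨v, ⟨h1, h2⟩, rfl⟩
    have p0 : y 1 • v 2 - y 2 • v 1 ∈ B := h2 0 trivial
    have p1 : y 2 • v 0 - y 0 • v 2 ∈ B := h2 1 trivial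
    have p2 : y 0 • v 1 - y 1 • v 0 ∈ B := h2 2 trivial
    obtain ⟨a, ha, e⟩ := e₁ v (fun i => h1 i trivial) fun i j => by
      fin_cases i <;> fin_cases j
      · simp
      · exact p2
      · exact sub_mem_comm_iff.1 p1
      · exact sub_mem_comm_iff.1 p2
      · simp
      · exact p0
      · exact p1
      · exact sub_mem_comm_iff.1 p0
      · simp
    rw [LinearMap.id_apply, ← add_sub_cancel (d₀ a) v]
    exact Submodule.add_mem_sup ⟨a, ha, rfl⟩ fun i _ => e i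
  have t2 : rdim B N₃ ≤ rdim B ((T N₂).map d₂) := by
    refine (rdim_le_of_inj LinearMap.id ?_ (fun _ _ h => h) r2).2
    rintro _ ⟨v, hv, rfl⟩
    obtain ⟨c, h1, h2⟩ := e₃ v hv
    rw [LinearMap.id_apply, ← add_sub_cancel (d₂ c) v]
    exact Submodule.add_mem_sup ⟨c, fun i _ => h1 i, rfl⟩ (a2 c ▸ h2)
  have l3 : T B ≤ T N₂ ⊓ B.comap d₂ := fun v hv => ⟨fun i _ => l2 (hv i trivial), b2 v hv⟩
  have key : T N₂ ⊓ B.comap d₂ ≤ T B ⊔ (T N₁).map d₁ := by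
    refine le_of_rdim_le le_sup_left (sup_le l3 ?_) ((rT _ f2).1.mono le_rfl inf_le_left) ?_
    · rintro _ ⟨v, hv, rfl⟩
      refine ⟨fun i _ => sub_mem (m12 _ _ (hv _ trivial)) (m12 _ _ (hv _ trivial)), ?_⟩
      have e : d₂ (d₁ v) = 0 := by
        rw [a2, Fin.sum_univ_three, a1, a1, a1]
        change y 0 • (y 1 • v 2 - y 2 • v 1) + y 1 • (y 2 • v 0 - y 0 • v 2) +
          y 2 • (y 0 • v 1 - y 1 • v 0) = 0
        module
      change d₂ (d₁ v) ∈ B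
      rw [e]
      exact zero_mem _
    · rw [(rdim_sup _ _).2]
      rw [(rT _ f1).2] at s1
      rw [(rT _ f2).2] at s2
      omega
  obtain ⟨β, hβ, _, ⟨b, hb, rfl⟩, e⟩ := Submodule.mem_sup.1
    (key (⟨fun i _ => hc i, (a2 c ▸ h0 : d₂ c ∈ B)⟩ : c ∈ T N₂ ⊓ B.comap d₂))
  refine ⟨b, fun i => hb i trivial, fun i => ?_⟩
  rw [← a1, ← e, Pi.add_apply, add_sub_cancel_right]
  exact hβ i trivial

variable {Z : Zs S.W} {u : ι → K}

/-- every section of high degree is a combination of the powers of the coordinates -/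
theorem pigeon (hL : S.Loc) {m : ℤ} {A : Div S.W} (hR : Reg S m A Z) (d : ℕ) {j : ℤ} (hj : m ≤ j)
    {f : K} (hf : f ∈ EM Z A (j + 3 * d)) :
    ∃ c : Fin 3 → K, (∀ i, c i ∈ EM Z A (j + 2 * d)) ∧ f = ∑ i, S.x i ^ d * c i := by
  let Q : Submodule ℂ K :=
    { carrier := {f | ∃ c : Fin 3 → K, (∀ i, c i ∈ EM Z A (j + 2 * d)) ∧ f = ∑ i, S.x i ^ d * c i}
      zero_mem' := ⟨0, fun _ => zero_mem _, by simp⟩
      add_mem' := by
        rintro _ _ ⟨c, hc, rfl⟩ ⟨c', hc', rfl⟩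
        exact ⟨c + c', fun i => add_mem (hc i) (hc' i), by
          simp only [Pi.add_apply, mul_add, Finset.sum_add_distrib]⟩
      smul_mem' := by
        rintro t _ ⟨c, hc, rfl⟩
        exact ⟨t • c, fun i => Submodule.smul_mem _ t (hc i), by
          simp only [Pi.smul_apply, mul_smul_comm, Finset.smul_sum]⟩ }
  have hQ : ∀ i, ∀ g ∈ EM Z A (j + 2 * d), S.x i ^ d * g ∈ Q := fun i g hg =>
    ⟨Pi.single i g, fun i' => by
      rw [Pi.single_apply]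
      split_ifs
      · exact hg
      · exact zero_mem _, by simp [Pi.single_apply]⟩
  have hp : ∀ (i : Fin 3) (n : ℕ) (k k' : ℤ) (g : K), g ∈ EM Z A k → k' = k + n →
      S.x i ^ n * g ∈ EM Z A k' := fun i n k k' g hg e =>
    M_mul_EM hL (pow_mem_M hL (S.x_mem i) n) hg e
  have key : ∀ n a b c : ℕ, a + b + c + n = 3 * d → ∀ g ∈ EM Z A (j + n),
      S.x 0 ^ a * (S.x 1 ^ b * (S.x 2 ^ c * g)) ∈ Q := by
    intro n
    induction n with
    | zero =>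
      intro a b c e g hg
      have h : d ≤ a ∨ d ≤ b ∨ d ≤ c := by omega
      rcases h with h | h | h <;> obtain ⟨t, rfl⟩ := Nat.exists_eq_add_of_le h
      · rw [pow_add, mul_assoc]
        exact hQ 0 _ (hp _ _ _ _ _ (hp _ _ _ _ _ (hp _ _ _ _ _ hg rfl) rfl) (by omega))
      · rw [pow_add, mul_assoc, mul_left_comm]
        exact hQ 1 _ (hp _ _ _ _ _ (hp _ _ _ _ _ (hp _ _ _ _ _ hg rfl) rfl) (by omega))
      · rw [pow_add, mul_assoc, mul_left_comm (S.x 1 ^ b), mul_left_comm]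
        exact hQ 2 _ (hp _ _ _ _ _ (hp _ _ _ _ _ (hp _ _ _ _ _ hg rfl) rfl) (by omega))
    | succ n ih =>
      intro a b c e g hg
      have h1 : g ∈ S.X * EM Z A (j + n) := hR.gen (j + n) (by omega) (by
        rw [add_assoc]; exact_mod_cast hg)
      refine Submodule.mul_induction_on h1 (fun l hl g hg => ?_) fun g g' h h' => ?_
      · obtain ⟨t, rfl⟩ := (Submodule.mem_span_range_iff_exists_fun ℂ).1 hl
        have e0 : S.x 0 ^ a * (S.x 1 ^ b * (S.x 2 ^ c * ((∑ i, t i • S.x i) * g))) =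
            t 0 • (S.x 0 ^ (a + 1) * (S.x 1 ^ b * (S.x 2 ^ c * g))) +
            t 1 • (S.x 0 ^ a * (S.x 1 ^ (b + 1) * (S.x 2 ^ c * g))) +
            t 2 • (S.x 0 ^ a * (S.x 1 ^ b * (S.x 2 ^ (c + 1) * g))) := by
          simp only [Fin.sum_univ_three, Algebra.smul_def]
          ring
        rw [e0]
        exact add_mem (add_mem (Q.smul_mem _ (ih _ _ _ (by omega) g hg))
          (Q.smul_mem _ (ih _ _ _ (by omega) g hg))) (Q.smul_mem _ (ih _ _ _ (by omega) g hg))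
      · simp only [mul_add]
        exact add_mem h h'
  have h := key (3 * d) 0 0 0 (by omega) f (by exact_mod_cast hf)
  have h' : f ∈ Q := by simpa using h
  exact h'

/-- the maps from the relations, given by local conditions -/
noncomputable def NB (Z : Zs S.W) (u : ι → K) (B : Div S.W) : Submodule ℂ (ι → K) :=
  ⨅ x, HmK Z u B x

/-- the maps that extend locally -/
noncomputable def KB (Z : Zs S.W) (u : ι → K) (B : Div S.W) : Submodule ℂ (ι → K) :=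
  ⨅ x, TrK Z u B x

/-- the product over the support -/
def PS (Z : Zs S.W) (N : Pt S.W → Submodule ℂ (ι → K)) :
    Submodule ℂ (Z.fin.toFinset → ι → K) := Submodule.pi Set.univ fun x => N x

/-- the diagonal -/
def dg (Z : Zs S.W) (ι : Type) : (ι → K) →ₗ[ℂ] (Z.fin.toFinset → ι → K) :=
  LinearMap.pi fun _ => LinearMap.id

theorem mem_NB {B : Div S.W} {b : ι → K} : b ∈ NB Z u B ↔ ∀ x, b ∈ HmK Z u B x :=
  Submodule.mem_iInf _

theorem mem_KB {B : Div S.W} {b : ι → K} : b ∈ KB Z u B ↔ ∀ x, b ∈ TrK Z u B x :=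
  Submodule.mem_iInf _

theorem Nk_eq (hL : S.Loc) (A : Div S.W) (m k : ℤ) :
    Nk S.W u (EM Z A) m k = NB Z u (A + (m + k) • S.H) :=
  Submodule.ext fun _ => (mem_Nk hL).trans mem_NB.symm

theorem KB_le (hL : S.Loc) (B : Div S.W) : KB Z u B ≤ NB Z u B := iInf_mono (Tr_le hL B)

theorem Ln_le_KB (B : Div S.W) : Ln u ≤ KB Z u B := le_iInf (Ln_le B)

theorem mem_KB_of (hL : S.Loc) (hA : LAS S) {A : Div S.W} (hu : Gen Z A u) {B : Div S.W}
    {b : ι → K} (hb : b ∈ NB Z u B) (h : dg Z ι b ∈ PS Z (TrK Z u B)) : b ∈ KB Z u B := by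
  refine mem_KB.2 fun x => ?_
  by_cases hx : Z.J x = ⊤
  · exact Hm_le hL hA hu hx B (mem_NB.1 hb x)
  · exact h ⟨x, Z.fin.mem_toFinset.2 hx⟩ trivial

theorem rdim_PS (hL : S.Loc) (hA : LAS S) {A : Div S.W} (hu : Gen Z A u) (B : Div S.W) :
    RFin (PS Z (TrK Z u B)) (PS Z (HmK Z u B)) ∧
      rdim (PS Z (TrK Z u B)) (PS Z (HmK Z u B)) = rdim (PS Z (TrK Z u A)) (PS Z (HmK Z u A)) ∧
      rdim (PS Z (TrK Z u B)) (PS Z (HmK Z u B)) ≤ 2 * Z.len := by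
  have h := fun B => rdim_pi (fun x : Z.fin.toFinset => TrK Z u B x) (fun x => HmK Z u B x)
    fun x => (ext_at hL hA hu x B).1
  refine ⟨(h B).1, (h B).2.trans (Eq.trans ?_ (h A).2.symm), (h B).2.le.trans ?_⟩
  · exact Finset.sum_congr rfl fun x _ => (rdim_indep hL _ B A).2
  · rw [len_eq Z hA, Finset.mul_sum]
    exact Finset.sum_le_sum fun x _ => (ext_at hL hA hu _ B).2

theorem rdim_dg (hL : S.Loc) (hA : LAS S) {A : Div S.W} (hu : Gen Z A u) (B : Div S.W) :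
    RFin (KB Z u B) (NB Z u B) ∧ (NB Z u B).map (dg Z ι) ≤ PS Z (HmK Z u B) ∧
      rdim (KB Z u B) (NB Z u B) = rdim (PS Z (TrK Z u B)) ((NB Z u B).map (dg Z ι)) := by
  have h1 : (NB Z u B).map (dg Z ι) ≤ PS Z (HmK Z u B) := by
    rintro _ ⟨b, hb, rfl⟩ x _
    exact mem_NB.1 hb x
  have h2 := rdim_congr (A := KB Z u B) (B := NB Z u B) (A' := PS Z (TrK Z u B))
    (B' := (NB Z u B).map (dg Z ι)) (dg Z ι) le_sup_left le_sup_left fun v hv =>
      ⟨mem_KB_of hL hA hu hv, fun h x _ => mem_KB.1 h x⟩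
  exact ⟨h2.1.2 ((rdim_PS hL hA hu B).1.mono le_rfl h1), h1, h2.2⟩

/-- all local classes come from global maps -/
def Onto (Z : Zs S.W) (u : ι → K) (B : Div S.W) : Prop :=
  PS Z (HmK Z u B) ≤ PS Z (TrK Z u B) ⊔ (NB Z u B).map (dg Z ι)

theorem Onto.mul (hL : S.Loc) {B B' : Div S.W} (h : Onto Z u B) (n : ℕ)
    (e : B' = (n : ℤ) • S.H + B) : Onto Z u B' := by
  obtain ⟨w, hw, h0, hP, -⟩ := hL.avoid Z.fin.toFinset ∅
  intro v hv
  obtain ⟨τ, hτ, _, ⟨b, hb, rfl⟩, e1⟩ := Submodule.mem_sup.1 (h (x := (w ^ n)⁻¹ • v) fun x _ =>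
    inv_smul_Hm hL (gen_pow hL hw (hP x x.2) n) (hv x trivial) e)
  have e2 : v = w ^ n • τ + dg Z ι (w ^ n • b) := by
    rw [← smul_inv_smul₀ (pow_ne_zero n h0) v, ← e1, smul_add]
    rfl
  rw [e2]
  exact Submodule.add_mem_sup (fun x _ => smul_Tr hL (pow_sec hL hw n) (hτ x trivial) e)
    ⟨_, mem_NB.2 fun x => smul_Hm hL (pow_sec hL hw n) (mem_NB.1 hb x) e, rfl⟩

theorem Onto.rdim (hL : S.Loc) (hA : LAS S) {A : Div S.W} (hu : Gen Z A u) {B : Div S.W}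
    (h : Onto Z u B) :
    rdim (KB Z u B) (NB Z u B) = rdim (PS Z (TrK Z u A)) (PS Z (HmK Z u A)) := by
  obtain ⟨-, h1, h2⟩ := rdim_dg hL hA hu B
  have e : PS Z (TrK Z u B) ⊔ (NB Z u B).map (dg Z ι) = PS Z (HmK Z u B) :=
    le_antisymm (sup_le (fun v hv x _ => Tr_le hL B _ (hv x trivial)) h1) h
  rw [h2, ← (rdim_sup _ _).2, e, (rdim_PS hL hA hu B).2.1]

theorem onto_of_le (hL : S.Loc) (hA : LAS S) {A : Div S.W} (hu : Gen Z A u)
    (h : 2 * Z.len ≤ rdim (KB Z u A) (NB Z u A)) : Onto Z u A := by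
  obtain ⟨-, h1, h2⟩ := rdim_dg hL hA hu A
  obtain ⟨h3, -, h4⟩ := rdim_PS hL hA hu A
  refine le_of_rdim_le le_sup_left (sup_le (fun v hv x _ => Tr_le hL A _ (hv x trivial)) h1) h3 ?_
  rw [(rdim_sup _ _).2]
  omega

theorem rdim_le (hL : S.Loc) (hA : LAS S) {A : Div S.W} (hu : Gen Z A u) (B : Div S.W) :
    rdim (KB Z u B) (NB Z u B) ≤ 2 * Z.len := by
  obtain ⟨-, h1, h2⟩ := rdim_dg hL hA hu B
  obtain ⟨h3, -, h4⟩ := rdim_PS hL hA hu B
  exact h2.le.trans ((rdim_mono h3 le_rfl h1).trans h4)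

end Vale.Agent.P297Z.Sf.Fb.Tg
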