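import Vale.Agent.P297Z.Hb.GeoPt
import Vale.Agent.P297Z.Hb.Deg0
import Vale.Agent.P297Z.Top.Var

/-! P297: the space of the subsheaves with empty subscheme is the linear system. -/

set_option linter.all false

noncomputable section

namespace Vale.Agent.P297Z.Sf.Ctx

open Dim Hb.Ge Fb

variable {K : Type} [Field K] [Algebra ℂ K] {S : Surf K} (c : Ctx S)

theorem exists_coef (h : S.All) (hA : FibA S) : ∃ C : Fin (c.v + 1) → Fin c.s → c.B → ℂ,
    ∀ y : Fin (c.v + 1) → ℂ, y ≠ 0 → LinearIndependent ℂ (fun a b => ∑ i, C i a b * y i) ∧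
      (Submodule.span ℂ (Set.range fun a b => ∑ i, C i a b * y i)).map
        (Fintype.linearCombination ℂ c.e) = M (c.A (∑ i, y i • c.φ i)) c.m := by
  have : FiniteDimensional ℂ (M (c.L - c.D) c.m) := (h.fg _).1 _
  let g : Module.Basis (Fin c.s) ℂ (M (c.L - c.D) c.m) := Module.finBasis ℂ _
  have h1 : ∀ i a, c.φ i * g a ∈ Submodule.span ℂ (Set.range c.e) := fun i a => by
    have h2 : c.φ i ∈ M c.D 0 := by
      rw [M, zero_smul, add_zero, ← c.φ_span]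
      exact Submodule.subset_span ⟨i, rfl⟩
    have := mul_mem_M h2 (g a).2
    rwa [add_sub_cancel, zero_add, ← c.e_span] at this
  choose C hC using fun i a => (Submodule.mem_span_range_iff_exists_fun ℂ).1 (h1 i a)
  refine ⟨C, fun y hy => ?_⟩
  have hf : ∑ i, y i • c.φ i ≠ 0 := fun e =>
    hy (funext (Fintype.linearIndependent_iff.1 c.φ_ind y e))
  let F : M (c.L - c.D) c.m →ₗ[ℂ] K := LinearMap.mulLeft ℂ (∑ i, y i • c.φ i) ∘ₗ Submodule.subtype _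
  have h3 : (Fintype.linearCombination ℂ c.e ∘ fun a b => ∑ i, C i a b * y i) = F ∘ g :=
    funext fun a => by
      show ∑ b, (∑ i, C i a b * y i) • c.e b = (∑ i, y i • c.φ i) * g a
      simp only [Finset.sum_smul, Finset.sum_mul, smul_mul_assoc, ← hC, Finset.smul_sum, smul_smul,
        mul_comm]
      exact Finset.sum_comm
  refine ⟨.of_comp (Fintype.linearCombination ℂ c.e) (h3 ▸ g.linearIndependent.map' F
    (LinearMap.ker_eq_bot.2 fun a b e => Subtype.ext (mul_left_cancel₀ hf e))), ?_⟩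
  rw [Submodule.map_span, ← Set.range_comp, h3, Set.range_comp, ← Submodule.map_span, g.span_eq]
  obtain ⟨Z, hZ⟩ := hA.empty
  have h4 := fun k => hA.mulf Z (c.L - c.D) c.m _ k hf
  simp only [hA.zero Z _ _ hZ, sub_sub] at h4
  refine Submodule.ext fun k => ⟨?_, fun hk => ?_⟩
  · rintro ⟨a, -, rfl⟩
    exact (h4 _).2 a.2
  · exact ⟨⟨(∑ i, y i • c.φ i)⁻¹ * k, (h4 _).1 (by rwa [mul_inv_cancel_left₀ hf])⟩, trivial,
      mul_inv_cancel_left₀ hf k⟩

theorem plk_wt {X : Spc} {r : ℕ} {B : Type} {u : Fin r → B → X.R} {γ : X.J → ℤ}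
    (h : ∀ a b, u a b ∈ X.wt γ) (J : Fin r → B) : Plk.plk u J ∈ X.wt (∑ _a : Fin r, γ) := by
  rw [Plk.plk, Matrix.det_apply]
  refine Submodule.sum_mem _ fun σ _ => ?_
  rw [Units.smul_def]
  exact zsmul_mem (Spc.prod_mem _ fun a _ => h _ _) _

theorem exists_mor {v r : ℕ} {B : Type} [Fintype B] [DecidableEq B] [Nonempty B]
    (C : Fin (v + 1) → Fin r → B → ℂ)
    (hC : ∀ y : Fin (v + 1) → ℂ, y ≠ 0 → LinearIndependent ℂ fun a b => ∑ i, C i a b * y i) :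
    ∃ κ : Mor (PI (Fin (v + 1))) (PI (Fin r → B)), ∀ w,
      (κ.onPt w).co = Plk.plk fun a b => ∑ i, C i a b * w.co i := by
  let x : Fin (v + 1) → (PI (Fin (v + 1))).R := MvPolynomial.X (R := ℂ)
  have hx : ∀ i, x i ∈ (PI (Fin (v + 1))).wt fun j => j.elim 1 0 :=
    Spc.X_mem pt0 _ fun _ => 0
  have h0 : ∀ (w : (PI (Fin (v + 1))).Pt) J, w.1 (Plk.plk (fun a b => ∑ i, C i a b • x i) J) =
      Plk.plk (fun a b => ∑ i, C i a b * w.co i) J := fun w J => by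
    refine (Plk.plk_map (w.1 : (PI (Fin (v + 1))).R →+* ℂ) _ J).trans ?_
    simp only [RingHom.coe_coe, map_sum, map_smul, smul_eq_mul]
    rfl
  refine ⟨(Mor.toPt _ Empty 0).toAdj _ (fun _ => 0) (∑ _a : Fin r, fun j => j.elim 1 0)
    (Plk.plk fun a b => ∑ i, C i a b • x i) (fun J => ?_) fun w => ?_, fun w =>
    funext fun J => (congrArg w.1 (MvPolynomial.aevalTower_X _ _ J)).trans (h0 w J)⟩
  · rw [map_zero, zero_add]
    exact plk_wt (fun a b => Submodule.sum_mem _ fun i _ => Submodule.smul_mem _ _ (hx i)) J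
  · obtain ⟨J, hJ⟩ := Plk.exists_plk_ne (hC _ (co_ne w))
    exact ⟨J, (h0 w J).trans_ne hJ⟩

theorem exists_kap (h : S.All) (hA : FibA S) : ∃ κ : Mor (PP c.v) (c.Gr c.s),
    (Mor.lift (Mor.id _) κ).img Set.univ = c.XS c.s := by
  obtain ⟨C, hC⟩ := c.exists_coef h hA
  let co : (PP c.v).Pt → Fin (c.v + 1) → ℂ := Spc.Pt.co (X := pt0)
  have hw := fun w => hC (co w) (co_ne (X := pt0) w)
  obtain ⟨κ, h1⟩ : ∃ κ : Mor (PP c.v) (c.Gr c.s), ∀ w,
      (κ.onPt w).co = Plk.plk fun a b => ∑ i, C i a b * co w i :=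
    exists_mor C fun y hy => (hC y hy).1
  have h2 : ∀ w, (Mor.fst _ _).onPt ((Mor.lift (Mor.id _) κ).onPt w) = w := fun w => by
    rw [← Mor.onPt_comp, Mor.fst_lift, Mor.onPt_id]
  have h3 : ∀ w, (Mor.snd _ _).onPt ((Mor.lift (Mor.id _) κ).onPt w) = κ.onPt w := fun w => by
    rw [← Mor.onPt_comp, Mor.snd_lift]
  have h4 : ∀ w, Plk.Rel (κ.onPt w).co ∧ c.Usp (κ.onPt w).co = M (c.A (c.fpt w)) c.m := fun w => by
    have h5 := Plk.rel_plk 1 fun a b => ∑ i, C i a b * co w i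
    have h6 := Plk.sub_plk one_ne_zero (hw w).1
    simp only [one_mul] at h5 h6
    rw [h1, Usp, h6]
    exact ⟨h5, (hw w).2⟩
  obtain ⟨Z₀, hZ₀⟩ := hA.empty
  refine ⟨κ, subset_antisymm ?_ ?_⟩
  · rintro w ⟨y, -, ho⟩
    refine c.XS_stab _ _ ⟨Z₀, ?_⟩ _ ho
    rw [IsPt, h2, h3, hA.zero _ _ _ hZ₀, hZ₀, zero_add]
    exact ⟨(h4 y).1, rfl, (h4 y).2⟩
  · rintro w ⟨Z, h5, h6, h7⟩
    rw [hA.zero _ _ _ (by omega), ← (h4 _).2] at h7
    obtain ⟨J, hJ⟩ := Function.ne_iff.1 (co_ne (κ.onPt ((Mor.fst _ _).onPt w)))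
    obtain ⟨J', hJ'⟩ := Function.ne_iff.1 (co_ne ((Mor.snd _ _).onPt w))
    obtain ⟨t, -, ht⟩ := (h4 _).1.eq_of_sub h5 hJ hJ' (Submodule.map_injective_of_injective
      c.e_ind.fintypeLinearCombination_injective h7).le
    refine ⟨(Mor.fst _ _).onPt w, trivial, (Spc.orb_prod _ _).2 ⟨?_, ?_⟩⟩
    · rw [h2]
      exact .refl _
    · rw [h3]
      exact PI_orb (funext ht)

theorem base_case (h : S.All) (hA : FibA S) : Spc.Clo _ (c.XS c.s) ∧ (c.Xr c.s).IsVar c.v ∧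
    (c.pr c.s).SurjO ∧ (c.pr c.s).InjO := by
  obtain ⟨κ, hκ⟩ := c.exists_kap h hA
  have hP := isVar_PP c.v
  have hQ : ((PP c.v).prod (c.Gr c.s)).IsProj := hP.proj.prod (Spc.isProj_pt.adj _)
  have h1 : ∀ w, (Mor.fst _ _).onPt ((Mor.lift (Mor.id _) κ).onPt w) = w := fun w => by
    rw [← Mor.onPt_comp, Mor.fst_lift, Mor.onPt_id]
  have h2 : ∀ {w x}, Spc.Orb _ ((Mor.lift (Mor.id _) κ).onPt w) x →
      (PP c.v).Orb w ((Mor.fst _ _).onPt x) := fun {w x} ho => by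
    simpa only [h1] using (Mor.fst _ _).orb ho
  have hc : Spc.Clo _ (c.XS c.s) := hκ ▸ Hb.clim _ _ _ _ hP.proj hQ (fun _ _ _ _ => trivial) clo_univ
  have := var_prime hP
  refine ⟨hc, (isVar_sub hQ _).2 ⟨hκ ▸ van_img_prime _, hκ ▸ (cdim_inj_iff _ hP.proj.free hQ.free
    (.of_clo clo_univ) (fun _ _ _ _ => trivial) fun z _ x _ ho => by simpa only [h1] using h2 ho).1
    (var_cdim hP)⟩, fun y => ?_, fun x x' ho => ?_⟩
  · obtain ⟨x, hx⟩ := exists_incl (c.XS_stab _) (hκ.le ⟨y, trivial, .refl _⟩)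
    refine ⟨x, ?_⟩
    show (PP c.v).Orb ((Mor.fst _ _).onPt ((Mor.incl _ _ _).onPt x)) y
    rw [hx, h1]
    exact .refl _
  · obtain ⟨a, -, ha⟩ := hκ.ge (Mor.incl_mem (c.XS_stab _) hc x)
    obtain ⟨a', -, ha'⟩ := hκ.ge (Mor.incl_mem (c.XS_stab _) hc x')
    exact (Spc.orb_sub _ _ _ _).2 ((ha.symm.trans
      (Mor.orb _ (((h2 ha).trans ho).trans (h2 ha').symm))).trans ha')

end Vale.Agent.P297Z.Sf.Ctx
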