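import Vale.Agent.P297Z.Hb.GeoPt

/-! P297: the count of dimensions for a space fibred in linear spaces over `X × S`. -/

set_option linter.all false

noncomputable section

namespace Vale.Agent.P297Z.Hb.Ge

open Dim

/-- the fibres of `N` over `X × S` are linear spaces of dimension `s` -/
structure Lf {N X S : Spc} {ι : Type} [Fintype ι] [Nonempty ι] (ρ : Mor N X) (σ : Mor N S)
    (κ : Mor N (PI ι)) (s : (X.prod S).Pt → ℕ) : Prop where
  inj : ∀ n n', ρ.onPt n = ρ.onPt n' → σ.onPt n = σ.onPt n' → κ.onPt n = κ.onPt n' → n = n'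
  fib : ∀ y, ∃ T : Submodule ℂ (ι → ℂ), Module.finrank ℂ T = s y ∧
    κ.onPt '' {n | (ρ.lift σ).onPt n = y} = {p | p.co ∈ T}
  one : ∀ a, S.cdim {z | 1 ≤ s (pair a z)} = (1 : ℕ)

variable {N X S : Spc} {ι : Type} [Fintype ι] [Nonempty ι] {ρ : Mor N X} {σ : Mor N S}
  {κ : Mor N (PI ι)} {s : (X.prod S).Pt → ℕ}

theorem lift_pt (n : N.Pt) : (ρ.lift σ).onPt n = pair (ρ.onPt n) (σ.onPt n) :=
  prod_pt_ext (by rw [← Mor.onPt_comp, Mor.fst_lift, fst_pair])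
    (by rw [← Mor.onPt_comp, Mor.snd_lift, snd_pair])

theorem pair_inj {a a' : X.Pt} {z z' : S.Pt} (h : pair a z = pair a' z') : a = a' ∧ z = z' :=
  ⟨by rw [← fst_pair a z, h, fst_pair], by rw [← snd_pair a z, h, snd_pair]⟩

namespace Lf

variable (h : Lf ρ σ κ s)
include h

theorem cdim_fib (y : (X.prod S).Pt) : ∃ T : Submodule ℂ (ι → ℂ), Module.finrank ℂ T = s y ∧
    N.cdim {n | (ρ.lift σ).onPt n = y} = (PI ι).cdim {p | p.co ∈ T} := by
  obtain ⟨T, h1, h2⟩ := h.fib y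
  refine ⟨T, h1, h2 ▸ (cdim_image_inj κ (LC.of_clo (clo_preimage _ (clo_singleton y)))
    subset_rfl fun n hn n' hn' e => ?_).symm⟩
  have h3 : (ρ.lift σ).onPt n = (ρ.lift σ).onPt n' := Eq.trans hn (Eq.symm hn')
  rw [lift_pt, lift_pt] at h3
  exact h.inj _ _ (pair_inj h3).1 (pair_inj h3).2 e

theorem fib_le (y : (X.prod S).Pt) : N.cdim {n | (ρ.lift σ).onPt n = y} ≤ (s y : ℕ) := by
  obtain ⟨T, h1, h2⟩ := h.cdim_fib y
  exact h2.le.trans (h1 ▸ cdim_lin_le T)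

theorem fib_eq {y : (X.prod S).Pt} (hy : 1 ≤ s y) :
    N.cdim {n | (ρ.lift σ).onPt n = y} = (s y : ℕ) := by
  obtain ⟨T, h1, h2⟩ := h.cdim_fib y
  refine h2.trans (h1 ▸ cdim_lin T ?_)
  rintro rfl
  rw [finrank_bot] at h1
  omega

theorem exists_pt {y : (X.prod S).Pt} (hy : 1 ≤ s y) : ∃ n, (ρ.lift σ).onPt n = y := by
  by_contra o
  have h1 := h.fib_eq hy
  rw [Set.eq_empty_of_forall_notMem (s := {n | (ρ.lift σ).onPt n = y}) fun n hn => o ⟨n, hn⟩,
    cdim_empty] at h1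
  exact WithBot.bot_ne_natCast _ h1

theorem exists_one (a : X.Pt) : ∃ z, 1 ≤ s (pair a z) := by
  by_contra o
  have h1 := h.one a
  rw [Set.eq_empty_of_forall_notMem (s := {z | 1 ≤ s (pair a z)}) fun n hn => o ⟨n, hn⟩,
    cdim_empty] at h1
  exact WithBot.bot_ne_natCast _ h1

theorem surj : Function.Surjective ρ.onPt := fun a => by
  obtain ⟨z, hz⟩ := h.exists_one a
  obtain ⟨n, hn⟩ := h.exists_pt hz
  exact ⟨n, (pair_inj ((lift_pt n).symm.trans hn)).1⟩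

theorem pos (n : N.Pt) : 1 ≤ s ((ρ.lift σ).onPt n) := by
  obtain ⟨T, h1, h2⟩ := h.fib ((ρ.lift σ).onPt n)
  have h3 : (κ.onPt n).co ∈ T := h2.le ⟨n, rfl, rfl⟩
  exact h1 ▸ Submodule.one_le_finrank_iff.2 fun e => co_ne (κ.onPt n) (by rwa [e] at h3)

theorem strata {D k e : ℕ} (hD : N.cdim Set.univ ≤ D) (hk : 1 ≤ k) (he : k + e = D + 1) :
    (X.prod S).cdim {y | k ≤ s y} < e := by
  by_contra o
  have h1 := add_le_cdim (Z := (ρ.lift σ).onPt ⁻¹' {y | k ≤ s y}) (d := e) (e := k) (ρ.lift σ)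
    (fun z hz => by
      refine le_trans ?_ (cdim_mono (Z := {n | (ρ.lift σ).onPt n = (ρ.lift σ).onPt z})
        fun n hn => ⟨show k ≤ s _ from Eq.symm hn ▸ hz, hn⟩)
      rw [h.fib_eq (h.pos z)]
      exact_mod_cast hz)
    ((not_lt.1 o).trans (cdim_mono fun y hy =>
      let ⟨n, hn⟩ := h.exists_pt (hk.trans hy)
      ⟨n, show k ≤ s _ from hn.symm ▸ hy, hn⟩))
  have h2 : e + k ≤ D := by exact_mod_cast h1.trans ((cdim_mono (Set.subset_univ _)).trans hD)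
  omega

theorem upper {D : ℕ} (hD : N.cdim Set.univ ≤ (D + 2 : ℕ)) : X.cdim Set.univ ≤ D := by
  by_contra o
  have h1 := add_le_cdim (Z := {y | 1 ≤ s y}) (d := D + 1) (e := 1) (Mor.fst X S)
    (fun y hy => by
      refine (h.one ((Mor.fst X S).onPt y)).ge.trans (le_trans (cdim_mono fun z hz => ?_)
        (cdim_image (Mor.snd X S) _))
      exact ⟨pair _ z, ⟨hz, fst_pair _ _⟩, snd_pair _ _⟩)
    ((not_lt.1 (mt le_iff_lt_succ.2 o)).trans (cdim_mono fun a _ =>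
      let ⟨z, hz⟩ := h.exists_one a
      ⟨pair a z, hz, fst_pair _ _⟩))
  exact (h1.trans_lt (h.strata hD le_rfl (by omega))).false

theorem lower {D : ℕ} [(N.van Set.univ).IsPrime] (hD : ((D + 2 : ℕ) : WithBot ℕ∞) ≤
    N.cdim Set.univ) {a : N.R} (ha : a ∉ N.van Set.univ)
    (h1 : ∀ n : N.Pt, n.1 a ≠ 0 → s ((ρ.lift σ).onPt n) ≤ 1) :
    (D : WithBot ℕ∞) ≤ X.cdim Set.univ := by
  by_contra o
  have h2 := cdim_lt_add (e := 2) ρ (LC.ne a) subset_rfl (fun n hn => by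
    refine cdim_le_add (d := 1) (e := 1) σ ((LC.ne a).inter (LC.of_clo (clo_preimage ρ
      (clo_singleton (ρ.onPt n))))) subset_rfl (fun n' hn' => ?_) ?_
    · refine (cdim_mono fun m hm => ?_).trans ((h.fib_le ((ρ.lift σ).onPt n')).trans ?_)
      · change _ = _
        rw [lift_pt, lift_pt, hm.2, Eq.trans hm.1.2 (Eq.symm hn'.2)]
      · exact_mod_cast h1 n' hn'.1
    · refine (cdim_mono ?_).trans (h.one (ρ.onPt n)).le
      rintro _ ⟨m, hm, rfl⟩
      have h3 := h.pos m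
      rwa [lift_pt, hm.2] at h3) ((cdim_mono (Set.subset_univ _)).trans_lt (not_le.1 o))
  refine (hD.trans (cdim_le_of_van ?_)).not_gt h2
  rw [← van_inter_ne ha, Set.univ_inter]

end Lf

end Vale.Agent.P297Z.Hb.Ge
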