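import Vale.Agent.P297Z.Top.Defs
import Vale.Agent.P297Z.K.Tan
import Vale.Agent.P297Z.Quot.Plk
import Vale.Agent.P297Z.Hb.FibDefs

/-! P297: the spaces of subsheaves of rank one and the nested spaces. -/

set_option linter.all false

noncomputable section

namespace Vale.Agent.P297Z

/-- a map of closed subspaces -/
def Mor.subSub {W X : Spc} (f : Mor W X) (A : Set W.Pt) (hA : W.Stab A) (Z : Set X.Pt)
    (hZ : X.Stab Z) (H : ∀ w ∈ A, f.onPt w ∈ Z) : Mor (W.sub A hA) (X.sub Z hZ) where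
  φ := Ideal.quotientMapₐ (W.van A) f.φ fun r hr w hw => hr _ (H w hw)
  ρ := f.ρ
  wt_map := fun γ r hr => by
    obtain ⟨r', h1, rfl⟩ := Spc.exists_mk hZ hr
    exact Spc.mk_mem hA (f.wt_map γ r' h1)
  pt_map := fun z => by
    obtain ⟨a, ha, h⟩ := f.pt_map ((Mor.incl W A hA).onPt z)
    exact ⟨Ideal.Quotient.mk _ a, Ideal.mem_map_of_mem _ ha, h⟩

/-- the projective space with coordinates `ι` -/
abbrev PI (ι : Type) [Fintype ι] [Nonempty ι] : Spc := pt0.adj ι fun _ => 0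

/-- the coordinates of a point of a projective bundle -/
def Spc.Pt.co {X : Spc} {ι : Type} [Fintype ι] [Nonempty ι] {d : ι → X.J → ℤ} (z : (X.adj ι d).Pt)
    (i : ι) : ℂ := z.1 (MvPolynomial.X i : MvPolynomial ι X.R)

theorem Spc.co_orb {X : Spc} {ι : Type} [Fintype ι] [Nonempty ι] {d : ι → X.J → ℤ}
    {z z' : (X.adj ι d).Pt} {g : Option X.J → ℂˣ} (h : z'.1 = z.1.comp ((X.adj ι d).act g)) (i : ι) :
    z'.co i = chr (fun j => j.elim 1 (d i)) g * z.co i := by
  unfold Spc.Pt.co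
  rw [h]
  exact (congrArg z.1 (Spc.mem_wt.1 (Spc.X_mem X ι d i) g)).trans (map_smul z.1 _ _)

theorem Plk.sub_smul {r : ℕ} {B : Type} (p : (Fin r → B) → ℂ) {t : ℂ} (ht : t ≠ 0) :
    Plk.sub (fun J => t * p J) = Plk.sub p := by
  have key : ∀ (p : (Fin r → B) → ℂ) (t : ℂ), Plk.sub (fun J => t * p J) ≤ Plk.sub p := by
    intro p t
    refine Submodule.span_le.2 ?_
    rintro _ ⟨J, c, rfl⟩
    exact Submodule.smul_mem _ t (Submodule.subset_span ⟨J, c, rfl⟩)
  refine le_antisymm (key p t) ?_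
  have := key (fun J => t * p J) t⁻¹
  simpa only [← mul_assoc, inv_mul_cancel₀ ht, one_mul] using this

namespace Sf

open Fb Vale.Agent.P297Z.Hb

variable {K : Type} [Field K] [Algebra ℂ K]

theorem div_smul {W : Submodule ℂ K} {t : ℂ} (ht : t ≠ 0) (f : K) : div W (t • f) = div W f := by
  by_cases hf : f = 0
  · rw [hf, smul_zero]
  unfold div
  congr 1
  funext C
  rw [Algebra.smul_def]
  unfold Crv.ord
  rw [Pl.ord_mul _ (by simpa using ht) hf]
  have := C.ord_const t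
  unfold Crv.ord at this
  rw [this, zero_add]

/-- the data of a tower -/
structure Ctx (S : Surf K) where
  L : Div S.W
  D : Div S.W
  m : ℕ
  B : Type
  [fB : Fintype B]
  [dB : DecidableEq B]
  [nB : Nonempty B]
  e : B → K
  e_ind : LinearIndependent ℂ e
  e_span : Submodule.span ℂ (Set.range e) = M L m
  v : ℕ
  φ : Fin (v + 1) → K
  φ_ind : LinearIndependent ℂ φ
  φ_span : Submodule.span ℂ (Set.range φ) = H0 D

attribute [instance] Ctx.fB Ctx.dB Ctx.nB

namespace Ctx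

variable {S : Surf K} (c : Ctx S)

/-- the rank for the empty subscheme -/
def s : ℕ := Module.finrank ℂ (M (c.L - c.D) c.m)

/-- the divisor of the reflexive hull -/
def A (f : K) : Div S.W := c.L - (c.D + div S.W f)

/-- all subsheaves of corank at most `s - r₀` are regular -/
def RegAll (r₀ : ℕ) : Prop := ∀ f ∈ H0 c.D, f ≠ 0 → ∀ Z : Zs S.W, Z.len + r₀ ≤ c.s →
  Reg S c.m (c.A f) Z

/-- the Pluecker space -/
abbrev Gr (r : ℕ) : Spc := PI (Fin r → c.B)

/-- the section given by a point of the linear system -/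
def fpt (w : (PP c.v).Pt) : K := ∑ i, Spc.Pt.co (X := pt0) w i • c.φ i

/-- the subspace given by Pluecker coordinates -/
def Usp {r : ℕ} (p : (Fin r → c.B) → ℂ) : Submodule ℂ K :=
  (Plk.sub p).map (Fintype.linearCombination ℂ c.e)

/-- the pair is a subsheaf with the subscheme `Z` -/
def IsPt {r : ℕ} (w : ((PP c.v).prod (c.Gr r)).Pt) (Z : Zs S.W) : Prop :=
  Plk.Rel ((Mor.snd _ _).onPt w).co ∧ Z.len + r = c.s ∧
    c.Usp ((Mor.snd _ _).onPt w).co = EM Z (c.A (c.fpt ((Mor.fst _ _).onPt w))) c.m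

/-- the points -/
def XS (r : ℕ) : Set ((PP c.v).prod (c.Gr r)).Pt := {w | ∃ Z, c.IsPt w Z}

theorem fpt_orb {w w' : (PP c.v).Pt} (h : (PP c.v).Orb w w') :
    ∃ t : ℂ, t ≠ 0 ∧ c.fpt w' = t • c.fpt w := by
  obtain ⟨g, h⟩ := h
  refine ⟨chr (fun j : Option Empty => j.elim 1 0) g, chr_ne _ _, ?_⟩
  unfold fpt
  rw [Finset.smul_sum]
  refine Finset.sum_congr rfl fun i _ => ?_
  rw [Spc.co_orb (X := pt0) h i, smul_smul]
  rfl

theorem co_orb {ι : Type} [Fintype ι] [Nonempty ι] {w w' : (PI ι).Pt} (h : (PI ι).Orb w w') :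
    ∃ t : ℂ, t ≠ 0 ∧ w'.co = fun J => t * w.co J := by
  obtain ⟨g, h⟩ := h
  exact ⟨chr (fun j : Option Empty => j.elim 1 0) g, chr_ne _ _,
    funext fun i => Spc.co_orb (X := pt0) h i⟩

theorem IsPt.orb {r : ℕ} {w w' : ((PP c.v).prod (c.Gr r)).Pt} {Z : Zs S.W} (h : c.IsPt w Z)
    (ho : Spc.Orb _ w w') : c.IsPt w' Z := by
  obtain ⟨t, ht, e1⟩ := c.fpt_orb ((Mor.fst _ _).orb ho)
  obtain ⟨t', ht', e2⟩ := co_orb ((Mor.snd _ _).orb ho)
  refine ⟨e2 ▸ h.1.smul t', h.2.1, ?_⟩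
  rw [e1, e2, Usp, Plk.sub_smul _ ht', A, div_smul ht]
  exact h.2.2

theorem XS_stab (r : ℕ) : Spc.Stab _ (c.XS r) := fun _ ⟨Z, h⟩ _ ho => ⟨Z, h.orb c ho⟩

/-- the space of the subsheaves -/
def Xr (r : ℕ) : Spc := Spc.sub _ (c.XS r) (c.XS_stab r)

/-- the inclusion -/
def inc (r : ℕ) : Mor (c.Xr r) ((PP c.v).prod (c.Gr r)) := Mor.incl _ _ _

/-- the map to the linear system -/
def pr (r : ℕ) : Mor (c.Xr r) (PP c.v) := (Mor.fst _ _).comp (c.inc r)

/-- the map to the Pluecker space -/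
def gr (r : ℕ) : Mor (c.Xr r) (c.Gr r) := (Mor.snd _ _).comp (c.inc r)

/-- the Pluecker coordinates -/
def pl (r : ℕ) (J : Fin r → c.B) : (c.Xr r).R :=
  (c.gr r).φ (MvPolynomial.X J : MvPolynomial (Fin r → c.B) ℂ)

/-- the coordinates of the linear system -/
def yl (r : ℕ) (i : Fin (c.v + 1)) : (c.Xr r).R :=
  (c.pr r).φ (MvPolynomial.X i : MvPolynomial (Fin (c.v + 1)) ℂ)

/-- the degree of the Pluecker coordinates -/
def dp (r : ℕ) : (c.Xr r).J → ℤ := (c.gr r).ρ fun _ => 1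

/-- the generators of the subspace -/
def ug {r : ℕ} (p : (Fin (r + 1) → c.B) → ℂ) (J : Fin r → c.B) : K :=
  ∑ i, p (Fin.cons i J) • c.e i

variable (h : S.All)

/-- the base of the nested space -/
abbrev Yr (r : ℕ) : Spc := (c.Xr (r + 1)).prod (S.spc h)

/-- the ambient space of the nested space -/
abbrev Pr (r : ℕ) : Spc :=
  (c.Yr h r).adj (Fin r → c.B) fun _ => 0

/-- the point of the space of subsheaves below a point of the ambient space -/
def base (r : ℕ) : Mor (c.Pr h r) (c.Xr (r + 1)) := (Mor.fst _ _).comp (Mor.adjPr _ _ _)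

/-- the point of the surface below a point of the ambient space -/
def spt (r : ℕ) : Mor (c.Pr h r) (S.spc h) := (Mor.snd _ _).comp (Mor.adjPr _ _ _)

/-- the points of the nested space -/
def NS (r : ℕ) : Set (c.Pr h r).Pt :=
  {w | (c.inc (r + 1)).onPt ((c.base h r).onPt w) ∈ c.XS (r + 1) ∧
    ∃ x, S.Over h ((c.spt h r).onPt w) x ∧
      w.co ∈ Kill (c.ug ((c.gr (r + 1)).onPt ((c.base h r).onPt w)).co) x}

theorem kill_smul {ι : Type} [Fintype ι] (u : ι → K) {t : ℂ} (ht : t ≠ 0) (x : Pt S.W) :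
    Kill (fun a => t • u a) x = Kill u x := by
  have : ∀ j, Fb.Rel S.W (fun a => t • u a) j = Fb.Rel S.W u j := by
    intro j
    ext b
    simp only [Fb.Rel, Set.mem_setOf_eq, mul_smul_comm, ← Finset.smul_sum, smul_eq_zero, ht, false_or]
  ext l
  change (∀ j, ∀ c ∈ Fb.Rel S.W _ j, _) ↔ (∀ j, ∀ c ∈ Fb.Rel S.W _ j, _)
  simp only [this]

theorem NS_stab (r : ℕ) : Spc.Stab _ (c.NS h r) := by
  rintro w ⟨h1, x, h2, h3⟩ w' ho
  have hb := (c.base h r).orb ho
  refine ⟨c.XS_stab _ _ h1 _ ((c.inc _).orb hb), x,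
    S.over_stab h x _ h2 _ ((c.spt h r).orb ho), ?_⟩
  obtain ⟨t, ht, e⟩ := co_orb ((c.gr (r + 1)).orb hb)
  obtain ⟨g, hg⟩ := ho
  have e2 : w'.co = chr (fun j : Option (c.Yr h r).J => j.elim 1 0) g • w.co :=
    funext fun i => Spc.co_orb hg i
  have e3 : c.ug ((c.gr (r + 1)).onPt ((c.base h r).onPt w')).co =
      fun a => t • c.ug ((c.gr (r + 1)).onPt ((c.base h r).onPt w)).co a := by
    funext a
    rw [e]
    simp only [ug, Finset.smul_sum, smul_smul]
  rw [e2, e3, kill_smul _ ht]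
  exact Submodule.smul_mem _ _ h3

/-- the nested space -/
def Nr (r : ℕ) : Spc := Spc.sub _ (c.NS h r) (c.NS_stab h r)

/-- the inclusion -/
def incN (r : ℕ) : Mor (c.Nr h r) (c.Pr h r) := Mor.incl _ _ _

/-- the first projection -/
def πN (r : ℕ) : Mor (c.Nr h r) (c.Yr h r) := (Mor.adjPr _ _ _).comp (c.incN h r)

/-- the second projection, on the ambient spaces -/
def ρ0 (r : ℕ) : Mor (c.Pr h r) ((PP c.v).prod (c.Gr r)) :=
  Mor.lift ((c.pr (r + 1)).comp (c.base h r))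
    (Mor.toAdj (Mor.toPt _ Empty 0) (Fin r → c.B) (fun _ => 0)
      (fun j => j.elim 1 0)
      (fun J => (MvPolynomial.X J : MvPolynomial (Fin r → c.B) (c.Yr h r).R))
      (fun J => by
        rw [map_zero, zero_add]
        exact Spc.X_mem _ _ _ J)
      (fun w => ((Spc.adj_pt _ _ _ w.1).1 w.2).2))

/-- the second projection maps the nested space to the space of subsheaves -/
def Maps (r : ℕ) : Prop := ∀ w ∈ c.NS h r, (c.ρ0 h r).onPt w ∈ c.XS r

/-- the second projection -/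
def ρN (r : ℕ) (H : c.Maps h r) : Mor (c.Nr h r) (c.Xr r) :=
  (c.ρ0 h r).subSub _ _ _ _ H

/-- the degree of the line bundle on the ambient space -/
def dl (r : ℕ) : (c.Pr h r).J → ℤ :=
  fun j => Option.elim (α := (c.Yr h r).J) j 1 0 - (c.base h r).ρ (c.dp (r + 1)) j -
    (c.spt h r).ρ (fun _ => (c.m : ℤ)) j

/-- the line bundle on the nested space -/
def lN (r : ℕ) : K0 (c.Nr h r) := line (c.Nr h r) (c.dl h r)

end Ctx

end Sf

end Vale.Agent.P297Z
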