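import Vale.Agent.P297Z.Hb.GeoDefs
import Vale.Agent.P297Z.Dim.Var

/-! P297: points of subspaces and of projective bundles, linear families. -/

set_option linter.all false

noncomputable section

namespace Vale.Agent.P297Z.Hb.Ge

open Dim

variable {W X Y : Spc} {ι : Type} [Fintype ι] [Nonempty ι] {d : ι → X.J → ℤ}

/-- the point with given coordinates -/
def adjPt (d : ι → X.J → ℤ) (x : X.Pt) (l : ι → ℂ) (hl : l ≠ 0) : (X.adj ι d).Pt :=
  ⟨MvPolynomial.aevalTower x.1 l, (Spc.adj_pt X ι d _).2 (by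
    simpa using And.intro x.2 (Function.ne_iff.1 hl))⟩

theorem co_adjPt (x : X.Pt) {l : ι → ℂ} (hl : l ≠ 0) : (adjPt d x l hl).co = l :=
  funext fun i => MvPolynomial.aevalTower_X _ _ i

theorem pr_adjPt (x : X.Pt) {l : ι → ℂ} (hl : l ≠ 0) :
    (Mor.adjPr X ι d).onPt (adjPt d x l hl) = x :=
  Subtype.ext (AlgHom.ext fun r => MvPolynomial.aevalTower_C _ _ r)

theorem co_ne (z : (X.adj ι d).Pt) : z.co ≠ 0 :=
  Function.ne_iff.2 ((Spc.adj_pt X ι d z.1).1 z.2).2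

theorem adj_ext {z z' : (X.adj ι d).Pt}
    (h1 : (Mor.adjPr X ι d).onPt z = (Mor.adjPr X ι d).onPt z') (h2 : z.co = z'.co) : z = z' :=
  Subtype.ext (AlgHom.coe_ringHom_injective (MvPolynomial.ringHom_ext
    (fun r => congrArg (fun x : X.Pt => x.1 r) h1) fun i => congrFun h2 i))

theorem pt0_ext (z z' : pt0.Pt) : z = z' :=
  Subtype.ext (Subsingleton.elim (α := ℂ →ₐ[ℂ] ℂ) _ _)

/-- the point of the point -/
def o : pt0.Pt := ⟨AlgHom.id ℂ ℂ, (1 : ℂ), trivial, one_ne_zero⟩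

theorem PI_ext {z z' : (PI ι).Pt} (h : z.co = z'.co) : z = z' := adj_ext (pt0_ext _ _) h

theorem PI_orb {z z' : (PI ι).Pt} {t : ℂ} (h : z'.co = fun i => t * z.co i) : (PI ι).Orb z z' := by
  have ht : t ≠ 0 := fun e => co_ne z' (by rw [h, e]; exact funext fun _ => zero_mul _)
  refine PI_ext (z := Spc.mv z fun _ => Units.mk0 t ht) (z' := z') (h ▸ funext fun i => ?_) ▸
    Spc.orb_mv z _
  rw [Spc.co_orb (X := pt0) (z := z) (g := fun _ => Units.mk0 t ht) rfl i]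
  simp [chr]

/-- the points of a linear subspace -/
theorem cdim_lin (T : Submodule ℂ (ι → ℂ)) (h0 : T ≠ ⊥) :
    (PI ι).cdim {z | z.co ∈ T} = (Module.finrank ℂ T : ℕ) :=
  (adj_fibre _ o h0 fun _ => (and_iff_right (pt0_ext _ _)).symm).2

theorem cdim_lin_le (T : Submodule ℂ (ι → ℂ)) :
    (PI ι).cdim {z | z.co ∈ T} ≤ (Module.finrank ℂ T : ℕ) := by
  by_cases h0 : T = ⊥
  · rw [Set.eq_empty_of_forall_notMem (s := {z : (PI ι).Pt | z.co ∈ T}) fun z hz =>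
      co_ne z (by rwa [h0] at hz), cdim_empty]
    exact bot_le
  · exact (cdim_lin T h0).le

/-- the coordinates as a map -/
def coM (X : Spc) (d : X.J → ℤ) : Mor (X.adj ι fun _ => d) (PI ι) :=
  Mor.toAdj (Mor.toPt _ Empty 0) ι (fun _ => 0) (fun j => j.elim 1 d)
    (fun J => (MvPolynomial.X J : MvPolynomial ι X.R))
    (fun J => by
      rw [map_zero, zero_add]
      exact Spc.X_mem _ _ _ J)
    fun w => ((Spc.adj_pt _ _ _ w.1).1 w.2).2

theorem co_coM {d : X.J → ℤ} (w : (X.adj ι fun _ => d).Pt) : ((coM X d).onPt w).co = w.co :=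
  funext fun i => congrArg w.1 (MvPolynomial.aevalTower_X _ _ i)

/-- the family of subspaces is locally cut out by `card ι - 1` equations -/
def Eqs (X : Spc) (T : X.Pt → Submodule ℂ (ι → ℂ)) : Prop :=
  ∀ y : X.Pt, ∃ (a : X.R) (k : Fin (Fintype.card ι - 1) → ι → X.R), y.1 a ≠ 0 ∧
    ∀ y' : X.Pt, y'.1 a ≠ 0 → ∀ l, l ∈ T y' ↔ ∀ i, ∑ J, l J * y'.1 (k i J) = 0

variable {T : X.Pt → Submodule ℂ (ι → ℂ)}

theorem Eqs.ne (h : Eqs X T) (y : X.Pt) : T y ≠ ⊥ := by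
  obtain ⟨a, k, h1, h2⟩ := h y
  let φ : (ι → ℂ) →ₗ[ℂ] (Fin (Fintype.card ι - 1) → ℂ) :=
    Matrix.vecMulLinear (Matrix.of fun J i => y.1 (k i J))
  have h3 : LinearMap.ker φ ≠ ⊥ := LinearMap.ker_ne_bot_of_finrank_lt (by
    have := Fintype.card_pos (α := ι)
    simp only [Module.finrank_fintype_fun_eq_card, Fintype.card_fin]
    omega)
  exact fun e => h3 (eq_bot_iff.2 fun l hl => e ▸ (h2 y h1 l).2 fun i => congrFun hl i)

/-- the points of the family -/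
def tot (d : ι → X.J → ℤ) (T : X.Pt → Submodule ℂ (ι → ℂ)) : Set (X.adj ι d).Pt :=
  {w | w.co ∈ T ((Mor.adjPr X ι d).onPt w)}

theorem Eqs.loc (h : Eqs X T) (w : (X.adj ι d).Pt) :
    ∃ (a : (X.adj ι d).R) (f : Fin (Fintype.card ι - 1) → (X.adj ι d).R), w.1 a ≠ 0 ∧
      ∀ w' : (X.adj ι d).Pt, w'.1 a ≠ 0 → (w' ∈ tot d T ↔ ∀ i, w'.1 (f i) = 0) := by
  obtain ⟨a, k, h1, h2⟩ := h ((Mor.adjPr X ι d).onPt w)
  refine ⟨(Mor.adjPr X ι d).φ a, fun i => ∑ J, (show (X.adj ι d).R from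
    (MvPolynomial.X J : MvPolynomial ι X.R)) * (Mor.adjPr X ι d).φ (k i J), h1, fun w' h3 => ?_⟩
  refine (h2 _ h3 _).trans (forall_congr' fun i => Eq.congr_left ?_)
  exact ((map_sum w'.1 _ _).trans (Finset.sum_congr rfl fun J _ => map_mul w'.1 _ _)).symm

theorem Eqs.clo (h : Eqs X T) : (X.adj ι d).Clo (tot d T) := fun w hw => by
  obtain ⟨a, f, h1, h2⟩ := h.loc w
  refine (h2 w h1).2 fun i => ?_
  have h3 := hw (a * f i) fun w' h4 => by
    rw [map_mul]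
    exact mul_eq_zero.2 (or_iff_not_imp_left.2 fun h5 => (h2 w' h5).1 h4 i)
  rw [map_mul] at h3
  exact (mul_eq_zero.1 h3).resolve_left h1

theorem Eqs.fib (h : Eqs X T) (w : (X.adj ι d).Pt) {Z : Set (X.adj ι d).Pt}
    (hZ : ∀ w', (Mor.adjPr X ι d).onPt w' = (Mor.adjPr X ι d).onPt w → (w' ∈ Z ↔ w' ∈ tot d T)) :
    ((X.adj ι d).van {x ∈ Z | (Mor.adjPr X ι d).onPt x = (Mor.adjPr X ι d).onPt w}).IsPrime ∧
      (X.adj ι d).cdim {x ∈ Z | (Mor.adjPr X ι d).onPt x = (Mor.adjPr X ι d).onPt w} =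
        (Module.finrank ℂ (T ((Mor.adjPr X ι d).onPt w)) : ℕ) :=
  adj_fibre d _ (h.ne _) fun w' => ⟨fun h1 => ⟨h1.2, h1.2 ▸ (hZ w' h1.2).1 h1.1⟩,
    fun h1 => ⟨(hZ w' h1.1).2 (show w'.co ∈ T _ from h1.1 ▸ h1.2), h1.1⟩⟩

theorem Eqs.small (h : Eqs X T) {V : Set X.Pt} {k e : ℕ} (h1 : X.cdim V < e)
    (h2 : ∀ y ∈ V, Module.finrank ℂ (T y) ≤ k) :
    (X.adj ι d).cdim (tot d T ∩ (Mor.adjPr X ι d).onPt ⁻¹' V) < (e + k : ℕ) :=
  cdim_lt_add _ (LC.of_clo h.clo) Set.inter_subset_left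
    (fun w hw => (h.fib w fun _ _ => Iff.rfl).2.le.trans (by exact_mod_cast h2 _ hw.2))
    ((cdim_mono (by rintro _ ⟨w, hw, rfl⟩; exact hw.2)).trans_lt h1)

theorem Eqs.jump (h : Eqs X T) {D : ℕ} (h0 : 0 < D)
    (hs : ∀ k e, 2 ≤ k → k + e = D + 1 → X.cdim {y | k ≤ Module.finrank ℂ (T y)} < e) :
    (X.adj ι d).cdim (tot d T ∩ (Mor.adjPr X ι d).onPt ⁻¹' {y | 2 ≤ Module.finrank ℂ (T y)}) <
      (D + 1 : ℕ) := by
  refine (cdim_mono fun w hw => ?_).trans_lt (cdim_iUnion_lt (ι := Fin D) (Z := fun j =>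
    tot d T ∩ (Mor.adjPr X ι d).onPt ⁻¹' {y | Module.finrank ℂ (T y) = j + 2}) fun j => ?_)
  · have h1 : 2 ≤ Module.finrank ℂ (T ((Mor.adjPr X ι d).onPt w)) := hw.2
    have h2 : ¬D + 2 ≤ Module.finrank ℂ (T ((Mor.adjPr X ι d).onPt w)) := fun o =>
      Set.eq_empty_iff_forall_notMem.1 (cdim_lt_zero.1 (hs (D + 1) 0 (by omega) rfl)) _
        (le_trans (Nat.le_succ _) o)
    exact Set.mem_iUnion.2 ⟨⟨_ - 2, by omega⟩, hw.1, (Nat.sub_add_cancel h1).symm⟩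
  · have h1 := h.small (d := d) (V := {y | Module.finrank ℂ (T y) = j + 2}) (k := j + 2)
      ((cdim_mono fun y hy => Eq.ge hy).trans_lt (hs (j + 2) (D - 1 - j) (by omega) (by omega)))
      fun y hy => Eq.le hy
    rwa [show D - 1 - j + (j + 2) = D + 1 by omega] at h1

/-- the total space is irreducible -/
theorem Eqs.irr (h : Eqs X T) (hX : X.Irr) {D : ℕ} (hD : ringKrullDim X.R = D) (h0 : 0 < D)
    (hs : ∀ k e, 2 ≤ k → k + e = D + 1 → X.cdim {y | k ≤ Module.finrank ℂ (T y)} < e) :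
    ((X.adj ι d).van (tot d T)).IsPrime ∧ (X.adj ι d).cdim (tot d T) = (D + 1 : ℕ) := by
  have hp := irr_iff.1 hX
  have hc : X.cdim Set.univ = D := cdim_univ.trans hD
  obtain ⟨b, h1, h2⟩ : ∃ b ∈ X.van {y | 2 ≤ Module.finrank ℂ (T y)}, b ∉ X.van Set.univ := by
    by_contra o
    push Not at o
    have h1 := (hc.symm.le.trans (cdim_le_of_van o)).trans_lt (hs 2 (D - 1) le_rfl (by omega))
    have h2 : D < D - 1 := by exact_mod_cast h1
    omega
  let b' := (Mor.adjPr X ι d).φ b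
  have hq := irr_iff.1 (irr_adj (δ := d) hX)
  have key : ∀ (c : (X.adj ι d).R), ∀ p ∈ ((X.adj ι d).van
      (tot d T ∩ {z | z.1 c ≠ 0})).minimalPrimes, D + 1 ≤ td ℂ ((X.adj ι d).R ⧸ p) := by
    intro c p hp'
    have h3 := codim_local (W := Set.univ) (d := D + Fintype.card ι) (LC.of_clo clo_univ)
      (fun q hq' => by
        rw [Ideal.minimalPrimes_eq_subsingleton_self] at hq'
        rw [hq']
        exact_mod_cast ((cdim_univ.trans (dim_adj hD)).symm.trans cdim_prime).le)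
      (fun z hz => by
        obtain ⟨a, f, h3, h4⟩ := h.loc z
        refine ⟨a * c, f, by rw [map_mul]; exact mul_ne_zero h3 hz.2, fun z' h5 => ?_⟩
        rw [map_mul, mul_ne_zero_iff] at h5
        exact (and_iff_left h5.2).trans ((h4 z' h5.1).trans (and_iff_right trivial).symm)) p hp'
    have := Fintype.card_pos (α := ι)
    omega
  have e : (Mor.adjPr X ι d).onPt '' (tot d T ∩ {z | z.1 b' ≠ 0}) =
      Set.univ ∩ {y | y.1 b ≠ 0} := by
    refine Set.ext fun y => ⟨?_, fun hy => ?_⟩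
    · rintro ⟨w, hw, rfl⟩
      exact ⟨trivial, hw.2⟩
    · obtain ⟨l, h3, h4⟩ := (T y).ne_bot_iff.1 (h.ne y)
      refine ⟨adjPt d y l h4, ⟨?_, ?_⟩, pr_adjPt _ _⟩
      · change Spc.Pt.co _ ∈ T _
        rwa [co_adjPt, pr_adjPt]
      · change ((Mor.adjPr X ι d).onPt (adjPt d y l h4)).1 b ≠ 0
        rw [pr_adjPt]
        exact hy.2
  have h3 : ∀ y : X.Pt, y.1 b ≠ 0 → Module.finrank ℂ (T y) ≤ 1 := fun y hy =>
    Nat.lt_succ_iff.1 (not_le.1 fun o => hy (h1 y o))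
  have h4 : (X.van ((Mor.adjPr X ι d).onPt '' (tot d T ∩ {z | z.1 b' ≠ 0}))).IsPrime := by
    rwa [e, van_inter_ne h2]
  have h5 := van_prime_of_fibres (d := D) (e := 1) _ ((LC.of_clo h.clo).inter (LC.ne b'))
    ((cdim_mono (Set.subset_univ _)).trans hc.le) (fun z hz => by
      have h5 := h.fib z (Z := tot d T ∩ {z | z.1 b' ≠ 0}) fun w' o =>
        and_iff_left (show ((Mor.adjPr X ι d).onPt w').1 b ≠ 0 from o ▸ hz.2)
      exact ⟨h5.1, h5.2.le.trans (by exact_mod_cast h3 ((Mor.adjPr X ι d).onPt z) hz.2)⟩) (key b')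
  have h6 : (X.adj ι d).cdim (tot d T ∩ (Mor.adjPr X ι d).onPt ⁻¹'
      {y | y.1 b = 0 ∧ Module.finrank ℂ (T y) ≤ 1}) < (D + 1 : ℕ) :=
    h.small (cdim_drop (van_anti (Set.subset_univ _)) h2 (fun _ hy => hy.1) hc.le) fun _ hy => hy.2
  have h7 := van_prime_of (Z := tot d T) (hU := h5) Set.inter_subset_left (fun w hw => by
    by_cases o : w.1 b' = 0
    · exact Or.inr ((le_or_gt _ 1).imp (fun o' => ⟨hw, o, o'⟩) fun o' => ⟨hw, o'⟩)
    · exact Or.inl ⟨hw, o⟩) (cdim_union_lt h6 (h.jump h0 hs))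
    (by simpa using key 1)
  refine ⟨h7 ▸ h5, le_antisymm ((cdim_le_of_van h7.ge).trans ?_) ?_⟩
  · have h8 := h.small (d := d) (V := {y | y.1 b ≠ 0}) (e := D + 1)
      (le_iff_lt_succ.1 ((cdim_mono (Set.subset_univ _)).trans hc.le)) h3
    exact le_iff_lt_succ.2 h8
  · refine le_trans ?_ ((td_le_cdim (hp := h5) h7.le))
    exact_mod_cast key b' _ (by rw [Ideal.minimalPrimes_eq_subsingleton_self]; rfl)

end Vale.Agent.P297Z.Hb.Ge
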