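import Vale.Agent.P297Z.Hb.La1

/-! P297: local algebra, second part. -/

set_option linter.all false

open IsLocalRing Module

namespace Vale.Agent.P297Z.Hb

variable {K : Type} [Field K] [Algebra ℂ K] {O : Subalgebra ℂ K}

theorem mem_Hm {ι : Type} [Fintype ι] {j : ι → O} {I : Ideal O} {b : ι → K} :
    b ∈ Hm j I ↔ ∀ c : ι → O, ∑ a, c a * j a = 0 → ∑ a, (c a : K) * b a ∈ inK I := Iff.rfl

theorem mem_Tr {ι : Type} {j : ι → O} {I : Ideal O} {b : ι → K} :
    b ∈ Tr j I ↔ ∃ t : K, ∀ a, b a - t * j a ∈ inK I := Iff.rfl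

theorem Tr_le_Hm {ι : Type} [Fintype ι] (j : ι → O) (I : Ideal O) : Tr j I ≤ Hm j I := by
  rintro b ⟨t, ht⟩ c hc
  have h1 : ∑ a, (c a : K) * j a = 0 := by
    have := congrArg Subtype.val hc
    simpa using this
  have e : ∑ a, (c a : K) * b a = ∑ a, (c a : K) * (b a - t * j a) + t * ∑ a, (c a : K) * j a := by
    rw [Finset.mul_sum, ← Finset.sum_add_distrib]
    exact Finset.sum_congr rfl fun a _ => by ring
  rw [e, h1, mul_zero, add_zero]
  exact Submodule.sum_mem _ fun a _ => mul_mem_inK _ (ht a)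

theorem Hm_le_Tr {ι : Type} [Fintype ι] (j : ι → O) (I : Ideal O)
    (hj : Ideal.span (Set.range j) = ⊤) : Hm j I ≤ Tr j I := by
  classical
  intro b hb
  obtain ⟨d, hd⟩ := Ideal.mem_span_range_iff_exists_fun.1
    (show (1 : O) ∈ Ideal.span (Set.range j) by rw [hj]; trivial)
  refine ⟨∑ a, (d a : K) * b a, fun a => ?_⟩
  have h1 := hb (fun c => (if c = a then 1 else 0) - j a * d c) (by
    simp only [sub_mul, Finset.sum_sub_distrib, ite_mul, one_mul, zero_mul, Finset.sum_ite_eq',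
      Finset.mem_univ, if_true, mul_assoc, ← Finset.mul_sum, hd, mul_one, sub_self])
  convert h1 using 1
  simp only [AddSubgroupClass.coe_sub, MulMemClass.coe_mul, apply_ite (Subtype.val : O → K),
    OneMemClass.coe_one, ZeroMemClass.coe_zero, sub_mul, Finset.sum_sub_distrib, ite_mul, one_mul,
    zero_mul, Finset.sum_ite_eq', Finset.mem_univ, if_true, mul_assoc, ← Finset.mul_sum]
  ring

/-- the colon ideal -/
def cl (I J : Ideal O) : Ideal O := Submodule.colon I (J : Set O)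

theorem mem_cl {I J : Ideal O} {t : O} : t ∈ cl I J ↔ ∀ a ∈ J, t * a ∈ I := Submodule.mem_colon

theorem le_cl (I J : Ideal O) : I ≤ cl I J := fun _ ht => mem_cl.2 fun a _ => I.mul_mem_right a ht

theorem rdim_inK (I J : Ideal O) :
    (RFin (inK I) (inK J) ↔ RFin (I.restrictScalars ℂ) (J.restrictScalars ℂ)) ∧
      rdim (inK I) (inK J) = rdim (I.restrictScalars ℂ) (J.restrictScalars ℂ) :=
  rdim_map O.val.toLinearMap Subtype.val_injective _ _

variable [IsLocalRing O]

namespace RL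

variable (h : RL O)
include h

theorem mu_le (J : Ideal O) (hJ : FinCol J) (h1 : J ≠ ⊤) : mu J ≤ soc J + 1 := by
  obtain ⟨u, v, huv⟩ := h.gens
  have hu : u ∈ maximalIdeal O := huv ▸ Ideal.subset_span (by simp)
  have hv : v ∈ maximalIdeal O := huv ▸ Ideal.subset_span (by simp)
  have hm : J ≤ maximalIdeal O := le_maximalIdeal h1
  let d₁ : O × O →ₗ[ℂ] O := (LinearMap.mulLeft ℂ u).coprod (LinearMap.mulLeft ℂ v)
  let d₂ : O →ₗ[ℂ] O × O := (LinearMap.mulLeft ℂ (-v)).prod (LinearMap.mulLeft ℂ u)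
  have e₁ : ∀ p, d₁ p = u * p.1 + v * p.2 := fun p => rfl
  have e₂ : ∀ a, d₂ a = (-v * a, u * a) := fun a => rfl
  have hr : ∀ a ∈ maximalIdeal O, ∃ p, d₁ p = a := fun a ha => by
    rw [huv] at ha
    obtain ⟨x, y, e⟩ := Ideal.mem_span_pair.1 ha
    exact ⟨(x, y), by rw [e₁, ← e]; ring⟩
  set J₀ := J.restrictScalars ℂ with hJ₀
  let JJ : Submodule ℂ (O × O) := J₀.prod J₀
  let Z : Submodule ℂ (O × O) := J₀.comap d₁
  let Bd : Submodule ℂ (O × O) := JJ ⊔ LinearMap.range d₂
  have a1 := rdim_prod J₀ ⊤ J₀ ⊤ (hJ.rfin _) (hJ.rfin _)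
  rw [Submodule.prod_top, (col_eq J).2] at a1
  have l1 : JJ ≤ Bd := le_sup_left
  have l2 : Bd ≤ Z := by
    refine sup_le (fun p hp => ?_) ?_
    · exact add_mem (J.mul_mem_left u hp.1) (J.mul_mem_left v hp.2)
    · rintro _ ⟨a, rfl⟩
      change d₁ (d₂ a) ∈ J
      rw [e₁, e₂, show u * (-v * a) + v * (u * a) = 0 by ring]
      exact zero_mem _
  have a2 := rdim_add l1 le_top a1.1
  have a3 := rdim_add l2 le_top (a1.1.mono l1 le_rfl)
  have a4 := (rdim_congr (A := Z) (B := ⊤) (A' := J₀) (B' := (maximalIdeal O).restrictScalars ℂ)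
    d₁ (by
      rintro _ ⟨p, -, rfl⟩
      exact Submodule.mem_sup_left
        (add_mem (Ideal.mul_mem_right _ _ hu) (Ideal.mul_mem_right _ _ hv)))
    (fun a ha => by
      obtain ⟨p, hp⟩ := hr a ha
      exact Submodule.mem_sup_left ⟨p, trivial, hp⟩) fun _ _ => Iff.rfl).2
  have a5 := col_add hJ hm
  have a6 := (rdim_congr (A := (socI J).restrictScalars ℂ) (B := ⊤) (A' := JJ) (B' := Bd) d₂
    (by rw [Submodule.map_top]; exact le_sup_of_le_left le_sup_right)
    (by rw [Submodule.map_top, sup_comm]) fun a _ => by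
      constructor
      · rintro ⟨h2, h3⟩ t ht
        rw [huv] at ht
        obtain ⟨x, y, rfl⟩ := Ideal.mem_span_pair.1 ht
        rw [show (x * u + y * v) * a = x * (u * a) - y * (-v * a) by ring]
        exact sub_mem (J.mul_mem_left x h3) (J.mul_mem_left y h2)
      · exact fun ha => ⟨ha _ (neg_mem hv), ha _ hu⟩).2
  have a7 := col_add hJ (le_socI J)
  have a8 := (rdim_le_of_surj (A := Bd) (B := Z)
    (A' := (maximalIdeal O * J).restrictScalars ℂ) (B' := J₀) d₁
    (fun a ha => by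
      obtain ⟨p, hp⟩ := hr a (hm ha)
      exact Submodule.mem_sup_left ⟨p, show d₁ p ∈ J₀ from hp ▸ ha, hp⟩)
    (fun p _ hp => by
      obtain ⟨q, hq, _, ⟨a, rfl⟩, rfl⟩ := Submodule.mem_sup.1 hp
      rw [map_add, e₁ (d₂ a), e₂, show u * (-v * a) + v * (u * a) = 0 by ring, add_zero]
      exact add_mem (Ideal.mul_mem_mul hu hq.1) (Ideal.mul_mem_mul hv hq.2))
    (a1.1.mono l1 le_top)).2
  rw [(col_eq _).2] at a6
  rw [h.col_max] at a5
  have a9 := a1.2
  unfold mu soc
  change rdim JJ ⊤ = _ at a9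
  rw [← hJ₀] at a5 a7 ⊢
  omega

theorem mu_le' (J : Ideal O) (hJ : FinCol J) : mu J ≤ soc J + 1 := by
  by_cases h1 : J = ⊤
  · rw [h1, h.mu_top]; omega
  · exact h.mu_le J hJ h1

/-- one more generator -/
theorem ext_step {ι : Type} [Fintype ι] (j : ι → O) (x : O) (I J : Ideal O) (hI : FinCol I)
    (hJ : FinCol J) (hj : Ideal.span (Set.range j) = J) (hx : x ∈ socI J) (hx' : x ∉ J)
    (hf : RFin (Tr (fun o => Option.elim o x j) I) (Hm (fun o => Option.elim o x j) I)) :
    RFin (Tr j I) (Hm j I) ∧ rdim (Tr j I) (Hm j I) + col (cl I J) ≤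
      rdim (Tr (fun o => Option.elim o x j) I) (Hm (fun o => Option.elim o x j) I) +
        col (cl I (J ⊔ Ideal.span {x})) + 1 := by
  obtain ⟨u, v, huv⟩ := h.gens
  have hu : u ∈ maximalIdeal O := huv ▸ Ideal.subset_span (by simp)
  have hv : v ∈ maximalIdeal O := huv ▸ Ideal.subset_span (by simp)
  have hu0 : (u : K) ≠ 0 := fun e => h.ne_zero huv (Subtype.ext e)
  set j' : Option ι → O := fun o => Option.elim o x j with hj'
  have hjJ : ∀ a, j a ∈ J := fun a => hj ▸ Ideal.subset_span ⟨a, rfl⟩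
  obtain ⟨α, hα⟩ := Ideal.mem_span_range_iff_exists_fun.1 (hj ▸ hx u hu)
  obtain ⟨β, hβ⟩ := Ideal.mem_span_range_iff_exists_fun.1 (hj ▸ hx v hv)
  have hrel : ∀ c : Option ι → O, ∑ o, c o * j' o = 0 → c none ∈ maximalIdeal O := by
    intro c hc
    by_contra hn
    obtain ⟨w, hw⟩ := (notMem_maximalIdeal.1 hn).exists_left_inv
    rw [Fintype.sum_option] at hc
    apply hx'
    have e : x = - (w * ∑ a, c (some a) * j a) := by
      have : ∑ a, c (some a) * j a = - (c none * x) := eq_neg_of_add_eq_zero_right hc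
      rw [this]
      linear_combination (-x) * hw
    rw [e]
    exact neg_mem (J.mul_mem_left _ (Ideal.sum_mem _ fun a _ => J.mul_mem_left _ (hjJ a)))
  let ρ : (Option ι → K) →ₗ[ℂ] (ι → K) := LinearMap.funLeft ℂ K some
  have hρ : ∀ b a, ρ b a = b (some a) := fun _ _ => rfl
  have r1 : (Hm j' I).map ρ ≤ Hm j I := by
    rintro _ ⟨b, hb, rfl⟩ c hc
    have := hb (fun o => Option.elim o 0 c) (by simpa [Fintype.sum_option, hj'] using hc)
    simpa [Fintype.sum_option, hρ] using this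
  have r2 : ∀ b ∈ Tr j' I, ρ b ∈ Tr j I := by
    rintro b ⟨t, ht⟩
    exact ⟨t, fun a => ht (some a)⟩
  have r3 : Tr j I ≤ (Hm j' I).map ρ := by
    rintro b ⟨t, ht⟩
    refine ⟨fun o => Option.elim o (t * x) b, Tr_le_Hm _ _ ⟨t, fun o => ?_⟩, rfl⟩
    cases o with
    | none => simp [hj']
    | some a => exact ht a
  -- the obstruction
  let η : (ι → K) →ₗ[ℂ] K := ∑ a, (LinearMap.mulLeft ℂ ((v * α a - u * β a : O) : K)) ∘ₗ
    LinearMap.proj a
  have hη : ∀ b, η b = ∑ a, ((v * α a - u * β a : O) : K) * b a := fun b => by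
    simp [η, LinearMap.sum_apply]
  have s1 := rdim_le_of_inj (A := (Hm j' I).map ρ) (B := Hm j I)
    (A' := inK (maximalIdeal O * I)) (B' := inK I) η (by
      rintro _ ⟨b, hb, rfl⟩
      refine Submodule.mem_sup_left ?_
      rw [hη]
      refine hb _ ?_
      simp only [sub_mul, Finset.sum_sub_distrib, mul_assoc, ← Finset.mul_sum, hα, hβ]
      ring)
    (fun b hb ⟨g, hg, e⟩ => by
      have hg' : g ∈ Ideal.span {u} * I ⊔ Ideal.span {v} * I := by
        rw [← Ideal.sup_mul, ← Ideal.span_insert, ← huv]; exact hg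
      obtain ⟨_, g1, _, g2, rfl⟩ := Submodule.mem_sup.1 hg'
      obtain ⟨z, hz, rfl⟩ := Ideal.mem_span_singleton_mul.1 g1
      obtain ⟨y, hy, rfl⟩ := Ideal.mem_span_singleton_mul.1 g2
      have e' : (u : K) * z + v * y = v * ∑ a, (α a : K) * b a - u * ∑ a, (β a : K) * b a := by
        have e1 : ((u * z + v * y : O) : K) = η b := e
        rw [hη] at e1
        push_cast at e1
        rw [e1]
        simp only [sub_mul, Finset.sum_sub_distrib, mul_assoc, ← Finset.mul_sum]
      refine ⟨fun o => Option.elim o ((∑ a, (α a : K) * b a - y) / u) b, fun c hc => ?_, rfl⟩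
      have hc0 := hrel c hc
      rw [huv] at hc0
      obtain ⟨p, q, hpq⟩ := Ideal.mem_span_pair.1 hc0
      rw [Fintype.sum_option] at hc ⊢
      have h1 := hb (fun a => c (some a) + p * α a + q * β a) (by
        simp only [add_mul, Finset.sum_add_distrib, mul_assoc, ← Finset.mul_sum, hα, hβ]
        have hc' : c none * x + ∑ a, c (some a) * j a = 0 := hc
        rw [← hpq] at hc'
        linear_combination hc')
      have h2 : ((-(p * y) + q * z : O) : K) ∈ inK I :=
        coe_mem_inK.2 (add_mem (neg_mem (I.mul_mem_left p hy)) (I.mul_mem_left q hz))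
      convert add_mem h1 h2 using 1
      rw [← hpq]
      push_cast
      simp only [Option.elim, add_mul, Finset.sum_add_distrib, mul_assoc, ← Finset.mul_sum]
      field_simp
      linear_combination (-(q : K)) * e')
    ((rdim_inK _ _).1.2 (h.mu_fin I))
  rw [(rdim_inK _ _).2] at s1
  -- the kernel of the restriction
  let H₁ : Submodule ℂ (Option ι → K) := Hm j' I ⊓ (Tr j I).comap ρ
  have l1 : Tr j' I ≤ H₁ := le_inf (Tr_le_Hm _ _) r2
  have s2 := rdim_add l1 inf_le_left hf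
  have s3 := rdim_congr (A := H₁) (B := Hm j' I) (A' := Tr j I) (B' := (Hm j' I).map ρ) ρ
    le_sup_left le_sup_left fun b hb => ⟨fun h1 => ⟨hb, h1⟩, fun h1 => h1.2⟩
  have f1 : RFin (Tr j I) ((Hm j' I).map ρ) := s3.1.1 (hf.mono l1 le_rfl)
  have f2 : RFin (Tr j I) (Hm j I) := f1.trans s1.1
  have s4 := rdim_add r3 r1 f2
  let σ : O →ₗ[ℂ] (Option ι → K) := LinearMap.pi fun o => Option.elim o O.val.toLinearMap 0
  have σ0 : ∀ s, σ s none = s := fun _ => rfl
  have σ1 : ∀ s a, σ s (some a) = 0 := fun _ _ => rfl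
  let N : Submodule ℂ O := (socI I).restrictScalars ℂ ⊓ (Tr j' I).comap σ
  have s5 := (rdim_le_of_inj (A := N) (B := (socI I).restrictScalars ℂ) (A' := Tr j' I) (B' := H₁)
    σ (by
      rintro _ ⟨s, hs, rfl⟩
      refine Submodule.mem_sup_left ⟨fun c hc => ?_, 0, fun a => ?_⟩
      · simp only [Fintype.sum_option, σ0, σ1, mul_zero, Finset.sum_const_zero, add_zero]
        exact ⟨_, hs _ (hrel c hc), rfl⟩
      · rw [hρ, σ1]; simp)
    (fun s hs h1 => ⟨hs, h1⟩) (hf.mono le_rfl inf_le_left)).2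
  have l2 : I.restrictScalars ℂ ≤ N := fun s hs => ⟨le_socI I hs, 0, fun o => by
    cases o with
    | none => rw [σ0, zero_mul, sub_zero]; exact coe_mem_inK.2 hs
    | some a => rw [σ1]; simp⟩
  have s6 := rdim_add l2 (inf_le_left : N ≤ _) (hI.rfin _)
  have l3 : cl I (J ⊔ Ideal.span {x}) ≤ cl I J := fun t ht =>
    mem_cl.2 fun a ha => mem_cl.1 ht a (Submodule.mem_sup_left ha)
  have f3 : FinCol (cl I (J ⊔ Ideal.span {x})) := hI.mono (le_cl _ _)
  have s7 := col_add f3 l3
  have s8 := (rdim_le_of_surj (A := (cl I (J ⊔ Ideal.span {x})).restrictScalars ℂ)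
    (B := (cl I J).restrictScalars ℂ) (A' := I.restrictScalars ℂ) (B' := N)
    (LinearMap.mulRight ℂ x) (by
      rintro s ⟨-, t, ht⟩
      have h1 : ∀ a ∈ J, t * a ∈ inK I := by
        intro a ha
        obtain ⟨d, rfl⟩ := Ideal.mem_span_range_iff_exists_fun.1 (hj ▸ ha)
        have e : t * ((∑ i, d i * j i : O) : K) = - ∑ i, (d i : K) * (σ s (some i) - t * j i) := by
          push_cast
          rw [Finset.mul_sum, ← Finset.sum_neg_distrib]
          exact Finset.sum_congr rfl fun i _ => by rw [σ1]; ring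
        rw [e]
        exact neg_mem (Submodule.sum_mem _ fun i _ => mul_mem_inK _ (ht (some i)))
      have h2 : t ∈ O := h.sat J hJ t fun a ha => by
        obtain ⟨g, -, e⟩ := h1 a ha
        rw [← e]; exact g.2
      refine Submodule.mem_sup.2 ⟨⟨t, h2⟩ * x, ⟨⟨t, h2⟩, mem_cl.2 fun a ha =>
        coe_mem_inK.1 (h1 a ha), rfl⟩, s - ⟨t, h2⟩ * x,
        (coe_mem_inK (a := s - ⟨t, h2⟩ * x)).1 (ht none), by ring⟩)
    (fun t _ ht => mem_cl.1 ht x (Submodule.mem_sup_right (Ideal.mem_span_singleton_self x)))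
    (f3.rfin _)).2
  have s9 := h.mu_le' I hI
  have s10 := s1.2
  have s11 := s3.2
  unfold mu soc at s9
  exact ⟨f2, by omega⟩

theorem ext_two (I : Ideal O) (hI : FinCol I) (n : ℕ) : ∀ (ι : Type) [Fintype ι] (j : ι → O)
    (J : Ideal O), FinCol J → col J = n → Ideal.span (Set.range j) = J →
    RFin (Tr j I) (Hm j I) ∧ rdim (Tr j I) (Hm j I) + col (cl I J) ≤ col J + col I := by
  induction n using Nat.strong_induction_on with
  | _ n ih =>
    intro ι _ j J hJ hn hj
    by_cases h1 : J = ⊤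
    · subst h1
      have e : cl I ⊤ = I := le_antisymm (fun t ht => by simpa using mem_cl.1 ht 1 trivial)
        (le_cl _ _)
      rw [rdim_of_le (Hm_le_Tr j I hj), e]
      exact ⟨rfin_of_le (Hm_le_Tr j I hj), by omega⟩
    obtain ⟨x, hx, hx'⟩ := h.exists_soc J hJ h1
    have hlt : J < J ⊔ Ideal.span {x} := lt_of_le_of_ne le_sup_left fun e =>
      hx' (e ▸ Submodule.mem_sup_right (Ideal.mem_span_singleton_self x))
    have h2 := col_lt hJ hlt
    have h3 := ih _ (hn ▸ h2) (Option ι) (fun o => Option.elim o x j) (J ⊔ Ideal.span {x})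
      (hJ.mono le_sup_left) rfl (by
        rw [Option.range_eq, Ideal.span_insert, sup_comm, ← hj]
        rfl)
    have h4 := h.ext_step j x I J hI hJ hj hx hx' h3.1
    exact ⟨h4.1, by omega⟩

theorem ext (ι : Type) [Fintype ι] (j : ι → O) (J : Ideal O) (hJ : FinCol J)
    (hj : Ideal.span (Set.range j) = J) :
    RFin (Tr j J) (Hm j J) ∧ rdim (Tr j J) (Hm j J) ≤ 2 * col J := by
  have h1 := h.ext_two J hJ _ ι j J hJ rfl hj
  exact ⟨h1.1, by omega⟩

theorem la : LA O where
  gcd := h.gcd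
  sat := h.sat
  pow := h.pow
  col_add _ _ hJ hl := ⟨hJ.mono hl, hJ.rfin _, col_add hJ hl⟩
  col_zero _ hJ := col_zero hJ
  mu_fin := h.mu_fin
  soc_fin _ hJ := hJ.rfin _
  mu_le := h.mu_le
  soc_pos := h.soc_pos
  mu_top := h.mu_top
  mu_one := h.mu_one
  soc_max := h.soc_max
  ext := h.ext

end RL

theorem laB : LAB := fun _ _ _ _ _ h => h.la

end Vale.Agent.P297Z.Hb
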