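import Vale.Agent.P297Z.Hb.Rdim

/-! P297: local algebra, first part. -/

set_option linter.all false

open IsLocalRing Module

namespace Vale.Agent.P297Z.Hb

variable {K : Type} [Field K] [Algebra ℂ K] {O : Subalgebra ℂ K}

theorem col_eq (J : Ideal O) :
    (RFin (J.restrictScalars ℂ) ⊤ ↔ FinCol J) ∧ rdim (J.restrictScalars ℂ) ⊤ = col J :=
  rdim_top_of_surj (Ideal.Quotient.mkₐ ℂ J).toLinearMap Ideal.Quotient.mk_surjective
    fun _ => Ideal.Quotient.eq_zero_iff_mem

theorem FinCol.rfin {J : Ideal O} (h : FinCol J) (B : Submodule ℂ O) :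
    RFin (J.restrictScalars ℂ) B := ((col_eq J).1.2 h).mono le_rfl le_top

theorem FinCol.mono {J J' : Ideal O} (h : FinCol J') (hl : J' ≤ J) : FinCol J :=
  (col_eq J).1.1 (((col_eq J').1.2 h).mono hl le_rfl)

theorem col_add {J J' : Ideal O} (h : FinCol J') (hl : J' ≤ J) :
    col J' = col J + rdim (J'.restrictScalars ℂ) (J.restrictScalars ℂ) := by
  rw [← (col_eq J').2, ← (col_eq J).2,
    rdim_add (B := J.restrictScalars ℂ) hl le_top ((col_eq J').1.2 h), add_comm]

theorem col_zero {J : Ideal O} (h : FinCol J) : col J = 0 ↔ J = ⊤ := by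
  rw [← (col_eq J).2, rdim_eq_zero_iff ((col_eq J).1.2 h), top_le_iff,
    Submodule.restrictScalars_eq_top_iff]

theorem finCol_top : FinCol (⊤ : Ideal O) := (col_eq _).1.1 (rfin_of_le le_rfl)

theorem col_top : col (⊤ : Ideal O) = 0 := (col_zero finCol_top).2 rfl

theorem col_lt {J J' : Ideal O} (h : FinCol J') (hl : J' < J) : col J < col J' := by
  have h1 := col_add h hl.le
  have h2 := (rdim_pos_iff (h.rfin (J.restrictScalars ℂ))).2 fun h3 => hl.not_ge h3
  omega

theorem mem_inK {J : Ideal O} {f : K} : f ∈ inK J ↔ ∃ a ∈ J, (a : K) = f := Iff.rfl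

theorem coe_mem_inK {J : Ideal O} {a : O} : (a : K) ∈ inK J ↔ a ∈ J :=
  ⟨fun ⟨b, hb, e⟩ => (Subtype.ext e : b = a) ▸ hb, fun h => ⟨a, h, rfl⟩⟩

theorem mul_mem_inK {J : Ideal O} (a : O) {f : K} (h : f ∈ inK J) : (a : K) * f ∈ inK J := by
  obtain ⟨b, hb, rfl⟩ := h
  exact ⟨a * b, J.mul_mem_left a hb, rfl⟩

theorem pow_le_of_finite {R : Type} [CommRing R] [Algebra ℂ R] [IsLocalRing R] (J : Ideal R)
    (hJ : Module.Finite ℂ (R ⧸ J)) : ∃ n : ℕ, maximalIdeal R ^ n ≤ J := by
  haveI : IsArtinianRing (R ⧸ J) := IsArtinianRing.of_finite ℂ _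
  obtain ⟨n, hn⟩ := IsArtinianRing.isNilpotent_jacobson_bot (R := R ⧸ J)
  refine ⟨n, ?_⟩
  have h1 : (maximalIdeal R).map (Ideal.Quotient.mk J) ≤ Ideal.jacobson ⊥ := by
    rw [Ideal.map_le_iff_le_comap]
    intro a ha
    rw [Ideal.mem_comap, Ideal.mem_jacobson_bot]
    intro y
    obtain ⟨b, rfl⟩ := Ideal.Quotient.mk_surjective y
    have := (Ideal.mem_jacobson_bot.1
      ((jacobson_eq_maximalIdeal ⊥ bot_ne_top).ge ha) b).map (Ideal.Quotient.mk J)
    simpa using this
  have h2 := Ideal.pow_right_mono h1 n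
  rw [hn, ← Ideal.map_pow, Ideal.zero_eq_bot, Ideal.map_le_iff_le_comap] at h2
  intro a ha
  exact Ideal.Quotient.eq_zero_iff_mem.1 (h2 ha)

variable [IsLocalRing O]

theorem mem_socI {J : Ideal O} {a : O} : a ∈ socI J ↔ ∀ t ∈ maximalIdeal O, t * a ∈ J := Iff.rfl

theorem le_socI (J : Ideal O) : J ≤ socI J := fun _ ha t _ => J.mul_mem_left t ha

theorem max_le_jac : maximalIdeal O ≤ Ideal.jacobson ⊥ :=
  (jacobson_eq_maximalIdeal ⊥ bot_ne_top).ge

namespace RL

variable (h : RL O)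
include h

theorem mu_fin (J : Ideal O) :
    RFin ((maximalIdeal O * J).restrictScalars ℂ) (J.restrictScalars ℂ) := by
  haveI := h.noeth
  obtain ⟨s, hs⟩ := (IsNoetherian.noetherian J : J.FG)
  refine (rdim_le_card (s := s) fun a ha => ?_).1
  have ha' : a ∈ Submodule.span O (s : Set O) := by rw [hs]; exact ha
  clear ha
  induction ha' using Submodule.span_induction with
  | mem x hx => exact Submodule.mem_sup_left (Submodule.subset_span hx)
  | zero => exact zero_mem _
  | add x y _ _ hx hy => exact add_mem hx hy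
  | smul r x hx ih =>
    obtain ⟨c, hc⟩ := h.val r
    have e : r • x = c • x + (r - algebraMap ℂ O c) * x := by
      rw [smul_eq_mul, Algebra.smul_def]; ring
    rw [e]
    refine add_mem (Submodule.smul_mem _ c ih) (Submodule.mem_sup_right ?_)
    exact Ideal.mul_mem_mul hc (hs ▸ hx)

theorem rfin_of_pow (n : ℕ) : ∀ I J : Ideal O, maximalIdeal O ^ n * I ≤ J →
    RFin (J.restrictScalars ℂ) (I.restrictScalars ℂ) := by
  induction n with
  | zero => exact fun I J hl => rfin_of_le (by simpa using hl)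
  | succ n ih =>
    intro I J hl
    exact (ih (maximalIdeal O * I) J (by rwa [← mul_assoc, ← pow_succ])).trans (h.mu_fin I)

theorem pow (J : Ideal O) : FinCol J ↔ ∃ n : ℕ, maximalIdeal O ^ n ≤ J := by
  constructor
  · exact fun hJ => pow_le_of_finite J hJ
  · rintro ⟨n, hn⟩
    exact (col_eq J).1.1 (h.rfin_of_pow n ⊤ J (by simpa using hn))

theorem finCol_max : FinCol (maximalIdeal O) := (h.pow _).2 ⟨1, by simp⟩

theorem col_max : col (maximalIdeal O) = 1 := by
  have h1 := rdim_le_card (A := (maximalIdeal O).restrictScalars ℂ) (B := ⊤) (s := {1}) (by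
    intro a _
    obtain ⟨c, hc⟩ := h.val a
    refine Submodule.mem_sup.2 ⟨algebraMap ℂ O c, ?_, _, hc, by ring⟩
    rw [Algebra.algebraMap_eq_smul_one]
    exact Submodule.smul_mem _ c (Submodule.subset_span (by simp)))
  rw [(col_eq _).2, Finset.card_singleton] at h1
  have h2 := (col_zero h.finCol_max).not.2 (maximalIdeal.isMaximal O).ne_top
  omega

theorem height_max : (maximalIdeal O).height = 2 := by
  have h1 := maximalIdeal_height_eq_ringKrullDim (R := O)
  rw [h.dim] at h1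
  exact WithBot.coe_injective h1

theorem not_principal (p : O) : ¬ maximalIdeal O ≤ Ideal.span {p} ∨ IsUnit p := by
  haveI := h.noeth
  by_cases hp : IsUnit p
  · exact Or.inr hp
  refine Or.inl fun hl => ?_
  have h1 := (Ideal.height_mono hl).trans (Ideal.height_span_singleton_le_one hp)
  rw [h.height_max] at h1
  exact absurd h1 (by decide)

theorem relPrime {u v : O} (huv : maximalIdeal O = Ideal.span {u, v}) : IsRelPrime u v := by
  intro p hu hv
  refine (h.not_principal p).resolve_left fun hn => hn ?_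
  rw [huv, Ideal.span_le]
  rintro _ (rfl | rfl)
  · exact Ideal.mem_span_singleton.2 hu
  · exact Ideal.mem_span_singleton.2 hv

theorem ne_zero {u v : O} (huv : maximalIdeal O = Ideal.span {u, v}) : u ≠ 0 := by
  rintro rfl
  have h1 := h.relPrime huv (dvd_zero v) dvd_rfl
  have h2 : v ∈ maximalIdeal O := huv ▸ Ideal.subset_span (by simp)
  exact h2 h1

theorem prime_principal (P : Ideal O) [hP : P.IsPrime] (h0 : P ≠ ⊥) (h1 : P ≠ maximalIdeal O) :
    P.IsPrincipal := by
  haveI := h.ufd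
  haveI := h.noeth
  refine UniqueFactorizationMonoid.isPrincipal_of_height_eq_one (le_antisymm ?_ ?_)
  · have h2 := Ideal.height_add_one_le_of_lt_of_isPrime
      (lt_of_le_of_ne (le_maximalIdeal hP.ne_top) h1)
    rw [h.height_max] at h2
    exact (ENat.add_le_add_iff_right ENat.one_ne_top).1 (h2.trans (le_of_eq (by norm_num)))
  · exact Order.one_le_iff_ne_zero.2 fun h2 => h0 (Ideal.height_eq_zero_iff_eq_bot.1 h2)

theorem sat (J : Ideal O) (hJ : FinCol J) (t : K) (ht : ∀ a ∈ J, t * a ∈ O) : t ∈ O := by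
  haveI := h.ufd
  obtain ⟨u, v, huv⟩ := h.gens
  obtain ⟨n, hn⟩ := (h.pow J).1 hJ
  have hu : u ^ n ∈ J := hn (Ideal.pow_mem_pow (huv ▸ Ideal.subset_span (by simp)) n)
  have hv : v ^ n ∈ J := hn (Ideal.pow_mem_pow (huv ▸ Ideal.subset_span (by simp)) n)
  have h1 : u ^ n ∣ (⟨_, ht _ hu⟩ : O) * v ^ n :=
    ⟨⟨_, ht _ hv⟩, Subtype.ext (by push_cast; ring)⟩
  obtain ⟨c, hc⟩ := (h.relPrime huv).pow.dvd_of_dvd_mul_right h1
  have h2 : ((u ^ n : O) : K) ≠ 0 := fun e => pow_ne_zero n (h.ne_zero huv) (Subtype.ext e)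
  have h3 : t * ((u ^ n : O) : K) = (c : K) * ((u ^ n : O) : K) := by
    have := congrArg Subtype.val hc
    rw [mul_comm (c : K)]
    exact this
  rw [mul_right_cancel₀ h2 h3]
  exact c.2

theorem gcd (I : Ideal O) (hI : I ≠ ⊥) :
    ∃ (f : O) (J : Ideal O), f ≠ 0 ∧ FinCol J ∧ I = Ideal.span {f} * J := by
  haveI := h.noeth
  obtain ⟨J, ⟨f, hf, hJ⟩, hmax⟩ := set_has_maximal_iff_noetherian.2
    (inferInstance : IsNoetherian O O) {J : Ideal O | ∃ f : O, f ≠ 0 ∧ I = Ideal.span {f} * J}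
    ⟨I, 1, one_ne_zero, by simp⟩
  refine ⟨f, J, hf, (h.pow J).2 (Ideal.exists_pow_le_of_le_radical_of_fg ?_
    (IsNoetherian.noetherian _)), hJ⟩
  have hJ0 : J ≠ ⊥ := by
    rintro rfl
    exact hI (by simpa using hJ)
  rw [Ideal.radical_eq_sInf, le_sInf_iff]
  rintro P ⟨hJP, hP⟩
  by_contra hc
  have hP0 : P ≠ ⊥ := fun e => hJ0 (le_bot_iff.1 (e ▸ hJP))
  obtain ⟨p, hp⟩ := h.prime_principal P hP0 (fun e => hc e.ge)
  have hp0 : p ≠ 0 := by
    rintro rfl
    exact hP0 (by simpa using hp)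
  have hpm : p ∈ maximalIdeal O :=
    le_maximalIdeal hP.ne_top (hp ▸ Submodule.mem_span_singleton_self p)
  let J' : Ideal O := J.comap (LinearMap.mulLeft O p)
  have h1 : J = Ideal.span {p} * J' := by
    refine le_antisymm (fun a ha => ?_) (Ideal.span_singleton_mul_le_iff.2 fun z hz => hz)
    have h2 := hJP ha
    rw [hp] at h2
    obtain ⟨c, rfl⟩ := Submodule.mem_span_singleton.1 h2
    rw [smul_eq_mul, mul_comm c p] at ha ⊢
    exact Ideal.mul_mem_mul (Ideal.mem_span_singleton_self p) (show c ∈ J' from ha)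
  have h2 : J ≤ J' := fun a ha => Ideal.mul_mem_left J p ha
  have h3 : J' = J := by
    by_contra h3
    refine hmax J' ⟨f * p, mul_ne_zero hf hp0, ?_⟩ (lt_of_le_of_ne h2 (Ne.symm h3))
    rw [← Ideal.span_singleton_mul_span_singleton, mul_assoc, ← h1]
    exact hJ
  rw [h3] at h1
  refine hJ0 (Submodule.eq_bot_of_le_smul_of_le_jacobson_bot (maximalIdeal O) J
    (IsNoetherian.noetherian _) ?_ max_le_jac)
  exact h1.le.trans (Ideal.mul_mono_left ((Ideal.span_singleton_le_iff_mem _).2 hpm))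

theorem exists_soc (J : Ideal O) (hJ : FinCol J) (h1 : J ≠ ⊤) : ∃ a ∈ socI J, a ∉ J := by
  classical
  have h2 := (h.pow J).1 hJ
  have h3 := Nat.find_spec h2
  have h4 : Nat.find h2 ≠ 0 := fun e => h1 (by simpa [e] using h3)
  obtain ⟨n, hn⟩ := Nat.exists_eq_succ_of_ne_zero h4
  obtain ⟨a, ha, ha'⟩ := SetLike.not_le_iff_exists.1 (Nat.find_min h2 (m := n) (by omega))
  refine ⟨a, fun t ht => h3 ?_, ha'⟩
  rw [hn, pow_succ']
  exact Ideal.mul_mem_mul ht ha

theorem soc_pos (J : Ideal O) (hJ : FinCol J) (h1 : J ≠ ⊤) : 0 < soc J := by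
  obtain ⟨a, ha, ha'⟩ := h.exists_soc J hJ h1
  exact (rdim_pos_iff (hJ.rfin _)).2 fun hl => ha' (hl ha)

theorem mu_top : mu (⊤ : Ideal O) = 1 := by
  rw [mu, Ideal.mul_top, Submodule.restrictScalars_top, (col_eq _).2, h.col_max]

theorem soc_max : soc (maximalIdeal O) = 1 := by
  have : socI (maximalIdeal O) = ⊤ := eq_top_iff.2 fun a _ t ht => Ideal.mul_mem_right a _ ht
  rw [soc, this, Submodule.restrictScalars_top, (col_eq _).2, h.col_max]

theorem mu_one (J : Ideal O) (hJ : FinCol J) (h1 : mu J ≤ 1) : J = ⊤ := by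
  haveI := h.noeth
  haveI := h.ufd
  obtain ⟨f, hf, hl⟩ := exists_gen_of_le_one (h.mu_fin J) h1
  have h2 : J ≤ Ideal.span {f} := by
    refine Submodule.le_of_le_smul_of_le_jacobson_bot (IsNoetherian.noetherian _) max_le_jac
      fun a ha => ?_
    obtain ⟨b, hb, c, hc, rfl⟩ := Submodule.mem_sup.1 (hl ha)
    exact Submodule.add_mem_sup (Submodule.span_le_restrictScalars ℂ O _ hb) hc
  obtain ⟨u, v, huv⟩ := h.gens
  obtain ⟨n, hn⟩ := (h.pow J).1 hJ
  have hu : u ^ n ∈ J := hn (Ideal.pow_mem_pow (huv ▸ Ideal.subset_span (by simp)) n)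
  have hv : v ^ n ∈ J := hn (Ideal.pow_mem_pow (huv ▸ Ideal.subset_span (by simp)) n)
  exact Ideal.eq_top_of_isUnit_mem J hf ((h.relPrime huv).pow (Ideal.mem_span_singleton.1 (h2 hu))
    (Ideal.mem_span_singleton.1 (h2 hv)))

end RL

end Vale.Agent.P297Z.Hb
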