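import Vale.Agent.P297Z.Hb.Br
import Vale.Agent.P297Z.Hb.Pw
import Vale.Agent.P297Z.Quot.Bas

/-! P297: the cokernel of the restriction of maps to the relations. -/

set_option linter.all false

noncomputable section

namespace Vale.Agent.P297Z

open Submodule.Quotient renaming mk → mq
open GMod

theorem Pw.Rp.Sb.isCls_coker {X : Spc} [Nonempty X.Pt] {P : Pw.Rp X}
    {V : X.Pt → Submodule ℂ P.Y} {A H : GMod X} {θ : A.M →ₗ[X.R] H.M} {ψ : A.M →ₗ[X.R] P.tot.M}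
    {a n k : ℕ} (hk : P.Sb V k) (hθ : A.IsHom H θ) (hψ : A.IsHom P.tot ψ) (hA : A.IsBun a)
    (hH : H.IsBun n) (hi : ∀ (z : X.Pt) x, (ψ x).1 z = 0 → (mq x : Fib z.1 A.M) = 0)
    (hs : ∀ z, ∀ v ∈ V z, ∃ x, (ψ x).1 z = v)
    (h : ∀ (z : X.Pt) x, (mq (θ x) : Fib z.1 H.M) = 0 ↔ (ψ x).1 z ∈ V z) :
    ∃ o, IsCls (kc H n - kc A a + P.cl V k) o := by
  have h1 : ∀ z : X.Pt, frk z.1 θ + k = a := fun z => by
    have h3 : (LinearMap.ker (fibC z.1 θ)).map (Pw.Rp.evF ψ z) = V z := by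
      ext v
      constructor
      · rintro ⟨x, hx, rfl⟩
        obtain ⟨s, rfl⟩ := fib_surj x
        exact (h z s).1 hx
      · intro hv
        obtain ⟨s, rfl⟩ := hs z v hv
        exact ⟨mq s, (h z s).2 hv, rfl⟩
    have h4 := (fibC z.1 θ).finrank_range_add_finrank_ker
    rw [(Submodule.equivMapOfInjective _ (Pw.Rp.evF_inj (hi z)) _).finrank_eq, h3, hk.dim] at h4
    exact h4.trans (hA.fdim z)
  obtain ⟨r, rfl⟩ : ∃ r, a = k + r := ⟨_, (h1 (Classical.arbitrary _)).symm.trans (add_comm _ _)⟩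
  have h2 : ∀ z : X.Pt, frk z.1 θ = r := fun z => by have := h1 z; omega
  obtain ⟨c, hc⟩ := Pw.Rp.exists_add hH h2
  obtain rfl : n = r + c := (hH.fdim (Classical.arbitrary _)).symm.trans (hc.fdim _)
  have hK := hθ.isBun_ker hA hc h2
  have hR := hθ.isBun_range hc h2
  have hC := hθ.isBun_coker hc h2
  rw [hk.cl_hom (hψ.comp (isHom_subtype _ _ hθ.stab_ker)) (fun z v => ⟨fun hv => ?_, ?_⟩) hK,
    kc_ses hθ.ses_range hK hR, kc_ses (ses_sub_quo H _ hθ.stab_range) hR hC]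
  · exact ⟨c, ⟨_, c, hC⟩, rfl, (kc_eq hC).symm.trans (by abel)⟩
  · obtain ⟨s, rfl⟩ := hs z v hv
    obtain ⟨x, hx⟩ := (hθ.fib_ker_exact hc h2 z (mq s)).1 ((h z s).2 hv)
    obtain ⟨t, rfl⟩ := fib_surj x
    exact ⟨t, Pw.Rp.val_of_mk ψ hx⟩
  · rintro ⟨t, rfl⟩
    exact (h z t.1).1 (congrArg mq t.2)

namespace Qt.Dat.Crd

variable {W Y : Spc} {D : Dat Y} (c : D.Crd W) (S : Sur Y)

/-- the degrees of the elementary maps -/
def dθ (p : D.Sx × D.β) : W.J → ℤ :=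
  -c.τ (D.a p.2) - (c.e + ∑ b ∈ Finset.univ.erase p.1.2, c.τ (D.a (p.1.1 b)))

/-- the elementary maps from the free module -/
def φθ (p : D.Sx × D.β) : (c.Φ.hom c.F).M :=
  ap.symm (Hb.lc c.ds (Pi.single p.1 (c.πF (c.eVV p.2))))

theorem φθ_wt (p : D.Sx × D.β) : c.φθ p ∈ (c.Φ.hom c.F).wt (Sum.elim (c.dθ p) (dg Y 0)) :=
  fun g => Hb.act_lc (δ := c.ds) fun s => by
    have e : ap (c.φθ p) (Hb.bs c.ds s) = Pi.single (M := fun _ => c.F.M) p.1 (c.πF (c.eVV p.2)) s :=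
      Hb.lc_bs c.ds _ s
    refine (congrArg (c.F.act g) e).trans (Eq.trans ?_ (congrArg _ e).symm)
    by_cases h : s = p.1
    · rw [h, Pi.single_eq_same, c.πF_hom.map_wt (c.eVV_wt p.2) g]
      refine congrArg (· • c.πF (c.eVV p.2)) (Eq.trans (congrArg (chr · g) (funext fun j => ?_))
        (chr_add _ _ g))
      cases j with
      | inl j => exact (add_sub_cancel _ _).symm
      | inr j => exact (add_zero _).symm
    · rw [Pi.single_eq_of_ne h, map_zero, smul_zero]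

theorem ap_φθ (p : D.Sx × D.β) (κ : c.Φ.M) :
    ap (c.φθ p) κ = (show (W.prod Y).R from κ p.1) • c.πF (c.eVV p.2) := by
  change ∑ s, (show (W.prod Y).R from κ s) •
    Pi.single (M := fun _ => c.F.M) p.1 (c.πF (c.eVV p.2)) s = _
  rw [Finset.sum_eq_single p.1 (fun s _ h => by rw [Pi.single_eq_of_ne h, smul_zero])
    (fun h => (h (Finset.mem_univ _)).elim), Pi.single_eq_same]

theorem rs_wt (p : D.Sx × D.β) :
    rs c.iK c.F (c.φθ p) ∈ (c.K1.hom c.F).wt (Sum.elim (c.dθ p) (dg Y 0)) :=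
  (rs_hom c.iK_hom c.F).map_wt (c.φθ_wt p)

/-- the elementary maps from the relations -/
def eθ (p : D.Sx × D.β) : (c.H S).M := S.el _ (Hb.mem_wtE S (c.rs_wt p))

theorem eθ_wt (p : D.Sx × D.β) : c.eθ S p ∈ (c.H S).wt (c.dθ p) := fun g => S.val_inj <|
  (c.rs_wt p (tor (S.prj W).ret g)).trans
    (congrArg (· • rs c.iK c.F (c.φθ p)) (chr_tor (S.prj W).ret _ g))

/-- the restriction to the relations -/
def θ : (Fr c.dθ).M →ₗ[W.R] (c.H S).M := Hb.lc c.dθ (c.eθ S)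

theorem θ_hom : (Fr c.dθ).IsHom (c.H S) (c.θ S) := lc_hom _ _ (c.eθ_wt S)

theorem ε_θ (z : W.Pt) (a : D.Sx × D.β → W.R) (κ : c.K1.M) :
    c.εF z (ap (S.val _ 0 (c.θ S a)) κ) = (D.gen (c.cz z)).mkQ (Fintype.linearCombination Y.R
      (fun s => ∑ i, z.1 (a (s, i)) • D.eV i) (c.εΦ z (c.iK κ))) := by
  have e : ap (S.val _ 0 (c.θ S a)) κ = c.πF (∑ p : D.Sx × D.β, (Mor.fst W Y).φ (a p) •
      (show (W.prod Y).R from c.iK κ p.1) • c.eVV p.2) := by
    refine (congrArg (fun t => ap t κ) (map_sum (S.val (c.K1.hom c.F) 0) (fun p => a p • c.eθ S p)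
      Finset.univ)).trans ?_
    rw [map_sum, map_sum, LinearMap.sum_apply]
    refine Finset.sum_congr rfl fun p _ => ?_
    rw [map_smul c.πF, map_smul c.πF]
    exact congrArg ((Mor.fst W Y).φ (a p) • ·) (c.ap_φθ p (c.iK κ))
  refine (congrArg (c.εF z) e).trans (congrArg (D.gen (c.cz z)).mkQ ?_)
  rw [map_sum, Fintype.sum_prod_type]
  refine Finset.sum_congr rfl fun s _ => Eq.trans ?_ Finset.smul_sum.symm
  refine Finset.sum_congr rfl fun i _ => ?_
  rw [εV_smul, εV_smul, εV_eVV, evR_fst, algebraMap_smul, smul_comm]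
  rfl

theorem θ_fib (hF : FBK) (fm : Fm S c) (z : W.Pt) (kx : Kx S D (c.cz z)) (a : D.Sx × D.β → W.R) :
    (mq (c.θ S a) : Fib z.1 (c.H S).M) = 0 ↔ ∀ ρ : D.Φ0.M, D.μ0 (c.cz z) ρ = 0 →
      Fintype.linearCombination Y.R (fun s => ∑ i, z.1 (a (s, i)) • D.eV i) ρ ∈ D.gen (c.cz z) := by
  obtain ⟨ε, h1, h2, h3⟩ := hb hF bas W Y S z _ _ _ _ _ _ (fm.fK z) (fm.fF z)
  refine (Hb.mk_eq_zero h2 (h3 0 (kx.extH 0 le_rfl)).1).trans ⟨fun h ρ hρ => ?_, fun h => ?_⟩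
  · obtain ⟨κ, hκ⟩ := (fm.fK z).surj ⟨ρ, hρ⟩
    have := (h1 _ κ).symm.trans (congrArg (fun t => ap t (c.εK z κ)) h)
    rw [c.ε_θ S z a κ, show c.εΦ z (c.iK κ) = ρ from congrArg Subtype.val hκ] at this
    exact (Submodule.Quotient.mk_eq_zero _).1 this
  · refine Hb.fib_ext (fm.fK z).toIsFib fun κ => (h1 _ κ).trans ((c.ε_θ S z a κ).trans ?_)
    exact (Submodule.Quotient.mk_eq_zero _).2 (h _ (c.εK z κ).2)

end Qt.Dat.Crd

namespace Sf

open Qt

variable {K : Type} [Field K] [Algebra ℂ K] {S : Surf K} {D : LD S} {h : S.All} {W : Spc}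

theorem Fam.exists_tR {V : Type} [AddCommGroup V] [Module K V] [Module ℂ V] [IsScalarTower ℂ K V]
    (F : Fam K W V) (S : Surf K) :
    ∃ ψ : (Fr fun p : F.ι × F.B => F.τ p.2 - F.γ p.1).M →ₗ[W.R] (F.tR S).tot.M, IsHom _ _ ψ ∧
      ∀ (a : F.ι × F.B → W.R) (z : W.Pt), (ψ a).1 z = fun s => ∑ i, z.1 (a (s, i)) • F.e i := by
  classical
  let b : F.ι × F.B → F.ι → V := fun p => Pi.single p.1 (F.e p.2)
  have h1 : ∀ p, b p ∈ (F.tR S).U := fun p s _ => by
    change Pi.single (M := fun _ => V) p.1 (F.e p.2) s ∈ Gn S.W F.e 0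
    by_cases e : s = p.1
    · rw [e, Pi.single_eq_same, Gn_zero]
      exact Submodule.subset_span ⟨_, rfl⟩
    · rw [Pi.single_eq_of_ne e]
      exact Submodule.zero_mem _
  let v : F.ι × F.B → (F.tR S).tot.M := fun p => ⟨Pw.cst W (b p), (F.tR S).cst_mem (h1 p)⟩
  refine ⟨Hb.lc _ v, lc_hom _ v fun p => Pw.Rp.mem_tot_wt.2 fun g z => funext fun s => ?_,
    fun a z => (Pw.Rp.sum_val _ _ z).trans (funext fun s => ?_)⟩
  · change chr (-F.γ s) g • F.D g (Pi.single (M := fun _ => V) p.1 (F.e p.2) s) =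
      chr (F.τ p.2 - F.γ p.1) g • Pi.single (M := fun _ => V) p.1 (F.e p.2) s
    by_cases e : s = p.1
    · rw [e, Pi.single_eq_same, F.e_wt, smul_smul, ← chr_add, neg_add_eq_sub]
    · rw [Pi.single_eq_of_ne e, map_zero, smul_zero, smul_zero]
  · change (∑ p, z.1 (a p) • b p) s = _
    rw [Finset.sum_apply, Fintype.sum_prod_type_right]
    refine Finset.sum_congr rfl fun i _ => (Finset.sum_eq_single s (fun t _ e => ?_)
      fun e => (e (Finset.mem_univ _)).elim).trans ?_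
    · exact (congrArg _ (Pi.single_eq_of_ne (M := fun _ => V) e.symm _)).trans (smul_zero _)
    · exact congrArg _ (Pi.single_eq_same (M := fun _ => V) _ _)

namespace LD

variable (c : (D.dat h).Crd W)

/-- the cokernel of the restriction of maps to the relations -/
theorem theta [Nonempty W.Pt] (hF : FBK) (hD : (D.dat h).Ok (sur S h)) (fm : Fm (sur S h) c)
    (kx : ∀ z, Kx (sur S h) (D.dat h) (c.cz z)) {n k : ℕ} (hn : (c.H (sur S h)).IsBun n)
    (hk : ((D.fam c).tR S).Sb ((D.fam c).Tq S) k) : ∃ o, IsCls (kc (c.H (sur S h)) n -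
      ∑ s, ∑ i, line W ((D.fam c).γ s - (D.fam c).τ i) + ((D.fam c).tR S).cl ((D.fam c).Tq S) k)
      o := by
  obtain ⟨ψ, h1, h2⟩ := (D.fam c).exists_tR S
  have e : ∑ s, ∑ i, line W ((D.fam c).γ s - (D.fam c).τ i) = kc (Fr c.dθ) (Fintype.card _) :=
    ((kc_fr c.dθ).trans ((Fintype.sum_prod_type _).trans (Finset.sum_congr rfl fun s _ =>
      Finset.sum_congr rfl fun i _ => congrArg (line W) (neg_sub _ _)))).symm
  rw [e]
  refine hk.isCls_coker (c.θ_hom _) h1 (bun_fr _) hn (fun z a ha => mk_pi_eq_zero.2 fun p => ?_)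
    (fun z v hv => ?_) fun z a => (c.θ_fib _ hF fm z (kx z) a).trans ?_
  · exact Fintype.linearIndependent_iff.1 ((ind_iff h).1 hD.ind) (fun i => z.1 (a (p.1, i)))
      (congrFun ((h2 a z).symm.trans ha) p.1) p.2
  · choose t ht using fun s => (Submodule.mem_span_range_iff_exists_fun ℂ).1
      ((Gn_zero _ _).le (hv.1 s))
    refine ⟨fun p => algebraMap ℂ W.R (t p.1 p.2), (h2 _ z).trans (funext fun s => ?_)⟩
    exact (Finset.sum_congr rfl fun i _ => congrArg (· • _) (z.1.commutes _)).trans (ht s)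
  · have h3 : ∀ s, D.vl h D.m (∑ i, z.1 (a (s, i)) • (D.dat h).eV i) = (ψ a).1 z s := fun s => by
      rw [map_sum]
      exact (Finset.sum_congr rfl fun i _ => (map_smul _ _ _).trans
        (congrArg _ (vl_eV i))).trans (congrFun (h2 a z) s).symm
    refine (rel_iff h _ _ fun s => Submodule.sum_mem _ fun i _ =>
      Submodule.smul_mem _ _ ((D.dat h).eV_wt i)).trans ?_
    rw [← fam_u]
    refine Iff.trans (forall₃_congr fun j x _ => iff_of_eq (congrArg (· ∈ _)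
      (Finset.sum_congr rfl fun s _ => congrArg (x s • ·) (h3 s)))) ?_
    exact ⟨fun H => ⟨fun s => Pw.Rp.val_mem (ψ a).2 z s trivial, H⟩, fun H => H.2⟩

end LD

end Sf

end Vale.Agent.P297Z
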