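import Vale.Agent.P297Z.Hb.Step
import Vale.Agent.P297Z.Hb.Tcl
import Vale.Agent.P297Z.Hb.Theta
import Vale.Agent.P297Z.Top.Glue3
import Vale.Agent.P297Z.Diag.Dia
import Vale.Agent.P297Z.Quot.Hcl
import Vale.Agent.P297Z.Quot.Kx
import Vale.Agent.P297Z.Quot.Pts
import Vale.Agent.P297Z.Quot.Fbk
import Vale.Agent.P297Z.Quot.Flb
import Vale.Agent.P297Z.Quot.Exk
import Vale.Agent.P297Z.Quot.H1
import Vale.Agent.P297Z.Quot.Kosp
import Vale.Agent.P297Z.Quot.Cls

/-! P297: the obstruction bundle on the spaces of subsheaves of rank one. -/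

set_option linter.all false

noncomputable section

namespace Vale.Agent.P297Z.Sf.Ctx

open Fb Vale.Agent.P297Z.Hb Pw Gl

variable {K : Type} [Field K] [Algebra ℂ K] {S : Surf K} {c : Ctx S} {h : S.All} {r₀ r : ℕ}

theorem Geom.rk_pK (G : c.Geom h r₀) (H : c.Ok r₀) (hr : r₀ ≤ r) (hs : r ≤ c.s) :
    rk _ (pK (c.Xr r) (S.spc h) (pullK (Mor.snd _ _) (S.lK h c.L) * dualK _ (c.Ecl h r))) =
      chi c.D - (c.s - r : ℕ) := by
  have hS := SA.isProj h
  induction hs using Nat.decreasingInduction with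
  | self =>
    have hv := cn (G.var _ hr le_rfl)
    rw [G.E0 H, RingHom.map_mul, ← pullK_dualK, ← pullK_dualK (Mor.snd _ _), mul_left_comm,
      pK_mul hv hS, RingHom.map_mul, rk_dualK, rk_pullK, OP, rk_line, one_mul, ← RingHom.map_mul,
      pK_snd hv hS, mul_comm, chiG_hom, sub_sub_cancel]
    simp
  | of_succ r hs ih =>
    have hN := G.varN r hr hs
    have h1 := rk_pK_pull hN (G.var r hr hs.le) hS (c.ρN h r (G.maps r hr hs))
    have h2 := rk_pK_pull hN (G.var (r + 1) (by omega) hs) hS ((Mor.fst _ _).comp (c.πN h r))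
    have h3 := Dg.drk K S h _ _ hN ((Mor.snd _ _).comp (c.πN h r)) true
      (dualK _ (pullK (Mor.fst _ _) (c.lN h r)) * pullK (Mor.snd _ _) (S.lK h c.L))
    rw [RingHom.map_mul, rk_dualK, rk_pullK, rk_pullK, show rk _ (c.lN h r) = 1 from rk_line _,
      Sl.rk_lK] at h3
    have ih' := ih (by omega)
    rw [← h2, RingHom.map_mul, pullK_dualK, pullK_map_snd] at ih'
    rw [← h1, RingHom.map_mul, pullK_dualK, pullK_map_snd, G.step H hr hs, map_sub, mul_sub,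
      map_sub, map_sub, ih', RingHom.map_mul, show c.s - r = c.s - (r + 1) + 1 by omega,
      ← mul_assoc, mul_comm, mul_comm (pullK _ _)]
    refine (congrArg _ h3).trans ?_
    push_cast
    ring

theorem inter_H (h : S.All) {D : Div S.W} (hD : H0 D ≠ ⊥) : 0 ≤ inter D S.H := by
  obtain ⟨f, hf, h0⟩ := (Submodule.ne_bot_iff _).1 hD
  rw [← inter_lin h.toRR D _ h0, inter_comm, ← interHom_apply h.toRR]
  refine AddSubmonoid.closure_induction (fun _ ⟨C, e⟩ => e ▸ (h.crv C).le) (by simp)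
    (fun a b _ _ ha hb => by rw [map_add]; exact add_nonneg ha hb)
    (eff_mem_closure (eff_of_mem h.toLoc2 hf h0))

theorem chi_sub (h : S.All) (L D : Div S.W) (k : ℤ) :
    chi (L + k • S.H) - chi (L - D + k • S.H) = inter D S.H * k + (chi L - chi (L - D)) := by
  have h1 : inter (L - D + D) (k • S.H) = _ := h.add _ _ _
  have h2 : inter D (k • S.H) = k * inter D S.H := map_zsmul (interHom h.toRR D) k S.H
  rw [sub_add_cancel, h2, inter, inter] at h1
  linarith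

theorem H0_ne (c : Ctx S) : H0 c.D ≠ ⊥ := (Submodule.ne_bot_iff _).2
  ⟨_, c.φ_span ▸ Submodule.subset_span ⟨0, rfl⟩, c.φ_ind.ne_zero 0⟩

theorem p_eq (h : S.All) (r : ℕ) (k : ℤ) : (c.dat h r).p k =
    chi (c.L + k • S.H) - (chi (c.L - c.D + k • S.H) - (c.s - r : ℕ)) := by
  change ((inter c.D S.H).toNat : ℤ) * k + (chi c.L - chi (c.L - c.D) + (c.s - r : ℕ)) = _
  rw [Int.toNat_of_nonneg (inter_H h c.H0_ne)]
  linarith [chi_sub h c.L c.D k]

theorem Ok.dim_L (H : c.Ok r₀) (h : S.All) {k : ℤ} (hk : (c.m : ℤ) ≤ k) :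
    (Module.finrank ℂ (M c.L k) : ℤ) = chi (c.L + k • S.H) := by
  obtain ⟨Z, hZ⟩ := (fbA h).empty
  have := (H.regL Z hZ).dim k hk
  rwa [(fbA h).zero Z _ _ hZ, hZ, Nat.cast_zero, sub_zero] at this

theorem Ok.card_B (H : c.Ok r₀) (h : S.All) :
    (Fintype.card c.B : ℤ) = chi (c.L + (c.m : ℤ) • S.H) := by
  rw [← H.dim_L h le_rfl, ← c.e_span, finrank_span_eq_card c.e_ind]

/-- the constant functions -/
def kU (K : Type) [Field K] : K ≃ₗ[K] (Unit → K) := (LinearEquiv.funUnique Unit K K).symm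

theorem ev_eq (i : c.B) : (c.ld r).ev i = kU K (c.e i) := rfl

theorem tv_eq (q : (Fin r → c.B) → ℂ) : (c.ld r).tv q = fun s => kU K (c.β r q s) :=
  funext fun s => funext fun _ =>
    (congrFun (LinearMap.sum_apply _ _ q) _).trans ((Finset.sum_apply _ _ _).trans (β_apply q s).symm)

theorem sum_kU {ι : Type} [Fintype ι] (u t : ι → K) :
    ∑ a, t a • kU K (u a) = kU K (∑ a, t a • u a) := by simp only [map_sum, map_smul]

theorem Gn_kU {ι : Type} [Fintype ι] (u : ι → K) (j : ℕ) :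
    Gn S.W (fun a => kU K (u a)) j = (Gn S.W u j).map ((kU K).restrictScalars ℂ).toLinearMap :=
  Submodule.ext fun _ => ⟨fun ⟨t, ht, e⟩ => ⟨_, ⟨t, ht, rfl⟩, (sum_kU u t).symm.trans e⟩,
    fun ⟨_, ⟨t, ht, e⟩, e'⟩ => ⟨t, ht, (sum_kU u t).trans ((congrArg _ e).trans e')⟩⟩

theorem mem_Gn_kU {ι : Type} [Fintype ι] (u : ι → K) (j : ℕ) (x : K) :
    kU K x ∈ Gn S.W (fun a => kU K (u a)) j ↔ x ∈ Gn S.W u j := by
  rw [Gn_kU]
  exact ⟨fun ⟨y, h1, h2⟩ => (kU K).injective h2 ▸ h1, fun h1 => ⟨x, h1, rfl⟩⟩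

theorem RelV_kU {ι : Type} [Fintype ι] (u : ι → K) (j : ℕ) :
    RelV S.W (fun a => kU K (u a)) j = RelV S.W u j :=
  Submodule.ext fun t => and_congr Iff.rfl (by rw [sum_kU, LinearEquiv.map_eq_zero_iff])

theorem Ok.dat_ok (H : c.Ok r₀) (h : S.All) (hB : c.Big h r₀) (hr : r₀ ≤ r) (hs : r ≤ c.s) :
    (c.dat h r).Ok (sur S h) := by
  refine ⟨(LD.ind_iff h).2 (c.e_ind.map' ((kU K).restrictScalars ℂ).toLinearMap
    (LinearEquiv.ker _)), (LD.span_iff h).2 ?_, ?_, hB r hr hs⟩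
  · have := congrArg (Submodule.map ((kU K).restrictScalars ℂ).toLinearMap) c.e_span
    rw [Submodule.map_span, ← Set.range_comp] at this
    refine this.trans (Submodule.ext fun x => ⟨?_, fun hx => ⟨x (), hx () trivial, rfl⟩⟩)
    rintro ⟨y, hy, rfl⟩ _ -
    exact hy
  · change (r : ℤ) + (c.dat h r).p c.m = Fintype.card c.B
    rw [p_eq, H.card_B h, ← H.s_eq h]
    omega

variable (c h r) in
/-- the family of the Quot space -/
abbrev famU : Fam K (c.Xr r) (Unit → K) := (c.ld r).fam (c.crd h r)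

theorem famU_u (z : (c.Xr r).Pt) : (c.famU h r).u z = fun s => kU K ((c.famV r).u z s) :=
  (LD.fam_u _ z).trans ((tv_eq _).trans (funext fun s => congrArg _ (congrFun (famV_u z) s).symm))

theorem famU_γ (s : (c.famU h r).ι) : (c.famU h r).γ s = c.dp r :=
  (congrArg _ Finset.sum_const_zero).trans (add_zero _)

theorem Ok.dat_pt (H : c.Ok r₀) (hr : r₀ ≤ r) (hc : Spc.Clo _ (c.XS r)) (z : (c.Xr r).Pt) :
    (c.dat h r).Pt ((c.crd h r).cz z) := by
  obtain ⟨Z, hZ⟩ := pt_mem hc z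
  refine ⟨hZ.1, Function.ne_iff.1 (pz_ne z), fun k hk => le_of_eq ?_⟩
  obtain ⟨j, rfl⟩ : ∃ j : ℕ, k = c.m + j := ⟨(k - c.m).toNat, by
    have : (c.m : ℤ) ≤ k := hk
    omega⟩
  refine Eq.trans ?_ (LD.hq_gen (D := c.ld r) h _ j).symm
  have e : Module.finrank ℂ (Gn S.W ((c.ld r).tv ((c.crd h r).cz z)) j) =
      Module.finrank ℂ (Gn S.W ((c.famV r).u z) j) :=
    (congrArg (fun u => Module.finrank ℂ (Gn S.W u j)) ((LD.fam_u _ z).symm.trans (famU_u z))).trans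
      ((congrArg (fun N : Submodule ℂ (Unit → K) => Module.finrank ℂ N)
        (Gn_kU ((c.famV r).u z) j)).trans (LinearEquiv.finrank_map_eq _ _))
  rw [e, H.dim_Gn h hr hc, p_eq, ← H.dim_L h hk]
  exact congrArg (· - _) (congrArg _ (Fintype.sum_unique (ι := Unit) fun _ =>
    Module.finrank ℂ (M c.L (c.m + j))).symm)

theorem Ok.Ecl_famU (H : c.Ok r₀) (hr : r₀ ≤ r) (hc : Spc.Clo _ (c.XS r)) :
    (c.famU h r).Ecl h 1 = c.Ecl h r := by
  refine ((H.flatV h hr hc).Ecl_regr (F' := c.famU h r) h (Equiv.refl _) 0 rfl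
    (fun a => (famU_γ a).trans (zero_add _).symm) fun z t => ?_).trans ?_
  · rw [famU_u]
    exact (Eq.congr_left (sum_kU _ t)).trans (LinearEquiv.map_eq_zero_iff _)
  · rw [neg_zero, line_zero, map_one, one_mul]
    rfl

theorem famU_deg (s : (c.famU h r).ι) : (c.famU h r).deg h s = (c.famV r).deg h s :=
  congrArg (Sum.elim · _) (famU_γ s)

theorem Ok.Kcl_famU (H : c.Ok r₀) (hr : r₀ ≤ r) (hc : Spc.Clo _ (c.XS r)) :
    (c.famU h r).Kcl h 1 = (c.famV r).Kcl h 1 :=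
  sub_right_injective (((congrArg (· - _) (Finset.sum_congr rfl fun s _ =>
    congrArg (fun t => line _ (-t)) (famU_deg s).symm)).trans (H.Ecl_famU hr hc)))

theorem Tq_famU {k : ℕ} (hk : ((c.famV r).tR S).Sb ((c.famV r).Tq S) k) :
    ((c.famU h r).tR S).Sb ((c.famU h r).Tq S) k ∧
      ((c.famU h r).tR S).cl ((c.famU h r).Tq S) k = ((c.famV r).tR S).cl ((c.famV r).Tq S) k := by
  let κ : ((c.famV r).ι → K) →ₗ[ℂ] ((c.famV r).ι → Unit → K) :=
    ((kU K).restrictScalars ℂ).toLinearMap.compLeft _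
  have e0 : ∀ x, kU K x ∈ Gn S.W (c.famU h r).e 0 ↔ x ∈ Gn S.W (c.famV r).e 0 :=
    mem_Gn_kU (c.famV r).e 0
  have e1 : ∀ z b, κ b ∈ (c.famU h r).Tq S z ↔ b ∈ (c.famV r).Tq S z := fun z b => by
    refine and_congr (forall_congr' fun a => e0 _) (forall_congr' fun j => ?_)
    rw [famU_u]
    exact forall_congr' fun t => imp_congr
      (iff_of_eq (congrArg (t ∈ ·) (RelV_kU ((c.famV r).u z) j)))
      ((iff_of_eq (congrArg (· ∈ _) (sum_kU b t))).trans (mem_Gn_kU ((c.famV r).u z) j _))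
  refine hk.iso (P' := (c.famU h r).tR S) (Rp.mp_cst (P' := (c.famU h r).tR S) κ
    (fun b hb a _ => (e0 _).2 (hb a trivial)) fun g (b : (c.famV r).ι → K) _ => funext fun a => funext fun _ => ?_)
    (fun z b _ e => funext fun a => congrFun (congrFun e a) ()) fun z => Submodule.ext fun b =>
      ⟨fun hb => ⟨fun a => b a (), (e1 z _).1 hb, rfl⟩, fun ⟨b', h1, h2⟩ => h2 ▸ (e1 z _).2 h1⟩
  change chr (-c.dp r) g • b a =
    chr (-(c.famU h r).γ a) g • algebraMap ℂ K (chr (-(0 : (c.Xr r).J → ℤ)) g) • b a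
  rw [famU_γ, neg_zero, chr_zero, map_one, one_smul]

theorem Ok.pK_Φ (H : c.Ok r₀) (hX : (c.Xr r).Cn) :
    pK (c.Xr r) (S.spc h) (dualK _ (∑ a, line _ (-(c.famV r).deg h a)) *
      pullK (Mor.snd _ _) (S.lK h c.L)) =
    ∑ s, ∑ i, line _ ((c.famU h r).γ s - (c.famU h r).τ i) := by
  rw [map_sum, Finset.sum_mul, map_sum]
  refine Finset.sum_congr rfl fun s _ => ?_
  have e : (c.famV r).deg h s = (Mor.fst _ (S.spc h)).ρ (c.dp r) +
      (Mor.snd (c.Xr r) _).ρ fun _ => (c.m : ℤ) := funext fun j => by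
    rcases j with j | j
    exacts [(add_zero _).symm, (zero_add _).symm]
  rw [dualK_line, neg_neg, e, line_add, ← pullK_line, ← pullK_line, mul_assoc,
    pK_mul hX (SA.isProj h), ← RingHom.map_mul, pK_snd hX (SA.isProj h), ← Sl.lK_add_H,
    Sl.chiG_lK, ← H.card_B h]
  refine Eq.trans ?_ (Finset.sum_congr rfl fun i _ => congrArg (line _)
    ((congrArg₂ (· - ·) (famU_γ s) neg_zero).trans (sub_zero _)).symm)
  rw [Finset.sum_const, nsmul_eq_mul, mul_comm, Int.cast_natCast]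
  rfl

theorem Geom.ob_cls (G : c.Geom h r₀) (H : c.Ok r₀) (hB : c.Big h r₀) (hr : r₀ ≤ r)
    (hs : r ≤ c.s) : ∃ o, IsCls (c.obv h r) o := by
  have hv := G.var r hr hs
  haveI := hv.ne
  have hc := G.clo r hr hs
  have ok := H.dat_ok h hB hr hs
  have hp := H.dat_pt (h := h) hr hc
  have fm := Qt.fam Qt.fbk Qt.flb Qt.bas _ _ (sur S h) _ (c.crd h r) fun z =>
    (Qt.pts Qt.bas _ _ _ ok).reg _ (hp z)
  obtain ⟨h1, h2⟩ := (Qt.hcl Qt.fbk Qt.flb Qt.fam Qt.hb Qt.cls' Qt.resh Qt.bas Qt.kosp Qt.exk Qt.h1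
    Qt.pts Qt.kx _ _ _ _ _ ok hp).kH (cn hv) (Classical.arbitrary _)
  obtain ⟨h3, h4⟩ := G.cl_Tq H hr hs
  obtain ⟨h5, h6⟩ := Tq_famU (h := h) h3
  obtain ⟨o, h7⟩ := LD.theta (c.crd h r) Qt.fbk ok fm
    (fun z => Qt.kx Qt.bas Qt.kosp Qt.exk Qt.h1 Qt.pts _ _ _ ok _ (hp z)) h1 h5
  refine ⟨o, Eq.mp (congrArg (IsCls · o) ?_) (BCls.dual h7)⟩
  have e1 := (LD.K1_eq (c.crd h r)).trans (H.Kcl_famU hr hc)
  have e2 := (LD.eK_eq (c.crd h r)).trans (H.Ecl_famU hr hc)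
  have e3 : (c.crd h r).vK = pullK (Mor.snd _ _) (S.lK h c.L) :=
    (LD.vK_eq _).trans ((Fintype.sum_unique (ι := Unit) _).trans (by
      rw [show (c.crd h r).τ () = 0 from rfl, line_zero, map_one, one_mul]
      rfl))
  rw [h2, e1, e2, e3]
  refine (congrArg _ (congrArg₂ (· + ·) (congrArg (_ - ·) (H.pK_Φ (cn hv)).symm)
    (h6.trans h4))).trans ?_
  rw [obv]
  have e4 : c.Ecl h r = ∑ a, line _ (-(c.famV r).deg h a) - (c.famV r).Kcl h 1 := rfl
  generalize (c.famV r).Kcl h 1 = a at e4 ⊢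
  generalize ∑ a, line _ (-(c.famV r).deg h a) = b at e4 ⊢
  rw [mul_comm (pullK _ _), ← show dualK _ (OP c.v 1) = OP c.v (-1) from dualK_line _,
    pullK_dualK, ← map_nsmul (dualK _), ← map_sub (dualK (c.Xr r)), mul_sub, map_sub (pK _ _),
    show dualK _ (c.Ecl h r) = dualK _ b - dualK _ a by rw [e4, map_sub], sub_mul,
    map_sub (pK _ _)]
  congr 1
  abel

theorem Geom.ob (G : c.Geom h r₀) (H : c.Ok r₀) (hB : c.Big h r₀) (hr : r₀ ≤ r) (hs : r ≤ c.s) :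
    IsCls (c.obv h r) ((h0 c.D - chi c.D).toNat + (c.s - r)) := by
  obtain ⟨o, h1⟩ := G.ob_cls H hB hr hs
  have h2 := isCls_rk h1
  rw [obv, map_sub, map_nsmul, rk_dualK, G.rk_pK H hr hs, rk_pullK, OP, rk_line] at h2
  have h3 := chi_le_h0 h H.good c.H0_ne
  have h4 := h0_eq (c := c) h
  rw [nsmul_eq_mul] at h2
  exact (show o = (h0 c.D - chi c.D).toNat + (c.s - r) by omega) ▸ h1

end Vale.Agent.P297Z.Sf.Ctx
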