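import Vale.Agent.P297Z.Diag.Alg
import Vale.Agent.P297Z.K.PK1
import Vale.Agent.P297Z.Ch.Defs

/-! P297: independent linear forms are a regular sequence and generate the ideal of a line. -/

set_option linter.all false

noncomputable section

namespace Vale.Agent.P297Z.Hb.Ps

open MvPolynomial Dg Matrix

variable {A : Type} [CommRing A] {ι : Type} [Fintype ι] [DecidableEq ι]

/-- the linear substitution -/
def sb (M : Matrix ι ι A) : MvPolynomial ι A →ₐ[A] MvPolynomial ι A := aeval fun j => lin (M j)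

theorem sb_X (M : Matrix ι ι A) (j : ι) : sb M (X j) = lin (M j) := aeval_X _ j

theorem sb_lin (M : Matrix ι ι A) (v : ι → A) : sb M (lin v) = lin (v ᵥ* M) := by
  rw [vecMul_eq_sum, map_sum, lin, Fintype.linearCombination_apply, map_sum]
  exact Finset.sum_congr rfl fun j _ => by rw [map_smul, map_smul, sb_X]; rfl

theorem sb_row {M M' : Matrix ι ι A} (h : M * M' = 1) (j : ι) : sb M' (lin (M j)) = X j := by
  rw [sb_lin, show M j ᵥ* M' = Pi.single j 1 from (funext fun k => congrFun (congrFun h j) k).trans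
    (funext fun k => by rw [one_apply, Pi.single_apply]; simp only [eq_comm]), lin,
    Fintype.linearCombination_apply_single, one_smul]

theorem sb_sb {M M' : Matrix ι ι A} (h : M' * M = 1) (p : MvPolynomial ι A) :
    sb M (sb M' p) = p :=
  AlgHom.congr_fun (algHom_ext (f := (sb M).comp (sb M')) (g := AlgHom.id _ _) fun j => by
    rw [AlgHom.comp_apply, sb_X]
    exact sb_row h j) p

/-- the ideal of some of the rows -/
def rows (M : Matrix ι ι A) (S : Set ι) : Ideal (MvPolynomial ι A) :=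
  Ideal.span ((fun j => lin (M j)) '' S)

theorem map_span {R : Type} [CommRing R] [Algebra A R] (f : R →ₐ[A] R) {g g' : ι → R}
    (h : ∀ j, f (g j) = g' j) {S : Set ι} {p : R} (hp : p ∈ Ideal.span (g '' S)) :
    f p ∈ Ideal.span (g' '' S) := by
  have := Ideal.mem_map_of_mem f hp
  rwa [Ideal.map_span, Set.image_image, funext h] at this

theorem mem_rows {M M' : Matrix ι ι A} (h : M * M' = 1) {S : Set ι} {p : MvPolynomial ι A} :
    p ∈ rows M S ↔ sb M' p ∈ Ideal.span (X '' S : Set (MvPolynomial ι A)) :=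
  ⟨map_span _ (sb_row h), fun hp => by
    rw [← sb_sb (mul_eq_one_comm.1 h) p]
    exact map_span _ (sb_X M) hp⟩

variable {B : Type} [CommRing B] [Algebra A B]

theorem map_lin (v : ι → A) :
    map (algebraMap A B) (lin v) = lin fun j => algebraMap A B (v j) := by
  simp only [lin_apply, map_sum, map_mul, map_C, map_X]

theorem rows_loc (s : A) [IsLocalization.Away s B] (M : Matrix ι ι A) {S : Set ι}
    {p : MvPolynomial ι A} : map (algebraMap A B) p ∈ rows (M.map (algebraMap A B)) S ↔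
      ∃ n : ℕ, C s ^ n * p ∈ rows M S := by
  letI : Algebra (MvPolynomial ι A) (MvPolynomial ι B) := algebraMvPolynomial
  have h := IsLocalization.algebraMap_mem_map_algebraMap_iff ((Submonoid.powers s).map
    (C (σ := ι))) (MvPolynomial ι B) (rows M S) p
  rw [algebraMap_def, rows, Ideal.map_span, Set.image_image] at h
  simp only [map_lin] at h
  refine h.trans ⟨?_, fun ⟨n, hn⟩ => ⟨_, ⟨_, ⟨n, rfl⟩, C_pow s n⟩, hn⟩⟩
  rintro ⟨_, ⟨_, ⟨n, rfl⟩, rfl⟩, hn⟩
  exact ⟨n, C_pow s n ▸ hn⟩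

theorem exists_inv {s : A} [IsLocalization.Away s B] {M : Matrix ι ι A} (hs : M.det ∣ s) :
    ∃ M', M.map (algebraMap A B) * M' = 1 :=
  ⟨_, mul_nonsing_inv _ ((algebraMap A B).map_det M ▸ IsLocalization.Away.isUnit_of_dvd s hs)⟩

theorem rows_reg (M : Matrix ι ι A) {S : Set ι} {i : ι} (hi : i ∉ S) {p : MvPolynomial ι A}
    (h : lin (M i) * p ∈ rows M S) : ∃ n : ℕ, C M.det ^ n * p ∈ rows M S := by
  obtain ⟨M', h1⟩ := exists_inv (B := Localization.Away M.det) (dvd_refl M.det)
  have h2 := (mem_rows h1).1 ((rows_loc M.det M).2 ⟨0, by rwa [pow_zero, one_mul]⟩)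
  rw [map_mul, map_lin, map_mul] at h2
  exact (rows_loc M.det M).1 ((mem_rows h1).2 (PK.X_reg hi _ (sb_row h1 i ▸ h2)))

variable [Algebra ℂ A]

theorem rows_gen (M : Matrix ι ι A) {s : A} (hs : M.det ∣ s) (i : ι) (P : Set (A →ₐ[ℂ] ℂ))
    (hP : ∀ q : MvPolynomial ι A, (∀ y ∈ P, ∀ l, aevalTower y l q = 0) → q = 0)
    {p : MvPolynomial ι A} (h : ∀ y ∈ P, y s ≠ 0 → ∀ l : ι → ℂ, l ≠ 0 →
      (∀ j, j ≠ i → ∑ k, l k * y (M j k) = 0) → aevalTower y l p = 0) :
    ∃ n : ℕ, C s ^ n * p ∈ rows M {i}ᶜ := by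
  let B := Localization.Away s
  letI : Algebra (MvPolynomial ι A) (MvPolynomial ι B) := algebraMvPolynomial
  obtain ⟨M', h1⟩ := exists_inv (B := B) hs
  refine (rows_loc s M).1 ((mem_rows h1).2 ?_)
  let κ : MvPolynomial ι B →ₐ[B] MvPolynomial ι B := aeval fun j => if j = i then X i else 0
  have h2 : ∀ q, q - κ q ∈ Ideal.span (X '' {i}ᶜ : Set (MvPolynomial ι B)) := fun q =>
    Ideal.Quotient.eq.1 (AlgHom.congr_fun (algHom_ext (f := Ideal.Quotient.mkₐ B _)
      (g := (Ideal.Quotient.mkₐ B _).comp κ) fun j => by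
        rw [AlgHom.comp_apply, aeval_X]
        split_ifs with e
        · rw [e]
        · rw [map_zero]
          exact Ideal.Quotient.eq_zero_iff_mem.2 (Ideal.subset_span ⟨j, e, rfl⟩)) q)
  obtain ⟨⟨q, _, ⟨_, ⟨n, rfl⟩, rfl⟩⟩, h3⟩ := IsLocalization.surj ((Submonoid.powers s).map
    (C (σ := ι))) (κ (sb M' (map (algebraMap A B) p)))
  simp only [algebraMap_def, map_C] at h3
  have h4 : C s * (X i * q) = 0 := hP _ fun y hy l => by
    rw [map_mul, map_mul, aevalTower_C, aevalTower_X]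
    refine mul_eq_zero.2 (or_iff_not_imp_left.2 fun h5 => mul_eq_zero.2
      (or_iff_not_imp_left.2 fun h6 => ?_))
    let y' : B →ₐ[ℂ] ℂ := IsLocalization.liftAlgHom (M := Submonoid.powers s) (f := y)
      fun ⟨_, m, e⟩ => (e ▸ (map_pow y s m).trans_ne (pow_ne_zero m h5) : y _ ≠ 0).isUnit
    have h7 : ∀ a, y' (algebraMap A B a) = y a := fun a => IsLocalization.lift_eq _ a
    have h8 : ∀ l (t : MvPolynomial ι A), aevalTower y' l (map (algebraMap A B) t) =
        aevalTower y l t := fun l t => by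
      induction t using induction_on with
      | C a => rw [map_C, aevalTower_C, aevalTower_C, h7]
      | add a b ha hb => simp only [map_add, ha, hb]
      | mul_X a j ha => simp only [map_mul, ha, map_X, aevalTower_X]
    have h9 : ∀ t, aevalTower y' l (κ (sb M' t)) =
        aevalTower y' (fun j => l i * y' (M' j i)) t := fun t => by
      induction t using induction_on with
      | C a => rw [algHom_C, algebraMap_eq, algHom_C, algebraMap_eq, aevalTower_C, aevalTower_C]
      | add a b ha hb => simp only [map_add, ha, hb]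
      | mul_X a j ha =>
        simp only [map_mul, ha, sb_X, lin_apply, map_sum, algHom_C, algebraMap_eq, aevalTower_C,
          aevalTower_X, κ, aeval_X, apply_ite (aevalTower y' l), map_zero, mul_ite, mul_zero,
          Finset.sum_ite_eq', Finset.mem_univ, if_true, mul_comm (l i)]
    have k1 : ∀ j, ∑ k, l i * y' (M' k i) * y (M j k) = if j = i then l i else 0 := fun j => by
      have := congrArg (fun N => l i * y' (N j i)) h1
      simp only [mul_apply, map_apply, map_sum, map_mul, h7, one_apply, apply_ite y', map_one,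
        map_zero, mul_ite, mul_one, mul_zero, Finset.mul_sum] at this
      exact (Finset.sum_congr rfl fun k _ => by ring).trans this
    rw [← h8, ← h3, map_mul, h9, h8, h y hy h5 _ (fun e => h6 ?_) fun j hj => by
      rw [k1, if_neg hj], zero_mul]
    have := k1 i
    simp only [congrFun e, Pi.zero_apply, zero_mul, Finset.sum_const_zero, if_true] at this
    exact this.symm
  have h5 := congrArg (map (algebraMap A B)) h4
  have u := (IsLocalization.Away.algebraMap_isUnit (S := B) s).map (C (σ := ι))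
  rw [map_mul, map_mul, map_C, map_X, ← h3, map_zero, u.mul_right_eq_zero, map_pow, map_pow,
    isRegular_X.left.mul_left_eq_zero_iff, (u.pow n).mul_left_eq_zero] at h5
  have h6 := h2 (sb M' (map (algebraMap A B) p))
  rwa [h5, sub_zero] at h6

theorem ev_lin (y : A →ₐ[ℂ] ℂ) (l : ι → ℂ) (k : ι → A) :
    aevalTower y l (lin k) = ∑ J, l J * y (k J) := by
  simp only [lin_apply, map_sum, map_mul, aevalTower_C, aevalTower_X, mul_comm]

/-- the forms of a local frame at a point where the fibre is a line -/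
theorem frame {n : ℕ} (hn : n + 1 = Fintype.card ι) {V : Type} [AddCommGroup V] [Module A V]
    (φ : V →ₗ[A] (ι → A)) {y : A →ₐ[ℂ] ℂ} (hB : FreeAt y V n) {l₀ : ι → ℂ} (h0 : l₀ ≠ 0)
    (h1 : ∀ l : ι → ℂ, (∀ k, ∑ J, l J * y (φ k J) = 0) → ∃ t : ℂ, l = t • l₀)
    (P : Set (A →ₐ[ℂ] ℂ))
    (hP : ∀ q : MvPolynomial ι A, (∀ y ∈ P, ∀ l, aevalTower y l q = 0) → q = 0) :
    ∃ v : Fin n → V, RegAt (aevalTower y l₀) (MvPolynomial ι A) (fun i => lin (φ (v i))) ∧
      ∀ p : MvPolynomial ι A, (∀ y' ∈ P, ∀ l : ι → ℂ, l ≠ 0 →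
        (∀ k, ∑ J, l J * y' (φ k J) = 0) → aevalTower y' l p = 0) →
        ∃ t, y t ≠ 0 ∧ C t * p ∈ Ideal.span (Set.range fun i => lin (φ (v i))) := by
  obtain ⟨a, v, q, h2, h3, -⟩ := AK.free_basis hB
  obtain ⟨J₀, h4⟩ := Function.ne_iff.1 h0
  let e : Fin (n + 1) ≃ ι := (Fintype.equivFinOfCardEq hn.symm).symm
  obtain ⟨M, m0, m1⟩ : ∃ M : Matrix ι ι A, M (e 0) = Pi.single J₀ 1 ∧
      ∀ i, M (e i.succ) = φ (v i) := ⟨fun j => (Fin.cons (Pi.single J₀ 1) fun i => φ (v i) :
    Fin (n + 1) → ι → A) (e.symm j), by simp only [e.symm_apply_apply, Fin.cons_zero],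
    fun i => by simp only [e.symm_apply_apply, Fin.cons_succ]⟩
  have h5 : ∀ k, C a * lin (φ k) = ∑ i, C (q i k) * lin (φ (v i)) := fun k => by
    simp only [← smul_eq_C_mul, ← map_smul, ← map_sum, h3]
  have h6 : ∀ (y' : A →ₐ[ℂ] ℂ) (l : ι → ℂ), y' a ≠ 0 → (∀ i, ∑ J, l J * y' (φ (v i) J) = 0) →
      ∀ k, ∑ J, l J * y' (φ k J) = 0 := fun y' l k1 k2 k => by
    have := congrArg (aevalTower y' l) (h5 k)
    simp only [map_mul, map_sum, aevalTower_C, ev_lin, k2, mul_zero, Finset.sum_const_zero] at this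
    exact (mul_eq_zero.1 this).resolve_left k1
  have h7 : y M.det ≠ 0 := fun o => by
    rw [AlgHom.map_det] at o
    obtain ⟨l, k1, k2⟩ := exists_mulVec_eq_zero_iff.2 o
    have k3 : ∀ j, ∑ J, l J * y (M j J) = 0 := fun j =>
      (Finset.sum_congr rfl fun _ _ => mul_comm _ _).trans (congrFun k2 j)
    obtain ⟨t, rfl⟩ := h1 l (h6 y l h2 fun i => m1 i ▸ k3 _)
    have k4 := k3 (e 0)
    simp only [m0, Pi.single_apply, apply_ite y, map_one, map_zero, mul_ite, mul_one, mul_zero,
      Finset.sum_ite_eq', Finset.mem_univ, if_true] at k4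
    exact k1 (by rw [(mul_eq_zero.1 k4).resolve_right h4, zero_smul])
  have h8 : ∀ S : Set (Fin n), rows M ((fun i => e i.succ) '' S) =
      Ideal.span ((fun i => lin (φ (v i))) '' S) := fun S => by
    rw [rows, Set.image_image]
    simp only [m1]
  refine ⟨v, fun i m hm => ?_, fun p hp => ?_⟩
  · rw [smul_eq_mul, smul_eq_mul, Ideal.mul_top, ← h8] at hm
    obtain ⟨s, hs⟩ := rows_reg M (i := e i.succ) (S := (fun i => e i.succ) '' Set.Iio i) (p := m)
      (by simp) (by rwa [m1])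
    refine ⟨C M.det ^ s, by rw [map_pow, aevalTower_C]; exact pow_ne_zero _ h7, ?_⟩
    rwa [smul_eq_mul, smul_eq_mul, Ideal.mul_top, ← h8]
  · obtain ⟨s, hs⟩ := rows_gen M (dvd_mul_right _ a) (e 0) P hP (p := p) fun y' k0 k1 l k2 k3 =>
      hp y' k0 l k2 (h6 y' l (right_ne_zero_of_mul (map_mul y' _ _ ▸ k1)) fun i =>
        m1 i ▸ k3 _ (e.injective.ne i.succ_ne_zero))
    refine ⟨_, by rw [map_pow, map_mul]; exact pow_ne_zero s (mul_ne_zero h7 h2), ?_⟩
    rw [← Set.image_univ, ← h8, C_pow]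
    refine Ideal.span_mono (Set.image_mono fun j hj => ?_) hs
    obtain ⟨j, rfl⟩ := e.surjective j
    obtain ⟨i, rfl⟩ := Fin.exists_succ_eq.2 fun o : j = 0 => hj (congrArg e o)
    exact ⟨i, trivial, rfl⟩

end Vale.Agent.P297Z.Hb.Ps
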