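import Vale.Agent.P297Z.Hb.PistA
import Vale.Agent.P297Z.Hb.GeoPt
import Vale.Agent.P297Z.Ch.Api
import Vale.Agent.P297Z.K.AF
import Vale.Agent.P297Z.Diag.Defs

/-! P297: the Segre classes of a cokernel of rank one. -/

set_option linter.all false

noncomputable section

namespace Vale.Agent.P297Z.Hb.Ps

open MvPolynomial P297Z.Dg Matrix GMod AK Ge Dim

variable {P Y : Spc} {ι : Type} [Fintype ι]

theorem isHom_unshift {M N : GMod P} {f : M.M →ₗ[P.R] N.M} {γ : P.J → ℤ}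
    (h : M.IsHom (N.shift γ) f) : (M.shift (-γ)).IsHom N f := fun g m =>
  (f.map_smul_of_tower (chr _ g) _).trans ((congrArg _ (h g m)).trans
    ((smul_smul _ _ (N.act g (f m))).trans (by rw [chr_neg_mul, one_smul]; rfl)))

theorem exists_sec (π : Mor P Y) {y : ι → P.R} {e : P.J → ℤ} (hy : ∀ J, y J ∈ P.wt e)
    {δ : Y.J → ℤ} {K : GMod Y} {φ : K.M →ₗ[Y.R] (ι → Y.R)}
    (hφ : K.IsHom (Fr Y fun _ : ι => δ) φ) : ∃ σ : (π.pull K).M →ₗ[P.R] P.R,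
      ((π.pull K).shift (-(π.ρ (-δ) + e))).IsHom (one P) σ ∧
      ∀ k, σ (pu π K k) = ∑ J, π.φ (φ k J) * y J := by
  obtain ⟨σ, h1⟩ := exists_plift π K (V := P.R)
    (AddMonoidHom.mk' (fun k => ∑ J, π.φ (φ k J) * y J) fun a b => by
      simp only [Pi.add_apply, map_add, add_mul, Finset.sum_add_distrib])
    fun s k => by
      simp only [AddMonoidHom.mk'_apply, map_smul, Pi.smul_apply, smul_eq_mul, map_mul,
        Finset.mul_sum, mul_assoc]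
  refine ⟨σ, isHom_unshift (N := one P) (isHom_pu fun t k => ?_), h1⟩
  refine (h1 _).trans (Eq.trans ?_ (congrArg _ (h1 k).symm))
  change ∑ J, π.φ (φ (K.act (tor π.ρ t) k) J) * y J =
    chr (-(π.ρ (-δ) + e)) t • P.act t (∑ J, π.φ (φ k J) * y J)
  rw [isHom_Fr.1 hφ, map_sum, Finset.smul_sum]
  refine Finset.sum_congr rfl fun J _ => ?_
  rw [fact, map_smul, π.act_map, map_mul, Spc.mem_wt.1 (hy J), mul_smul_comm, smul_smul,
    ← chr_add, chr_tor, smul_mul_assoc, map_neg, neg_add, neg_neg, neg_add_cancel_right]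

theorem segre_of {π : Mor P Y} {Q : Prj π} {y : ι → P.R} (h : IsAdj Q (fun _ => 0) y)
    (hP : P.IsProj) (hY : Y.IsProj) (δ : Y.J → ℤ) {K : GMod Y} {s : ℕ}
    (hs : s + 1 = Fintype.card ι) (hB : K.IsBun s) {Z : Set P.Pt} (hZ : P.Stab Z) {n : ℕ}
    {γ : P.J → ℤ} (hγ : γ = π.ρ (-δ) + Q.σ 1) (h1 : kact P (cc s (kc ((π.pull K).shift (-γ)) s))
      (oG P) - cls ((one P).quo (P.van Z) (Spc.van_act hZ)) ∈ Fd P n) (i : ℕ) :
    fstar (π.comp (Mor.incl _ Z hZ)) (kact _ ((line (P.sub Z hZ) γ - 1) ^ i) (oG _)) -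
      kact _ (cc i (kc K s - ∑ _ : ι, line Y (-δ))) (oG Y) ∈ Fd Y (n - i) := by
  have k4 := Flt.fstar_Fd hP hY π (AF.FF_Fd' hP.free (AF.FF_pow
    (AF.FF_one (a := line _ γ - 1) (by rw [map_sub, rk_line, map_one, sub_self])) i) h1)
  have k5 := h.segre (-δ) ⟨⟨K, s, hB⟩, rfl, (kc_eq hB).symm⟩ hs i (oG Y)
  rw [← fstar_push hP hY, pullG_oG h.flat, kact_mul, pullK_kc _ hB, ← kc_shift (hB.pull _),
    ← hγ] at k5
  have k6 : line (P.sub Z hZ) γ = pullK (Mor.incl _ Z hZ) (line _ γ) :=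
    (pullK_line (Mor.incl _ Z hZ) γ).symm
  rw [fstar_comp (hP.sub Z hZ) hP hY, k6, ← map_one (pullK (Mor.incl _ Z hZ)), ← map_sub, ← map_pow,
    fstar_proj (hP.sub Z hZ) hP, fstar_incl hP, ← neg_mem_iff, neg_sub]
  simp only [sub_zero] at k5
  rwa [map_sub, map_sub, mul_one, k5] at k4

variable [Nonempty ι] [DecidableEq ι]

theorem pt_eq {d : ι → Y.J → ℤ} (w : (Y.adj ι d).Pt) :
    w.1 = (aevalTower ((Mor.adjPr Y ι d).onPt w).1 w.co : MvPolynomial ι Y.R →ₐ[ℂ] ℂ) :=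
  congrArg Subtype.val (adj_ext (pr_adjPt _ (co_ne w)).symm (co_adjPt _ (co_ne w)).symm)

theorem pt_lin {d : ι → Y.J → ℤ} (w : (Y.adj ι d).Pt) (k : ι → Y.R) :
    w.1 (lin k) = ∑ J, w.co J * ((Mor.adjPr Y ι d).onPt w).1 (k J) :=
  (AlgHom.congr_fun (pt_eq w) _).trans (ev_lin _ _ k)

theorem segre (hY : Y.IsProj) {δ : Y.J → ℤ} {K : GMod Y} {φ : K.M →ₗ[Y.R] (ι → Y.R)}
    (hφ : K.IsHom (Fr Y fun _ : ι => δ) φ) {s : ℕ} (hs : s + 1 = Fintype.card ι) (hB : K.IsBun s)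
    {Z : Set (Y.adj ι fun _ => 0).Pt} (hZ : Spc.Stab _ Z) (hc : ∀ w, w ∈ Z ↔
      ∀ k, ∑ J, w.co J * ((Mor.adjPr Y ι _).onPt w).1 (φ k J) = 0) {n : ℕ}
    (hV : (Spc.sub _ Z hZ).IsVar n) {w : (Y.adj ι fun _ => 0).Pt} (hw : w ∈ Z)
    (h1 : ∀ l : ι → ℂ, (∀ k, ∑ J, l J * ((Mor.adjPr Y ι _).onPt w).1 (φ k J) = 0) →
      ∃ t : ℂ, l = t • w.co) {γ : Option Y.J → ℤ}
    (hγ : γ = (Mor.adjPr Y ι fun _ => 0).ρ (-δ) + fun j => j.elim 1 0) (i : ℕ) :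
    fstar ((Mor.adjPr Y ι _).comp (Mor.incl _ Z hZ))
        (kact _ ((line (Spc.sub _ Z hZ) γ - 1) ^ i) (oG _)) -
      kact _ (cc i (kc K s - ∑ _ : ι, line Y (-δ))) (oG Y) ∈ Fd Y (n - i) := by
  have hP := hY.adj ι
  obtain ⟨σ, h2, h3⟩ := exists_sec (Mor.adjPr Y ι fun _ => 0) (Spc.X_mem Y ι fun _ => 0) hφ
  replace h3 : ∀ k, σ (pu _ K k) = lin (φ k) := fun k => (h3 k).trans (lin_apply _).symm
  have h4 : ∀ (z : (Y.adj ι fun _ => 0).Pt), z ∈ Z ↔ ∀ b, z.1 (σ b) = 0 := fun z => by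
    simp only [hc, ← pt_lin, ← h3]
    refine ⟨fun o b => ?_, fun o k => o _⟩
    induction b using pu_ind with
    | h0 => rw [map_zero, map_zero]
    | h1 k => exact o k
    | hs t m hm => rw [map_smul, smul_eq_mul, map_mul, hm, mul_zero]
    | ha a b ha hb => rw [map_add, map_add, ha, hb, add_zero]
  obtain ⟨v, h5, h7⟩ := frame hs φ (hB ((Mor.adjPr Y ι _).onPt w)) (co_ne w) h1
    (Set.range Subtype.val) fun q hq => Y.mv_sep q fun x l _ => hq _ ⟨x, rfl⟩ l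
  replace h5 : RegAt w.1 (Y.adj ι fun _ => 0).R fun i => lin (φ (v i)) := pt_eq w ▸ h5
  have h8 : Ideal.span (Set.range fun i => lin (φ (v i))) ≤ LinearMap.range σ :=
    Ideal.span_le.2 (by rintro _ ⟨i, rfl⟩; exact ⟨_, h3 _⟩)
  have h9 : ∀ r ∈ Spc.van _ Z, ∃ t, w.1 t ≠ 0 ∧
      t * r ∈ Ideal.span (Set.range fun i => lin (φ (v i))) := fun r hr => by
    obtain ⟨t, k1, k2⟩ := h7 r (by
      rintro _ ⟨y : Y.Pt, rfl⟩ l k1 k2
      exact hr (adjPt _ y l k1) ((hc _).2 (by rwa [co_adjPt, pr_adjPt])))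
    exact ⟨_, (show w.1 (C t : MvPolynomial ι Y.R) ≠ 0 from k1), k2⟩
  obtain ⟨k1, k2⟩ := (isVar_sub hP hZ).1 hV
  have k3 := zero_locus ⟨_, s, (hB.pull _).shift _⟩ σ h2 _ k1 (Spc.van_act hZ)
    (fun b z hz => (h4 z).1 hz b) (fun z hz r hr => hr z ((h4 z).2 hz)) w (fun r hr => hr w hw)
    (kReg_of (hB.pull _ w) σ _ h5 (fun j => h3 (v j) ▸ (h4 w).1 hw _)
      (fun j => ⟨1, _, one_ne, (h3 _).trans (one_mul _).symm⟩)
      fun b => h9 _ fun z hz => (h4 z).1 hz b)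
    (fun r hr => (h9 r hr).imp fun t ht => ⟨ht.1, h8 ht.2⟩) _ (le_iff_lt_succ.1 k2.le)
  exact segre_of (isAdj_adjPr Y ι _) hP hY δ hs hB hZ hγ (kc_eq _ ▸ hγ ▸ k3) i

end Vale.Agent.P297Z.Hb.Ps
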