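import Vale.Agent.P297Z.Hb.PwDefs
import Vale.Agent.P297Z.K.AK4
import Vale.Agent.P297Z.Top.Defs

/-! P297: bundles given by their fibres inside a fixed space: sections, maps, fibres. -/

set_option linter.all false

noncomputable section

namespace Vale.Agent.P297Z.Pw.Rp

open Submodule.Quotient renaming mk → mq
open GMod

variable {W X : Spc} {P P' : Rp X} {V V₁ V₂ : X.Pt → Submodule ℂ P.Y}
  {V' : X.Pt → Submodule ℂ P'.Y} {n n₁ n₂ n' k : ℕ} {Φ : X.Pt → P.Y →ₗ[ℂ] P'.Y}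

theorem ext_pt {a b : X.R} (h : ∀ z : X.Pt, z.1 a = z.1 b) : a = b :=
  sub_eq_zero.1 (X.sep _ fun z hz => by rw [map_sub]; exact sub_eq_zero.2 (h ⟨z, hz⟩))

theorem poly_ind {p : Fn X P.Y → Prop} (h1 : ∀ u ∈ P.U, p (cst X u)) (h0 : p 0)
    (ha : ∀ a b, a ∈ P.poly → b ∈ P.poly → p a → p b → p (a + b))
    (hs : ∀ (r : X.R) a, a ∈ P.poly → p a → p (r • a)) {h : Fn X P.Y} (hh : h ∈ P.poly) : p h :=
  Submodule.span_induction (p := fun h _ => p h) (by rintro _ ⟨u, hu, rfl⟩; exact h1 u hu) h0 ha hs hh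

theorem val_mem {h : Fn X P.Y} (hh : h ∈ P.poly) (z : X.Pt) : h z ∈ P.U :=
  poly_ind (p := fun h => h z ∈ P.U) (fun _ hu => hu) P.U.zero_mem
    (fun _ _ _ _ => P.U.add_mem) (fun r _ _ => P.U.smul_mem (z.1 r)) hh

theorem smul_cst_mem (a : X.R) {u : P.Y} (hu : u ∈ P.U) :
    (fun z => z.1 a • u : Fn X P.Y) ∈ P.poly := P.poly.smul_mem a (P.cst_mem hu)

theorem Alg.le (h : P.Alg V) (z : X.Pt) : V z ≤ P.U := fun v hv => by
  obtain ⟨s, h1, -, rfl⟩ := h z v hv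
  exact val_mem h1 z

theorem mem_tot_wt {h : P.poly} {γ : X.J → ℤ} :
    h ∈ P.tot.wt γ ↔ ∀ g z, P.D g (h.1 (Spc.mv z g)) = chr γ g • h.1 z :=
  forall_congr' fun _ => Subtype.ext_iff.trans funext_iff

/-- the value at a point -/
def ev (P : Rp X) (z : X.Pt) : P.poly →ₗ[ℂ] P.Y where
  toFun := fun h => h.1 z
  map_add' := fun _ _ => rfl
  map_smul' := fun _ _ => rfl

theorem sum_val {ι : Type} (s : Finset ι) (h : ι → P.poly) (z : X.Pt) :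
    (∑ i ∈ s, h i).1 z = ∑ i ∈ s, (h i).1 z := map_sum (P.ev z) h s

/-- the coordinates of a section -/
theorem exists_coord (l : P.Y →ₗ[ℂ] ℂ) :
    ∃ τ : P.poly →ₗ[X.R] X.R, ∀ h (z : X.Pt), z.1 (τ h) = l (h.1 z) := by
  have key : ∀ h : P.poly, ∃ a : X.R, ∀ z : X.Pt, z.1 a = l (h.1 z) := fun h =>
    poly_ind (p := fun h => ∃ a : X.R, ∀ z : X.Pt, z.1 a = l (h z))
      (fun u _ => ⟨algebraMap ℂ X.R (l u), fun z => z.1.commutes _⟩)
      ⟨0, fun z => (map_zero _).trans (map_zero l).symm⟩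
      (fun _ _ _ _ ⟨a, ha⟩ ⟨b, hb⟩ => ⟨a + b, fun z => by rw [map_add, ha, hb, add_apply, map_add]⟩)
      (fun r _ _ ⟨a, ha⟩ => ⟨r * a, fun z => by rw [map_mul, ha, smul_apply, map_smul, smul_eq_mul]⟩)
      h.2
  choose τ hτ using key
  refine ⟨⟨⟨τ, fun a b => ext_pt fun z => ?_⟩, fun r a => ext_pt fun z => ?_⟩, hτ⟩
  · rw [map_add, hτ, hτ, hτ]
    exact map_add l _ _
  · rw [RingHom.id_apply, smul_eq_mul, map_mul, hτ, hτ]
    exact map_smul l _ _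

theorem coord_isHom (l : P.Y →ₗ[ℂ] ℂ) (ε : X.J → ℤ)
    (hl : ∀ g, ∀ u ∈ P.U, l (P.D g u) = chr (-ε) g * l u) (τ : P.poly →ₗ[X.R] X.R)
    (hτ : ∀ h (z : X.Pt), z.1 (τ h) = l (h.1 z)) : P.tot.IsHom ((GMod.one X).shift ε) τ :=
  fun g (h : P.poly) => ext_pt fun z => by
    refine (hτ (P.actP g h) z).trans ((hl g _ (val_mem h.2 (Spc.mv z g))).trans ?_)
    rw [← hτ]
    exact (map_smul z.1 (chr (-ε) g) (X.act g (τ h))).symm

theorem Mp.map_poly (H : Mp P P' Φ) {h : Fn X P.Y} (hh : h ∈ P.poly) :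
    (fun z => Φ z (h z) : Fn X P'.Y) ∈ P'.poly :=
  poly_ind (p := fun h => (fun z => Φ z (h z) : Fn X P'.Y) ∈ P'.poly) H.poly
    ((funext fun z => map_zero (Φ z) : (fun z => Φ z ((0 : Fn X P.Y) z) : Fn X P'.Y) = 0).symm ▸
      P'.poly.zero_mem)
    (fun a b _ _ ha hb => (funext fun z => map_add (Φ z) _ _ : (fun z => Φ z ((a + b) z) :
      Fn X P'.Y) = (fun z => Φ z (a z) : Fn X P'.Y) + (fun z => Φ z (b z) : Fn X P'.Y)).symm ▸
      P'.poly.add_mem ha hb)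
    (fun r a _ ha => (funext fun z => map_smul (Φ z) _ _ : (fun z => Φ z ((r • a) z) :
      Fn X P'.Y) = (fun z => z.1 r • Φ z (a z) : Fn X P'.Y)).symm ▸ P'.poly.smul_mem r ha) hh

theorem Mp.map_mem (H : Mp P P' Φ) (z : X.Pt) {u : P.Y} (hu : u ∈ P.U) : Φ z u ∈ P'.U :=
  val_mem (H.poly u hu) z

theorem Mp.comp {P'' : Rp X} {Ψ : X.Pt → P'.Y →ₗ[ℂ] P''.Y} (H' : Mp P' P'' Ψ) (H : Mp P P' Φ) :
    Mp P P'' fun z => (Ψ z).comp (Φ z) :=
  ⟨fun u hu => H'.map_poly (H.poly u hu), fun z g u hu =>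
    (congrArg (Ψ z) (H.eqv z g u hu)).trans (H'.eqv z g _ (H.map_mem _ hu))⟩

theorem Mp.add {Ψ : X.Pt → P.Y →ₗ[ℂ] P'.Y} (H : Mp P P' Φ) (H' : Mp P P' Ψ) :
    Mp P P' fun z => Φ z + Ψ z :=
  ⟨fun u hu => P'.poly.add_mem (H.poly u hu) (H'.poly u hu), fun z g u hu => by
    rw [LinearMap.add_apply, LinearMap.add_apply, map_add, H.eqv z g u hu, H'.eqv z g u hu]⟩

theorem Mp.neg (H : Mp P P' Φ) : Mp P P' fun z => -Φ z :=
  ⟨fun u hu => P'.poly.neg_mem (H.poly u hu), fun z g u hu => by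
    rw [LinearMap.neg_apply, LinearMap.neg_apply, map_neg, H.eqv z g u hu]⟩

theorem mp_cst (φ : P.Y →ₗ[ℂ] P'.Y) (h1 : ∀ u ∈ P.U, φ u ∈ P'.U)
    (h2 : ∀ g, ∀ u ∈ P.U, φ (P.D g u) = P'.D g (φ u)) : Mp P P' fun _ => φ :=
  ⟨fun u hu => P'.cst_mem (h1 u hu), fun _ => h2⟩

theorem mp_zero : Mp P P' fun _ => 0 :=
  mp_cst 0 (fun _ _ => P'.U.zero_mem) fun g _ _ => (map_zero (P'.D g)).symm

theorem mp_id : Mp P P fun _ => LinearMap.id := mp_cst _ (fun _ h => h) fun _ _ _ => rfl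

theorem mp_inl : Mp P (P.prod P') fun _ => LinearMap.inl ℂ P.Y P'.Y :=
  mp_cst (P' := P.prod P') (LinearMap.inl ℂ P.Y P'.Y) (fun _ h => ⟨h, P'.U.zero_mem⟩)
    fun g _ _ => Prod.ext rfl (map_zero (P'.D g)).symm

theorem mp_inr : Mp P' (P.prod P') fun _ => LinearMap.inr ℂ P.Y P'.Y :=
  mp_cst (P' := P.prod P') (LinearMap.inr ℂ P.Y P'.Y) (fun _ h => ⟨P.U.zero_mem, h⟩)
    fun g _ _ => Prod.ext (map_zero (P.D g)).symm rfl

theorem mp_fst : Mp (P.prod P') P fun _ => LinearMap.fst ℂ P.Y P'.Y :=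
  mp_cst (P := P.prod P') (LinearMap.fst ℂ P.Y P'.Y) (fun _ h => h.1) fun _ _ _ => rfl

theorem mp_snd : Mp (P.prod P') P' fun _ => LinearMap.snd ℂ P.Y P'.Y :=
  mp_cst (P := P.prod P') (LinearMap.snd ℂ P.Y P'.Y) (fun _ h => h.2) fun _ _ _ => rfl

theorem Mp.congr {Ψ : X.Pt → P.Y →ₗ[ℂ] P'.Y} (H : Mp P P' Φ) (h : ∀ z u, Φ z u = Ψ z u) :
    Mp P P' Ψ := (funext fun z => LinearMap.ext (h z) : Φ = Ψ) ▸ H

theorem Mp.prod {P'' : Rp X} {Ψ : X.Pt → P.Y →ₗ[ℂ] P''.Y} (H : Mp P P' Φ) (H' : Mp P P'' Ψ) :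
    Mp P (P'.prod P'') fun z => (Φ z).prod (Ψ z) :=
  ((mp_inl.comp H).add (mp_inr.comp H')).congr fun _ _ => Prod.ext (add_zero _) (zero_add _)

theorem Mp.coprod {P'' : Rp X} {Ψ : X.Pt → P''.Y →ₗ[ℂ] P'.Y} (H : Mp P P' Φ) (H' : Mp P'' P' Ψ) :
    Mp (P.prod P'') P' fun z => (Φ z).coprod (Ψ z) :=
  ((H.comp mp_fst).add (H'.comp mp_snd)).congr fun _ _ => rfl

theorem mp_sum {ι : Type} (s : Finset ι) {Ψ : ι → X.Pt → P.Y →ₗ[ℂ] P'.Y}
    (H : ∀ i ∈ s, Mp P P' (Ψ i)) : Mp P P' fun z => ∑ i ∈ s, Ψ i z := by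
  classical
  induction s using Finset.induction_on with
  | empty => exact mp_zero
  | insert a t ha ih =>
    simp only [Finset.sum_insert ha]
    exact (H a (Finset.mem_insert_self _ _)).add (ih fun i hi => H i (Finset.mem_insert_of_mem hi))

theorem mp_proj {ι : Type} [Fintype ι] {Q : ι → Rp X} (i : ι) :
    Mp (pi Q) (Q i) fun _ => LinearMap.proj (R := ℂ) (φ := fun i => (Q i).Y) i :=
  mp_cst (P := pi Q) (LinearMap.proj (R := ℂ) (φ := fun i => (Q i).Y) i) (fun _ h => h i trivial)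
    fun _ _ _ => rfl

theorem mp_single {ι : Type} [Fintype ι] [DecidableEq ι] {Q : ι → Rp X} (i : ι) :
    Mp (Q i) (pi Q) fun _ => LinearMap.single ℂ (fun i => (Q i).Y) i :=
  mp_cst (P' := pi Q) (LinearMap.single ℂ (fun i => (Q i).Y) i)
    (fun u h j _ => by
      show (Pi.single i u : ∀ i, (Q i).Y) j ∈ (Q j).U
      by_cases e : j = i
      · subst e
        rwa [Pi.single_eq_same]
      · rw [Pi.single_eq_of_ne e]
        exact zero_mem _)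
    fun g u _ => funext fun j => by
      show (Pi.single i ((Q i).D g u) : ∀ i, (Q i).Y) j = (Q j).D g ((Pi.single i u : ∀ i, (Q i).Y) j)
      by_cases e : j = i
      · subst e
        rw [Pi.single_eq_same, Pi.single_eq_same]
      · rw [Pi.single_eq_of_ne e, Pi.single_eq_of_ne e, map_zero]

theorem mp_pi {ι : Type} [Fintype ι] {Q : ι → Rp X} {Ψ : ∀ i, X.Pt → P.Y →ₗ[ℂ] (Q i).Y}
    (H : ∀ i, Mp P (Q i) (Ψ i)) : Mp P (pi Q) fun z => LinearMap.pi fun i => Ψ i z := by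
  classical
  exact (mp_sum Finset.univ fun i _ => (mp_single i).comp (H i)).congr fun z u =>
    (LinearMap.sum_apply _ _ u).trans (Finset.univ_sum_single fun i => Ψ i z u)

/-- the map on the polynomial functions -/
def Mp.lin (H : Mp P P' Φ) : P.tot.M →ₗ[X.R] P'.tot.M where
  toFun := fun h => ⟨fun z => Φ z (h.1 z), H.map_poly h.2⟩
  map_add' := fun _ _ => Subtype.ext (funext fun z => map_add (Φ z) _ _)
  map_smul' := fun _ _ => Subtype.ext (funext fun z => map_smul (Φ z) _ _)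

theorem Mp.isHom (H : Mp P P' Φ) : P.tot.IsHom P'.tot H.lin := fun g h =>
  Subtype.ext (funext fun z => H.eqv z g _ (val_mem h.2 _))

/-! ### fibres -/

theorem fib0' {h : P.poly} {z : X.Pt} (hz : h.1 z = 0) : (mq h : Fib z.1 P.poly) = 0 := by
  let b := Module.finBasis ℂ P.U
  choose l hl using fun i => LinearMap.exists_extend (b.coord i)
  choose τ hτ using fun i => exists_coord (P := P) (l i)
  have e : h = (∑ i, τ i h • (⟨cst X (b i : P.Y), P.cst_mem (b i).2⟩ : P.poly) : P.poly) :=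
    Subtype.ext (funext fun w => by
      have h1 := congrArg P.U.subtype (b.sum_repr ⟨h.1 w, val_mem h.2 w⟩)
      rw [map_sum] at h1
      refine h1.symm.trans ((Finset.sum_congr rfl fun i _ => ?_).trans (sum_val _ _ w).symm)
      show _ = w.1 (τ i h) • (b i : P.Y)
      rw [hτ, map_smul]
      exact congrArg (· • _) (LinearMap.congr_fun (hl i) ⟨h.1 w, val_mem h.2 w⟩).symm)
  rw [Submodule.Quotient.mk_eq_zero, e]
  refine Submodule.sum_mem (RingHom.ker z.1 • (⊤ : Submodule X.R P.poly)) fun i _ =>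
    Submodule.smul_mem_smul ?_ Submodule.mem_top
  rw [RingHom.mem_ker, hτ, hz, map_zero]

theorem fib0 {h : P.tot.M} {z : X.Pt} (hz : h.1 z = 0) : (mq h : Fib z.1 P.tot.M) = 0 := fib0' hz

variable {A B : GMod X}

/-- a map that factors through the fibre -/
def fibL {R A Y : Type} [CommRing R] [Algebra ℂ R] (z : R →ₐ[ℂ] ℂ) [AddCommGroup A] [Module R A]
    [Module ℂ A] [IsScalarTower ℂ R A] [AddCommGroup Y] [Module ℂ Y] (e : A →ₗ[ℂ] Y)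
    (h : ∀ (r : R) a, e (r • a) = z r • e a) : Fib z A →ₗ[ℂ] Y where
  __ := QuotientAddGroup.lift (RingHom.ker z • ⊤ : Submodule R A).toAddSubgroup e.toAddMonoidHom
    fun a ha => Submodule.smul_induction_on (p := fun a => e a = 0) ha
      (fun r hr a _ => by rw [h, RingHom.mem_ker.1 hr, zero_smul])
      fun a b ha hb => by rw [map_add, ha, hb, add_zero]
  map_smul' := fun c x => by
    obtain ⟨a, rfl⟩ := fib_surj x
    exact map_smul e c a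

/-- the value on the fibre -/
def evF (ψ : A.M →ₗ[X.R] P.tot.M) (z : X.Pt) : Fib z.1 A.M →ₗ[ℂ] P.Y :=
  fibL z.1
    { toFun := fun a => (ψ a).1 z
      map_add' := fun a b => congrArg (fun s : P.poly => s.1 z) (map_add ψ a b)
      map_smul' := fun c a => congrArg (fun s : P.poly => s.1 z) (ψ.map_smul_of_tower c a) }
    fun r a => congrArg (fun s : P.poly => s.1 z) (map_smul ψ r a)

theorem evF_mk (ψ : A.M →ₗ[X.R] P.tot.M) (z : X.Pt) (a : A.M) : evF ψ z (mq a) = (ψ a).1 z := rfl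

theorem val_of_mk (ψ : A.M →ₗ[X.R] P.tot.M) {z : X.Pt} {a b : A.M}
    (h : (mq a : Fib z.1 A.M) = mq b) : (ψ a).1 z = (ψ b).1 z := congrArg (evF ψ z) h

theorem evF_inj {ψ : A.M →ₗ[X.R] P.tot.M} {z : X.Pt}
    (h : ∀ a, (ψ a).1 z = 0 → (mq a : Fib z.1 A.M) = 0) : Function.Injective (evF ψ z) :=
  (injective_iff_map_eq_zero _).2 fun x hx => by
    obtain ⟨a, rfl⟩ := fib_surj x
    exact h a hx

theorem range_evF {ψ : A.M →ₗ[X.R] P.tot.M} {z : X.Pt} {T : Submodule ℂ P.Y}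
    (hV : ∀ v, v ∈ T ↔ ∃ a, (ψ a).1 z = v) : LinearMap.range (evF ψ z) = T :=
  Submodule.ext fun v => ⟨fun ⟨x, hx⟩ => by
    obtain ⟨a, rfl⟩ := fib_surj x
    exact (hV v).2 ⟨a, hx⟩, fun hv => ((hV v).1 hv).elim fun a ha => ⟨mq a, ha⟩⟩

theorem frk_eq {ψ : A.M →ₗ[X.R] P.tot.M} {z : X.Pt} {T : Submodule ℂ P.Y}
    (hV : ∀ v, v ∈ T ↔ ∃ a, (ψ a).1 z = v) : frk z.1 ψ = Module.finrank ℂ T := by
  have e : evF ψ z = evF LinearMap.id z ∘ₗ fibC z.1 ψ := LinearMap.ext fun x => by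
    obtain ⟨a, rfl⟩ := fib_surj x
    rfl
  rw [← range_evF hV, e, LinearMap.range_comp]
  exact (Submodule.equivMapOfInjective _ (evF_inj fun _ => fib0) _).finrank_eq

theorem fdim_eq {ψ : A.M →ₗ[X.R] P.tot.M} {z : X.Pt} {T : Submodule ℂ P.Y}
    (hV : ∀ v, v ∈ T ↔ ∃ a, (ψ a).1 z = v)
    (h : ∀ a, (ψ a).1 z = 0 → (mq a : Fib z.1 A.M) = 0) : fdim z.1 A.M = Module.finrank ℂ T := by
  rw [← range_evF hV]
  exact (LinearMap.finrank_range_of_inj (evF_inj h)).symm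

theorem tot_isBun (P : Rp X) : P.tot.IsBun (Module.finrank ℂ P.U) := isBun_of_rank fun z =>
  fdim_eq (ψ := LinearMap.id) (fun v => ⟨fun hv => ⟨⟨cst X v, P.cst_mem hv⟩, rfl⟩,
    fun ⟨a, ha⟩ => ha ▸ val_mem a.2 z⟩) fun _ => fib0

theorem exists_add {f : A.M →ₗ[X.R] B.M} {b : ℕ} (hB : B.IsBun b) (h : ∀ z : X.Pt, frk z.1 f = k) :
    ∃ c, B.IsBun (k + c) := by
  refine ⟨b - k, fun z => ?_⟩
  have h1 : frk z.1 f ≤ fdim z.1 B.M := Submodule.finrank_le _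
  rw [h z, hB.fdim] at h1
  rw [Nat.add_sub_cancel' h1]
  exact hB z

/-- the inclusion of the sections -/
def inc (hV : P.Eqv V) : (P.Sec V hV).M →ₗ[X.R] P.tot.M := (P.secS V).subtype

theorem inc_isHom (hV : P.Eqv V) : (P.Sec V hV).IsHom P.tot (inc hV) := fun _ _ => rfl

theorem inc_inj (hV : P.Eqv V) : Function.Injective (inc hV) := Subtype.val_injective

theorem inc_mem (hV : P.Eqv V) (s : (P.Sec V hV).M) (z : X.Pt) : (inc hV s).1 z ∈ V z := s.2 z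

theorem Sb.val (h : P.Sb V n) (z : X.Pt) (v : P.Y) : v ∈ V z ↔ ∃ s, (inc h.eqv s).1 z = v :=
  ⟨fun hv => (h.alg z v hv).elim fun s ⟨h1, h2, h3⟩ => ⟨⟨⟨s, h1⟩, h2⟩, h3⟩,
    fun ⟨s, hs⟩ => hs ▸ inc_mem h.eqv s z⟩

theorem Sb.ses_coker (h : P.Sb V n) : SES _ _ (inc_isHom h.eqv).cokerM (inc h.eqv)
    (LinearMap.range (inc h.eqv)).mkQ := (inc_isHom h.eqv).ses_coker fun _ => .of_inj (inc_inj _)

theorem Sb.coker (h : P.Sb V n) :
    ∃ c, P.tot.IsBun (n + c) ∧ (inc_isHom h.eqv).cokerM.IsBun c := by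
  have h1 : ∀ z : X.Pt, frk z.1 (inc h.eqv) = n := fun z => (frk_eq (h.val z)).trans (h.dim z)
  obtain ⟨c, hc⟩ := exists_add P.tot_isBun h1
  exact ⟨c, hc, (inc_isHom h.eqv).isBun_coker hc h1⟩

theorem Sb.isBun (h : P.Sb V n) : (P.Sec V h.eqv).IsBun n :=
  h.coker.elim fun _ hc => h.ses_coker.isBun_left hc.1 hc.2

theorem Sb.cl_eq (h : P.Sb V n) : P.cl V n = kc (P.Sec V h.eqv) n := dif_pos h.eqv

theorem Sb.isCls (h : P.Sb V n) : IsCls (P.cl V n) n :=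
  ⟨⟨_, n, h.isBun⟩, rfl, (h.cl_eq.trans (kc_eq h.isBun)).symm⟩

theorem Sb.fib_zero (h : P.Sb V n) (z : X.Pt) (s : (P.Sec V h.eqv).M) (hs : s.1.1 z = 0) :
    (Submodule.Quotient.mk s : Fib z.1 (P.Sec V h.eqv).M) = 0 :=
  h.coker.elim fun _ hc => h.ses_coker.fib_inj hc.2 z ((fib0 hs).trans (map_zero (fibMap z.1 (inc h.eqv))).symm)

theorem Sb.mk_eq (h : P.Sb V n) {z : X.Pt} {s t : (P.Sec V h.eqv).M}
    (hs : (inc h.eqv s).1 z = (inc h.eqv t).1 z) : (mq s : Fib z.1 (P.Sec V h.eqv).M) = mq t :=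
  evF_inj (ψ := inc h.eqv) (h.fib_zero z) hs

theorem Sb.fin (h : P.Sb V n) (z : X.Pt) : FiniteDimensional ℂ (V z) :=
  Submodule.finiteDimensional_of_le (h.alg.le z)

/-- the map to the sections -/
def toSec (hV : P.Eqv V) (ψ : A.M →ₗ[X.R] P.tot.M) (h : ∀ a z, (ψ a).1 z ∈ V z) :
    A.M →ₗ[X.R] (P.Sec V hV).M := ψ.codRestrict (P.secS V) h

theorem toSec_isHom (hV : P.Eqv V) {ψ : A.M →ₗ[X.R] P.tot.M} (hψ : A.IsHom P.tot ψ)
    (h : ∀ a z, (ψ a).1 z ∈ V z) : A.IsHom (P.Sec V hV) (toSec hV ψ h) :=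
  fun g a => Subtype.ext (hψ g a)

theorem Sb.toSec_surj (h : P.Sb V n) {ψ : A.M →ₗ[X.R] P.tot.M}
    (hV : ∀ z v, v ∈ V z ↔ ∃ a, (ψ a).1 z = v) (z : X.Pt) :
    Function.Surjective (fibMap z.1 (toSec h.eqv ψ fun a z => (hV z _).2 ⟨a, rfl⟩)) := fun x => by
  obtain ⟨s, rfl⟩ := fib_surj x
  obtain ⟨a, ha⟩ := (hV z _).1 (inc_mem h.eqv s z)
  exact ⟨mq a, h.mk_eq ha⟩

theorem sb_hom {ψ : A.M →ₗ[X.R] P.tot.M} (hψ : A.IsHom P.tot ψ)
    (hV : ∀ z v, v ∈ V z ↔ ∃ a, (ψ a).1 z = v) (hn : ∀ z, Module.finrank ℂ (V z) = n) :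
    P.Sb V n := by
  refine ⟨fun z g v hv => ?_, fun z v hv => ?_, hn⟩
  · obtain ⟨a, rfl⟩ := (hV _ v).1 hv
    exact (hV z _).2 ⟨A.act g a, congrArg (fun s : P.poly => s.1 z) (hψ g a)⟩
  · obtain ⟨a, rfl⟩ := (hV _ v).1 hv
    exact ⟨_, (ψ a).2, fun z' => (hV z' _).2 ⟨a, rfl⟩, rfl⟩

theorem Sb.cl_hom (h : P.Sb V n) {ψ : A.M →ₗ[X.R] P.tot.M} (hψ : A.IsHom P.tot ψ)
    (hV : ∀ z v, v ∈ V z ↔ ∃ a, (ψ a).1 z = v) (hA : A.IsBun n) : P.cl V n = kc A n :=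
  h.cl_eq.trans (kc_qis (qis_of_fib (toSec_isHom h.eqv hψ _) h.isBun fun z =>
    fib_bij_of_surj (h.toSec_surj hV z) ((hA.fdim z).trans (h.isBun.fdim z).symm).le) n).symm

theorem sb_inj {ψ : A.M →ₗ[X.R] P.tot.M} (hψ : A.IsHom P.tot ψ)
    (hV : ∀ z v, v ∈ V z ↔ ∃ a, (ψ a).1 z = v) (hA : A.IsBun n)
    (hi : ∀ (z : X.Pt) a, (ψ a).1 z = 0 → (mq a : Fib z.1 A.M) = 0) :
    P.Sb V n ∧ P.cl V n = kc A n :=
  have h := sb_hom hψ hV fun z => (fdim_eq (hV z) (hi z)).symm.trans (hA.fdim z)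
  ⟨h, h.cl_hom hψ hV hA⟩

end Vale.Agent.P297Z.Pw.Rp
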