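import Vale.Agent.P297Z.K.AG

/-! P297: bundles given by their fibres inside a fixed space: definitions. -/

set_option linter.all false

noncomputable section

namespace Vale.Agent.P297Z.Pw

variable {W X : Spc}

/-- functions on the points -/
def Fn (X : Spc) (Y : Type) : Type := X.Pt → Y

section inst

variable {Y : Type} [AddCommGroup Y] [Module ℂ Y]

instance : AddCommGroup (Fn X Y) := inferInstanceAs (AddCommGroup (X.Pt → Y))
instance : Module ℂ (Fn X Y) := inferInstanceAs (Module ℂ (X.Pt → Y))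

instance : Module X.R (Fn X Y) where
  smul a h := fun z => z.1 a • h z
  one_smul h := funext fun z => by
    change z.1 1 • h z = h z
    rw [map_one, one_smul]
  mul_smul a b h := funext fun z => by
    change z.1 (a * b) • h z = z.1 a • z.1 b • h z
    rw [map_mul, mul_smul]
  smul_zero a := funext fun z => smul_zero (z.1 a)
  smul_add a h k := funext fun z => smul_add (z.1 a) (h z) (k z)
  add_smul a b h := funext fun z => by
    change z.1 (a + b) • h z = z.1 a • h z + z.1 b • h z
    rw [map_add, add_smul]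
  zero_smul h := funext fun z => by
    change z.1 0 • h z = 0
    rw [map_zero, zero_smul]

instance : IsScalarTower ℂ X.R (Fn X Y) := ⟨fun c a h => funext fun z => by
  change z.1 (c • a) • h z = c • z.1 a • h z
  rw [map_smul, smul_assoc]⟩

theorem smul_apply (a : X.R) (h : Fn X Y) (z : X.Pt) : (a • h) z = z.1 a • h z := rfl
theorem add_apply (h k : Fn X Y) (z : X.Pt) : (h + k) z = h z + k z := rfl
theorem sub_apply (h k : Fn X Y) (z : X.Pt) : (h - k) z = h z - k z := rfl
theorem zero_apply (z : X.Pt) : (0 : Fn X Y) z = 0 := rfl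
theorem csmul_apply (c : ℂ) (h : Fn X Y) (z : X.Pt) : (c • h) z = c • h z := rfl

/-- the constant functions -/
def cst (X : Spc) : Y →ₗ[ℂ] Fn X Y where
  toFun := fun u _ => u
  map_add' := fun _ _ => rfl
  map_smul' := fun _ _ => rfl

theorem cst_apply (u : Y) (z : X.Pt) : cst X u z = u := rfl

end inst

/-- a finite dimensional space of values with an action of the torus -/
structure Rp (X : Spc) where
  Y : Type
  [acg : AddCommGroup Y]
  [mC : Module ℂ Y]
  D : (X.J → ℂˣ) → Y →ₗ[ℂ] Y
  U : Submodule ℂ Y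
  fin : FiniteDimensional ℂ U
  gen : U ≤ Submodule.span ℂ {u | u ∈ U ∧ ∃ γ, u ∈ wt D γ}

attribute [instance] Rp.acg Rp.mC Rp.fin

namespace Rp

variable (P : Rp X)

theorem D_mem (g : X.J → ℂˣ) {u : P.Y} (hu : u ∈ P.U) : P.D g u ∈ P.U := by
  refine Submodule.span_induction (p := fun u _ => P.D g u ∈ P.U) ?_ ?_ ?_ ?_ (P.gen hu)
  · rintro u ⟨h1, γ, h2⟩
    rw [show P.D g u = chr γ g • u from h2 g]
    exact P.U.smul_mem _ h1
  · rw [map_zero]; exact P.U.zero_mem
  · intro a b _ _ ha hb
    rw [map_add]; exact P.U.add_mem ha hb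
  · intro c a _ ha
    rw [map_smul]; exact P.U.smul_mem _ ha

/-- the polynomial functions with values in `U` -/
def poly : Submodule X.R (Fn X P.Y) := Submodule.span X.R (cst X '' (P.U : Set P.Y))

theorem cst_mem {u : P.Y} (hu : u ∈ P.U) : cst X u ∈ P.poly := Submodule.subset_span ⟨u, hu, rfl⟩

/-- the action on the functions -/
def actF (g : X.J → ℂˣ) : Fn X P.Y →ₗ[ℂ] Fn X P.Y where
  toFun := fun h z => P.D g (h (Spc.mv z g))
  map_add' := fun _ _ => funext fun _ => map_add (P.D g) _ _
  map_smul' := fun c _ => funext fun _ => map_smul (P.D g) c _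

theorem actF_smul (g : X.J → ℂˣ) (a : X.R) (h : Fn X P.Y) :
    P.actF g (a • h) = X.act g a • P.actF g h := funext fun _ => map_smul (P.D g) _ _

theorem actF_mem (g : X.J → ℂˣ) {h : Fn X P.Y} (hh : h ∈ P.poly) : P.actF g h ∈ P.poly := by
  refine Submodule.span_induction (p := fun h _ => P.actF g h ∈ P.poly) ?_ ?_ ?_ ?_ hh
  · rintro _ ⟨u, hu, rfl⟩
    exact P.cst_mem (P.D_mem g hu)
  · rw [map_zero]; exact P.poly.zero_mem
  · intro a b _ _ ha hb
    rw [map_add]; exact P.poly.add_mem ha hb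
  · intro c a _ ha
    rw [actF_smul]; exact P.poly.smul_mem _ ha

theorem poly_fg : P.poly.FG := by
  obtain ⟨s, hs⟩ := (Submodule.fg_iff_finiteDimensional P.U).2 P.fin
  refine Submodule.fg_def.2 ⟨cst X '' (s : Set P.Y), s.finite_toSet.image _, le_antisymm
    (Submodule.span_mono (Set.image_mono (hs ▸ Submodule.subset_span))) (Submodule.span_le.2 ?_)⟩
  rintro _ ⟨u, hu, rfl⟩
  rw [← hs] at hu
  refine Submodule.span_induction (p := fun u _ => cst X u ∈
    Submodule.span X.R (cst X '' (s : Set P.Y))) ?_ ?_ ?_ ?_ hu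
  · exact fun u hu => Submodule.subset_span ⟨u, hu, rfl⟩
  · rw [map_zero]; exact Submodule.zero_mem _
  · intro a b _ _ ha hb
    rw [map_add]; exact Submodule.add_mem _ ha hb
  · intro c a _ ha
    rw [map_smul]; exact Submodule.smul_of_tower_mem _ c ha

/-- the action on the polynomial functions -/
def actP (g : X.J → ℂˣ) : P.poly →ₗ[ℂ] P.poly where
  toFun := fun h => ⟨P.actF g h.1, P.actF_mem g h.2⟩
  map_add' := fun a b => Subtype.ext (map_add (P.actF g) a.1 b.1)
  map_smul' := fun c a => Subtype.ext (map_smul (P.actF g) c a.1)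

/-- the trivial bundle -/
def tot : GMod X where
  M := P.poly
  fin := Module.Finite.iff_fg.2 P.poly_fg
  act := P.actP
  act_smul := fun g r m => Subtype.ext (P.actF_smul g r m.1)
  span := span_of_gens X (a := P.actP) (fun g r m => Subtype.ext (P.actF_smul g r m.1))
    (s := {h : P.poly | h.1 ∈ cst X '' (P.U : Set P.Y)}) (by
      refine Submodule.map_injective_of_injective P.poly.injective_subtype ?_
      rw [Submodule.map_span, Submodule.map_top, Submodule.range_subtype]
      congr 1
      ext h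
      exact ⟨by rintro ⟨k, hk, rfl⟩; exact hk, fun hh => ⟨⟨h, Submodule.subset_span hh⟩, hh, rfl⟩⟩)
    (by
      rintro ⟨_, hh⟩ ⟨u, hu, rfl⟩
      refine (Submodule.span_induction (p := fun u _ => ∃ hh : cst X u ∈ P.poly,
        (⟨cst X u, hh⟩ : P.poly) ∈ ⨆ γ, wt P.actP γ) ?_ ?_ ?_ ?_ (P.gen hu)).2
      · rintro u ⟨h1, γ, h2⟩
        exact ⟨P.cst_mem h1, mem_iSup_wt (γ := γ) fun g => Subtype.ext (funext fun _ => h2 g)⟩
      · exact ⟨P.poly.zero_mem, Submodule.zero_mem _⟩
      · rintro a b _ _ ⟨ha, ha'⟩ ⟨hb, hb'⟩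
        exact ⟨P.poly.add_mem ha hb, Submodule.add_mem _ ha' hb'⟩
      · rintro c a _ ⟨ha, ha'⟩
        exact ⟨P.poly.smul_of_tower_mem c ha, Submodule.smul_mem _ c ha'⟩)

/-- an equivariant family of subspaces -/
def Eqv (V : X.Pt → Submodule ℂ P.Y) : Prop :=
  ∀ z g, ∀ v ∈ V (Spc.mv z g), P.D g v ∈ V z

/-- the sections of a family of subspaces -/
def secS (V : X.Pt → Submodule ℂ P.Y) : Submodule X.R P.poly where
  carrier := {h | ∀ z, h.1 z ∈ V z}
  add_mem' := fun ha hb z => (V z).add_mem (ha z) (hb z)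
  zero_mem' := fun z => (V z).zero_mem
  smul_mem' := fun c h hh z => (V z).smul_mem (z.1 c) (hh z)

/-- the module of sections -/
def Sec (V : X.Pt → Submodule ℂ P.Y) (hV : P.Eqv V) : GMod X :=
  P.tot.sub (P.secS V) fun g h hh z => hV z g _ (hh _)

/-- every vector of the family is the value of a section -/
def Alg (V : X.Pt → Submodule ℂ P.Y) : Prop :=
  ∀ z, ∀ v ∈ V z, ∃ h ∈ P.poly, (∀ z', h z' ∈ V z') ∧ h z = v

/-- a subbundle of rank `n` -/
structure Sb (V : X.Pt → Submodule ℂ P.Y) (n : ℕ) : Prop where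
  eqv : P.Eqv V
  alg : P.Alg V
  dim : ∀ z, Module.finrank ℂ (V z) = n

open Classical in
/-- the class of the subbundle -/
def cl (V : X.Pt → Submodule ℂ P.Y) (n : ℕ) : K0 X :=
  if h : P.Eqv V then kc (P.Sec V h) n else 0

/-- a polynomial and equivariant family of linear maps -/
structure Mp (P P' : Rp X) (Φ : X.Pt → P.Y →ₗ[ℂ] P'.Y) : Prop where
  poly : ∀ u ∈ P.U, (fun z => Φ z u : Fn X P'.Y) ∈ P'.poly
  eqv : ∀ z g, ∀ u ∈ P.U, Φ z (P.D g u) = P'.D g (Φ (Spc.mv z g) u)

/-- the same space with another finite dimensional subspace -/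
def withU (U : Submodule ℂ P.Y) (fin : FiniteDimensional ℂ U)
    (gen : U ≤ Submodule.span ℂ {u | u ∈ U ∧ ∃ γ, u ∈ wt P.D γ}) : Rp X :=
  { P with U := U, fin := fin, gen := gen }

/-- the space on which the torus acts by one character -/
def sc (X : Spc) {Y : Type} [AddCommGroup Y] [Module ℂ Y] (U : Submodule ℂ Y)
    [FiniteDimensional ℂ U] (η : X.J → ℤ) : Rp X where
  Y := Y
  D := fun g => chr η g • LinearMap.id
  U := U
  fin := inferInstance
  gen := fun u hu => Submodule.subset_span ⟨hu, η, fun _ => rfl⟩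

/-- the twist -/
def shift (η : X.J → ℤ) : Rp X where
  Y := P.Y
  D := fun g => chr η g • P.D g
  U := P.U
  fin := P.fin
  gen := P.gen.trans (Submodule.span_mono fun u ⟨h1, γ, h2⟩ => ⟨h1, η + γ, fun g => by
    change chr η g • P.D g u = _
    rw [show P.D g u = chr γ g • u from h2 g, smul_smul, chr_add]⟩)

/-- the pull-back -/
def pull (f : Mor W X) : Rp W where
  Y := P.Y
  D := fun g => P.D (tor f.ρ g)
  U := P.U
  fin := P.fin
  gen := P.gen.trans (Submodule.span_mono fun u ⟨h1, γ, h2⟩ => ⟨h1, f.ρ γ, fun g => by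
    change P.D (tor f.ρ g) u = _
    rw [show P.D (tor f.ρ g) u = chr γ (tor f.ρ g) • u from h2 _, chr_tor]⟩)

/-- the sum of two spaces -/
def prod (P P' : Rp X) : Rp X where
  Y := P.Y × P'.Y
  D := fun g => (P.D g).prodMap (P'.D g)
  U := P.U.prod P'.U
  fin := (Submodule.fg_iff_finiteDimensional _).1
    (((Submodule.fg_iff_finiteDimensional _).2 P.fin).prod
      ((Submodule.fg_iff_finiteDimensional _).2 P'.fin))
  gen := by
    rintro ⟨a, b⟩ ⟨ha, hb⟩
    rw [show (a, b) = LinearMap.inl ℂ P.Y P'.Y a + LinearMap.inr ℂ P.Y P'.Y b by simp]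
    refine Submodule.add_mem _ ?_ ?_
    · refine Submodule.mem_comap.1 (Submodule.span_le.2 ?_ (P.gen ha))
      rintro u ⟨h1, γ, h2⟩
      exact Submodule.subset_span ⟨⟨h1, P'.U.zero_mem⟩, γ, fun g =>
        Prod.ext (h2 g) ((map_zero (P'.D g)).trans (smul_zero _).symm)⟩
    · refine Submodule.mem_comap.1 (Submodule.span_le.2 ?_ (P'.gen hb))
      rintro u ⟨h1, γ, h2⟩
      exact Submodule.subset_span ⟨⟨P.U.zero_mem, h1⟩, γ, fun g =>
        Prod.ext ((map_zero (P.D g)).trans (smul_zero _).symm) (h2 g)⟩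

/-- the sum of a family of spaces -/
def pi {ι : Type} [Fintype ι] (P : ι → Rp X) : Rp X where
  Y := ∀ i, (P i).Y
  D := fun g => LinearMap.pi fun i => ((P i).D g).comp (LinearMap.proj i)
  U := Submodule.pi Set.univ fun i => (P i).U
  fin := (Submodule.fg_iff_finiteDimensional _).1
    (Submodule.fg_pi fun i => (Submodule.fg_iff_finiteDimensional _).2 (P i).fin)
  gen := by
    classical
    intro a ha
    rw [← Finset.univ_sum_single a]
    refine Submodule.sum_mem _ fun i _ => ?_
    refine (Submodule.mem_comap (f := LinearMap.single ℂ (fun i => (P i).Y) i)).1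
      (Submodule.span_le.2 ?_ ((P i).gen (ha i trivial)))
    rintro u ⟨h1, γ, h2⟩
    refine Submodule.subset_span ⟨fun j _ => ?_, γ, fun g => funext fun j => ?_⟩
    · by_cases e : j = i
      · subst e; simpa using h1
      · simp [Pi.single_eq_of_ne e]
    · by_cases e : j = i
      · subst e; simpa using h2 g
      · simp [Pi.single_eq_of_ne e]

end Rp

end Vale.Agent.P297Z.Pw
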