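import Vale.Agent.P297Z.Hb.StepA

/-! P297: adding a point to a family of subsheaves: the class. -/

set_option linter.all false

noncomputable section

namespace Vale.Agent.P297Z.Sf

open Fb Pw GMod

variable {K : Type} [Field K] [Algebra ℂ K] {S : Surf K} {W : Spc} {h : S.All} {j : ℕ}

theorem kerF_Gn {ι ι' : Type} [Fintype ι] [Fintype ι'] {u : ι → K} {u' : ι' → K} {l : ι → ℂ}
    (e : Submodule.span ℂ (Set.range u') = kerF u l) {a₀ : ι} (h0 : l a₀ ≠ 0) {d : ι → K}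
    (hd : ∀ a, d a ∈ S.W ^ j) (h1 : ∑ a, l a • d a = 0) : ∑ a, d a * u a ∈ Gn S.W u' j := by
  classical
  have e1 : ∑ a, d a * u a = ∑ a, d a • (u a - (l a / l a₀) • u a₀) := by
    have e2 : ∑ a, d a • (l a / l a₀) • u a₀ = ((l a₀)⁻¹ • ∑ a, l a • d a) * u a₀ := by
      rw [Finset.smul_sum, Finset.sum_mul]
      refine Finset.sum_congr rfl fun a _ => ?_
      rw [smul_smul, smul_eq_mul, mul_smul_comm, smul_mul_assoc, div_eq_inv_mul]
    simp only [smul_sub, Finset.sum_sub_distrib]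
    rw [e2, h1, smul_zero, zero_mul, sub_zero]
    rfl
  rw [e1]
  refine sum_mem fun a _ => smul_mem_Gn (j := 0) S.W u' (hd a) ?_
  rw [Gn_zero, e]
  refine ⟨Pi.single a 1 - (l a / l a₀) • Pi.single a₀ 1, ?_, ?_⟩
  · change Fintype.linearCombination ℂ l _ = 0
    simp [Fintype.linearCombination_apply_single, h0]
  · simp [Fintype.linearCombination_apply_single]

theorem kerF_rel {ι ι' : Type} [Fintype ι] [Fintype ι'] {u : ι → K} {u' : ι' → K} {l : ι → ℂ}
    (e : Submodule.span ℂ (Set.range u') = kerF u l) {c : ι → K} {c' : ι' → K}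
    (hc : ∀ a, c a ∈ S.W ^ j) (hc' : ∀ a, c' a ∈ S.W ^ j)
    (h1 : ∑ a, c a • u a + ∑ a, c' a • u' a = 0) :
    ∃ d ∈ Rel S.W u j, ∑ a, l a • d a = ∑ a, l a • c a := by
  have : ∀ s, ∃ t : ι → ℂ, ∑ a, t a * l a = 0 ∧ ∑ a, t a • u a = u' s := fun s => by
    obtain ⟨t, h1, h2⟩ : u' s ∈ kerF u l := e ▸ Submodule.subset_span ⟨s, rfl⟩
    exact ⟨t, h1, h2⟩
  choose t ht ht' using this
  refine ⟨fun a => c a + ∑ s, t s a • c' s, ⟨fun a => add_mem (hc a)
    (sum_mem fun s _ => Submodule.smul_mem _ _ (hc' s)), ?_⟩, ?_⟩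
  · rw [← h1]
    simp only [add_mul, Finset.sum_add_distrib, Finset.sum_mul, ← ht', Finset.mul_sum,
      smul_eq_mul, smul_mul_assoc, mul_smul_comm]
    rw [Finset.sum_comm]
  · simp only [smul_add, Finset.sum_add_distrib, Finset.smul_sum, smul_smul]
    rw [Finset.sum_comm (s := Finset.univ (α := ι)) (t := Finset.univ (α := ι'))]
    simp only [← Finset.sum_smul, mul_comm (l _), ht, zero_smul, Finset.sum_const_zero, add_zero]

/-- the family `F₂` is the kernel of the functional `l` at the point `x` -/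
structure Stp (h : S.All) (F F₂ : Fam K W K) (x : Mor W (S.spc h)) (θ : W.J → ℤ)
    (l : F.ι → W.R) : Prop where
  fl : F.Flat S 1
  fl₂ : F₂.Flat S 1
  hD : F₂.D = F.D
  hm : F₂.m = F.m
  wt : ∀ a, l a ∈ W.wt (θ + F.γ a)
  pt : ∀ n : W.Pt, ∃ p, S.Over h (x.onPt n) p ∧ (∃ a, n.1 (l a) ≠ 0) ∧
    Submodule.span ℂ (Set.range (F₂.u n)) = kerF (F.u n) (fun a => n.1 (l a)) ∧
    (fun a => n.1 (l a)) ∈ Fb.Kill (F.u n) p ∧
    ∀ (j : ℕ) (e : K), e ∈ S.W ^ j → (∀ w ∈ S.W, p.In w → p.Van (e / w ^ j)) →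
      ∃ c ∈ Rel S.W (F.u n) j, ∑ a, n.1 (l a) • c a = e

namespace Stp

variable {F F₂ : Fam K W K} {x : Mor W (S.spc h)} {θ : W.J → ℤ} {l : F.ι → W.R}
  (H : Stp h F F₂ x θ l)

include H

theorem lam_hom : (Dg.Fr _ (F.deg h)).IsHom
    ((Dg.OZ _ x.grS x.grS_stab).shift (Sum.elim θ fun _ => -(F.m : ℤ)))
    ((Spc.van _ x.grS).mkQ ∘ₗ evl l h) := Dg.Fr_isHom.2 fun g v => by
  have e : evl l h (Dg.fact (F.deg h) g v) = chr (J := (W.prod (S.spc h)).J)
      (-(Sum.elim θ fun _ => -(F.m : ℤ) : (W.prod (S.spc h)).J → ℤ)) g •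
      (W.prod (S.spc h)).act g (evl l h v) := by
    rw [evl_apply, evl_apply, map_sum, Finset.smul_sum]
    refine Finset.sum_congr rfl fun a _ => ?_
    rw [map_mul, Spc.mem_wt.1 ((Mor.fst W (S.spc h)).wt_map _ _ (H.wt a)), Dg.fact,
      mul_smul_comm, smul_mul_assoc, smul_smul]
    refine congrArg (· • _) ((congrArg (chr · g) (funext ?_)).trans (chr_add _ _ g))
    rintro (t | t)
    · exact (neg_add_cancel_left (θ t) (F.γ a t)).symm
    · exact ((add_zero _).trans (neg_neg (F.m : ℤ))).symm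
  exact (congrArg (Spc.van _ x.grS).mkQ e).trans
    (LinearMap.map_smul_of_tower (Spc.van _ x.grS).mkQ _ _)

theorem stab : (Dg.Fr _ (F.deg h)).Stab (FGs x l) := fun g v hv =>
  (Submodule.Quotient.mk_eq_zero (Spc.van _ x.grS)).1
    (H.lam_hom.stab_ker g v ((Submodule.Quotient.mk_eq_zero (Spc.van _ x.grS)).2 hv))

/-- the kernel of the map to the structure module of the graph -/
def FG : GMod (W.prod (S.spc h)) := (Dg.Fr _ (F.deg h)).sub (FGs x l) H.stab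

theorem ses₁ : SES H.FG (Dg.Fr _ (F.deg h))
    ((Dg.OZ _ x.grS x.grS_stab).shift (Sum.elim θ fun _ => -(F.m : ℤ))) (FGs x l).subtype
    ((Spc.van _ x.grS).mkQ ∘ₗ evl l h) := by
  classical
  refine ⟨fun _ _ => rfl, H.lam_hom, fun a => (Submodule.Quotient.mk_eq_zero _).2 a.2, fun z =>
    ⟨InjAt.of_inj Subtype.val_injective, ExAt.of_ker fun b hb =>
      ⟨⟨b, (Submodule.Quotient.mk_eq_zero (Spc.van _ x.grS)).1 hb⟩, rfl⟩, fun b => ?_⟩⟩
  obtain ⟨r, rfl⟩ := (Spc.van _ x.grS).mkQ_surjective b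
  obtain ⟨p, -, ⟨a, ha⟩, -⟩ := H.pt ((Mor.fst _ _).onPt z)
  exact ⟨(Mor.fst W (S.spc h)).φ (l a), (Pi.single a r : F.ι → _), ha,
    congrArg (Spc.van _ x.grS).mkQ (evl_single l a r)⟩

theorem flat : (F.app F₂ H.hD).Flat S 1 := H.fl.of_span fun z => by
  obtain ⟨p, -, -, e, -⟩ := H.pt z
  rw [Fam.u_app]
  refine (congrArg _ (Set.Sum.elim_range _ _)).trans ?_
  rw [Submodule.span_union, e, sup_eq_left, ← Fintype.range_linearCombination]
  exact LinearMap.map_le_range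

theorem mem_Kt {k : F.ι ⊕ F₂.ι → (W.prod (S.spc h)).R} : k ∈ (F.app F₂ H.hD).Kt h ↔ ∀ z (i : ℤ),
    ∑ a, cf h z i (k (.inl a)) • F.u z a + ∑ a, cf h z i (k (.inr a)) • F₂.u z a = 0 :=
  forall₂_congr fun z i => by
    rw [Fam.u_app]
    exact (congrArg (· = 0) (Fintype.sum_sum_type _)).to_iff

theorem mem_Kt' (k : F.ι ⊕ F₂.ι → (W.prod (S.spc h)).R) (e : ∀ a, k (.inl a) = 0) :
    k ∈ (F.app F₂ H.hD).Kt h ↔ (fun a => k (.inr a)) ∈ F₂.Kt h := by
  rw [H.mem_Kt]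
  simp only [e, map_zero, zero_smul, Finset.sum_const_zero, zero_add]
  rfl

theorem img (k : F.ι ⊕ F₂.ι → (W.prod (S.spc h)).R) (hk : k ∈ (F.app F₂ H.hD).Kt h) :
    (fun a => k (.inl a)) ∈ FGs x l := by
  refine (Dg.Fr _ ((F.app F₂ H.hD).deg h)).induction_sub (Fam.Kt_stab _ h)
    (P := fun k : F.ι ⊕ F₂.ι → _ => (fun a => k (.inl a)) ∈ FGs x l) (zero_mem _)
    (fun ε k hk hε => ?_) (fun a b ha hb => add_mem ha hb) k hk
  change F.ι ⊕ F₂.ι → (W.prod (S.spc h)).R at k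
  rcases pure_of_wt (fun g => (Dg.Fr_act _ g k).symm.trans (hε g)) with rfl | ⟨j, hj⟩
  · exact zero_mem _
  intro w hw
  obtain ⟨p, hp, -, e, hl, -⟩ := H.pt ((Mor.fst _ _).onPt w)
  obtain ⟨y, hy⟩ := SA.exists_lin h (x.onPt ((Mor.fst _ _).onPt w))
  have hy' := (SA.over_in hp y).2 hy
  obtain ⟨d, hd, e'⟩ := kerF_rel e (fun a => cf_mem' _ j _) (fun a => cf_mem' _ j _)
    (H.mem_Kt.1 hk _ j)
  rw [pure_val (evl_pure l fun a => hj (.inl a)), SA.over_form (SA.over_of_orb hp hw) hy', cf_evl,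
    ← e']
  exact hl j d hd y y.2 hy'

/-- the inclusion of the relations -/
def inr : (F₂.KM h).M →ₗ[(W.prod (S.spc h)).R] ((F.app F₂ H.hD).KM h).M where
  toFun := fun k => ⟨Sum.elim (fun _ => (0 : (W.prod (S.spc h)).R)) k.1, 
    (H.mem_Kt' _ fun _ => rfl).2 k.2⟩
  map_add' := fun a b => Subtype.ext (funext fun t => by
    rcases t with t | t
    exacts [(add_zero _).symm, rfl])
  map_smul' := fun a b => Subtype.ext (funext fun t => by
    rcases t with t | t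
    exacts [(mul_zero a).symm, rfl])

/-- the projection of the relations -/
def prj : ((F.app F₂ H.hD).KM h).M →ₗ[(W.prod (S.spc h)).R] H.FG.M where
  toFun := fun k => ⟨fun a => k.1 (.inl a), H.img k.1 k.2⟩
  map_add' := fun _ _ => rfl
  map_smul' := fun _ _ => rfl

theorem onto (w : (W.prod (S.spc h)).Pt) : SurjAt w.1 H.prj := by
  refine surjAt_iff_fib.2 fun b => ?_
  obtain ⟨⟨v, hv⟩, rfl⟩ := fib_surj b
  have key : ∀ v ∈ FGs x l, ∃ hv : v ∈ FGs x l, (Submodule.Quotient.mk ⟨v, hv⟩ : Fib w.1 H.FG.M) ∈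
      LinearMap.range (fibMap w.1 H.prj) := by
    refine (Dg.Fr _ (F.deg h)).induction_sub H.stab ⟨zero_mem _, zero_mem _⟩
      (fun ε v hv hε => ⟨hv, ?_⟩) fun a b ⟨ha, h1⟩ ⟨hb, h2⟩ => ⟨add_mem ha hb, add_mem h1 h2⟩
    change F.ι → (W.prod (S.spc h)).R at v
    rcases pure_of_wt (fun g => (Dg.Fr_act _ g v).symm.trans (hε g)) with rfl | ⟨j, hj⟩
    · exact zero_mem _
    obtain ⟨p, hp, ⟨a₀, h0⟩, e, -, hs⟩ := H.pt ((Mor.fst _ _).onPt w)
    obtain ⟨c, hc, e1⟩ := hs j _ (cf_mem' ((Mor.fst _ _).onPt w) j (evl l h v)) fun y hy hy' => by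
      have := hv _ (grM_mem x ((Mor.fst _ _).onPt w))
      rw [pure_val (evl_pure l hj), grM_snd] at this
      simp only [grM_fst] at this
      exact (SA.over_form hp (w := ⟨y, hy⟩) hy' _).1 this
    obtain ⟨c', hc', e2⟩ := kerF_Gn e h0 (d := fun a => cf h ((Mor.fst _ _).onPt w) j (v a) - c a)
      (fun a => sub_mem (cf_mem' _ j _) (hc.1 a)) (by
        simp only [smul_sub, Finset.sum_sub_distrib]
        rw [e1, cf_evl, sub_self])
    obtain ⟨k, hk, e3, hk'⟩ := H.flat.lift h ((Mor.fst _ _).onPt w) (j := j)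
      (c := Sum.elim (fun a => cf h ((Mor.fst _ _).onPt w) j (v a)) (-c')) ⟨by
        rintro (a | a)
        exacts [cf_mem' _ j _, neg_mem (hc' a)], by
        rw [Fam.u_app]
        refine (Fintype.sum_sum_type _).trans ?_
        simp only [sub_mul, Finset.sum_sub_distrib, hc.2, sub_zero, smul_eq_mul] at e2
        simp only [Sum.elim_inl, Sum.elim_inr, Pi.neg_apply, neg_mul, Finset.sum_neg_distrib, e2,
          smul_eq_mul, add_neg_cancel]⟩
    obtain ⟨r, hr, e4⟩ := FGs_tor x l w h0 (j := j) (sub_mem hv (H.img k hk))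
      (fun a => sub_mem (hj a) (hk' (.inl a))) fun a =>
        (map_sub _ _ _).trans (sub_eq_zero.2 (e3 (.inl a)).symm)
    refine fib_mem hr ⟨Submodule.Quotient.mk (r • ⟨k, hk⟩), Eq.symm ?_⟩
    rw [smul_sub] at e4
    exact (Submodule.Quotient.eq _).2 ((Submodule.mem_smul_top_iff _ (FGs x l) _).2 e4)
  exact (key v hv).2

theorem ses₂ : SES (F₂.KM h) ((F.app F₂ H.hD).KM h) H.FG H.inr H.prj := by
  refine ⟨fun g k => Subtype.ext (funext ?_), fun _ _ => rfl, fun _ => rfl, fun z =>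
    ⟨InjAt.of_inj fun a b e => Subtype.ext (funext fun t => congrFun (congrArg Subtype.val e)
      (.inr t)), ExAt.of_ker fun k hk => ?_, H.onto z⟩⟩
  · rintro (t | t)
    · exact ((congrArg (chr (- -F.deg h t) g • ·) (map_zero ((W.prod (S.spc h)).act g))).trans
        (smul_zero _)).symm
    · exact congrArg (fun m : ℕ => chr (J := (W.prod (S.spc h)).J)
        (- -(Sum.elim (F₂.γ t) fun _ => (m : ℤ) : (W.prod (S.spc h)).J → ℤ)) g •
          (W.prod (S.spc h)).act g (k.1 t)) H.hm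
  · have e : ∀ a, k.1 (.inl a) = 0 := congrFun (congrArg Subtype.val hk)
    refine ⟨⟨fun a => k.1 (.inr a), (H.mem_Kt' _ e).1 k.2⟩, Subtype.ext (funext ?_)⟩
    rintro (t | t)
    exacts [(e t).symm, rfl]

theorem Ecl [hW : Nonempty W.Pt] : F₂.Ecl h 1 = F.Ecl h 1 -
    pullK (Mor.fst _ _) (line W (θ - x.ρ fun _ => (F.m : ℤ))) *
      pullK (x.map (Mor.id _)) (delta (S.spc h)) := by
  haveI : Nonempty (W.prod (S.spc h)).Pt := hW.map (grM x).onPt
  have h1 := Res.left' H.ses₁ (Res.bun (Dg.Fr_isBun _) 1) (((Dg.smo h).res_gr x).shift _)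
  have h2 := Res.unique' h1 ⟨_, _, _, _, _, _, H.ses₂, H.flat.isBun h,
    Res.bun (H.fl₂.isBun h) 0, rfl⟩
  have h3 := H.fl.Kcl_app h F₂ H.hD H.hm fun z a => by
    obtain ⟨p, -, -, e, -⟩ := H.pt z
    rw [← Fintype.range_linearCombination]
    exact LinearMap.map_le_range (e.le (Submodule.subset_span ⟨a, rfl⟩))
  have h4 := (Dg.smo h).dl_mul' (x.comp (Mor.fst W _)) (Mor.snd W _)
    (line _ fun _ => -(F.m : ℤ))
  have e1 : (Sum.elim θ fun _ => -(F.m : ℤ)) = (Mor.fst W (S.spc h)).ρ θ +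
      (Mor.snd W (S.spc h)).ρ fun _ => -(F.m : ℤ) := funext fun t => by
    rcases t with t | t
    exacts [(add_zero _).symm, (zero_add _).symm]
  have e2 : (θ - x.ρ fun _ => (F.m : ℤ)) = θ + x.ρ fun _ => -(F.m : ℤ) :=
    (sub_eq_add_neg _ _).trans (congrArg _ (map_neg x.ρ _).symm)
  rw [Dg.kc_Fr, e1, line_add, ← pullK_line, ← pullK_line, Dg.dl_map] at h2
  rw [e2, line_add, ← pullK_line, map_mul, ← pullK_comp, Dg.dl_map]
  unfold Fam.Ecl
  unfold Fam.Kcl at h3 ⊢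
  linear_combination -h2 - h3 + pullK (Mor.fst W _) (line W θ) * h4

end Stp

end Vale.Agent.P297Z.Sf
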