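import Vale.Agent.P297Z.Hb.Tow0
import Vale.Agent.P297Z.Hb.StepB

/-! P297: the universal classes on the towers: the first space and the step. -/

set_option linter.all false

noncomputable section

namespace Vale.Agent.P297Z.Sf.Ctx

open Fb Vale.Agent.P297Z.Hb Pw

variable {K : Type} [Field K] [Algebra ℂ K] {S : Surf K} {c : Ctx S} {h : S.All} {r₀ r : ℕ}

theorem yl_deg (c : Ctx S) (r : ℕ) (i : Fin (c.v + 1)) :
    c.yl r i ∈ (c.Xr r).wt ((c.pr r).ρ fun _ => 1) := by
  have := (c.pr r).wt_map _ _ (Spc.X_mem pt0 (Fin (c.v + 1)) (fun _ => 0) i)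
  have e : (fun j : Option pt0.J => j.elim (1 : ℤ) 0) = fun _ => 1 := funext fun j => by
    rcases j with _ | j
    exacts [rfl, j.elim]
  exact (congrArg (fun γ => c.yl r i ∈ (c.Xr r).wt ((c.pr r).ρ γ)) e).mp this

theorem span_mul (hF : FibA S) {ι : Type} {e : ι → K} {j : ℤ}
    (he : Submodule.span ℂ (Set.range e) = M (c.L - c.D) j) {f : K} (hf : f ≠ 0) {Z : Zs S.W}
    (hZ : Z.len = 0) : Submodule.span ℂ (Set.range fun a => f * e a) = EM Z (c.A f) j := by
  have e1 : (Set.range fun a => f * e a) = LinearMap.mulLeft ℂ f '' Set.range e :=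
    Set.range_comp (LinearMap.mulLeft ℂ f) e
  rw [e1, Submodule.span_image, he, ← hF.zero Z _ _ hZ, A, ← sub_sub]
  refine le_antisymm ?_ fun v hv => ⟨f⁻¹ * v, (hF.mulf Z _ j f _ hf).1 ?_, ?_⟩
  · rintro _ ⟨v, hv, rfl⟩
    exact (hF.mulf Z _ j f v hf).2 hv
  · rwa [mul_inv_cancel_left₀ hf]
  · exact mul_inv_cancel_left₀ hf v

theorem Geom.E0 (G : c.Geom h r₀) (H : c.Ok r₀) : c.Ecl h c.s =
    pullK (Mor.fst _ _) (pullK (c.pr c.s) (OP c.v (-1))) *
      pullK (Mor.snd _ _) (S.lK h (c.L - c.D)) := by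
  classical
  have hF := fibA K S h (las S h)
  have hc := G.clo _ H.le le_rfl
  haveI hne := (G.var _ H.le le_rfl).ne
  obtain ⟨k, e, he⟩ := Submodule.fg_iff_exists_fin_generating_family.1
    ((Submodule.fg_iff_finiteDimensional _).2 ((h.fg (c.L - c.D)).1 c.m))
  let F₀ : Fam K (c.Xr c.s) K :=
    { D := fun _ => LinearMap.id
      m := c.m
      B := Fin k
      e := e
      τ := 0
      e_wt := fun b g => by rw [Pi.zero_apply, chr_zero, one_smul]; rfl
      ι := Empty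
      γ := Empty.elim
      g := Empty.elim
      g_wt := fun a => a.elim }
  let F₁ : Fam K (c.Xr c.s) K :=
    { D := fun _ => LinearMap.id
      m := c.m
      B := Fin (c.v + 1) × Fin k
      e := fun p => c.φ p.1 * e p.2
      τ := 0
      e_wt := fun b g => by rw [Pi.zero_apply, chr_zero, one_smul]; rfl
      ι := Fin k
      γ := fun _ => (c.pr c.s).ρ fun _ => 1
      g := fun a p => if a = p.2 then c.yl c.s p.1 else 0
      g_wt := fun a p => by
        rw [Pi.zero_apply, sub_zero]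
        split_ifs
        exacts [c.yl_deg _ _, zero_mem _] }
  have hu : ∀ z, F₁.u z = fun a => c.fz z * e a := fun z => funext fun a => by
    refine (Fintype.sum_prod_type _).trans ?_
    rw [fz_eq, Finset.sum_mul]
    refine Finset.sum_congr rfl fun i _ => ?_
    rw [Finset.sum_eq_single a (fun b _ hb => ?_) (by simp), smul_mul_assoc]
    · exact congrArg (fun t => z.1 t • _) (if_pos rfl)
    · exact (congrArg (fun t => z.1 t • _) (if_neg hb.symm)).trans
        (by rw [map_zero, zero_smul])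
  have hz : ∀ z : (c.Xr c.s).Pt, ∃ Z, c.IsPt (c.am z) Z ∧ Z.len = 0 := fun z => by
    obtain ⟨Z, hZ⟩ := pt_mem hc z
    exact ⟨Z, hZ, (H.reg_pt H.le hZ).2.1.trans (Nat.sub_self _)⟩
  obtain ⟨h1, h2⟩ := Fam.Ecl_lb h F₀.top (c.L - c.D) e F₀.u_top (fun _ => rfl) fun j => by
    obtain ⟨z⟩ := hne
    obtain ⟨Z, hZ, h0⟩ := hz z
    have hf := (fz_mem z).2
    have e1 := Gn_EM h hF (H.reg_pt H.le hZ).1 (span_mul hF he hf h0) j
    ext v
    rw [← hF.zero Z _ _ h0, ← hF.mulf Z _ _ _ v hf, sub_sub]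
    refine Iff.trans (exists_congr fun t => and_congr_right fun _ => ?_)
      (SetLike.ext_iff.1 e1 (c.fz z * v))
    simp only [smul_eq_mul, mul_left_comm _ (c.fz z), ← Finset.mul_sum]
    exact (mul_right_inj' hf).symm
  have h3 := h1.Ecl_regr (F' := F₁) h (Equiv.refl _) ((c.pr c.s).ρ fun _ => 1) rfl
    (fun _ => (add_zero _).symm) fun z t => by
      rw [hu, F₀.u_top]
      simp only [smul_eq_mul, mul_left_comm _ (c.fz z), ← Finset.mul_sum]
      exact mul_eq_zero.trans (or_iff_right (fz_mem z).2)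
  have h4 := (H.flatV h H.le hc).Ecl_indep h F₁ rfl rfl fun z => by
    obtain ⟨Z, hZ, h0⟩ := hz z
    rw [span_famV hZ, hu]
    exact span_mul hF he (fz_mem z).2 h0
  rw [OP, pullK_line, ← h2]
  refine h4.symm.trans (h3.trans ?_)
  rw [← map_neg]
  rfl

theorem Geom.step (G : c.Geom h r₀) (H : c.Ok r₀) (hr : r₀ ≤ r) (hs : r < c.s) :
    pullK ((c.ρN h r (G.maps r hr hs)).map (Mor.id _)) (c.Ecl h r) =
      pullK (((Mor.fst _ _).comp (c.πN h r)).map (Mor.id _)) (c.Ecl h (r + 1)) -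
        pullK (Mor.fst _ _) (c.lN h r) *
          pullK (((Mor.snd _ _).comp (c.πN h r)).map (Mor.id _)) (delta (S.spc h)) := by
  have hF := fibA K S h (las S h)
  have hB := fibB K S h (las S h) hF
  have hr' := Nat.le_succ_of_le hr
  have h1 := H.flat h hr' (G.clo _ hr' hs)
  have h2 := H.flatV h hr (G.clo _ hr hs.le)
  haveI := (G.var _ hr' hs).ne
  haveI := (G.varN _ hr hs).ne
  have key : Stp h ((c.fam r).pull ((Mor.fst _ _).comp (c.πN h r)))
      ((c.famV r).pull (c.ρN h r (G.maps r hr hs))) ((Mor.snd _ _).comp (c.πN h r))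
      ((show (c.Nr h r).J → ℤ from fun j => Option.elim (α := (c.Yr h r).J) j 1 0) -
        ((Mor.fst _ _).comp (c.πN h r)).ρ (c.dp (r + 1)))
      fun J => (c.incN h r).φ (MvPolynomial.X J : MvPolynomial (Fin r → c.B) (c.Yr h r).R) := by
    refine ⟨h1.pull _, h2.pull _, rfl, rfl, fun J => ?_, fun n => ?_⟩
    · refine (congrArg (fun γ => _ ∈ (c.Nr h r).wt γ) (sub_add_cancel _ _)).mpr ?_
      exact (c.incN h r).wt_map _ _ (Spc.X_mem _ (Fin r → c.B) _ J)
    · obtain ⟨Z, Z', p, h3, hZ, hZ', h4, e1, -, h5, e2⟩ := G.ptN H hr hs n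
      have h0 := ((Spc.adj_pt _ _ _ ((c.incN h r).onPt n).1).1 ((c.incN h r).onPt n).2).2
      rw [Fam.u_pull, Fam.u_pull, fam_u]
      refine ⟨p, h4, h0, (span_famV hZ').trans e2, h5, hB.surj _ _ Z Z' p h3
        (H.reg_pt hr hZ').1 _ _ ?_ _ (fun e => ?_) e2 h5⟩
      · rw [e1, ← fam_u]
        exact span_fam hZ
      · obtain ⟨J, hJ⟩ := h0
        exact hJ (congrFun e J)
  have h3 := key.Ecl
  rw [h1.Ecl_pull, h2.Ecl_pull, H.Ecl_fam h hr' (G.clo _ hr' hs)] at h3
  exact h3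

end Vale.Agent.P297Z.Sf.Ctx
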