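import Vale.Agent.P297Z.Hb.Fam
import Vale.Agent.P297Z.Diag.Main

/-! P297: adding a point to a family of subsheaves: functions of pure degree. -/

set_option linter.all false

noncomputable section

namespace Vale.Agent.P297Z

open GMod

theorem Res.shift {X : Spc} {n : ℕ} {M : GMod X} {x : K0 X} (h : Res n M x) (γ : X.J → ℤ) :
    Res n (M.shift γ) (line X γ * x) := by
  induction n generalizing M x with
  | zero =>
    obtain ⟨r, h, rfl⟩ := h
    exact ⟨r, h.shift γ, (kc_shift h γ).symm⟩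
  | succ n ih =>
    obtain ⟨N, P, p, y, u, v, h1, h2, h3, rfl⟩ := h
    exact ⟨N.shift γ, P.shift γ, p, _, u, v, h1.shift γ, h2.shift γ, ih h3,
      by rw [mul_sub, kc_shift h2]⟩

theorem Dg.wt_Fr {X : Spc} {ι : Type} [Fintype ι] {d : ι → X.J → ℤ} {ε : X.J → ℤ} {v : ι → X.R}
    (hv : ∀ g, Dg.fact d g v = chr ε g • v) (a : ι) : v a ∈ X.wt (ε - d a) := fun g => by
  have e : chr (d a) g • X.act g (v a) = chr ε g • v a := congrFun (hv g) a
  change X.act g (v a) = _
  rw [chr_sub, mul_comm, mul_smul, ← e, smul_smul, inv_mul_cancel₀ (chr_ne _ _), one_smul]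

namespace Sf

open Fb Pw

variable {K : Type} [Field K] [Algebra ℂ K] {S : Surf K} {W : Spc} {h : S.All} {j : ℕ}

/-- the functions of degree `j` on the fibres -/
def Pure (W : Spc) (h : S.All) (j : ℕ) : Submodule ℂ (W.prod (S.spc h)).R where
  carrier := {r | ∀ z (i : ℤ), i ≠ j → cf h z i r = 0}
  zero_mem' := fun z i _ => map_zero _
  add_mem' := fun {a b} ha hb z i hi => by rw [map_add, ha z i hi, hb z i hi, add_zero]
  smul_mem' := fun t a ha z i hi => by rw [map_smul, ha z i hi, smul_zero]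

theorem cf_mem' (z : W.Pt) (j : ℕ) (r : (W.prod (S.spc h)).R) : cf h z j r ∈ S.W ^ j :=
  S.Wp_nat j ▸ cf_mem h z j r

theorem pure_fst (a : W.R) {r : (W.prod (S.spc h)).R} (hr : r ∈ Pure W h j) :
    (Mor.fst W (S.spc h)).φ a * r ∈ Pure W h j := fun z i hi => by
  rw [cf_mul_fst, hr z i hi, smul_zero]

theorem pure_snd {a : K} (ha : a ∈ S.W ^ j) :
    (Mor.snd W (S.spc h)).φ (S.form j a ha) ∈ Pure W h j := fun z i hi => by
  rw [cf_snd, if_neg hi]

theorem pure_ext {r : (W.prod (S.spc h)).R} (hr : r ∈ Pure W h j) (e : ∀ z, cf h z j r = 0) :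
    r = 0 := eq_zero_of_cf h r fun z i => by
  by_cases hi : i = j
  · rw [hi, e]
  · exact hr z i hi

theorem pure_of_wt {ι : Type} [Fintype ι] {γ : ι → W.J → ℤ} {m : ℤ}
    {ε : (W.prod (S.spc h)).J → ℤ} {v : ι → (W.prod (S.spc h)).R}
    (hv : ∀ g, Dg.fact (X := W.prod (S.spc h)) (fun a => Sum.elim (γ a) fun _ => m) g v =
      chr ε g • v) : v = 0 ∨ ∃ j : ℕ, ∀ a, v a ∈ Pure W h j := by
  have key : ∀ a z (i : ℤ), i ≠ ε (.inr ()) - m → cf h z i (v a) = 0 := fun a z i hi => by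
    refine cf_of_wt h z (δ := fun t => ε (.inl t) - γ a t) ?_ hi
    refine (congrArg (fun δ => v a ∈ (W.prod (S.spc h)).wt δ) (funext ?_)).mp (Dg.wt_Fr hv a)
    rintro (t | t) <;> rfl
  rcases lt_or_ge (ε (.inr ()) - m) 0 with hn | hn
  · refine Or.inl (funext fun a => eq_zero_of_cf h _ fun z i => ?_)
    by_cases hi : i = ε (.inr ()) - m
    · exact cf_neg h z (hi ▸ hn) _
    · exact key a z i hi
  · obtain ⟨j, hj⟩ := Int.eq_ofNat_of_zero_le hn
    exact Or.inr ⟨j, fun a z i hi => key a z i (hj ▸ hi)⟩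

theorem pure_val {r : (W.prod (S.spc h)).R} (hr : r ∈ Pure W h j) (w : (W.prod (S.spc h)).Pt) :
    w.1 r = ((Mor.snd _ _).onPt w).1
      (S.form j (cf h ((Mor.fst _ _).onPt w) j r) (cf_mem' _ j r)) := by
  obtain ⟨ha, e⟩ := evz_of_pure h ((Mor.fst _ _).onPt w) (hr _)
  rw [evp_pt]
  exact congrArg _ e

theorem pure_ind {P : AddSubgroup (W.prod (S.spc h)).R} (n : W.Pt)
    (hP : ∀ b, n.1 b = 0 → ∀ r ∈ Pure W h j, (Mor.fst W (S.spc h)).φ b * r ∈ P)
    {r : (W.prod (S.spc h)).R} (hr : r ∈ Pure W h j) (h0 : cf h n j r = 0) : r ∈ P := by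
  obtain ⟨k, a, w, h1, h2⟩ := Fam.exists_cf h j r
  have e : r - ∑ i, (Mor.fst W (S.spc h)).φ (a i - algebraMap ℂ W.R (n.1 (a i))) *
      (Mor.snd W (S.spc h)).φ (S.form j (w i) (h1 i)) = 0 := by
    refine pure_ext (j := j) (sub_mem hr (sum_mem fun i _ => pure_fst _ (pure_snd _))) fun z => ?_
    rw [map_sub, map_sum]
    simp only [cf_mul_fst, cf_snd, if_true]
    simp only [map_sub, AlgHom.commutes, sub_smul, Finset.sum_sub_distrib,
      Algebra.algebraMap_self, RingHom.id_apply]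
    rw [← h2 z, ← h2 n, h0, sub_zero, sub_self]
  rw [sub_eq_zero.1 e]
  refine sum_mem fun i _ => hP _ ?_ _ (pure_snd _)
  rw [map_sub, AlgHom.commutes]
  exact sub_self _

variable (x : Mor W (S.spc h))

/-- the map to the graph -/
abbrev grM : Mor W (W.prod (S.spc h)) := Mor.lift (Mor.id W) x

theorem grM_fst (n : W.Pt) : (Mor.fst _ _).onPt ((grM x).onPt n) = n :=
  congrArg (fun f : Mor W W => f.onPt n) (Mor.fst_lift _ _)

theorem grM_snd (n : W.Pt) : (Mor.snd _ _).onPt ((grM x).onPt n) = x.onPt n :=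
  congrArg (fun f : Mor W _ => f.onPt n) (Mor.snd_lift _ _)

theorem grM_mem (n : W.Pt) : (grM x).onPt n ∈ x.grS := by
  change Spc.Orb _ _ _
  rw [grM_fst, grM_snd]
  exact Spc.Orb.refl _

theorem grM_φ_fst (a : W.R) : (grM x).φ ((Mor.fst W (S.spc h)).φ a) = a :=
  congrArg (fun f : Mor W W => f.φ a) (Mor.fst_lift _ x)

theorem grM_φ_snd (a : (S.spc h).R) : (grM x).φ ((Mor.snd W (S.spc h)).φ a) = x.φ a :=
  congrArg (fun f : Mor W _ => f.φ a) (Mor.snd_lift (Mor.id W) x)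

theorem grM_van {r : (W.prod (S.spc h)).R} (hr : r ∈ Spc.van _ x.grS) : (grM x).φ r = 0 :=
  W.sep _ fun z hz => hr _ (grM_mem x ⟨z, hz⟩)

theorem pure_gr {w : (W.prod (S.spc h)).Pt} (hw : w ∈ x.grS) (j : ℕ) : ∃ t : ℂ,
    ∀ r ∈ Pure W h j, w.1 r = t * ((Mor.fst _ _).onPt w).1 ((grM x).φ r) := by
  obtain ⟨g, e⟩ := hw
  refine ⟨(g () : ℂ) ^ j, fun r hr => ?_⟩
  have e2 := pure_val hr ((grM x).onPt ((Mor.fst _ _).onPt w))
  rw [grM_snd] at e2
  simp only [grM_fst] at e2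
  rw [pure_val hr, e]
  generalize x.onPt ((Mor.fst _ _).onPt w) = y at e2
  refine (congrArg y.1 (SA.act_form h g (cf_mem' _ j r))).trans ((map_smul y.1 _ _).trans ?_)
  exact congrArg _ e2.symm

variable {ι : Type} [Fintype ι] (l : ι → W.R)

/-- the functional on the free module -/
abbrev evl (h : S.All) : (ι → (W.prod (S.spc h)).R) →ₗ[(W.prod (S.spc h)).R]
    (W.prod (S.spc h)).R := Dg.ev fun a => (Mor.fst W (S.spc h)).φ (l a)

theorem evl_apply (v : ι → (W.prod (S.spc h)).R) :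
    evl l h v = ∑ a, (Mor.fst W (S.spc h)).φ (l a) * v a :=
  (Dg.ev_apply _ _).trans (Finset.sum_congr rfl fun a _ => mul_comm _ _)

theorem evl_single [DecidableEq ι] (a : ι) (r : (W.prod (S.spc h)).R) :
    evl l h (Pi.single a r) = (Mor.fst W (S.spc h)).φ (l a) * r := by
  rw [evl_apply, Finset.sum_eq_single a (fun b _ e => by rw [Pi.single_eq_of_ne e, mul_zero])
    (by simp), Pi.single_eq_same]

theorem evl_pure {v : ι → (W.prod (S.spc h)).R} (hv : ∀ a, v a ∈ Pure W h j) :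
    evl l h v ∈ Pure W h j := evl_apply l v ▸ sum_mem fun a _ => pure_fst _ (hv a)

theorem cf_evl (n : W.Pt) (i : ℤ) (v : ι → (W.prod (S.spc h)).R) :
    cf h n i (evl l h v) = ∑ a, n.1 (l a) • cf h n i (v a) := by
  rw [evl_apply, map_sum]
  exact Finset.sum_congr rfl fun a _ => cf_mul_fst _ _ _ _ _

/-- the vectors on which the functional vanishes along the graph -/
def FGs : Submodule (W.prod (S.spc h)).R (ι → (W.prod (S.spc h)).R) :=
  Submodule.comap (evl l h) (Spc.van _ x.grS)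

/-- the graph is flat over the base -/
theorem FGs_tor (w : (W.prod (S.spc h)).Pt) {a₀ : ι} (h0 : ((Mor.fst _ _).onPt w).1 (l a₀) ≠ 0)
    {v : ι → (W.prod (S.spc h)).R} (hv : v ∈ FGs x l) (hp : ∀ a, v a ∈ Pure W h j)
    (hz : ∀ a, cf h ((Mor.fst _ _).onPt w) j (v a) = 0) :
    ∃ r, w.1 r ≠ 0 ∧ r • v ∈ RingHom.ker w.1 • FGs x l := by
  classical
  obtain ⟨y, hy⟩ := SA.exists_lin h (x.onPt ((Mor.fst _ _).onPt w))
  let s : (S.spc h).R := S.form j (y ^ j) (SA.pow_mem y j)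
  let ρ : W.R := l a₀ * x.φ s
  let T : (ι → (W.prod (S.spc h)).R) →+ (ι → (W.prod (S.spc h)).R) :=
    { toFun := fun v => (Mor.fst W (S.spc h)).φ ρ • v -
        (Mor.fst W (S.spc h)).φ ((grM x).φ (evl l h v)) • Pi.single a₀ ((Mor.snd _ _).φ s)
      map_zero' := by simp
      map_add' := fun a b => by
        simp only [map_add, smul_add, add_smul]
        abel }
  have hT : ∀ v, T v = (Mor.fst W (S.spc h)).φ ρ • v -
      (Mor.fst W (S.spc h)).φ ((grM x).φ (evl l h v)) • Pi.single a₀ ((Mor.snd _ _).φ s) :=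
    fun _ => rfl
  have h1 : ∀ v, (∀ a, v a ∈ Pure W h j) → T v ∈ FGs x l := by
    intro v hv w' hw'
    obtain ⟨t, ht⟩ := pure_gr x hw' j
    have e := ht ((Mor.snd _ _).φ s) (pure_snd (SA.pow_mem y j))
    rw [hT, map_sub, map_smul, map_smul, evl_single, smul_eq_mul, smul_eq_mul, map_sub,
      map_mul w'.1, map_mul w'.1, map_mul w'.1, ht _ (evl_pure l hv), e, grM_φ_snd]
    change ((Mor.fst _ _).onPt w').1 ρ * _ - ((Mor.fst _ _).onPt w').1 _ *
      (((Mor.fst _ _).onPt w').1 _ * _) = 0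
    rw [map_mul]
    ring
  have h2 : ∀ a, T (Pi.single a (v a)) ∈ RingHom.ker w.1 • FGs x l := by
    intro a
    refine pure_ind (P := ((RingHom.ker w.1 • FGs x l).toAddSubgroup.comap T).comap
      (AddMonoidHom.single (fun _ : ι => (W.prod (S.spc h)).R) a)) _ (fun b hb r hr => ?_) (hp a)
      (hz a)
    have e : T (Pi.single a ((Mor.fst W (S.spc h)).φ b * r)) =
        (Mor.fst W (S.spc h)).φ b • T (Pi.single a r) := by
      rw [← smul_eq_mul, Pi.single_smul', hT, hT, map_smul, smul_eq_mul, map_mul (grM x).φ,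
        grM_φ_fst, map_mul _ b, smul_sub, smul_comm, mul_smul]
    change T (Pi.single a _) ∈ RingHom.ker w.1 • FGs x l
    rw [e]
    refine Submodule.smul_mem_smul hb (h1 _ fun a' => ?_)
    by_cases e : a' = a
    · rw [e, Pi.single_eq_same]; exact hr
    · rw [Pi.single_eq_of_ne e]; exact zero_mem _
  refine ⟨(Mor.fst W (S.spc h)).φ ρ, ?_, ?_⟩
  · change ((Mor.fst _ _).onPt w).1 (l a₀ * x.φ s) ≠ 0
    rw [map_mul]
    refine mul_ne_zero h0 ?_
    have e : s = S.lin y ^ j := (SA.lin_pow y j).symm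
    change (x.onPt ((Mor.fst _ _).onPt w)).1 s ≠ 0
    rw [e]
    exact ev_pow hy j
  · have e : T v = (Mor.fst W (S.spc h)).φ ρ • v := by
      rw [hT, grM_van x hv, map_zero, zero_smul, sub_zero]
    rw [← e, ← Finset.univ_sum_single v, map_sum]
    exact sum_mem fun a _ => h2 a

end Sf

end Vale.Agent.P297Z
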