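import Vale.Agent.P297Z.Hb.Fam1
import Vale.Agent.P297Z.Hb.FibA
import Vale.Agent.P297Z.Hb.FibB
import Vale.Agent.P297Z.Hb.FibC

/-! P297: Koszul complexes of the families, descent of the classes to degree zero. -/

set_option linter.all false

noncomputable section

namespace Vale.Agent.P297Z.Sf.Tc

open Fb Vale.Agent.P297Z.Hb Pw Module

variable {K : Type} [Field K] [Algebra ℂ K] {S : Surf K} {X : Spc}

section kos

variable {V V' : Type} [AddCommGroup V] [Module K V] [Module ℂ V] [IsScalarTower ℂ K V]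
  [AddCommGroup V'] [Module K V'] [Module ℂ V'] [IsScalarTower ℂ K V']

theorem kos_map {y : Fin 3 → K} {B N₀ N₁ N₂ N₃ : Submodule ℂ V} (hk : Kos y B N₀ N₁ N₂ N₃)
    (Ψ : V →ₗ[K] V') (hB : ∀ v, Ψ v = 0 ↔ v ∈ B) :
    Kos y ⊥ (N₀.map (Ψ.restrictScalars ℂ)) (N₁.map (Ψ.restrictScalars ℂ))
      (N₂.map (Ψ.restrictScalars ℂ)) (N₃.map (Ψ.restrictScalars ℂ)) := by
  refine ⟨fun b hb e => ?_, fun c hc e => ?_, ?_⟩
  · choose b' h1 h2 using hb
    obtain rfl : (fun i => Ψ (b' i)) = b := funext h2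
    obtain ⟨a, ha, h3⟩ := hk.e₁ b' h1 fun i j => (hB _).1 (by simpa using e i j)
    exact ⟨_, ⟨a, ha, rfl⟩, fun i => by simpa using (hB _).2 (h3 i)⟩
  · choose c' h1 h2 using hc
    obtain rfl : (fun i => Ψ (c' i)) = c := funext h2
    obtain ⟨b, hb, h3⟩ := hk.e₂ c' h1 ((hB _).1 (by simpa using e))
    exact ⟨fun i => Ψ (b i), fun i => ⟨_, hb i, rfl⟩, fun i => by simpa using (hB _).2 (h3 i)⟩
  · rintro _ ⟨e, he, rfl⟩
    obtain ⟨c, hc, h3⟩ := hk.e₃ e he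
    exact ⟨fun i => Ψ (c i), fun i => ⟨_, hc i, rfl⟩, by simpa using (hB _).2 h3⟩

theorem desc_kos [Nonempty X.Pt] (D : (X.J → ℂˣ) → V →ₗ[K] V) (U : ℕ → Submodule ℂ V)
    (fin : ∀ k, FiniteDimensional ℂ (U k))
    (gen : ∀ k, U k ≤ Submodule.span ℂ
      {u | u ∈ U k ∧ ∃ γ, u ∈ wt (fun g => (D g).restrictScalars ℂ) γ})
    (y : Fin 3 → K) (hy : ∀ i, y i ≠ 0) (hU : ∀ k i, ∀ u ∈ U k, y i • u ∈ U (k + 1))
    (H : ℕ → X.Pt → Submodule ℂ V) (hle : ∀ k z, H k z ≤ U k)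
    (hH : ∀ k z i, ∀ u ∈ H k z, y i • u ∈ H (k + 1) z)
    (heq : ∀ k z g, ∀ v ∈ H k (Spc.mv z g), D g v ∈ H k z)
    (r : ℕ → ℕ) (hr : ∀ k z, finrank ℂ (H k z) = r k)
    (hk : ∀ k z, Kos y ⊥ (H k z) (H (k + 1) z) (H (k + 2) z) (H (k + 3) z))
    (c : ℕ → K0 X) (hc : ∀ k, c k - 3 * c (k + 1) + 3 * c (k + 2) - c (k + 3) = 0) (k₁ : ℕ)
    (h₁ : ∀ k, k₁ ≤ k →
      (Rp.mk V (fun g => (D g).restrictScalars ℂ) (U k) (fin k) (gen k)).Sb (H k) (r k) ∧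
      (Rp.mk V (fun g => (D g).restrictScalars ℂ) (U k) (fin k) (gen k)).cl (H k) (r k) = c k)
    (k : ℕ) :
    (Rp.mk V (fun g => (D g).restrictScalars ℂ) (U k) (fin k) (gen k)).Sb (H k) (r k) ∧
      (Rp.mk V (fun g => (D g).restrictScalars ℂ) (U k) (fin k) (gen k)).cl (H k) (r k) = c k :=
  Rp.desc D U fin gen y hy hU H hle hH heq r hr
    (fun k z b hb e => by
      simpa [sub_eq_zero] using (hk k z).e₁ b hb (by simpa [sub_eq_zero] using e))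
    (fun k z b hb e => by simpa only [Submodule.mem_bot, sub_eq_zero] using (hk k z).e₂ b hb e)
    (fun k z e he => by simpa only [Submodule.mem_bot, sub_eq_zero] using (hk k z).e₃ e he)
    c hc k₁ h₁ k

end kos

theorem pK_rec (h : S.All) (a : K0 (X.prod (S.spc h))) {d : ℕ} (hd : 0 < d) (t : ℕ → ℤ)
    (ht : ∀ k, t (k + 1) = t k + d) (c : ℕ → K0 X)
    (hc : ∀ k, c k = pK X (S.spc h) (a * pullK (Mor.snd _ _) (line (S.spc h) fun _ => t k)))
    (k : ℕ) : c k - 3 * c (k + 1) + 3 * c (k + 2) - c (k + 3) = 0 := by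
  have h0 := PK.prod_line (X := S.spc h) Finset.univ Finset.univ_nonempty
    (fun i : Fin 3 => (show (S.spc h).R from SA.xl S i) ^ d) (fun _ => d • fun _ => 1)
    (fun i _ => Spc.pow_mem (SA.xl_mem_wt h i) d) fun z => by
      obtain ⟨i, hi⟩ := SA.cover h z
      exact ⟨i, Finset.mem_univ _, (map_pow z.1 _ d).symm ▸ pow_ne_zero _ hi⟩
  have h1 : ∀ k, line (S.spc h) (fun _ => t k) =
      line (S.spc h) (fun _ => t (k + 1)) * line (S.spc h) (-(d • fun _ => 1)) := fun k => by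
    rw [← line_add]
    exact congrArg _ (funext fun o => by simp [ht])
  have h2 : a * pullK (Mor.snd X _) (line (S.spc h) fun _ => t k) +
      3 • (a * pullK (Mor.snd X _) (line (S.spc h) fun _ => t (k + 2))) =
      3 • (a * pullK (Mor.snd X _) (line (S.spc h) fun _ => t (k + 1))) +
      a * pullK (Mor.snd X _) (line (S.spc h) fun _ => t (k + 3)) := by
    have h3 := congrArg (pullK (Mor.snd X (S.spc h))) h0
    rw [Fin.prod_univ_three] at h3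
    rw [h1 k, h1 (k + 1), h1 (k + 2)]
    simp only [map_mul, map_sub, map_one, map_zero] at h3 ⊢
    linear_combination (-a * pullK (Mor.snd X _) (line (S.spc h) fun _ => t (k + 2 + 1))) * h3
  have h3 := congrArg (pK X (S.spc h)) h2
  simp only [map_add, map_nsmul, ← hc] at h3
  simp only [nsmul_eq_mul, Nat.cast_ofNat] at h3
  linear_combination h3

theorem kos_EM' (h : S.All) {m : ℤ} {A : Div S.W} {Z : Zs S.W} (hR : Reg S m A Z) {j : ℤ}
    (hj : m ≤ j) : Kos S.x ⊥ (EM Z A j) (EM Z A (j + 1)) (EM Z A (j + 2)) (EM Z A (j + 3)) := by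
  have hL := h.toLoc
  have e₁ : ∀ b : Fin 3 → K, (∀ i, b i ∈ EM Z A (j + 1)) →
      (∀ i j, S.x i • b j - S.x j • b i ∈ (⊥ : Submodule ℂ K)) →
      ∃ a ∈ EM Z A j, ∀ i, b i - S.x i • a ∈ (⊥ : Submodule ℂ K) := fun b hb e => by
    have h1 : ∀ i, b i = S.x i ^ 1 * (b 0 / S.x 0) := fun i => by
      rw [pow_one, ← mul_div_assoc, eq_div_iff (S.x_ne 0), mul_comm]
      exact sub_eq_zero.1 (e 0 i)
    refine ⟨b 0 / S.x 0, Tg.mem_EM.2 fun x => ?_, fun i => sub_eq_zero.2 (by simpa using h1 i)⟩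
    obtain ⟨i, hi⟩ := hL.pt_cover x
    exact (Tg.mul_st_iff hL Z (Tg.gen_pow hL (S.x_mem i) hi 1) (by module)).1
      (h1 i ▸ Tg.mem_EM.1 (hb i) x)
  have e₃ : ∀ e ∈ EM Z A (j + 3), ∃ c : Fin 3 → K, (∀ i, c i ∈ EM Z A (j + 2)) ∧
      e - ∑ i, S.x i • c i ∈ (⊥ : Submodule ℂ K) := fun e he => by
    simpa [sub_eq_zero] using Tg.pigeon hL hR 1 hj (f := e) (by simpa using he)
  refine ⟨e₁, fun c hc e => ?_, e₃⟩
  have f : ∀ k, RFin ⊥ (Tg.EP Unit Z A k) ∧ rdim ⊥ (Tg.EP Unit Z A k) = finrank ℂ (EM Z A k) :=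
    fun k => by
      have := fin_EM S h Z A k
      have h1 := Tg.finrank_pi Unit (EM Z A k)
      exact ⟨(rdim_bot _).1.2 h1.1, (rdim_bot _).2.trans (h1.2.trans (one_mul _))⟩
  obtain ⟨b, hb, h1⟩ := Tg.kos_two (y := S.x) (B := ⊥) (N₃ := Tg.EP Unit Z A (j + 3))
    (fun g b hb => by simp_all) bot_le bot_le bot_le (f j).1 (f (j + 1)).1 (f (j + 2)).1
    (fun i b hb a _ => Tg.M_mul_EM hL (S.Wp_le_M 1 (S.Wp_one ▸ S.x_mem i)) (hb a trivial)
      (by ring))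
    (by
      have := Tg.third_step h.toRR A j 1
      have := hR.dim j hj
      have := hR.dim (j + 1) (by omega)
      have := hR.dim (j + 2) (by omega)
      have := hR.dim (j + 3) (by omega)
      simp only [(f _).2, mul_one] at *
      omega)
    (fun b hb e => by
      obtain ⟨a, ha, h1⟩ := e₁ (fun i => b i ()) (fun i => hb i () trivial)
        fun i j => congrFun (e i j) ()
      exact ⟨fun _ => a, fun _ _ => ha, fun i => funext fun _ => h1 i⟩)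
    (fun e he => by
      obtain ⟨c, hc, h1⟩ := e₃ (e ()) (he () trivial)
      exact ⟨fun i _ => c i, fun i _ _ => hc i, funext fun _ => by simpa using h1⟩)
    (fun i _ => c i) (fun i _ _ => hc i) (funext fun _ => by simpa using e)
  exact ⟨fun i => b i (), fun i => hb i () trivial, fun i => congrFun (h1 i) ()⟩

section fam

variable {V V' : Type} [AddCommGroup V] [Module K V] [Module ℂ V] [IsScalarTower ℂ K V]
  [AddCommGroup V'] [Module K V'] [Module ℂ V'] [IsScalarTower ℂ K V'] {h : S.All} {ρ : ℕ}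

theorem Gn_le (F : Fam K X V) (z : X.Pt) (j : ℕ) : Gn S.W (F.u z) j ≤ Gn S.W F.e j :=
  Gn_mono S.W (Submodule.span_le.2 (Set.range_subset_iff.2 (Fam.u_mem z))) j

theorem D_mem (F : Fam K X V) (z : X.Pt) (g : X.J → ℂˣ) {j : ℕ} {v : V}
    (hv : v ∈ Gn S.W (F.u (Spc.mv z g)) j) : F.D g v ∈ Gn S.W (F.u z) j := by
  obtain ⟨c, hc, rfl⟩ := hv
  refine ⟨fun a => chr (F.γ a) g • c a, fun a => Submodule.smul_mem _ _ (hc a), ?_⟩
  rw [map_sum]
  exact Finset.sum_congr rfl fun a _ => by rw [map_smul, F.D_u, smul_assoc, smul_comm]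

theorem pow_smul_mem {ι : Type} [Fintype ι] (u : ι → V) (i : Fin 3) (d : ℕ) {j j' : ℕ}
    (e : j' = d + j) {v : V} (hv : v ∈ Gn S.W u j) : S.x i ^ d • v ∈ Gn S.W u j' :=
  e ▸ smul_mem_Gn S.W u (Submodule.pow_mem_pow _ (S.x_mem i) d) hv

theorem cl_Gn_zero [Nonempty X.Pt] {F : Fam K X V} (hF : F.Flat S ρ) {a : K0 (X.prod (S.spc h))}
    (hk : ∀ z k, Kos S.x ⊥ (Gn S.W (F.u z) k) (Gn S.W (F.u z) (k + 1)) (Gn S.W (F.u z) (k + 2))
      (Gn S.W (F.u z) (k + 3)))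
    (H : ∃ j₁, ∀ j, j₁ ≤ j → ∀ n, (∀ z, finrank ℂ (Gn S.W (F.u z) j) = n) →
      (F.rp S j).cl (fun z => Gn S.W (F.u z) j) n =
        pK X (S.spc h) (a * pullK (Mor.snd _ _) (line (S.spc h) fun _ => (F.m + j : ℕ))))
    {n : ℕ} (hn : ∀ z, finrank ℂ (Gn S.W (F.u z) 0) = n) :
    (F.rp S 0).cl (fun z => Gn S.W (F.u z) 0) n =
      pK X (S.spc h) (a * pullK (Mor.snd _ _) (line (S.spc h) fun _ => (F.m : ℤ))) := by
  obtain ⟨j₁, H⟩ := H
  choose r hr using hF.dim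
  obtain rfl : r 0 = n := (hr 0 (Classical.arbitrary _)).symm.trans (hn _)
  exact (desc_kos F.D (Gn S.W F.e) (fun _ => inferInstance) (fun k => F.Gn_gen S k 0) S.x S.x_ne
    (fun k i u hu => pow_one (S.x i) ▸ pow_smul_mem _ i 1 (add_comm k 1) hu)
    (fun k z => Gn S.W (F.u z) k) (fun k z => Gn_le F z k)
    (fun k z i u hu => pow_one (S.x i) ▸ pow_smul_mem _ i 1 (add_comm k 1) hu)
    (fun k z g v hv => D_mem F z g hv) r hr (fun k z => hk z k) _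
    (pK_rec h a one_pos (fun k => (F.m + k : ℕ)) (fun k => by push_cast; ring) _ fun _ => rfl) j₁
    (fun k hk => ⟨hF.sb_Gn (hr k), H k hk _ (hr k)⟩) 0).2

variable {F : Fam K X V} (G : F.Gens h)

theorem psi_mv (F' : Fam K X V') (z : X.Pt) (g : X.J → ℂˣ) (b : F.ι → V') :
    G.Ψ V' z (fun a => chr (-F.γ a) g • F'.D g (b a)) =
      G.hD F' g (G.Ψ V' (Spc.mv z g) b) := funext fun p => by
  change ∑ a, G.kv z p a • chr (-F.γ a) g • F'.D g (b a) =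
    algebraMap ℂ K (chr (-G.η p) g) • F'.D g (∑ a, G.kv (Spc.mv z g) p a • b a)
  rw [map_sum, Finset.smul_sum]
  refine Finset.sum_congr rfl fun a _ => ?_
  rw [map_smul, G.kv_mv, algebraMap_smul, smul_assoc, smul_smul, ← chr_add, smul_comm,
    sub_eq_add_neg, neg_add_cancel_left]

theorem Hm_eqv (F' : Fam K X V') (k : ℕ) (z : X.Pt) (g : X.J → ℂˣ) {v : G.P → V'}
    (hv : v ∈ G.Hm F' k (Spc.mv z g)) : G.hD F' g v ∈ G.Hm F' k z := by
  obtain ⟨h1, b, rfl⟩ := hv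
  refine ⟨fun p _ => ?_, _, psi_mv G F' z g b⟩
  change algebraMap ℂ K (chr (-G.η p) g) • F'.D g _ ∈ _
  rw [algebraMap_smul]
  exact Submodule.smul_mem _ _ (D_mem F' z g (h1 p trivial))

theorem mp_psi : Rp.Mp (F.tR S) (G.hR F 0) fun z => (G.Ψ V z).restrictScalars ℂ := by
  refine ⟨fun (b : F.ι → V) hb => ?_, fun z g b _ => psi_mv G F z g b⟩
  refine poly_pi (Q := fun p => F.rp S (G.j p + 0)) (fun p z => ∑ a, G.kv z p a • b a) fun p =>
    poly_sum (P := F.rp S (G.j p + 0)) _ fun a => ?_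
  obtain ⟨n, t, w, hw, e⟩ := Fam.exists_cf h (G.j p) (G.κ p a)
  rw [show (fun z => G.kv z p a • b a) = fun z => ∑ i, z.1 (t i) • w i • b a from
    funext fun z => by simp only [Fam.Gens.kv, e, Finset.sum_smul, smul_assoc]]
  exact poly_sum (P := F.rp S (G.j p + 0)) _ fun i => Rp.smul_cst_mem (P := F.rp S (G.j p + 0)) _
    (smul_mem_Gn S.W F.e (hw i) (hb a trivial))

theorem psi_rel (hF : F.Flat S ρ) (z : X.Pt) {j : ℕ} {c : F.ι → K} (hc : c ∈ RelV S.W (F.u z) j) :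
    ∃ s : G.P → K, (∀ p, s p ∈ S.Wp (j - G.j p)) ∧
      ∀ b : F.ι → V', ∑ a, c a • b a = ∑ p, s p • G.Ψ V' z b p := by
  obtain ⟨s, hs, rfl⟩ := hF.gens G z hc
  refine ⟨s, hs, fun b => ?_⟩
  change _ = ∑ p, s p • ∑ a, G.kv z p a • b a
  simp only [Finset.sum_apply, Finset.sum_smul, Finset.smul_sum, Pi.smul_apply, smul_assoc]
  exact Finset.sum_comm

end fam

section one

variable {h : S.All} {ρ : ℕ} {F : Fam K X K} (hF : F.Flat S ρ) (G : F.Gens h) {z : X.Pt}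
  {A : Div S.W} {Z : Zs S.W} (hR : Reg S F.m A Z)
  (hu : Submodule.span ℂ (Set.range (F.u z)) = EM Z A F.m)

include hF hR hu

theorem psi_zero (hC : FibC S) (b : F.ι → K) : G.Ψ K z b = 0 ↔ b ∈ Ln (F.u z) := by
  refine ⟨fun e => hC.line _ _ _ hR _ _ hu b fun j c hc => ?_, fun hb => funext fun p => ?_⟩
  · obtain ⟨s, -, h1⟩ := psi_rel (V' := K) G hF z hc
    exact (h1 b).trans (by simp [e])
  · obtain ⟨t, rfl⟩ := Tg.mem_Ln.1 hb
    rw [map_smul, Pi.smul_apply, show G.Ψ K z (F.u z) p = 0 from (G.kv_mem z p).2, smul_zero]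
    rfl

theorem mem_Nk (k : ℕ) (b : F.ι → K) :
    b ∈ Nk S.W (F.u z) (EM Z A) F.m k ↔ G.Ψ K z b ∈ G.Val F k z := by
  have e := Gn_EM h (fibA K S h (las S h)) hR hu
  refine ⟨fun hb p _ => ?_, fun hb j c hc => ?_⟩
  · refine (e _).ge ?_
    rw [Nat.cast_add, ← add_assoc]
    exact hb _ _ (G.kv_mem z p)
  · obtain ⟨s, h0, h1⟩ := psi_rel (V' := K) G hF z hc
    exact (h1 b).symm ▸ sum_mem fun p _ => Tg.M_mul_EM h.toLoc (S.Wp_le_M _ (h0 p))
      ((e _).le (hb p trivial)) (by push_cast; ring)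

theorem Hm_eq (k : ℕ) :
    G.Hm F k z = (Nk S.W (F.u z) (EM Z A) F.m k).map ((G.Ψ K z).restrictScalars ℂ) :=
  Submodule.ext fun _ => ⟨fun ⟨h1, b, e⟩ => ⟨b, (mem_Nk hF G hR hu k b).2 (e.symm ▸ h1), e⟩,
    fun ⟨b, hb, e⟩ => ⟨e ▸ (mem_Nk hF G hR hu k b).1 hb, b, e⟩⟩

omit hR hu in
theorem hm_zero [Nonempty X.Pt] (hC : FibC S) {L : Div S.W} {χ : ℤ → ℤ} {l : ℕ}
    (hz : ∀ z, ∃ Z D, 0 ≤ D ∧ Reg S F.m (L - D) Z ∧
      Submodule.span ℂ (Set.range (F.u z)) = EM Z (L - D) F.m ∧ Z.len = l ∧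
      (∀ j : ℤ, chi (L - D + j • S.H) = χ j) ∧
      h0 D + Fintype.card F.ι * finrank ℂ (EM Z (L - D) F.m) + 2 * Z.len ≤
        (finrank ℂ (Tt (F.u z) (EM Z (L - D)) L F.m) : ℤ) + 1) {a : K0 (X.prod (S.spc h))}
    (H : ∃ k₁, ∀ k, k₁ ≤ k → ∀ n, (∀ z, finrank ℂ (G.Hm F k z) = n) →
      (G.hR F k).Sb (G.Hm F k) n ∧ (G.hR F k).cl (G.Hm F k) n =
        pK X (S.spc h) (a * pullK (Mor.snd _ _) (line (S.spc h) fun _ => (k : ℤ)))) :
    ∃ n, (G.hR F 0).Sb (G.Hm F 0) n ∧ (G.hR F 0).cl (G.Hm F 0) n = pK X (S.spc h) a := by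
  obtain ⟨k₁, H⟩ := H
  obtain ⟨d, hd, hc⟩ := hC.step
  have key : ∀ k z, finrank ℂ (G.Hm F (k * d) z) = (Fintype.card F.ι *
      (χ (F.m + (k * d : ℕ)) - l) - chi (((k * d : ℕ) : ℤ) • S.H) + 2 * l).toNat ∧
      Kos (fun i => S.x i ^ d) ⊥ (G.Hm F (k * d) z) (G.Hm F ((k + 1) * d) z)
        (G.Hm F ((k + 2) * d) z) (G.Hm F ((k + 3) * d) z) := fun k z => by
    obtain ⟨Z, D, h1, h2, h3, h4, h5, h6⟩ := hz z
    obtain ⟨-, h7, h8⟩ := (hC.kos _ L D Z h1 h2 _ _ h3 h6).2 d hd hc k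
    simp only [Hm_eq hF G h2 h3]
    refine ⟨?_, kos_map h8 _ (psi_zero hF G h2 h3 hC)⟩
    rw [← h5, ← h4, ← h7, Int.toNat_natCast, Hm_eq hF G h2 h3]
    exact (rdim_eq_map ((G.Ψ K z).restrictScalars ℂ) fun v _ => psi_zero hF G h2 h3 hC v).symm
  have e : ∀ p k, G.j p + (k + 1) * d = d + (G.j p + k * d) := fun p k => by ring
  have := desc_kos (G.hD F) (fun k => G.hU F (k * d)) (fun k => G.hU_fin F _)
    (fun k => G.hU_gen F _) (fun i => S.x i ^ d) (fun i => pow_ne_zero d (S.x_ne i))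
    (fun k i u hu p _ => pow_smul_mem _ i d (e p k) (hu p trivial))
    (fun k => G.Hm F (k * d)) (fun k z v hv p _ => Gn_le F z _ (hv.1 p trivial))
    (fun k z i u hu => ⟨fun p _ => pow_smul_mem _ i d (e p k) (hu.1 p trivial),
      (LinearMap.range (G.Ψ K z)).smul_mem _ hu.2⟩)
    (fun k z g v hv => Hm_eqv G F _ z g hv) _ (fun k z => (key k z).1) (fun k z => (key k z).2) _
    (pK_rec h a hd (fun k => (k * d : ℕ)) (fun k => by push_cast; ring) _ fun _ => rfl) k₁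
    (fun k hk => H _ (hk.trans (Nat.le_mul_of_pos_right k hd)) _ fun z => (key k z).1) 0
  change (G.hR F (0 * d)).Sb (G.Hm F (0 * d)) _ ∧ (G.hR F (0 * d)).cl (G.Hm F (0 * d)) _ = _ at this
  rw [Nat.zero_mul, show line (S.spc h) (fun _ => ((0 : ℕ) : ℤ)) = 1 from line_zero, map_one,
    mul_one] at this
  exact ⟨_, this⟩

omit hF in
theorem Tq_eq (h : S.All) {L : Div S.W} (hL : Gn S.W F.e 0 = M L F.m) :
    F.Tq S z = Tt (F.u z) (EM Z A) L F.m := by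
  have e := Gn_EM h (fibA K S h (las S h)) hR hu
  exact Submodule.ext fun b => ⟨fun ⟨h1, h2⟩ => ⟨fun j c hc => (add_zero (F.m + j : ℤ)).symm ▸
    (e j).le (h2 j c hc), fun a _ => hL.le (h1 a)⟩, fun ⟨h1, h2⟩ => ⟨fun a => hL.ge (h2 a trivial),
      fun j c hc => (e j).ge (add_zero (F.m + j : ℤ) ▸ h1 j c hc)⟩⟩

omit hR hu in
theorem tq_ses [Nonempty X.Pt] (hC : FibC S) {L : Div S.W} (hL : Gn S.W F.e 0 = M L F.m)
    (hz : ∀ z, ∃ Z D, 0 ≤ D ∧ Reg S F.m (L - D) Z ∧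
      Submodule.span ℂ (Set.range (F.u z)) = EM Z (L - D) F.m ∧
      h0 D + Fintype.card F.ι * finrank ℂ (EM Z (L - D) F.m) + 2 * Z.len ≤
        (finrank ℂ (Tt (F.u z) (EM Z (L - D)) L F.m) : ℤ) + 1) {n N : ℕ}
    (hn : (G.hR F 0).Sb (G.Hm F 0) n) (hN : ∀ z, finrank ℂ (F.Tq S z) = N) :
    (F.tR S).Sb (F.Tq S) N ∧ (F.tR S).Sb (fun z => Ln (F.u z) ⊓ F.Tq S z) (N - n) ∧
      (F.tR S).cl (F.Tq S) N = (F.tR S).cl (fun z => Ln (F.u z) ⊓ F.Tq S z) (N - n) +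
        (G.hR F 0).cl (G.Hm F 0) n := by
  have e : F.Tq S = fun z => (F.tR S).U ⊓ (G.Hm F 0 z).comap ((G.Ψ K z).restrictScalars ℂ) :=
    funext fun z => by
      obtain ⟨Z, D, -, h2, h3, -⟩ := hz z
      rw [Tq_eq h2 h3 h hL]
      exact Submodule.ext fun b => ⟨fun ⟨h4, h5⟩ => ⟨fun a _ => hL.ge (h5 a trivial),
        (mem_Nk hF G h2 h3 0 b).1 h4, b, rfl⟩, fun ⟨h4, h5, _⟩ =>
          ⟨(mem_Nk hF G h2 h3 0 b).2 h5, fun a _ => hL.le (h4 a trivial)⟩⟩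
  have h1 : (F.tR S).Sb (F.Tq S) N := e.symm ▸ (Rp.sb_top _).comap hn (mp_psi G) fun z =>
    (congrArg (fun T : Submodule ℂ (F.ι → K) => finrank ℂ T) (congrFun e z)).symm.trans (hN z)
  obtain ⟨-, h2, -, h3⟩ := h1.ses' (mp_psi G) (V₁ := fun z => Ln (F.u z) ⊓ F.Tq S z)
    (V' := G.Hm F 0) (fun z => by
      obtain ⟨Z, D, -, h2, h3, -⟩ := hz z
      exact Submodule.ext fun b => ⟨fun hb => ⟨hb.2, (psi_zero hF G h2 h3 hC b).2 hb.1⟩,
        fun hb => ⟨(psi_zero hF G h2 h3 hC b).1 hb.2, hb.1⟩⟩) (fun z => by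
      obtain ⟨Z, D, h1, h2, h3, h4⟩ := hz z
      rw [Hm_eq hF G h2 h3, Tq_eq h2 h3 h hL]
      refine le_antisymm ?_ (Submodule.map_mono inf_le_left)
      rintro _ ⟨b, hb, rfl⟩
      obtain ⟨b₁, h5, b₂, h6, rfl⟩ := Submodule.mem_sup.1 ((hC.kos _ L D Z h1 h2 _ _ h3 h4).1 hb)
      exact ⟨b₁, h5, ((map_add (G.Ψ K z) _ _).trans ((congrArg _
        ((psi_zero hF G h2 h3 hC b₂).2 h6)).trans (add_zero _))).symm⟩) hn.dim
  exact ⟨h1, h2, h3⟩

end one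

theorem mem_Ln_Tt (h : S.All) {ι : Type} [Fintype ι] {u : ι → K} {m : ℤ} {L D : Div S.W}
    {Z : Zs S.W} {f : K} (hf : f ≠ 0) (hR : Reg S m (L - (D + div S.W f)) Z)
    (hu : Submodule.span ℂ (Set.range u) = EM Z (L - (D + div S.W f)) m) (b : ι → K) :
    b ∈ Ln u ⊓ Tt u (EM Z (L - (D + div S.W f))) L m ↔ ∃ t ∈ H0 D, f • b = t • u := by
  have hF := fibA K S h (las S h)
  constructor
  · rintro ⟨hb, -, hb'⟩
    obtain ⟨t, rfl⟩ := Tg.mem_Ln.1 hb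
    have h3 := Tg.hom' (fibB K S h (las S h) hF) hR hu (t := t) (B := L) (k := 0) fun a => by
      rw [add_zero]; exact hb' a trivial
    rw [sub_sub_cancel, M, zero_smul, add_zero] at h3
    exact ⟨t * f, (mem_secOn_div h.toLoc2 hf t).1 h3, by rw [smul_smul, mul_comm]⟩
  · rintro ⟨t, ht, e⟩
    obtain rfl : b = (t / f) • u := by rw [div_eq_inv_mul, mul_smul, ← e, inv_smul_smul₀ hf]
    refine ⟨Tg.mem_Ln.2 ⟨_, rfl⟩, fun j c hc => ?_, fun a _ => ?_⟩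
    · simp only [Pi.smul_apply, smul_eq_mul, mul_left_comm _ (t / f), ← Finset.mul_sum, hc.2,
        mul_zero, zero_mem]
    · have h3 := mul_mem_secOn ((mem_secOn_div h.toLoc2 hf (t / f)).2 (by
        rwa [div_mul_cancel₀ _ hf])) (hF.le Z _ m (hu.le (Submodule.subset_span ⟨a, rfl⟩)))
      rwa [← add_assoc, add_sub_cancel] at h3

theorem cl_line [Nonempty X.Pt] {F : Fam K X K} {δ η : X.J → ℤ}
    (hD : ∀ g, F.D g = LinearMap.id) (hγ : ∀ a, F.γ a = δ) {κ : Type} [Fintype κ] {y : κ → X.R}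
    (hy : ∀ i, y i ∈ X.wt η) {φ : κ → K} {T : Submodule ℂ K}
    (hT : Submodule.span ℂ (Set.range φ) = T) {f : X.Pt → K}
    (hf : ∀ z, f z = ∑ i, z.1 (y i) • φ i) (h0 : ∀ z, f z ≠ 0) (hu : ∀ z, ∃ a, F.u z a ≠ 0)
    {V₁ : X.Pt → Submodule ℂ (F.ι → K)} {n : ℕ} (hV : (F.tR S).Sb V₁ n)
    (e : ∀ z b, b ∈ V₁ z ↔ ∃ t ∈ T, f z • b = t • F.u z) :
    n = finrank ℂ T ∧ (F.tR S).cl V₁ n = finrank ℂ T • line X η := by
  haveI : FiniteDimensional ℂ T := hT ▸ FiniteDimensional.span_of_finite ℂ (Set.finite_range φ)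
  haveI : FiniteDimensional ℂ (T * Gn S.W F.e 0 : Submodule ℂ K) :=
    (Submodule.fg_iff_finiteDimensional _).1 (((Submodule.fg_iff_finiteDimensional T).2
      inferInstance).mul ((Submodule.fg_iff_finiteDimensional _).2 inferInstance))
  let Q : F.ι → Rp X := fun _ => Rp.sc X (T * Gn S.W F.e 0) (-δ + -η)
  have H₁ : Rp.Mp (F.tR S) (Rp.pi Q) fun z => Tg.sm F.ι (f z) := by
    refine ⟨fun (b : F.ι → K) hb => poly_pi (Q := Q) (fun a z => f z * b a) fun a => ?_,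
      fun z g (b : F.ι → K) _ => funext fun a => ?_⟩
    · rw [show (fun z => f z * b a) = fun z => ∑ i, z.1 (y i) • (φ i * b a) from
        funext fun z => by simp only [hf, Finset.sum_mul, smul_mul_assoc]]
      exact poly_sum (P := Q a) _ fun i => Rp.smul_cst_mem (P := Q a) _ (Submodule.mul_mem_mul
        (M := T) (hT.le (Submodule.subset_span ⟨i, rfl⟩)) (hb a trivial))
    · have h1 : f (Spc.mv z g) = chr η g • f z := by
        rw [hf, hf, Finset.smul_sum]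
        exact Finset.sum_congr rfl fun i _ => (congrArg (· • φ i)
          ((congrArg z.1 (hy i g)).trans (map_smul z.1 _ _))).trans (smul_assoc _ _ _)
      change f z * chr (-F.γ a) g • F.D g (b a) = chr (-δ + -η) g • (f (Spc.mv z g) * b a)
      rw [h1, hD, hγ, smul_mul_assoc, smul_smul, ← chr_add, neg_add_cancel_right, mul_smul_comm]
      rfl
  have H₂ : Rp.Mp (Rp.sc X T (-η)) (Rp.pi Q) fun z => Tg.lu (K := K) (F.u z) := by
    refine ⟨fun (t : K) ht => poly_pi (Q := Q) (fun a z => t * F.u z a) fun a => ?_,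
      fun z g (t : K) _ => funext fun a => ?_⟩
    · rw [show (fun z => t * F.u z a) = fun z => ∑ i, z.1 (F.g a i) • (t * F.e i) from
        funext fun z => by simp only [Fam.u, Finset.mul_sum, mul_smul_comm]]
      exact poly_sum (P := Q a) _ fun i => Rp.smul_cst_mem (P := Q a) _ (Submodule.mul_mem_mul
        (M := T) ht ((Gn_zero S.W F.e).ge (Submodule.subset_span ⟨i, rfl⟩)))
    · have h1 := F.D_u z g a
      rw [hD, hγ, LinearMap.id_apply] at h1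
      change (chr (-η) g • t) * F.u z a = chr (-δ + -η) g • (t * F.u (Spc.mv z g) a)
      rw [h1, mul_smul_comm, smul_smul, ← chr_add, add_right_comm, neg_add_cancel, zero_add,
        smul_mul_assoc]
  obtain ⟨h1, h2⟩ := hV.iso H₁ (V' := fun z => T.map (Tg.lu (F.u z)))
    (fun z (b : F.ι → K) _ hb => (smul_eq_zero.1 (show f z • b = 0 from hb)).resolve_left (h0 z))
    fun z => Submodule.ext fun v => ⟨fun ⟨t, ht, h1⟩ => ⟨(f z)⁻¹ • t • F.u z,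
      (e z _).2 ⟨t, ht, smul_inv_smul₀ (h0 z) _⟩, (smul_inv_smul₀ (h0 z) (t • F.u z)).trans h1⟩,
      fun ⟨b, hb, h1⟩ => ((e z b).1 hb).elim fun t ht => ⟨t, ht.1, ht.2.symm.trans h1⟩⟩
  obtain ⟨h3, h4⟩ := (Rp.sb_top (Rp.sc X T (-η))).iso H₂ (V' := fun z => T.map (Tg.lu (F.u z)))
    (fun z (t : K) _ ht => (hu z).elim fun a ha => (mul_eq_zero.1 (congrFun ht a)).resolve_right ha)
    fun _ => rfl
  obtain rfl : n = finrank ℂ T := (h1.dim (Classical.arbitrary _)).symm.trans (h3.dim _)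
  exact ⟨rfl, h2.symm.trans (h4.trans ((Rp.cl_sc T (-η)).trans (by rw [neg_neg])))⟩

end Vale.Agent.P297Z.Sf.Tc
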