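import Vale.Agent.P297Z.Hb.Tow0
import Vale.Agent.P297Z.Hb.Fam
import Vale.Agent.P297Z.Hb.Tcl1
import Vale.Agent.P297Z.Top.Var

/-! P297: the classes of the universal subspace and of the lifts of the tangent vectors. -/

set_option linter.all false

noncomputable section

namespace Vale.Agent.P297Z.Sf.Ctx

open Fb Vale.Agent.P297Z.Hb Pw

variable {K : Type} [Field K] [Algebra ℂ K] {S : Surf K} {c : Ctx S} {h : S.All} {r₀ r : ℕ}

theorem kos_EM (h : S.All) {m : ℤ} {L D : Div S.W} (hD : 0 ≤ D) {Z : Zs S.W}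
    (hR : Reg S m (L - D) Z) {j : ℤ} (hj : m ≤ j) : Kos S.x ⊥ (EM Z (L - D) j)
      (EM Z (L - D) (j + 1)) (EM Z (L - D) (j + 2)) (EM Z (L - D) (j + 3)) := Tc.kos_EM' h hR hj

theorem Geom.cl_U (G : c.Geom h r₀) (H : c.Ok r₀) (hr : r₀ ≤ r) (hs : r ≤ c.s) :
    ((c.famV r).rp S 0).cl (fun z => Gn S.W ((c.famV r).u z) 0) r =
      pK (c.Xr r) (S.spc h) (c.Ecl h r * pullK (Mor.snd _ _) (line (S.spc h) fun _ => (c.m : ℤ))) := by
  have hV := G.var r hr hs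
  haveI := hV.ne
  have hF := H.flatV h hr (G.clo r hr hs)
  refine Tc.cl_Gn_zero hF (fun z k => ?_) (hF.cl_Gn ⟨hV.conn, hV.ne⟩ h) fun z => ?_
  · obtain ⟨Z, hZ⟩ := pt_mem (G.clo r hr hs) z
    have hR := (H.reg_pt hr hZ).1
    simp only [Gn_EM h (fibA K S h (las S h)) hR (span_famV hZ), Nat.cast_add, ← add_assoc]
    exact Tc.kos_EM' h hR (by omega)
  · obtain ⟨Z, hZ⟩ := pt_mem (G.clo r hr hs) z
    rw [Gn_zero, span_famV hZ, finrank_EM hZ]

theorem Geom.cl_Tq' (G : c.Geom h r₀) (H : c.Ok r₀) (hr : r₀ ≤ r) (hs : r ≤ c.s)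
    (hN : ∀ z, Module.finrank ℂ ((c.famV r).Tq S z) =
      c.v + Fintype.card (c.famV r).ι * r + 2 * (c.s - r)) :
    ((c.famV r).tR S).Sb ((c.famV r).Tq S)
      (c.v + Fintype.card (c.famV r).ι * r + 2 * (c.s - r)) ∧
    ((c.famV r).tR S).cl ((c.famV r).Tq S)
      (c.v + Fintype.card (c.famV r).ι * r + 2 * (c.s - r)) =
      (c.v + 1 : ℕ) • pullK (c.pr r) (OP c.v 1) +
        pK (c.Xr r) (S.spc h) (dualK _ ((c.famV r).Kcl h 1) * c.Ecl h r) := by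
  have hV := G.var r hr hs
  haveI := hV.ne
  have hF := H.flatV h hr (G.clo r hr hs)
  have hA := fibA K S h (las S h)
  have hB := fibB K S h (las S h) hA
  have hC := Fb.fibC K S h H.good H.cech (las S h) hA hB
  obtain ⟨P⟩ := (c.famV r).exists_gens h
  have hL : Gn S.W (c.famV r).e 0 = M c.L (c.famV r).m := (Gn_zero S.W c.e).trans c.e_span
  choose Z hZ using pt_mem (G.clo r hr hs)
  have hR := fun z => H.reg_pt hr (hZ z)
  have h1 : ∀ z, h0 (c.D + div S.W (c.fz z)) + Fintype.card (c.famV r).ι *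
      Module.finrank ℂ (EM (Z z) (c.A (c.fz z)) c.m) + 2 * (Z z).len ≤
      (Module.finrank ℂ (Tt ((c.famV r).u z) (EM (Z z) (c.A (c.fz z))) c.L c.m) : ℤ) + 1 :=
    fun z => by
      have h2 := hN z
      rw [Tc.Tq_eq (hR z).1 (span_famV (hZ z)) h hL] at h2
      rw [h0_lin h.toLoc2 _ (fz_mem z).2, h0_eq h, finrank_EM (hZ z), (hR z).2.1]
      refine le_of_eq (Eq.trans ?_ (congrArg (fun n : ℕ => (n : ℤ) + 1) h2).symm)
      push_cast
      ring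
  obtain ⟨n, h2, h3⟩ := Tc.hm_zero hF P hC (L := c.L) (fun z => ⟨Z z, _, eff_fz h z, (hR z).1,
    span_famV (hZ z), (hR z).2.1, chi_A h (fz_mem z).2, h1 z⟩) (P.hbl ⟨hV.conn, hV.ne⟩ hF hF rfl)
  obtain ⟨h4, h5, h6⟩ := Tc.tq_ses hF P hC hL
    (fun z => ⟨Z z, _, eff_fz h z, (hR z).1, span_famV (hZ z), h1 z⟩) h2 hN
  have h7 := (Tc.cl_line (η := (c.pr r).ρ fun _ => 1) (fun _ => rfl) (fun _ => rfl)
    (fun i => (c.pr r).wt_map _ _ (Qt.wt_eq (Spc.X_mem pt0 _ (fun _ => 0) i) (funext fun o => by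
      rcases o with _ | o
      exacts [rfl, o.elim]))) c.φ_span fz_eq (fun z => (fz_mem z).2)
    (fun z => Tg.ne_zero h.toLoc (Tg.gen_of_reg h.toLoc hB (hR z).1 (span_famV (hZ z)))) h5
    fun z b => by
      rw [Tc.Tq_eq (hR z).1 (span_famV (hZ z)) h hL]
      exact Tc.mem_Ln_Tt h (fz_mem z).2 (hR z).1 (span_famV (hZ z)) b).2
  rw [show Module.finrank ℂ (H0 c.D) = c.v + 1 from Nat.cast_injective (R := ℤ) (h0_eq h)] at h7
  exact ⟨h4, h6.trans (congrArg₂ (· + ·) (h7.trans (congrArg _ (pullK_line _ _).symm)) h3)⟩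

end Vale.Agent.P297Z.Sf.Ctx
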